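import Vale.Agent.P042.UU.SpecA

set_option autoImplicit false

/-! block COEF5 of Theorem S5: truncated elementary symmetric sums (helper315) -/

namespace Vale.Agent.P042.UU

open Finset

/-- elementary symmetric sum -/
noncomputable def coef5E (V : Finset ℕ) (τ : ℕ → ℝ) (j : ℕ) : ℝ := ∑ T ∈ V.powersetCard j, ∏ p ∈ T, τ p

theorem coef5_prod (V : Finset ℕ) (τ : ℕ → ℝ) (z : ℂ) :
    ∏ p ∈ V, (1 + (τ p : ℂ) * z) = ∑ j ∈ range (V.card + 1), (coef5E V τ j : ℂ) * z ^ j := by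
  rw [Finset.prod_one_add, Finset.sum_powerset]
  refine Finset.sum_congr rfl fun j _ => ?_
  unfold coef5E
  push_cast
  rw [Finset.sum_mul]
  refine Finset.sum_congr rfl fun T hT => ?_
  rw [Finset.prod_mul_distrib, Finset.prod_const, (Finset.mem_powersetCard.1 hT).2]

/-- orthogonality of the roots of unity -/
theorem coef5_root {n : ℕ} (ω : ℂ) (hω : IsPrimitiveRoot ω n) {i j : ℕ} (hi : i < n) (hj : j < n) :
    ∑ k ∈ range n, (ω ^ k) ^ (n - j) * (ω ^ k) ^ i = if i = j then (n : ℂ) else 0 := by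
  have h1 : ∀ k, (ω ^ k) ^ (n - j) * (ω ^ k) ^ i = (ω ^ (n - j + i)) ^ k := by
    intro k
    rw [← pow_add, ← pow_mul, ← pow_mul, mul_comm]
  simp only [h1]
  split_ifs with hij
  · subst hij
    rw [Nat.sub_add_cancel hj.le, hω.pow_eq_one]
    simp
  · have h2 : ω ^ (n - j + i) ≠ 1 := by
      intro h
      have h3 := (hω.pow_eq_one_iff_dvd _).1 h
      obtain ⟨c, hc⟩ := h3
      rcases Nat.lt_or_ge i j with h4 | h4
      · have h5 : n - j + i < n := by omega
        have h6 : 0 < n - j + i := by omega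
        rcases Nat.eq_zero_or_pos c with h7 | h7
        · subst h7; omega
        · have : n * 1 ≤ n * c := Nat.mul_le_mul_left n h7
          omega
      · have h5 : n < n - j + i := by omega
        have h6 : n - j + i < n * 2 := by omega
        rw [hc] at h5 h6
        have h7 : 1 < c := by
          by_contra h8
          have : n * c ≤ n * 1 := Nat.mul_le_mul_left n (not_lt.1 h8)
          omega
        have h8 : n * 2 ≤ n * c := Nat.mul_le_mul_left n h7
        omega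
    have h3 := mul_geom_sum (ω ^ (n - j + i)) n
    rw [← pow_mul, mul_comm (n - j + i) n, pow_mul, hω.pow_eq_one, one_pow, sub_self] at h3
    exact (mul_eq_zero.1 h3).resolve_left (sub_ne_zero.2 h2)

theorem coef5_norm (V : Finset ℕ) (τ : ℕ → ℝ) (z : ℂ) (hz : ‖z‖ = 2) :
    ‖∏ p ∈ V, (1 + (τ p : ℂ) * z)‖ ≤ Real.exp (2 * |∑ p ∈ V, τ p| + 2 * ∑ p ∈ V, τ p ^ 2) := by
  have h1 : ∀ p ∈ V, ‖1 + (τ p : ℂ) * z‖ ≤ Real.exp (τ p * z.re + 2 * τ p ^ 2) := by
    intro p _
    have h2 : ‖1 + (τ p : ℂ) * z‖ ^ 2 = 1 + 2 * (τ p * z.re) + 4 * τ p ^ 2 := by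
      rw [← Complex.normSq_eq_norm_sq, Complex.normSq_apply]
      have h3 : z.re * z.re + z.im * z.im = 4 := by
        have := Complex.normSq_apply z
        rw [Complex.normSq_eq_norm_sq, hz] at this
        linarith
      simp
      linear_combination (τ p ^ 2) * h3
    have h4 : ‖1 + (τ p : ℂ) * z‖ ^ 2 ≤ Real.exp (τ p * z.re + 2 * τ p ^ 2) ^ 2 := by
      rw [h2, ← Real.exp_nat_mul]
      have := Real.add_one_le_exp (((2 : ℕ) : ℝ) * (τ p * z.re + 2 * τ p ^ 2))
      push_cast at this ⊢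
      linarith
    exact le_of_sq_le_sq h4 (Real.exp_pos _).le
  rw [norm_prod]
  refine (Finset.prod_le_prod (fun p _ => norm_nonneg _) h1).trans ?_
  rw [← Real.exp_sum, Finset.sum_add_distrib, ← Finset.sum_mul, ← Finset.mul_sum]
  refine Real.exp_le_exp.2 (add_le_add ?_ le_rfl)
  have h5 : |z.re| ≤ 2 := hz ▸ Complex.abs_re_le_norm z
  calc (∑ p ∈ V, τ p) * z.re ≤ |(∑ p ∈ V, τ p) * z.re| := le_abs_self _
    _ = |∑ p ∈ V, τ p| * |z.re| := abs_mul _ _
    _ ≤ |∑ p ∈ V, τ p| * 2 := mul_le_mul_of_nonneg_left h5 (abs_nonneg _)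
    _ = 2 * |∑ p ∈ V, τ p| := mul_comm _ _

theorem coef5_le (V : Finset ℕ) (τ : ℕ → ℝ) (j : ℕ) (hj : j < V.card + 1) :
    |coef5E V τ j| ≤ (1 / 2) ^ j * Real.exp (2 * |∑ p ∈ V, τ p| + 2 * ∑ p ∈ V, τ p ^ 2) := by
  set M := Real.exp (2 * |∑ p ∈ V, τ p| + 2 * ∑ p ∈ V, τ p ^ 2) with hM
  set n := V.card + 1 with hn
  have hn0 : 0 < n := Nat.succ_pos _
  have hω := Complex.isPrimitiveRoot_exp n hn0.ne'
  set ω := Complex.exp (2 * Real.pi * Complex.I / n) with hω'
  have hω1 : ‖ω‖ = 1 := hω.norm'_eq_one hn0.ne'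
  have key : ∑ k ∈ range n, (ω ^ k) ^ (n - j) * ∏ p ∈ V, (1 + (τ p : ℂ) * (2 * ω ^ k)) =
      (n : ℂ) * ((coef5E V τ j : ℂ) * 2 ^ j) := by
    calc ∑ k ∈ range n, (ω ^ k) ^ (n - j) * ∏ p ∈ V, (1 + (τ p : ℂ) * (2 * ω ^ k))
        = ∑ k ∈ range n, ∑ i ∈ range n, ((coef5E V τ i : ℂ) * 2 ^ i) * ((ω ^ k) ^ (n - j) * (ω ^ k) ^ i) := by
          refine Finset.sum_congr rfl fun k _ => ?_
          rw [coef5_prod, Finset.mul_sum]
          refine Finset.sum_congr rfl fun i _ => ?_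
          rw [mul_pow]; ring
      _ = ∑ i ∈ range n, ((coef5E V τ i : ℂ) * 2 ^ i) * ∑ k ∈ range n, ((ω ^ k) ^ (n - j) * (ω ^ k) ^ i) := by
          rw [Finset.sum_comm]
          refine Finset.sum_congr rfl fun i _ => (Finset.mul_sum _ _ _).symm
      _ = ∑ i ∈ range n, ((coef5E V τ i : ℂ) * 2 ^ i) * (if i = j then (n : ℂ) else 0) := by
          refine Finset.sum_congr rfl fun i hi => ?_
          rw [coef5_root ω hω (Finset.mem_range.1 hi) hj]
      _ = (n : ℂ) * ((coef5E V τ j : ℂ) * 2 ^ j) := by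
          simp only [mul_ite, mul_zero, Finset.sum_ite_eq', Finset.mem_range, if_pos hj]
          ring
  have h1 : ‖∑ k ∈ range n, (ω ^ k) ^ (n - j) * ∏ p ∈ V, (1 + (τ p : ℂ) * (2 * ω ^ k))‖ ≤ n * M := by
    refine (norm_sum_le _ _).trans ?_
    refine (Finset.sum_le_card_nsmul _ _ M fun k _ => ?_).trans (by simp)
    rw [norm_mul, norm_pow, norm_pow, hω1, one_pow, one_pow, one_mul]
    refine coef5_norm V τ _ ?_
    rw [norm_mul, norm_pow, hω1, one_pow, mul_one]
    simp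
  rw [key, norm_mul, norm_mul, norm_pow] at h1
  have h2 : (0 : ℝ) < n := by exact_mod_cast hn0
  simp only [Complex.norm_natCast, Complex.norm_real, Real.norm_eq_abs, Complex.norm_ofNat] at h1
  have h3 : |coef5E V τ j| * 2 ^ j ≤ M := le_of_mul_le_mul_left h1 h2
  have h4 : (0 : ℝ) < 2 ^ j := by positivity
  calc |coef5E V τ j| = (1 / 2) ^ j * (|coef5E V τ j| * 2 ^ j) := by
        rw [one_div, inv_pow]; field_simp
    _ ≤ (1 / 2) ^ j * M := mul_le_mul_of_nonneg_left h3 (by positivity)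

theorem coef5_geom (d n : ℕ) : ∑ j ∈ (range n).filter (fun j => ¬ j ≤ d), ((1 : ℝ) / 2) ^ j ≤ (1 / 2) ^ d := by
  have h1 : ∀ n, ∑ j ∈ (range n).filter (fun j => ¬ j ≤ d), ((1 : ℝ) / 2) ^ j ≤
      (1 / 2) ^ d - (1 / 2) ^ (max d (n - 1)) := by
    intro n
    induction n with
    | zero => simp
    | succ n ih =>
      rw [Finset.range_add_one, Finset.filter_insert]
      rcases Nat.lt_or_ge d n with h | h
      · rw [if_pos (by omega), Finset.sum_insert (by simp)]
        have h2 : max d (n + 1 - 1) = n := by omega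
        have h3 : max d (n - 1) = n - 1 := by omega
        rw [h3] at ih
        rw [h2]
        have h4 : ((1 : ℝ) / 2) ^ (n - 1) = 2 * (1 / 2) ^ n := by
          obtain ⟨k, rfl⟩ : ∃ k, n = k + 1 := ⟨n - 1, by omega⟩
          rw [Nat.add_sub_cancel, pow_succ]; ring
        rw [h4] at ih
        linarith
      · rw [if_neg (by omega)]
        have h2 : max d (n + 1 - 1) = d := by omega
        have h3 : max d (n - 1) = d := by omega
        rw [h3] at ih
        rw [h2]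
        exact ih
  have := h1 n
  have h2 : (0 : ℝ) < (1 / 2) ^ (max d (n - 1)) := by positivity
  linarith

theorem coef5_holds : COEF5Stmt := by
  intro V τ d
  set M := Real.exp (2 * |∑ p ∈ V, τ p| + 2 * ∑ p ∈ V, τ p ^ 2) with hM
  have hM0 : 0 < M := Real.exp_pos _
  have h1 : ∏ p ∈ V, (1 + τ p) = ∑ T ∈ V.powerset, ∏ p ∈ T, τ p := Finset.prod_one_add _
  have h2 : ∑ T ∈ V.powerset.filter (fun T => T.card ≤ d), ∏ p ∈ T, τ p - ∏ p ∈ V, (1 + τ p) =
      - ∑ T ∈ V.powerset.filter (fun T => ¬ T.card ≤ d), ∏ p ∈ T, τ p := by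
    rw [h1, ← Finset.sum_filter_add_sum_filter_not V.powerset (fun T => T.card ≤ d)]
    ring
  have h3 : ∑ T ∈ V.powerset.filter (fun T => ¬ T.card ≤ d), ∏ p ∈ T, τ p =
      ∑ j ∈ (range (V.card + 1)).filter (fun j => ¬ j ≤ d), coef5E V τ j := by
    rw [Finset.sum_filter, Finset.sum_powerset, Finset.sum_filter]
    refine Finset.sum_congr rfl fun j _ => ?_
    unfold coef5E
    by_cases h : ¬ j ≤ d
    · rw [if_pos h]
      refine Finset.sum_congr rfl fun T hT => ?_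
      rw [(Finset.mem_powersetCard.1 hT).2, if_pos h]
    · rw [if_neg h]
      refine Finset.sum_eq_zero fun T hT => ?_
      rw [(Finset.mem_powersetCard.1 hT).2, if_neg h]
  rw [h2, abs_neg, h3]
  refine (Finset.abs_sum_le_sum_abs _ _).trans ?_
  refine (Finset.sum_le_sum (fun j hj => coef5_le V τ j (Finset.mem_range.1 (Finset.mem_filter.1 hj).1))).trans ?_
  rw [← Finset.sum_mul]
  have h4 := mul_le_mul_of_nonneg_right (coef5_geom d (V.card + 1)) hM0.le
  refine h4.trans ?_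
  have h5 : (0 : ℝ) < (1 / 2) ^ d := by positivity
  nlinarith [mul_pos h5 hM0]

end Vale.Agent.P042.UU
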