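import Vale.Agent.P042.UU.Defs

set_option autoImplicit false

/-!
Block CORE5: interface between the fibre step (one cell) and the assembly.
-/

namespace Vale.Agent.P042.UU

open Polynomial Finset Vale.Agent.P042.SS Vale.Agent.P042.TT

/-- the coordinates of the level inequality -/
noncomputable def PrC5 (ε P : ℝ) (R : ℕ) : Finset ℕ :=
  (range (Q5 ε P + 1)).filter (fun p => p.Prime ∧ P ^ (2 - 190 * ε) < p ∧ Nat.Coprime p R)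

/-- number of ranges of moduli -/
noncomputable def Jr5 (ε P : ℝ) : ℕ := ⌊P ^ (1 - 191 * ε)⌋₊ + 1

/-- the fibre step: one cell `n ≡ r mod R`, `n ≡ x mod ∏ T` -/
def Core5FibStmt : Prop :=
  ∀ (k J' : ℕ) (ε : ℝ), 1 ≤ k → 1 ≤ J' → 0 < ε → ε ≤ 1 / 1000 → ∃ P0 : ℝ, ∀ P : ℝ, P0 ≤ P →
  ∀ (N' : ℕ) (Φ : ℝ) (G : ℤ → ℝ) (ν : ℕ → ℤ → ℝ), St5 ε P k N' Φ G ν →
  ∀ (V : Finset ℕ) (R M : ℕ) (y r : ℤ),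
    V ⊆ W5 ε P → 1 ≤ R → (∀ p ∈ V, Nat.Coprime p R) → Real.log R ≤ P ^ (1 - 92 * ε) →
    M ≤ N' → (N' : ℝ) ≤ P * M →
  ∀ (T : Finset ℕ) (x : ℕ) (B : ℝ), T ⊆ V → T.card ≤ dT5 ε P → (∀ p ∈ T, ν p x ≠ 0) → 1 ≤ B →
    (∀ S ⊆ PrC5 ε P R, ∏ p ∈ S, p ≤ Q5 ε P → ∀ z : ℤ,
        z ≡ (x : ℤ) [ZMOD ((∏ p ∈ T, p : ℕ) : ℤ)] → z ≡ r [ZMOD (R : ℕ)] →
        mass G y M (R * ((∏ p ∈ T, p) * ∏ p ∈ S, p ^ J')) z ≤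
          B * (∏ p ∈ S, (p : ℝ) ^ (ε / 10)) * (∏ p ∈ T, (ν p x / p)) *
            (Φ * M / (R * ∏ p ∈ S, (p : ℝ) ^ J'))) →
    ∑ q ∈ (QZ5 ε P J' (Q5 ε P)).filter (fun q => Nat.Coprime q R),
        zR5 ε P q * ∑ a ∈ (range q).filter (Nat.Coprime q),
          ‖∑ n ∈ (Ioc y (y + M)).filter
            (fun n : ℤ => n ≡ r [ZMOD (R : ℕ)] ∧ n ≡ x [ZMOD ((∏ p ∈ T, p : ℕ) : ℤ)]),
            (G n : ℂ) * e (-((n : ℝ) * ((a : ℝ) / q)))‖ ^ 2 ≤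
      48 * (M * Φ / (R * ∏ p ∈ T, (p : ℝ))) ^ 2 * (∏ p ∈ T, (ν p x) ^ 2) * B ^ 2 *
        ∑ j ∈ range (Jr5 ε P), Real.exp (-(2 * (j : ℝ))) *
          (∏ p ∈ T, max 1 (1 / ν p x)) ^ (((j : ℝ) + 1) * P ^ (-(1 - 97 * ε)))

end Vale.Agent.P042.UU
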