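import Vale.Agent.P042.UU.Defs

set_option autoImplicit false

/-!
Theorem S5: the blocks on cells.
-/

namespace Vale.Agent.P042.UU

open Polynomial Finset Vale.Agent.P042.SS Vale.Agent.P042.TT

/-- block MOM5: high moments of the random densities -/
def MOM5Stmt : Prop :=
  ∀ (k m : ℕ) (ε : ℝ), 1 ≤ k → 2 ≤ m → 0 < ε → ε ≤ 1 / 1000 → 3 / ε ≤ m →
  ∃ C P0 : ℝ, 0 < C ∧ ∀ P : ℝ, P0 ≤ P →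
  ∀ (N' : ℕ) (Φ : ℝ) (G : ℤ → ℝ) (ν : ℕ → ℤ → ℝ), St5 ε P k N' Φ G ν →
  ∀ (V : Finset ℕ) (R M : ℕ) (y r : ℤ),
    V ⊆ W5 ε P → 1 ≤ R → (∀ p ∈ V, Nat.Coprime p R) → Real.log R ≤ P ^ (1 - 91 * ε) →
    M ≤ N' → (N' : ℝ) ≤ P * M →
    ∑ T ∈ V.powerset.filter (fun T => T.card ≤ dT5 ε P), wtR (t5 ε P) V T *
        moT ν G y M R r T (2 * m) ≤
      C * (R : ℝ) ^ (C * bc5 ε P) * (M * Φ / R) ^ (2 * m)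

/-- block NV5: moments of the random normalisation -/
def NV5Stmt : Prop :=
  ∀ (k J' : ℕ) (ε : ℝ), 1 ≤ k → 1 ≤ J' → 0 < ε → ε ≤ 1 / 1000 →
  ∃ C P0 : ℝ, 0 < C ∧ ∀ P : ℝ, P0 ≤ P →
  ∀ (N' : ℕ) (Φ : ℝ) (G : ℤ → ℝ) (ν : ℕ → ℤ → ℝ), St5 ε P k N' Φ G ν →
  ∀ (V : Finset ℕ) (R M : ℕ) (y r : ℤ) (Pr : Finset ℕ),
    V ⊆ W5 ε P → 1 ≤ R → (∀ p ∈ V, Nat.Coprime p R) → Real.log R ≤ P ^ (1 - 92 * ε) →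
    M ≤ N' → (N' : ℝ) ≤ P * M →
    (∀ p ∈ Pr, p.Prime ∧ P ^ (2 - 190 * ε) < p ∧ Nat.Coprime p R) →
    ∃ Nv : Finset ℕ → ℕ → ℝ, (∀ T x, 1 ≤ Nv T x) ∧
      (∀ T ⊆ V, T.card ≤ dT5 ε P → ∀ x : ℕ, ∀ S ⊆ Pr, ∏ p ∈ S, p ≤ Q5 ε P → ∀ z : ℤ,
        z ≡ (x : ℤ) [ZMOD ((∏ p ∈ T, p : ℕ) : ℤ)] → z ≡ r [ZMOD (R : ℕ)] →
        mass G y M (R * ((∏ p ∈ T, p) * ∏ p ∈ S, p ^ J')) z ≤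
          Nv T x * (∏ p ∈ S, (p : ℝ) ^ (ε / 10)) * (∏ p ∈ T, (ν p x / p)) *
            (Φ * M / (R * ∏ p ∈ S, (p : ℝ) ^ J'))) ∧
      ∑ T ∈ V.powerset.filter (fun T => T.card ≤ dT5 ε P), wtR (t5 ε P) V T *
        ∑ x ∈ range (∏ p ∈ T, p), (∏ p ∈ T, (ν p x / p)) * (Nv T x) ^ 4 ≤
          C * (R : ℝ) ^ (C * bc5 ε P)

/-- block CORE5: boundedness of all energies of a cell at the boosted rates -/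
def CORE5Stmt : Prop :=
  ∀ (k J' : ℕ) (ε : ℝ), 1 ≤ k → 1 ≤ J' → 0 < ε → ε ≤ 1 / 1000 →
  ∃ C P0 : ℝ, 0 < C ∧ ∀ P : ℝ, P0 ≤ P →
  ∀ (N' : ℕ) (Φ : ℝ) (G : ℤ → ℝ) (ν : ℕ → ℤ → ℝ), St5 ε P k N' Φ G ν →
  ∀ (V : Finset ℕ) (R M : ℕ) (y r : ℤ),
    V ⊆ W5 ε P → 1 ≤ R → (∀ p ∈ V, Nat.Coprime p R) → Real.log R ≤ P ^ (1 - 92 * ε) →
    M ≤ N' → (N' : ℝ) ≤ P * M →
    ∑ T ∈ V.powerset.filter (fun T => T.card ≤ dT5 ε P), wtR (t5 ε P) V T *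
      ∑ q ∈ (QZ5 ε P J' (Q5 ε P)).filter (fun q => Nat.Coprime q R),
        zR5 ε P q * ∑ a ∈ (range q).filter (Nat.Coprime q),
          enT ν G y M R r ((a : ℝ) / q) T ≤
      C * (R : ℝ) ^ (C * bc5 ε P) * (M * Φ / R) ^ 2

/-- block SUM5: Parseval over the classes mod `D` and CORE for each class -/
def SUM5Stmt : Prop :=
  ∀ (k J' : ℕ) (ε : ℝ), 1 ≤ k → 1 ≤ J' → 0 < ε → ε ≤ 1 / 1000 →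
  ∃ C P0 : ℝ, 0 < C ∧ ∀ P : ℝ, P0 ≤ P →
  ∀ (N' : ℕ) (Φ : ℝ) (G : ℤ → ℝ) (ν : ℕ → ℤ → ℝ), St5 ε P k N' Φ G ν →
  ∀ (V : Finset ℕ) (D M : ℕ) (y : ℤ), V ⊆ W5 ε P → M ≤ N' → N' ≤ 32 * M → 1 ≤ D →
    Real.log D ≤ P ^ (1 - 92 * ε) → (∀ p ∈ V, Nat.Coprime p D) →
    ∑ d ∈ D.divisors, ∑ q ∈ (QZ5 ε P J' (Q5 ε P)).filter (fun q => Nat.Coprime q D),
      zR5 ε P q * ∑ a ∈ (range (d * q)).filter (Nat.Coprime (d * q)),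
        totd (t5 ε P) (dT5 ε P) V ν G y M 1 0 ((a : ℝ) / ((d * q : ℕ) : ℝ)) ≤
      C * (D : ℝ) ^ (C * bc5 ε P) * (M * Φ) ^ 2

/-- block EWS5: truncated random energies and component energies -/
def EWS5Stmt : Prop :=
  ∀ (V : Finset ℕ) (ν : ℕ → ℤ → ℝ) (G : ℤ → ℝ) (y : ℤ) (M R : ℕ) (r : ℤ) (θ : ℝ)
    (t : ℕ → ℝ) (d u : ℕ),
    (∀ p ∈ V, p.Prime) → Wts V ν → (∀ n, G n ≠ 0 → ∀ p ∈ V, ν p n ≠ 0) →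
    (∀ p ∈ V, 0 ≤ t p ∧ t p ≤ 1) →
    totd t d V ν G y M R r θ ≤ ews t d V ν G y M R r θ ∧
    (2 * ∑ p ∈ V, t p + u ≤ d → ews t u V ν G y M R r θ ≤ 2 * totd t d V ν G y M R r θ)

/-- block ONE5: the modulus `q = 1` -/
def ONE5Stmt : Prop :=
  ∀ (k : ℕ) (ε : ℝ), 1 ≤ k → 0 < ε → ε ≤ 1 / 1000 → ∃ P0 : ℝ, ∀ P : ℝ, P0 ≤ P →
  ∀ (N' : ℕ) (Φ : ℝ) (G : ℤ → ℝ) (ν : ℕ → ℤ → ℝ), St5 ε P k N' Φ G ν →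
  ∀ (V : Finset ℕ) (M : ℕ) (y : ℤ), V ⊆ W5 ε P → M ≤ N' → N' ≤ 32 * M →
    ews (t6 ε P) (u5 ε P) V ν G y M 1 0 0 - (mass G y M 1 0) ^ 2 ≤
      P ^ (-ε) * (M * Φ) ^ 2

/-- block TOT5: total bounds with a Rankin factor; `qY` is the part at the window -/
def TOT5Stmt : Prop :=
  ∀ (k E K p0 : ℕ) (kap : ℕ → ℕ → ℝ) (ε : ℝ), 1 ≤ k → 1 ≤ E → KapOK k E K p0 kap →
  0 < ε → ε ≤ 1 / 1000 →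
  ∃ t' C P0 : ℝ, 0 < t' ∧ t' ≤ ε / 1000 ∧ 0 < C ∧ ∀ P : ℝ, P0 ≤ P →
  ∀ (N' : ℕ) (Φ : ℝ) (G : ℤ → ℝ) (ν : ℕ → ℤ → ℝ), St5 ε P k N' Φ G ν →
  ∀ (qY M : ℕ) (y : ℤ) (l0 : ℝ), M ≤ N' → N' ≤ 32 * M → 1 ≤ qY →
    (∀ p ∈ qY.primeFactors, p ∈ W5 ε P) → Real.log qY ≤ P ^ (1 - 95 * ε) →
    P ^ (95.1 * ε) ≤ l0 → l0 ≤ P ^ (1 - 94 * ε) →
    ∑ q ∈ (E05 ε P (Q5 ε P)).filter (fun q : ℕ => Real.log q ≤ l0),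
      (q : ℝ) ^ t' * kapProd kap q *
      ∑ a ∈ (range (qY * q)).filter (Nat.Coprime (qY * q)),
        totd (t5 ε P) (dT5 ε P) (Vn ε P qY) ν G y M 1 0 ((a : ℝ) / ((qY * q : ℕ) : ℝ)) ≤
      C * Real.exp (C * bc5 ε P * (l0 + Real.log qY)) * (M * Φ) ^ 2

/-- block REST5: the moduli `q ≠ 1` -/
def REST5Stmt : Prop :=
  ∀ (k E K p0 : ℕ) (kap : ℕ → ℕ → ℝ) (ε : ℝ), 1 ≤ k → 1 ≤ E → KapOK k E K p0 kap →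
  0 < ε → ε ≤ 1 / 1000 →
  ∃ C P0 : ℝ, 0 < C ∧ ∀ P : ℝ, P0 ≤ P →
  ∀ (N' : ℕ) (Φ : ℝ) (G : ℤ → ℝ) (ν : ℕ → ℤ → ℝ), St5 ε P k N' Φ G ν →
  ∀ (M : ℕ) (y : ℤ), M ≤ N' → N' ≤ 32 * M →
    ∑ q ∈ (EV5 ε P (Q5 ε P)).erase 1, (q : ℝ) ^ (P ^ (-(95.5 * ε))) * kapProd kap q *
      ∑ a ∈ (range q).filter (Nat.Coprime q),
        ews (t6 ε P) (u5 ε P) (Vn ε P q) ν G y M 1 0 ((a : ℝ) / q) ≤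
      P ^ (-(ε / 10)) * (M * Φ) ^ 2 +
        C * (mass G y M 1 0 * |Φ * cnt N' y M - mass G y M 1 0|)

end Vale.Agent.P042.UU
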