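import Vale.Agent.P042.TT.CoreAsm
import Vale.Agent.P042.UU.SpecC
import Vale.Agent.P042.UU.Core5Defs

set_option autoImplicit false

/-!
Block CORE5: assembly from NV5 and the fibre step.
-/

namespace Vale.Agent.P042.UU

open Polynomial Finset Vale.Agent.P042.SS Vale.Agent.P042.TT

/-- mean of the product of the small powers of `max 1 (1/ν)` over a random set, rates `t p` -/
theorem core5_mean {W V : Finset ℕ} {ν : ℕ → ℤ → ℝ} (hW : Wts W ν)
    (hprime : ∀ p ∈ W, p.Prime) (hV : V ⊆ W) {b s : ℝ} {t : ℕ → ℝ} (hs0 : 0 ≤ s) (hs1 : s ≤ 1)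
    (ht0 : ∀ p ∈ V, 0 ≤ t p) (ht1 : ∀ p ∈ V, t p ≤ 1)
    (hb : ∀ p ∈ W, ∑ x ∈ range p, ν p x / p *
      (Real.exp (max 0 (Real.log (1 / ν p x))) - 1) ≤ b) (hb0 : 0 ≤ b) :
    ∑ T ∈ V.powerset, wtR t V T *
      ∑ x ∈ range (∏ p ∈ T, p), (∏ p ∈ T, (ν p (x : ℤ) / p)) *
        (∏ p ∈ T, max 1 (1 / ν p x)) ^ s ≤ Real.exp (s * b * ∑ p ∈ V, t p) := by
  have hν := hW.nn
  -- one prime
  have h1 : ∀ p ∈ W, ∑ x ∈ range p, (ν p (x : ℤ) / p * (max 1 (1 / ν p (x : ℤ))) ^ s) ≤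
      1 + s * b := by
    intro p hp
    have hp0 : (0 : ℝ) < p := by exact_mod_cast (hprime p hp).pos
    have h2 : ∀ x ∈ range p, (ν p (x : ℤ) / p * (max 1 (1 / ν p (x : ℤ))) ^ s) ≤
        ν p (x : ℤ) / p + s * (ν p x / p * (Real.exp (max 0 (Real.log (1 / ν p x))) - 1)) := by
      intro x _
      rw [exp_max_log (hν p x)]
      have h3 := rpow_one_add_le_one_add_mul_self
        (show -1 ≤ max 1 (1 / ν p (x : ℤ)) - 1 by
          have := le_max_left (1 : ℝ) (1 / ν p (x : ℤ)); linarith) hs0 hs1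
      rw [add_sub_cancel] at h3
      have h4 := mul_le_mul_of_nonneg_left h3 (div_nonneg (hν p x) hp0.le)
      refine h4.trans (le_of_eq ?_)
      ring
    refine (Finset.sum_le_sum h2).trans ?_
    rw [Finset.sum_add_distrib, ← Finset.mul_sum, ← Finset.sum_div, hW.mean p hp,
      div_self hp0.ne']
    have := mul_le_mul_of_nonneg_left (hb p hp) hs0
    linarith
  -- a set of primes
  have h2 : ∀ T ∈ V.powerset, ∑ x ∈ range (∏ p ∈ T, p), (∏ p ∈ T, (ν p (x : ℤ) / p)) *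
        (∏ p ∈ T, max 1 (1 / ν p x)) ^ s ≤ ∏ p ∈ T, (1 + s * b) := by
    intro T hT
    rw [mem_powerset] at hT
    have h3 : ∀ x ∈ range (∏ p ∈ T, p), (∏ p ∈ T, (ν p (x : ℤ) / p)) *
        (∏ p ∈ T, max 1 (1 / ν p x)) ^ s =
        ∏ p ∈ T, (ν p (x : ℤ) / p * (max 1 (1 / ν p x)) ^ s) := by
      intro x _
      rw [Finset.prod_mul_distrib, ← Real.finsetProd_rpow]
      intro p _
      exact zero_le_one.trans (le_max_left _ _)
    rw [Finset.sum_congr rfl h3, sum_prod_per W hprime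
      (fun p n => ν p n / p * (max 1 (1 / ν p n)) ^ s)
      (fun p hp n => by simp only [hW.per p hp n]) T (hT.trans hV)]
    apply Finset.prod_le_prod
    · intro p _
      exact Finset.sum_nonneg fun x _ => mul_nonneg (div_nonneg (hν p _) (Nat.cast_nonneg p))
        (Real.rpow_nonneg (zero_le_one.trans (le_max_left _ _)) _)
    · intro p hp
      exact h1 p (hV (hT hp))
  have h3 : ∑ T ∈ V.powerset, wtR t V T *
      ∑ x ∈ range (∏ p ∈ T, p), (∏ p ∈ T, (ν p (x : ℤ) / p)) *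
        (∏ p ∈ T, max 1 (1 / ν p x)) ^ s ≤
      ∑ T ∈ V.powerset, wtR t V T * ∏ p ∈ T, (1 + s * b) := by
    refine Finset.sum_le_sum fun T hT => ?_
    exact mul_le_mul_of_nonneg_left (h2 T hT) (wtR_nonneg _ V T (mem_powerset.1 hT)
      (fun p hp => ht0 p hp) (fun p hp => ht1 p hp))
  refine h3.trans ?_
  have h4 : ∑ T ∈ V.powerset, wtR t V T * ∏ p ∈ T, (1 + s * b) =
      ∏ p ∈ V, (t p * (1 + s * b) + (1 - t p)) := by
    rw [Finset.prod_add]
    refine Finset.sum_congr rfl fun T _ => ?_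
    unfold wtR
    rw [Finset.prod_mul_distrib]
    ring
  rw [h4]
  calc ∏ p ∈ V, (t p * (1 + s * b) + (1 - t p)) ≤ ∏ p ∈ V, Real.exp (s * b * t p) := by
        refine Finset.prod_le_prod (fun p hp => ?_) fun p hp => ?_
        · have := ht0 p hp
          have := ht1 p hp
          have : 0 ≤ t p * (1 + s * b) := by positivity
          linarith
        · have := Real.add_one_le_exp (s * b * t p)
          linarith
    _ = Real.exp (s * b * ∑ p ∈ V, t p) := by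
        rw [← Real.exp_sum, Finset.mul_sum]

/-- the deviation of one weight -/
theorem core5_b {W : Finset ℕ} {ν : ℕ → ℤ → ℝ} (hW : Wts W ν) (hprime : ∀ p ∈ W, p.Prime)
    {c : ℝ} (hc0 : 0 ≤ c) (hc1 : c ≤ 1) (hle : ∀ p ∈ W, ∀ x, ν p x ≤ Real.exp c) :
    ∀ p ∈ W, ∑ x ∈ range p, ν p x / p *
      (Real.exp (max 0 (Real.log (1 / ν p x))) - 1) ≤ 2 * c := by
  intro p hp
  have hp0 : (0 : ℝ) < p := by exact_mod_cast (hprime p hp).pos
  have he : Real.exp c - 1 ≤ 2 * c := by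
    have h := Real.exp_bound' hc0 hc1 (n := 2) (by norm_num)
    simp only [Finset.sum_range_succ, Finset.sum_range_zero, Nat.factorial] at h
    norm_num at h
    nlinarith
  have h1 : ∀ x ∈ range p, ν p (x : ℤ) / p *
      (Real.exp (max 0 (Real.log (1 / ν p x))) - 1) ≤
      (1 / p) * ((1 - ν p x) + (Real.exp c - 1)) := by
    intro x _
    have hν := hW.nn p x
    have hνc := hle p hp x
    rw [exp_max_log hν]
    have h2 : ν p (x : ℤ) * (max 1 (1 / ν p x) - 1) ≤ (1 - ν p x) + (Real.exp c - 1) := by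
      rcases eq_or_lt_of_le hν with h | h
      · rw [← h]
        have := Real.add_one_le_exp c
        simp
        linarith
      · rcases le_total (ν p (x : ℤ)) 1 with h3 | h3
        · rw [max_eq_right ((one_le_div h).2 h3)]
          have h4 : ν p (x : ℤ) * (1 / ν p x - 1) = 1 - ν p x := by
            field_simp
          rw [h4]
          have := Real.add_one_le_exp c
          linarith
        · rw [max_eq_left ((div_le_one h).2 h3)]
          simp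
          linarith
    calc ν p (x : ℤ) / p * (max 1 (1 / ν p x) - 1) =
          (1 / p) * (ν p (x : ℤ) * (max 1 (1 / ν p x) - 1)) := by ring
      _ ≤ _ := mul_le_mul_of_nonneg_left h2 (by positivity)
  refine (Finset.sum_le_sum h1).trans ?_
  rw [← Finset.mul_sum, Finset.sum_add_distrib, Finset.sum_sub_distrib, hW.mean p hp]
  simp only [Finset.sum_const, Finset.card_range, nsmul_eq_mul, mul_one]
  rw [sub_self, zero_add, ← mul_assoc, one_div, inv_mul_cancel₀ hp0.ne', one_mul]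
  exact he

/-- `∑_{n ≤ N} n^{-1/2} ≤ 2 √N` -/
theorem core5_sum_half (N : ℕ) :
    ∑ n ∈ Ioc 0 N, (n : ℝ) ^ (-(1 / 2) : ℝ) ≤ 2 * Real.sqrt N := by
  induction N with
  | zero => simp
  | succ N ih =>
    rw [← Finset.insert_Ioc_right_eq_Ioc_add_one (by omega), Finset.sum_insert (by simp)]
    have h1 : (0 : ℝ) < ((N + 1 : ℕ) : ℝ) := by positivity
    have h2 : (((N + 1 : ℕ) : ℝ)) ^ (-(1 / 2) : ℝ) = 1 / Real.sqrt ((N + 1 : ℕ) : ℝ) := by
      rw [Real.rpow_neg h1.le, ← Real.sqrt_eq_rpow, one_div]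
    rw [h2]
    have h3 : Real.sqrt (N : ℝ) ≤ Real.sqrt ((N + 1 : ℕ) : ℝ) :=
      Real.sqrt_le_sqrt (by push_cast; linarith)
    have h4 : 0 < Real.sqrt ((N + 1 : ℕ) : ℝ) := Real.sqrt_pos.2 h1
    have h5 : Real.sqrt ((N + 1 : ℕ) : ℝ) ^ 2 = N + 1 := by
      rw [Real.sq_sqrt h1.le]; push_cast; ring
    have h6 : Real.sqrt (N : ℝ) ^ 2 = N := Real.sq_sqrt (Nat.cast_nonneg N)
    have h7 : 1 / Real.sqrt ((N + 1 : ℕ) : ℝ) ≤
        2 * (Real.sqrt ((N + 1 : ℕ) : ℝ) - Real.sqrt N) := by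
      rw [div_le_iff₀ h4]
      have h8 : 0 ≤ Real.sqrt (N : ℝ) := Real.sqrt_nonneg _
      nlinarith
    linarith

/-- the sum of the rates over the window -/
theorem core5_sum_t {ε P : ℝ} (hP : 1 ≤ P) {V : Finset ℕ} (hV : V ⊆ W5 ε P) :
    ∑ p ∈ V, t5 ε P p ≤ 2 * P ^ (1 - 57 * ε) := by
  have hP0 : 0 < P := by linarith
  set N := ⌊P ^ (2 - 190 * ε)⌋₊ with hN
  have h1 : V ⊆ Ioc 0 N := by
    intro p hp
    have h2 := hV hp
    unfold W5 Wp at h2
    rw [mem_filter, mem_Ioc] at h2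
    rw [mem_Ioc]
    exact ⟨h2.2.pos, h2.1.2⟩
  have h3 : ∑ p ∈ V, t5 ε P p ≤ ∑ p ∈ Ioc 0 N, t5 ε P p := by
    refine Finset.sum_le_sum_of_subset_of_nonneg h1 fun p _ _ => ?_
    unfold t5
    positivity
  refine h3.trans ?_
  unfold t5
  rw [← Finset.mul_sum]
  have h4 := core5_sum_half N
  have h5 : Real.sqrt (N : ℝ) ≤ P ^ (1 - 95 * ε) := by
    have h6 : (N : ℝ) ≤ P ^ (2 - 190 * ε) := Nat.floor_le (by positivity)
    calc Real.sqrt (N : ℝ) ≤ Real.sqrt (P ^ (2 - 190 * ε)) := Real.sqrt_le_sqrt h6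
      _ = P ^ (1 - 95 * ε) := by
        rw [Real.sqrt_eq_rpow, ← Real.rpow_mul hP0.le]
        congr 1
        ring
  calc P ^ (38 * ε) * ∑ p ∈ Ioc 0 N, (p : ℝ) ^ (-(1 / 2) : ℝ)
      ≤ P ^ (38 * ε) * (2 * P ^ (1 - 95 * ε)) :=
        mul_le_mul_of_nonneg_left (by linarith) (by positivity)
    _ = 2 * P ^ (1 - 57 * ε) := by
        rw [show (1 - 57 * ε : ℝ) = 38 * ε + (1 - 95 * ε) by ring, Real.rpow_add hP0]
        ring

theorem core5_geo (J : ℕ) : ∑ j ∈ range J, Real.exp (-(2 * (j : ℝ))) ≤ 2 := by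
  have h1 : ∀ j ∈ range J, Real.exp (-(2 * (j : ℝ))) ≤ (1 / 2 : ℝ) ^ j := by
    intro j _
    have h2 : Real.exp (-(2 * (j : ℝ))) = (Real.exp (-2)) ^ j := by
      rw [← Real.exp_nat_mul]; congr 1; ring
    rw [h2]
    refine pow_le_pow_left₀ (Real.exp_pos _).le ?_ j
    rw [Real.exp_neg, one_div]
    refine inv_anti₀ (by norm_num) ?_
    have := Real.add_one_le_exp (2 : ℝ)
    linarith
  refine (Finset.sum_le_sum h1).trans ?_
  have h3 := geom_sum_eq (show (1 / 2 : ℝ) ≠ 1 by norm_num) J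
  rw [h3]
  have : (0 : ℝ) ≤ (1 / 2 : ℝ) ^ J := by positivity
  rw [div_le_iff_of_neg (by norm_num)]
  linarith

theorem core5_geo2 (J : ℕ) :
    ∑ j ∈ range J, Real.exp (-(2 * (j : ℝ))) * Real.exp ((j : ℝ) + 1) ≤ 6 := by
  have h1 : ∀ j ∈ range J, Real.exp (-(2 * (j : ℝ))) * Real.exp ((j : ℝ) + 1) ≤
      3 * (1 / 2 : ℝ) ^ j := by
    intro j _
    have h2 : Real.exp (-(2 * (j : ℝ))) * Real.exp ((j : ℝ) + 1) =
        Real.exp 1 * (Real.exp (-1)) ^ j := by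
      rw [← Real.exp_nat_mul, ← Real.exp_add, ← Real.exp_add]; congr 1; ring
    rw [h2]
    refine mul_le_mul Real.exp_one_lt_three.le (pow_le_pow_left₀ (Real.exp_pos _).le ?_ j)
      (by positivity) (by norm_num)
    rw [Real.exp_neg, one_div]
    refine inv_anti₀ (by norm_num) ?_
    have := Real.add_one_le_exp (1 : ℝ)
    linarith
  refine (Finset.sum_le_sum h1).trans ?_
  rw [← Finset.mul_sum]
  have h3 := geom_sum_eq (show (1 / 2 : ℝ) ≠ 1 by norm_num) J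
  rw [h3]
  have h4 : (0 : ℝ) ≤ (1 / 2 : ℝ) ^ J := by positivity
  have h5 : ((1 / 2 : ℝ) ^ J - 1) / (1 / 2 - 1) ≤ 2 := by
    rw [div_le_iff_of_neg (by norm_num)]
    linarith
  linarith

theorem core5_of (hNV : NV5Stmt) (hF : Core5FibStmt) : CORE5Stmt := by
  intro k J' ε hk hJ hε hε1
  obtain ⟨C1, P1, hC1, hnv⟩ := hNV k J' ε hk hJ hε hε1
  obtain ⟨P2, hfib⟩ := hF k J' ε hk hJ hε hε1
  have hev : ∀ᶠ P : ℝ in Filter.atTop, P1 ≤ P ∧ P2 ≤ P ∧ 1 ≤ P ∧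
      4 * P ^ (-(94 * ε)) ≤ P ^ (0 : ℝ) ∧ 4 * P ^ (-(1 - 97 * ε)) ≤ P ^ (0 : ℝ) ∧
      8 * P ^ (-(57 * ε)) ≤ P ^ (0 : ℝ) := by
    filter_upwards [Filter.eventually_ge_atTop P1, Filter.eventually_ge_atTop P2,
      Filter.eventually_ge_atTop 1,
      pow_dom (-(94 * ε)) 0 4 (by linarith), pow_dom (-(1 - 97 * ε)) 0 4 (by linarith),
      pow_dom (-(57 * ε)) 0 8 (by linarith)] with P h1 h2 h3 h4 h5 h6
    exact ⟨h1, h2, h3, h4, h5, h6⟩
  obtain ⟨P0, hP0⟩ := Filter.eventually_atTop.1 hev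
  refine ⟨48 * (2 * C1 + 6), P0, by positivity, ?_⟩
  intro P hP N' Φ G ν hSt V R M y r hV hR hVR hRlog hMN hNM
  obtain ⟨hP1, hP2, hPone, hn1, hn2, hn3⟩ := hP0 P hP
  rw [Real.rpow_zero] at hn1 hn2 hn3
  have hPpos : 0 < P := by linarith
  have hprime : ∀ p ∈ W5 ε P, p.Prime := by
    intro p hp
    unfold W5 Wp at hp
    exact (mem_filter.1 hp).2
  have ht0 : ∀ p ∈ V, 0 ≤ t5 ε P p := fun p _ => by unfold t5; positivity
  have ht1 : ∀ p ∈ V, t5 ε P p ≤ 1 := by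
    intro p hp
    have h1 := hV hp
    unfold W5 Wp at h1
    rw [mem_filter, mem_Ioc] at h1
    have h2 : P ^ (190 * ε) < p := Nat.lt_of_floor_lt h1.1.1
    unfold t5
    have h3 : (p : ℝ) ^ (-(1 / 2) : ℝ) ≤ (P ^ (190 * ε)) ^ (-(1 / 2) : ℝ) :=
      Real.rpow_le_rpow_of_nonpos (by positivity) h2.le (by norm_num)
    rw [← Real.rpow_mul hPpos.le] at h3
    calc P ^ (38 * ε) * (p : ℝ) ^ (-(1 / 2) : ℝ) ≤
          P ^ (38 * ε) * P ^ (190 * ε * -(1 / 2)) :=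
            mul_le_mul_of_nonneg_left h3 (by positivity)
      _ = P ^ (38 * ε + 190 * ε * -(1 / 2)) := (Real.rpow_add hPpos _ _).symm
      _ ≤ 1 := Real.rpow_le_one_of_one_le_of_nonpos hPone (by linarith)
  have hb0 : 0 ≤ bc5 ε P := by unfold bc5; positivity
  have hbn0 : 0 ≤ bn5 ε P := by unfold bn5; positivity
  have hbn1 : bn5 ε P ≤ 1 := by
    unfold bn5
    exact Real.rpow_le_one_of_one_le_of_nonpos hPone (by linarith)
  have hΦ : 0 < Φ := lt_of_lt_of_le (Real.exp_pos _) hSt.Φlo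
  have hν := hSt.wts.nn
  have hR0 : (0 : ℝ) < R := by exact_mod_cast hR
  obtain ⟨Nv, hNv1, hNvB, hNvM⟩ := hnv P hP1 N' Φ G ν hSt V R M y r (PrC5 ε P R)
    hV hR hVR hRlog hMN hNM (by
      intro p hp
      unfold PrC5 at hp
      rw [mem_filter] at hp
      exact hp.2)
  set κ : ℝ := P ^ (-(1 - 97 * ε)) with hκ
  have hκ0 : 0 < κ := Real.rpow_pos_of_pos hPpos _
  -- exponents
  have hsj : ∀ j ∈ range (Jr5 ε P), 2 * (((j : ℝ) + 1) * κ) ≤ 1 := by
    intro j hj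
    rw [mem_range] at hj
    unfold Jr5 at hj
    have h1 : (j : ℝ) ≤ P ^ (1 - 191 * ε) := by
      have h2 : j ≤ ⌊P ^ (1 - 191 * ε)⌋₊ := by omega
      calc (j : ℝ) ≤ ((⌊P ^ (1 - 191 * ε)⌋₊ : ℕ) : ℝ) := by exact_mod_cast h2
        _ ≤ _ := Nat.floor_le (by positivity)
    have h2 : P ^ (1 - 191 * ε) * κ = P ^ (-(94 * ε)) := by
      rw [hκ, ← Real.rpow_add hPpos]
      congr 1
      ring
    have h3 : ((j : ℝ) + 1) * κ ≤ P ^ (-(94 * ε)) + κ := by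
      rw [← h2]
      nlinarith
    linarith
  -- the mean of the powers
  have hmean : ∀ j ∈ range (Jr5 ε P), ∑ T ∈ V.powerset.filter (fun T => T.card ≤ dT5 ε P),
      wtR (t5 ε P) V T * ∑ x ∈ range (∏ p ∈ T, p), (∏ p ∈ T, (ν p (x : ℤ) / p)) *
        (∏ p ∈ T, max 1 (1 / ν p x)) ^ (2 * (((j : ℝ) + 1) * κ)) ≤ Real.exp ((j : ℝ) + 1) := by
    intro j hj
    have h0 : 0 ≤ 2 * (((j : ℝ) + 1) * κ) := by positivity
    have h1 := core5_mean (W := W5 ε P) (V := V) (ν := ν) hSt.wts hprime hV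
      (b := 2 * bn5 ε P) (s := 2 * (((j : ℝ) + 1) * κ)) (t := t5 ε P) h0 (hsj j hj) ht0 ht1
      (core5_b hSt.wts hprime hbn0 hbn1 hSt.νle) (by positivity)
    refine le_trans ?_ (h1.trans ?_)
    · refine Finset.sum_le_sum_of_subset_of_nonneg (Finset.filter_subset _ _) fun T hT _ => ?_
      refine mul_nonneg (wtR_nonneg _ V T (mem_powerset.1 hT) ht0 ht1)
        (Finset.sum_nonneg fun x _ => mul_nonneg (Finset.prod_nonneg fun p _ =>
          div_nonneg (hν p _) (Nat.cast_nonneg p)) (Real.rpow_nonneg (Finset.prod_nonneg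
            fun p _ => zero_le_one.trans (le_max_left _ _)) _))
    · rw [Real.exp_le_exp]
      have h2 := core5_sum_t hPone hV
      have h3 : 0 ≤ 2 * (((j : ℝ) + 1) * κ) * (2 * bn5 ε P) := by positivity
      refine (mul_le_mul_of_nonneg_left h2 h3).trans ?_
      have h4 : κ * bn5 ε P * P ^ (1 - 57 * ε) = P ^ (-(57 * ε)) := by
        unfold bn5
        rw [hκ, ← Real.rpow_add hPpos, ← Real.rpow_add hPpos]
        congr 1
        ring
      have h5 : 2 * (((j : ℝ) + 1) * κ) * (2 * bn5 ε P) * (2 * P ^ (1 - 57 * ε)) =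
          ((j : ℝ) + 1) * (8 * P ^ (-(57 * ε))) := by
        rw [← h4]
        ring
      rw [h5]
      have h6 : (0 : ℝ) ≤ (j : ℝ) + 1 := by positivity
      nlinarith
  -- the fibre bound for every `T`, `x`
  have key : ∀ T ∈ V.powerset.filter (fun T => T.card ≤ dT5 ε P),
      ∑ q ∈ (QZ5 ε P J' (Q5 ε P)).filter (fun q => Nat.Coprime q R),
        zR5 ε P q * ∑ a ∈ (range q).filter (Nat.Coprime q),
          enT ν G y M R r ((a : ℝ) / q) T ≤
      48 * (M * Φ / R) ^ 2 * ∑ j ∈ range (Jr5 ε P), Real.exp (-(2 * (j : ℝ))) *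
        ∑ x ∈ range (∏ p ∈ T, p), (∏ p ∈ T, (ν p (x : ℤ) / p)) *
        ((Nv T x) ^ 4 + (∏ p ∈ T, max 1 (1 / ν p x)) ^ (2 * (((j : ℝ) + 1) * κ))) := by
    intro T hTf
    obtain ⟨hT, hTc⟩ := mem_filter.1 hTf
    rw [mem_powerset] at hT
    have h1 : ∑ q ∈ (QZ5 ε P J' (Q5 ε P)).filter (fun q => Nat.Coprime q R),
        zR5 ε P q * ∑ a ∈ (range q).filter (Nat.Coprime q),
          enT ν G y M R r ((a : ℝ) / q) T =
        ∑ x ∈ range (∏ p ∈ T, p), dn ν T x *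
          ∑ q ∈ (QZ5 ε P J' (Q5 ε P)).filter (fun q => Nat.Coprime q R),
            zR5 ε P q * ∑ a ∈ (range q).filter (Nat.Coprime q),
          ‖∑ n ∈ (Ioc y (y + M)).filter
            (fun n : ℤ => n ≡ r [ZMOD (R : ℕ)] ∧ n ≡ x [ZMOD ((∏ p ∈ T, p : ℕ) : ℤ)]),
            (G n : ℂ) * e (-((n : ℝ) * ((a : ℝ) / q)))‖ ^ 2 := by
      unfold enT
      have h2 : ∀ q ∈ (QZ5 ε P J' (Q5 ε P)).filter (fun q => Nat.Coprime q R),
          zR5 ε P q * ∑ a ∈ (range q).filter (Nat.Coprime q),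
            ∑ x ∈ range (∏ p ∈ T, p), dn ν T x *
              ‖∑ n ∈ (Ioc y (y + M)).filter
                (fun n : ℤ => n ≡ r [ZMOD (R : ℕ)] ∧
                  n ≡ x [ZMOD ((∏ p ∈ T, p : ℕ) : ℤ)]),
                (G n : ℂ) * e (-((n : ℝ) * ((a : ℝ) / q)))‖ ^ 2 =
          ∑ x ∈ range (∏ p ∈ T, p), dn ν T x * (zR5 ε P q *
            ∑ a ∈ (range q).filter (Nat.Coprime q),
              ‖∑ n ∈ (Ioc y (y + M)).filter
                (fun n : ℤ => n ≡ r [ZMOD (R : ℕ)] ∧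
                  n ≡ x [ZMOD ((∏ p ∈ T, p : ℕ) : ℤ)]),
                (G n : ℂ) * e (-((n : ℝ) * ((a : ℝ) / q)))‖ ^ 2) := by
        intro q _
        rw [Finset.sum_comm, Finset.mul_sum]
        refine Finset.sum_congr rfl fun x _ => ?_
        rw [← Finset.mul_sum]
        ring
      rw [Finset.sum_congr rfl h2, Finset.sum_comm]
      refine Finset.sum_congr rfl fun x _ => ?_
      rw [← Finset.mul_sum]
    have h1' : 48 * (M * Φ / R) ^ 2 * ∑ j ∈ range (Jr5 ε P), Real.exp (-(2 * (j : ℝ))) *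
        ∑ x ∈ range (∏ p ∈ T, p), (∏ p ∈ T, (ν p (x : ℤ) / p)) *
        ((Nv T x) ^ 4 + (∏ p ∈ T, max 1 (1 / ν p x)) ^ (2 * (((j : ℝ) + 1) * κ))) =
        ∑ x ∈ range (∏ p ∈ T, p), 48 * (M * Φ / R) ^ 2 * ((∏ p ∈ T, (ν p (x : ℤ) / p)) *
          ∑ j ∈ range (Jr5 ε P), Real.exp (-(2 * (j : ℝ))) *
        ((Nv T x) ^ 4 + (∏ p ∈ T, max 1 (1 / ν p x)) ^ (2 * (((j : ℝ) + 1) * κ)))) := by
      rw [← Finset.mul_sum]
      congr 1
      have h3 : ∀ j ∈ range (Jr5 ε P), Real.exp (-(2 * (j : ℝ))) *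
        ∑ x ∈ range (∏ p ∈ T, p), (∏ p ∈ T, (ν p (x : ℤ) / p)) *
        ((Nv T x) ^ 4 + (∏ p ∈ T, max 1 (1 / ν p x)) ^ (2 * (((j : ℝ) + 1) * κ))) =
        ∑ x ∈ range (∏ p ∈ T, p), (∏ p ∈ T, (ν p (x : ℤ) / p)) *
          (Real.exp (-(2 * (j : ℝ))) * ((Nv T x) ^ 4 +
            (∏ p ∈ T, max 1 (1 / ν p x)) ^ (2 * (((j : ℝ) + 1) * κ)))) := by
        intro j _
        rw [Finset.mul_sum]
        exact Finset.sum_congr rfl fun x _ => by ring
      rw [Finset.sum_congr rfl h3, Finset.sum_comm]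
      exact Finset.sum_congr rfl fun x _ => by rw [Finset.mul_sum]
    rw [h1, h1']
    refine Finset.sum_le_sum fun x _ => ?_
    have hX0 : 0 ≤ ∏ p ∈ T, max 1 (1 / ν p (x : ℤ)) :=
      Finset.prod_nonneg fun p _ => zero_le_one.trans (le_max_left _ _)
    have hπ0 : 0 ≤ ∏ p ∈ T, (ν p (x : ℤ) / p) :=
      Finset.prod_nonneg fun p _ => div_nonneg (hν p _) (Nat.cast_nonneg p)
    have hrhs0 : 0 ≤ 48 * (M * Φ / R) ^ 2 * ((∏ p ∈ T, (ν p (x : ℤ) / p)) *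
          ∑ j ∈ range (Jr5 ε P), Real.exp (-(2 * (j : ℝ))) *
        ((Nv T x) ^ 4 + (∏ p ∈ T, max 1 (1 / ν p x)) ^ (2 * (((j : ℝ) + 1) * κ)))) := by
      refine mul_nonneg (by positivity) (mul_nonneg hπ0 (Finset.sum_nonneg fun j _ => ?_))
      exact mul_nonneg (Real.exp_pos _).le (add_nonneg (by positivity)
        (Real.rpow_nonneg hX0 _))
    by_cases hz : ∀ p ∈ T, ν p x ≠ 0
    · have h2 := hfib P hP2 N' Φ G ν hSt V R M y r hV hR hVR hRlog hMN hNM T x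
        (Nv T x) hT hTc hz (hNv1 T x)
        (fun S hS hSQ z hzx hzr => hNvB T hT hTc x S hS hSQ z hzx hzr)
      have hdn : 0 ≤ dn ν T x := by
        unfold dn
        exact Finset.prod_nonneg fun p _ =>
          mul_nonneg (Nat.cast_nonneg p) (inv_nonneg.2 (hν p x))
      refine (mul_le_mul_of_nonneg_left h2 hdn).trans ?_
      set X := ∏ p ∈ T, max 1 (1 / ν p x) with hX
      have h3 : ∀ j ∈ range (Jr5 ε P), (Nv T x) ^ 2 * (Real.exp (-(2 * (j : ℝ))) *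
          X ^ (((j : ℝ) + 1) * κ)) ≤ Real.exp (-(2 * (j : ℝ))) *
          ((Nv T x) ^ 4 + X ^ (2 * (((j : ℝ) + 1) * κ))) := by
        intro j _
        have h4 : X ^ (2 * (((j : ℝ) + 1) * κ)) = (X ^ (((j : ℝ) + 1) * κ)) ^ 2 := by
          rw [← Real.rpow_natCast, ← Real.rpow_mul hX0]
          congr 1
          push_cast
          ring
        rw [h4]
        set Y := X ^ (((j : ℝ) + 1) * κ) with hY
        have h5 : (Nv T x) ^ 2 * Y ≤ (Nv T x) ^ 4 + Y ^ 2 := by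
          nlinarith [sq_nonneg ((Nv T x) ^ 2 - Y), sq_nonneg ((Nv T x) ^ 2 + Y)]
        calc (Nv T x) ^ 2 * (Real.exp (-(2 * (j : ℝ))) * Y)
            = Real.exp (-(2 * (j : ℝ))) * ((Nv T x) ^ 2 * Y) := by ring
          _ ≤ _ := mul_le_mul_of_nonneg_left h5 (Real.exp_pos _).le
      have h4 : dn ν T x * (48 * (M * Φ / (R * ∏ p ∈ T, (p : ℝ))) ^ 2 *
          (∏ p ∈ T, (ν p x) ^ 2) * (Nv T x) ^ 2 *
            ∑ j ∈ range (Jr5 ε P), Real.exp (-(2 * (j : ℝ))) * X ^ (((j : ℝ) + 1) * κ)) =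
          48 * (M * Φ / R) ^ 2 * ((∏ p ∈ T, (ν p (x : ℤ) / p)) *
            ∑ j ∈ range (Jr5 ε P), (Nv T x) ^ 2 *
              (Real.exp (-(2 * (j : ℝ))) * X ^ (((j : ℝ) + 1) * κ))) := by
        have hpT : 0 < ∏ p ∈ T, (p : ℝ) := Finset.prod_pos fun p hp => by
          exact_mod_cast (hprime p (hV (hT hp))).pos
        have h5 : dn ν T x * (∏ p ∈ T, (ν p x) ^ 2) =
            (∏ p ∈ T, (ν p (x : ℤ) / p)) * (∏ p ∈ T, (p : ℝ)) ^ 2 := by
          unfold dn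
          rw [← Finset.prod_mul_distrib, ← Finset.prod_pow, ← Finset.prod_mul_distrib]
          refine Finset.prod_congr rfl fun p hp => ?_
          have h6 := hz p hp
          have h7 : (p : ℝ) ≠ 0 := by exact_mod_cast (hprime p (hV (hT hp))).ne_zero
          field_simp
        rw [← Finset.mul_sum]
        set Sm := ∑ j ∈ range (Jr5 ε P), Real.exp (-(2 * (j : ℝ))) * X ^ (((j : ℝ) + 1) * κ)
        calc dn ν T x * (48 * (M * Φ / (R * ∏ p ∈ T, (p : ℝ))) ^ 2 *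
              (∏ p ∈ T, (ν p x) ^ 2) * (Nv T x) ^ 2 * Sm)
            = (dn ν T x * (∏ p ∈ T, (ν p x) ^ 2)) *
              (48 * (M * Φ / (R * ∏ p ∈ T, (p : ℝ))) ^ 2 * ((Nv T x) ^ 2 * Sm)) := by ring
          _ = _ := by
            rw [h5]
            field_simp
      rw [h4]
      refine mul_le_mul_of_nonneg_left ?_ (by positivity)
      exact mul_le_mul_of_nonneg_left (Finset.sum_le_sum h3) hπ0
    · push Not at hz
      obtain ⟨p, hpT, hp0⟩ := hz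
      have hdn : dn ν T x = 0 := by
        unfold dn
        refine Finset.prod_eq_zero hpT ?_
        rw [hp0]; simp
      rw [hdn, zero_mul]
      exact hrhs0
  -- sum over `T`
  have hwt : ∀ T ∈ V.powerset.filter (fun T => T.card ≤ dT5 ε P), 0 ≤ wtR (t5 ε P) V T :=
    fun T hT => wtR_nonneg _ V T (mem_powerset.1 (mem_filter.1 hT).1) ht0 ht1
  have hsum : ∑ T ∈ V.powerset.filter (fun T => T.card ≤ dT5 ε P), wtR (t5 ε P) V T *
      ∑ q ∈ (QZ5 ε P J' (Q5 ε P)).filter (fun q => Nat.Coprime q R),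
        zR5 ε P q * ∑ a ∈ (range q).filter (Nat.Coprime q),
          enT ν G y M R r ((a : ℝ) / q) T ≤
      48 * (M * Φ / R) ^ 2 * (2 * (C1 * (R : ℝ) ^ (C1 * bc5 ε P)) + 6) := by
    have h1 : ∑ T ∈ V.powerset.filter (fun T => T.card ≤ dT5 ε P), wtR (t5 ε P) V T *
      ∑ q ∈ (QZ5 ε P J' (Q5 ε P)).filter (fun q => Nat.Coprime q R),
        zR5 ε P q * ∑ a ∈ (range q).filter (Nat.Coprime q),
          enT ν G y M R r ((a : ℝ) / q) T ≤
        ∑ T ∈ V.powerset.filter (fun T => T.card ≤ dT5 ε P), wtR (t5 ε P) V T *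
          (48 * (M * Φ / R) ^ 2 * ∑ j ∈ range (Jr5 ε P), Real.exp (-(2 * (j : ℝ))) *
        ∑ x ∈ range (∏ p ∈ T, p), (∏ p ∈ T, (ν p (x : ℤ) / p)) *
        ((Nv T x) ^ 4 + (∏ p ∈ T, max 1 (1 / ν p x)) ^ (2 * (((j : ℝ) + 1) * κ)))) := by
      refine Finset.sum_le_sum fun T hT => ?_
      exact mul_le_mul_of_nonneg_left (key T hT) (hwt T hT)
    refine h1.trans ?_
    have h2 : ∑ T ∈ V.powerset.filter (fun T => T.card ≤ dT5 ε P), wtR (t5 ε P) V T *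
          (48 * (M * Φ / R) ^ 2 * ∑ j ∈ range (Jr5 ε P), Real.exp (-(2 * (j : ℝ))) *
        ∑ x ∈ range (∏ p ∈ T, p), (∏ p ∈ T, (ν p (x : ℤ) / p)) *
        ((Nv T x) ^ 4 + (∏ p ∈ T, max 1 (1 / ν p x)) ^ (2 * (((j : ℝ) + 1) * κ)))) =
        48 * (M * Φ / R) ^ 2 * ∑ j ∈ range (Jr5 ε P), Real.exp (-(2 * (j : ℝ))) *
          (∑ T ∈ V.powerset.filter (fun T => T.card ≤ dT5 ε P), wtR (t5 ε P) V T *
            ∑ x ∈ range (∏ p ∈ T, p), (∏ p ∈ T, (ν p (x : ℤ) / p)) * (Nv T x) ^ 4 +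
          ∑ T ∈ V.powerset.filter (fun T => T.card ≤ dT5 ε P), wtR (t5 ε P) V T *
            ∑ x ∈ range (∏ p ∈ T, p), (∏ p ∈ T, (ν p (x : ℤ) / p)) *
            (∏ p ∈ T, max 1 (1 / ν p x)) ^ (2 * (((j : ℝ) + 1) * κ))) := by
      have h3 : ∀ T ∈ V.powerset.filter (fun T => T.card ≤ dT5 ε P), wtR (t5 ε P) V T *
          (48 * (M * Φ / R) ^ 2 * ∑ j ∈ range (Jr5 ε P), Real.exp (-(2 * (j : ℝ))) *
        ∑ x ∈ range (∏ p ∈ T, p), (∏ p ∈ T, (ν p (x : ℤ) / p)) *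
        ((Nv T x) ^ 4 + (∏ p ∈ T, max 1 (1 / ν p x)) ^ (2 * (((j : ℝ) + 1) * κ)))) =
          48 * (M * Φ / R) ^ 2 * ∑ j ∈ range (Jr5 ε P), Real.exp (-(2 * (j : ℝ))) *
          (wtR (t5 ε P) V T * ∑ x ∈ range (∏ p ∈ T, p), (∏ p ∈ T, (ν p (x : ℤ) / p)) *
            (Nv T x) ^ 4 + wtR (t5 ε P) V T * ∑ x ∈ range (∏ p ∈ T, p),
            (∏ p ∈ T, (ν p (x : ℤ) / p)) *
            (∏ p ∈ T, max 1 (1 / ν p x)) ^ (2 * (((j : ℝ) + 1) * κ))) := by
        intro T _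
        rw [mul_left_comm]
        congr 1
        rw [Finset.mul_sum]
        refine Finset.sum_congr rfl fun j _ => ?_
        rw [← mul_add, ← Finset.sum_add_distrib]
        have h4 : ∀ x ∈ range (∏ p ∈ T, p), (∏ p ∈ T, (ν p (x : ℤ) / p)) *
            ((Nv T x) ^ 4 + (∏ p ∈ T, max 1 (1 / ν p x)) ^ (2 * (((j : ℝ) + 1) * κ))) =
            (∏ p ∈ T, (ν p (x : ℤ) / p)) * (Nv T x) ^ 4 +
            (∏ p ∈ T, (ν p (x : ℤ) / p)) *
              (∏ p ∈ T, max 1 (1 / ν p x)) ^ (2 * (((j : ℝ) + 1) * κ)) :=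
          fun x _ => by ring
        rw [Finset.sum_congr rfl h4]
        ring
      rw [Finset.sum_congr rfl h3, ← Finset.mul_sum, Finset.sum_comm]
      congr 1
      refine Finset.sum_congr rfl fun j _ => ?_
      rw [← Finset.mul_sum, Finset.sum_add_distrib]
    rw [h2]
    apply mul_le_mul_of_nonneg_left _ (by positivity)
    have h5 : ∑ j ∈ range (Jr5 ε P), Real.exp (-(2 * (j : ℝ))) *
          (∑ T ∈ V.powerset.filter (fun T => T.card ≤ dT5 ε P), wtR (t5 ε P) V T *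
            ∑ x ∈ range (∏ p ∈ T, p), (∏ p ∈ T, (ν p (x : ℤ) / p)) * (Nv T x) ^ 4 +
          ∑ T ∈ V.powerset.filter (fun T => T.card ≤ dT5 ε P), wtR (t5 ε P) V T *
            ∑ x ∈ range (∏ p ∈ T, p), (∏ p ∈ T, (ν p (x : ℤ) / p)) *
            (∏ p ∈ T, max 1 (1 / ν p x)) ^ (2 * (((j : ℝ) + 1) * κ))) ≤
        ∑ j ∈ range (Jr5 ε P), (Real.exp (-(2 * (j : ℝ))) *
          (C1 * (R : ℝ) ^ (C1 * bc5 ε P)) +
          Real.exp (-(2 * (j : ℝ))) * Real.exp ((j : ℝ) + 1)) := by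
      refine Finset.sum_le_sum fun j hj => ?_
      rw [← mul_add]
      exact mul_le_mul_of_nonneg_left (add_le_add hNvM (hmean j hj)) (Real.exp_pos _).le
    refine h5.trans ?_
    rw [Finset.sum_add_distrib, ← Finset.sum_mul]
    have h6 := core5_geo (Jr5 ε P)
    have h7 := core5_geo2 (Jr5 ε P)
    have h8 : 0 ≤ C1 * (R : ℝ) ^ (C1 * bc5 ε P) := by positivity
    have h9 := mul_le_mul_of_nonneg_right h6 h8
    linarith
  refine hsum.trans ?_
  have hR1 : (1 : ℝ) ≤ R := by exact_mod_cast hR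
  set C := 48 * (2 * C1 + 6) with hC
  have hCC : C1 ≤ C := by rw [hC]; linarith
  have h5 : (R : ℝ) ^ (C1 * bc5 ε P) ≤ (R : ℝ) ^ (C * bc5 ε P) :=
    Real.rpow_le_rpow_of_exponent_le hR1 (mul_le_mul_of_nonneg_right hCC hb0)
  have h6 : 1 ≤ (R : ℝ) ^ (C * bc5 ε P) :=
    Real.one_le_rpow hR1 (mul_nonneg (by rw [hC]; positivity) hb0)
  have h7 : 2 * (C1 * (R : ℝ) ^ (C1 * bc5 ε P)) + 6 ≤
      (2 * C1 + 6) * (R : ℝ) ^ (C * bc5 ε P) := by
    have := mul_le_mul_of_nonneg_left h5 hC1.le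
    nlinarith
  have h8 : (0 : ℝ) ≤ 48 * (M * Φ / R) ^ 2 := by positivity
  have h9 := mul_le_mul_of_nonneg_left h7 h8
  refine h9.trans (le_of_eq ?_)
  have h10 : ∀ X Y : ℝ, 48 * Y * ((2 * C1 + 6) * X) = C * X * Y := by
    intro X Y
    rw [hC]; ring
  exact h10 _ _

end Vale.Agent.P042.UU
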