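import Vale.Agent.P042.UU.Core5FibC

set_option autoImplicit false

/-!
Block CORE5, fibre step: `core5_fib`.
-/

namespace Vale.Agent.P042.UU

open Polynomial Finset Vale.Agent.P042.SS Vale.Agent.P042.TT

/-- parameter of the level inequality in the range `j` -/
noncomputable def mj5 (ε P : ℝ) (j : ℕ) : ℕ := ⌈P ^ (1 - 97 * ε) / ((j : ℝ) + 1)⌉₊

/-- index of the range of a modulus -/
noncomputable def fibcl5 (ε P : ℝ) (q : ℕ) : ℕ := ⌊Real.log q / P ^ (96 * ε)⌋₊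

theorem core5_mj {ε : ℝ} (hε2 : ε ≤ 1 / 1000) {P : ℝ} {J' : ℕ} (hC : Core5Num ε J' P)
    {j : ℕ} (hj : j ∈ range (Jr5 ε P)) :
    2 ≤ mj5 ε P j ∧ (mj5 ε P j : ℝ) ≤ 2 * P ^ (1 - 97 * ε) / ((j : ℝ) + 1) ∧
      P ^ (1 - 97 * ε) / ((j : ℝ) + 1) ≤ mj5 ε P j := by
  have hP := hC.one_le
  have hP0 : 0 < P := by linarith
  have hj0 : (0 : ℝ) < (j : ℝ) + 1 := by positivity
  have hjle : (j : ℝ) ≤ P ^ (1 - 191 * ε) := by
    rw [Finset.mem_range] at hj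
    unfold Jr5 at hj
    have h1 : j ≤ ⌊P ^ (1 - 191 * ε)⌋₊ := by omega
    exact (Nat.le_floor_iff (by positivity)).1 h1
  have h191 : (1 : ℝ) ≤ P ^ (1 - 191 * ε) := Real.one_le_rpow hP (by linarith)
  have h3 : (1 : ℝ) < P ^ (1 - 97 * ε) / ((j : ℝ) + 1) := by
    rw [lt_div_iff₀ hj0, one_mul]
    have h4 : P ^ (1 - 97 * ε) = P ^ (94 * ε) * P ^ (1 - 191 * ε) := by
      rw [← Real.rpow_add hP0]
      congr 1
      ring
    rw [h4]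
    have h5 := hC.two
    nlinarith
  refine ⟨?_, ?_, ?_⟩
  · have h6 : 1 < mj5 ε P j := by
      unfold mj5
      rw [Nat.lt_ceil]
      exact_mod_cast h3
    omega
  · unfold mj5
    have h7 := Nat.ceil_lt_add_one (show 0 ≤ P ^ (1 - 97 * ε) / ((j : ℝ) + 1) by positivity)
    have h8 : 2 * P ^ (1 - 97 * ε) / ((j : ℝ) + 1) =
        P ^ (1 - 97 * ε) / ((j : ℝ) + 1) + P ^ (1 - 97 * ε) / ((j : ℝ) + 1) := by ring
    rw [h8]
    linarith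
  · exact Nat.le_ceil _

theorem core5_cl_range {ε P : ℝ} (hP : 1 ≤ P) {J' q : ℕ} (hq : q ∈ QZ5 ε P J' (Q5 ε P)) :
    fibcl5 ε P q ∈ range (Jr5 ε P) := by
  obtain ⟨h1, h2, _⟩ := core5_mem_QZ5 hq
  have hP0 : 0 < P := by linarith
  rw [Finset.mem_range]
  unfold Jr5 fibcl5
  apply Nat.lt_succ_of_le
  apply Nat.floor_mono
  have hq0 : (0 : ℝ) < q := by exact_mod_cast h1
  have h3 : (q : ℝ) ≤ Real.exp (P ^ (1 - 95 * ε)) := by
    have h4 : (q : ℝ) ≤ (Q5 ε P : ℝ) := by exact_mod_cast h2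
    exact h4.trans (Nat.floor_le (Real.exp_pos _).le)
  have h5 : Real.log q ≤ P ^ (1 - 95 * ε) := by
    rwa [Real.log_le_iff_le_exp hq0]
  have h6 : (0 : ℝ) < P ^ (96 * ε) := by positivity
  rw [div_le_iff₀ h6, ← Real.rpow_add hP0]
  refine h5.trans (le_of_eq ?_)
  congr 1
  ring

theorem core5_X_one {T : Finset ℕ} {ν : ℕ → ℤ → ℝ} {x : ℕ} :
    1 ≤ ∏ p ∈ T, max 1 (1 / ν p x) := by
  calc (1 : ℝ) = ∏ p ∈ T, (1 : ℝ) := by simp
    _ ≤ _ := Finset.prod_le_prod (fun _ _ => zero_le_one) (fun p _ => le_max_left _ _)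

/-- size of the weight against the normalisation -/
theorem core5_ratio0 {E : ℝ} {T : Finset ℕ} {ν : ℕ → ℤ → ℝ} {x : ℕ} {B Φ : ℝ}
    (hν : ∀ p ∈ T, 0 < ν p x) (hB : 1 ≤ B) (hΦ : 0 < Φ) :
    (Real.exp E * Φ) / (B * Φ * ∏ p ∈ T, ν p x) ≤
      Real.exp E * ∏ p ∈ T, max 1 (1 / ν p x) := by
  have hνp : 0 < ∏ p ∈ T, ν p x := Finset.prod_pos hν
  have h4 : 1 / ∏ p ∈ T, ν p x ≤ ∏ p ∈ T, max 1 (1 / ν p x) := by
    rw [one_div, ← Finset.prod_inv_distrib]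
    apply Finset.prod_le_prod
    · intro p hp
      exact (inv_pos.2 (hν p hp)).le
    · intro p hp
      rw [← one_div]
      exact le_max_right _ _
  have hB0 : 0 < B := by linarith
  have h5 : (Real.exp E * Φ) / (B * Φ * ∏ p ∈ T, ν p x) =
      Real.exp E * ((1 / B) * (1 / ∏ p ∈ T, ν p x)) := by
    field_simp
  rw [h5]
  have h6 : 1 / B ≤ 1 := by
    rw [div_le_one (by linarith)]; exact hB
  have h7 : (0 : ℝ) ≤ 1 / ∏ p ∈ T, ν p x := by positivity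
  have h8 : (1 / B) * (1 / ∏ p ∈ T, ν p x) ≤ ∏ p ∈ T, max 1 (1 / ν p x) := by
    calc (1 / B) * (1 / ∏ p ∈ T, ν p x) ≤ 1 * (1 / ∏ p ∈ T, ν p x) :=
          mul_le_mul_of_nonneg_right h6 h7
      _ ≤ _ := by rw [one_mul]; exact h4
  exact mul_le_mul_of_nonneg_left h8 (Real.exp_pos _).le

theorem core5_ratio {ε P : ℝ} (hε : 0 < ε) (hP : 1 ≤ P) {T : Finset ℕ} {ν : ℕ → ℤ → ℝ}
    {x : ℕ} {B Φ : ℝ} {j m : ℕ} (hν : ∀ p ∈ T, 0 < ν p x) (hB : 1 ≤ B) (hΦ : 0 < Φ)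
    (hinv : 1 / (m : ℝ) ≤ ((j : ℝ) + 1) * P ^ (-(1 - 97 * ε))) :
    1 + ((Real.exp (P ^ (1 - 97.5 * ε)) * Φ) / (B * Φ * ∏ p ∈ T, ν p x)) ^ (1 / (m : ℝ)) ≤
      2 * (Real.exp ((j : ℝ) + 1) *
        (∏ p ∈ T, max 1 (1 / ν p x)) ^ (((j : ℝ) + 1) * P ^ (-(1 - 97 * ε)))) := by
  have hPpos : 0 < P := by linarith
  have hνp : 0 < ∏ p ∈ T, ν p x := Finset.prod_pos hν
  have hX1 := core5_X_one (T := T) (ν := ν) (x := x)
  have h3 := core5_ratio0 (E := P ^ (1 - 97.5 * ε)) hν hB hΦ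
  generalize (∏ p ∈ T, max 1 (1 / ν p x)) = X at hX1 h3 ⊢
  have hB0 : 0 < B := by linarith
  have h9 : ((Real.exp (P ^ (1 - 97.5 * ε)) * Φ) / (B * Φ * ∏ p ∈ T, ν p x)) ^
      (1 / (m : ℝ)) ≤ (Real.exp (P ^ (1 - 97.5 * ε)) * X) ^ (1 / (m : ℝ)) := by
    apply Real.rpow_le_rpow _ h3 (by positivity)
    positivity
  have h20 : (Real.exp (P ^ (1 - 97.5 * ε)) * X) ^ (1 / (m : ℝ)) ≤
      Real.exp ((j : ℝ) + 1) * X ^ (((j : ℝ) + 1) * P ^ (-(1 - 97 * ε))) := by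
    rw [Real.mul_rpow (Real.exp_pos _).le (by linarith), ← Real.exp_mul]
    apply mul_le_mul
    · apply Real.exp_le_exp.2
      have h10 : P ^ (1 - 97.5 * ε) * (1 / (m : ℝ)) ≤
          P ^ (1 - 97.5 * ε) * (((j : ℝ) + 1) * P ^ (-(1 - 97 * ε))) :=
        mul_le_mul_of_nonneg_left hinv (by positivity)
      refine h10.trans ?_
      have h11 : P ^ (1 - 97.5 * ε) * (((j : ℝ) + 1) * P ^ (-(1 - 97 * ε))) =
          ((j : ℝ) + 1) * P ^ (-(0.5 * ε)) := by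
        have : P ^ (-(0.5 * ε)) = P ^ (1 - 97.5 * ε) * P ^ (-(1 - 97 * ε)) := by
          rw [← Real.rpow_add hPpos]
          congr 1
          ring
        rw [this]
        ring
      rw [h11]
      have h12 : P ^ (-(0.5 * ε)) ≤ 1 := Real.rpow_le_one_of_one_le_of_nonpos hP (by linarith)
      have h13 : (0 : ℝ) ≤ (j : ℝ) + 1 := by positivity
      exact mul_le_of_le_one_right h13 h12
    · exact Real.rpow_le_rpow_of_exponent_le hX1 hinv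
    · positivity
    · positivity
  have hZ1 : 1 ≤ X ^ (((j : ℝ) + 1) * P ^ (-(1 - 97 * ε))) := Real.one_le_rpow hX1 (by positivity)
  have h4 : 1 ≤ Real.exp ((j : ℝ) + 1) := Real.one_le_exp (by positivity)
  have h5 : 1 ≤ Real.exp ((j : ℝ) + 1) * X ^ (((j : ℝ) + 1) * P ^ (-(1 - 97 * ε))) :=
    one_le_mul_of_one_le_of_one_le h4 hZ1
  linarith

/-- sizes in the range `j` -/
theorem core5_szj {ε P : ℝ} {J' : ℕ} (hJ : 1 ≤ J') (hC : Core5Num ε J' P) {m j : ℕ} (hm : 2 ≤ m)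
    (hmle : (m : ℝ) ≤ 2 * P ^ (1 - 97 * ε) / ((j : ℝ) + 1)) :
    ((j : ℝ) + 1) * P ^ (96 * ε) * (J' * (2 * (m : ℝ) + 1) + 2 * (m : ℝ)) ≤
      7 / 8 * P - Real.log P - P ^ (1 - 92 * ε) - P ^ (1 - 53 * ε) * (2 * Real.log P) := by
  have hP := hC.one_le
  have hPpos : 0 < P := by linarith
  have hm1 : (1 : ℝ) ≤ (m : ℝ) := by exact_mod_cast (by omega : 1 ≤ m)
  have hJr : (1 : ℝ) ≤ (J' : ℝ) := by exact_mod_cast hJ
  have hj0 : (0 : ℝ) < (j : ℝ) + 1 := by positivity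
  set E0 : ℝ := ((j : ℝ) + 1) * P ^ (96 * ε) with hE0
  have hEm : E0 * m ≤ 2 * P ^ (1 - ε) := by
    have h1 : E0 * m ≤ E0 * (2 * P ^ (1 - 97 * ε) / ((j : ℝ) + 1)) :=
      mul_le_mul_of_nonneg_left hmle (by positivity)
    refine h1.trans (le_of_eq ?_)
    have h2 : P ^ (1 - ε) = P ^ (96 * ε) * P ^ (1 - 97 * ε) := by
      rw [← Real.rpow_add hPpos]
      congr 1
      ring
    rw [hE0, h2]
    field_simp
  refine le_trans ?_ hC.size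
  have h1 : J' * (2 * (m : ℝ) + 1) + 2 * (m : ℝ) ≤ 5 * J' * m := by nlinarith
  have h2 : (0 : ℝ) ≤ E0 := by positivity
  calc E0 * (J' * (2 * (m : ℝ) + 1) + 2 * (m : ℝ)) ≤ E0 * (5 * J' * m) :=
        mul_le_mul_of_nonneg_left h1 h2
    _ = 5 * J' * (E0 * m) := by ring
    _ ≤ 5 * J' * (2 * P ^ (1 - ε)) := mul_le_mul_of_nonneg_left hEm (by positivity)
    _ = 10 * J' * P ^ (1 - ε) := by ring

/-- the moduli of the range `j` -/
theorem core5_mem_range {ε P : ℝ} (hP : 1 ≤ P) {J' R q j : ℕ}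
    (hq : q ∈ ((QZ5 ε P J' (Q5 ε P)).filter (fun q => Nat.Coprime q R)).filter
      (fun q => fibcl5 ε P q = j)) :
    q ∈ QZ5 ε P J' (Q5 ε P) ∧ Nat.Coprime q R ∧ (j : ℝ) * P ^ (96 * ε) ≤ Real.log q ∧
      Real.log q ≤ ((j : ℝ) + 1) * P ^ (96 * ε) := by
  rw [Finset.mem_filter] at hq
  have h1 := Finset.mem_filter.1 hq.1
  have h96 : (0 : ℝ) < P ^ (96 * ε) := by positivity
  have hq1 : 1 ≤ q := (core5_mem_QZ5 h1.1).1
  have hlog : 0 ≤ Real.log q := Real.log_nonneg (by exact_mod_cast hq1)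
  have h2 := hq.2
  unfold fibcl5 at h2
  refine ⟨h1.1, h1.2, ?_, ?_⟩
  · have h3 : (j : ℝ) ≤ Real.log q / P ^ (96 * ε) := by
      rw [← h2]
      exact Nat.floor_le (by positivity)
    rwa [le_div_iff₀ h96] at h3
  · have h3 : Real.log q / P ^ (96 * ε) < (j : ℝ) + 1 := by
      rw [← h2]
      exact Nat.lt_floor_add_one _
    rw [div_lt_iff₀ h96] at h3
    exact h3.le

theorem core5_inv {ε P : ℝ} (hP : 0 < P) {m j : ℕ} (hm : 2 ≤ m)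
    (hmge : P ^ (1 - 97 * ε) / ((j : ℝ) + 1) ≤ m) :
    1 / (m : ℝ) ≤ ((j : ℝ) + 1) * P ^ (-(1 - 97 * ε)) := by
  have hm0 : (0 : ℝ) < (m : ℝ) := by exact_mod_cast (by omega : 0 < m)
  have hj0 : (0 : ℝ) < (j : ℝ) + 1 := by positivity
  have hL0 : 0 < P ^ (1 - 97 * ε) := by positivity
  rw [Real.rpow_neg hP.le, div_le_iff₀ hm0]
  rw [div_le_iff₀ hj0] at hmge
  have h1 : ((j : ℝ) + 1) * (P ^ (1 - 97 * ε))⁻¹ * (m : ℝ) =
      (m * ((j : ℝ) + 1)) * (P ^ (1 - 97 * ε))⁻¹ := by ring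
  rw [h1, ← div_eq_mul_inv, le_div_iff₀ hL0, one_mul]
  exact hmge

theorem core5_fin {j : ℝ} {K Z U : ℝ} (hK : 0 ≤ K) (hZ : 0 ≤ Z)
    (hU : U ≤ 2 * (Real.exp (j + 1) * Z)) :
    Real.exp (-(3 * j)) * (K * U) ≤ 6 * K * (Real.exp (-(2 * j)) * Z) := by
  calc Real.exp (-(3 * j)) * (K * U)
      ≤ Real.exp (-(3 * j)) * (K * (2 * (Real.exp (j + 1) * Z))) := by
        gcongr
    _ = 2 * K * ((Real.exp (-(3 * j)) * Real.exp (j + 1)) * Z) := by ring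
    _ = 2 * K * ((Real.exp 1 * Real.exp (-(2 * j))) * Z) := by
        rw [← Real.exp_add, ← Real.exp_add]
        congr 3
        ring_nf
    _ = Real.exp 1 * (2 * K * (Real.exp (-(2 * j)) * Z)) := by ring
    _ ≤ 3 * (2 * K * (Real.exp (-(2 * j)) * Z)) := by
        apply mul_le_mul_of_nonneg_right _ (by positivity)
        have := Real.exp_one_lt_d9
        linarith
    _ = 6 * K * (Real.exp (-(2 * j)) * Z) := by ring

/-- one range, with the gain -/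
theorem core5_one_range {ε P : ℝ} (hε : 0 < ε) (hε2 : ε ≤ 1 / 1000) {J' : ℕ} (hJ : 1 ≤ J')
    (hC : Core5Num ε J' P) {k N' : ℕ} {Φ : ℝ} {G : ℤ → ℝ} {ν : ℕ → ℤ → ℝ}
    (hSt : St5 ε P k N' Φ G ν) {V : Finset ℕ} {R M : ℕ} {y r : ℤ}
    (hV : V ⊆ W5 ε P) (hR : 1 ≤ R) (hcop : ∀ p ∈ V, Nat.Coprime p R)
    (hRl : Real.log R ≤ P ^ (1 - 92 * ε)) (hNM : (N' : ℝ) ≤ P * M)
    {T : Finset ℕ} {x : ℕ} {B : ℝ} (hT : T ⊆ V) (hcard : T.card ≤ dT5 ε P)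
    (hν : ∀ p ∈ T, 0 < ν p x) (hB : 1 ≤ B)
    (hmass : ∀ S ⊆ PrC5 ε P R, ∏ p ∈ S, p ≤ Q5 ε P → ∀ z : ℤ,
        z ≡ (x : ℤ) [ZMOD ((∏ p ∈ T, p : ℕ) : ℤ)] → z ≡ r [ZMOD (R : ℕ)] →
        mass G y M (R * ((∏ p ∈ T, p) * ∏ p ∈ S, p ^ J')) z ≤
          B * (∏ p ∈ S, (p : ℝ) ^ (ε / 10)) * (∏ p ∈ T, (ν p x / p)) *
            (Φ * M / (R * ∏ p ∈ S, (p : ℝ) ^ J')))
    {j : ℕ} (hj : j ∈ range (Jr5 ε P)) :
    ∑ q ∈ ((QZ5 ε P J' (Q5 ε P)).filter (fun q => Nat.Coprime q R)).filter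
        (fun q => fibcl5 ε P q = j), zR5 ε P q * cellE G y M R (∏ p ∈ T, p) r x q ≤
      6 * (8 * ((M : ℝ) / (R * ((∏ p ∈ T, p : ℕ) : ℝ))) ^ 2 *
        (B * Φ * ∏ p ∈ T, ν p x) ^ 2) *
        (Real.exp (-(2 * (j : ℝ))) *
          (∏ p ∈ T, max 1 (1 / ν p x)) ^ (((j : ℝ) + 1) * P ^ (-(1 - 97 * ε)))) := by
  have hP := hC.one_le
  have hPpos : 0 < P := by linarith
  have hΦ : 0 < Φ := lt_of_lt_of_le (Real.exp_pos _) hSt.Φlo
  have hGm : 0 < Real.exp (P ^ (1 - 97.5 * ε)) * Φ := by positivity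
  obtain ⟨hm2, hmle, hmge⟩ := core5_mj hε2 hC hj
  generalize mj5 ε P j = m at hm2 hmle hmge
  have hj0 : (0 : ℝ) < (j : ℝ) + 1 := by positivity
  have hL0 : 0 < P ^ (1 - 97 * ε) := by positivity
  have hm2P : (m : ℝ) ≤ 2 * P ^ (1 - 97 * ε) := by
    refine hmle.trans ?_
    rw [div_le_iff₀ hj0]
    have : (0 : ℝ) ≤ (j : ℝ) := by positivity
    nlinarith
  have hinv := core5_inv hPpos hm2 hmge
  have hQn1 : ((min (Q5 ε P) ⌊Real.exp (((j : ℝ) + 1) * P ^ (96 * ε))⌋₊ : ℕ) : ℝ) ≤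
      Real.exp (((j : ℝ) + 1) * P ^ (96 * ε)) := by
    refine le_trans ?_ (Nat.floor_le (Real.exp_pos _).le)
    exact_mod_cast min_le_right _ _
  have h1 := core5_range hε hP hJ (m := m)
    (Qn := min (Q5 ε P) ⌊Real.exp (((j : ℝ) + 1) * P ^ (96 * ε))⌋₊)
    (E0 := ((j : ℝ) + 1) * P ^ (96 * ε)) (ρ := rho5 ε m)
    (Qs := ((QZ5 ε P J' (Q5 ε P)).filter (fun q => Nat.Coprime q R)).filter
      (fun q => fibcl5 ε P q = j)) (r := r) hSt.N'lo hNM hV hT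
    hcard hR hcop hRl hQn1 (core5_szj hJ hC hm2 hmle) (min_le_left _ _) hm2 hΦ hB hGm hν
    (fun p => core5_rho_nn m p)
    (fun p hp => core5_cond hε hm2 (core5_PrC_prime hp)) hSt.G0 hSt.Gle hmass
    (by
      intro q hq
      obtain ⟨h2, h3, h4, h5⟩ := core5_mem_range hP hq
      have hq1 : 1 ≤ q := (core5_mem_QZ5 h2).1
      refine ⟨hq1, ?_, h2, h3⟩
      apply le_min (core5_mem_QZ5 h2).2.1
      apply Nat.le_floor
      rwa [← Real.log_le_iff_le_exp (by exact_mod_cast hq1)])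
  have hstep : ∑ q ∈ ((QZ5 ε P J' (Q5 ε P)).filter (fun q => Nat.Coprime q R)).filter
        (fun q => fibcl5 ε P q = j), zR5 ε P q * cellE G y M R (∏ p ∈ T, p) r x q ≤
      Real.exp (-(3 * (j : ℝ))) *
        ∑ q ∈ ((QZ5 ε P J' (Q5 ε P)).filter (fun q => Nat.Coprime q R)).filter
        (fun q => fibcl5 ε P q = j),
        (∏ p ∈ q.primeFactors, rho5 ε m p) * cellE G y M R (∏ p ∈ T, p) r x q := by
    rw [Finset.mul_sum]
    apply Finset.sum_le_sum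
    intro q hq
    obtain ⟨h1, h2, h3, _⟩ := core5_mem_range hP hq
    rw [← mul_assoc]
    exact mul_le_mul_of_nonneg_right (core5_zR_le hε hJ hC hm2 hm2P h1 h3)
      (coref_cellE_nn _ _ _ _ _ _ _ _)
  refine hstep.trans ((mul_le_mul_of_nonneg_left h1 (Real.exp_pos _).le).trans ?_)
  exact core5_fin (by positivity)
    (Real.rpow_nonneg (zero_le_one.trans core5_X_one) _) (core5_ratio hε hP hν hB hΦ hinv)

/-- the fibre step of CORE5 -/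
theorem core5_fib : Core5FibStmt := by
  intro k J' ε hk hJ hε hε2
  obtain ⟨P0, hP0⟩ := core5_num hε hε2 hJ
  refine ⟨P0, ?_⟩
  intro P hPP N' Φ G ν hSt V R M y r hV hR hcop hRl hMN hNM T x B hT hcard hν0 hB hmass
  have hC := hP0 P hPP
  have hP := hC.one_le
  have hν : ∀ p ∈ T, 0 < ν p x := fun p hp =>
    lt_of_le_of_ne (hSt.wts.nn p x) (Ne.symm (hν0 p hp))
  have hsplit : ∑ q ∈ (QZ5 ε P J' (Q5 ε P)).filter (fun q => Nat.Coprime q R),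
        zR5 ε P q * cellE G y M R (∏ p ∈ T, p) r x q =
      ∑ j ∈ range (Jr5 ε P),
        ∑ q ∈ ((QZ5 ε P J' (Q5 ε P)).filter (fun q => Nat.Coprime q R)).filter
          (fun q => fibcl5 ε P q = j),
        zR5 ε P q * cellE G y M R (∏ p ∈ T, p) r x q :=
    (Finset.sum_fiberwise_of_maps_to (fun q hq =>
      core5_cl_range hP (Finset.mem_filter.1 hq).1) _).symm
  have hgoal : ∑ q ∈ (QZ5 ε P J' (Q5 ε P)).filter (fun q => Nat.Coprime q R),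
        zR5 ε P q * cellE G y M R (∏ p ∈ T, p) r x q ≤
      48 * (M * Φ / (R * ∏ p ∈ T, (p : ℝ))) ^ 2 * (∏ p ∈ T, (ν p x) ^ 2) * B ^ 2 *
        ∑ j ∈ range (Jr5 ε P), Real.exp (-(2 * (j : ℝ))) *
          (∏ p ∈ T, max 1 (1 / ν p x)) ^ (((j : ℝ) + 1) * P ^ (-(1 - 97 * ε))) := by
    rw [hsplit]
    refine (Finset.sum_le_sum (fun j hj => core5_one_range hε hε2 hJ hC hSt hV hR hcop hRl hNM
      hT hcard hν hB hmass hj)).trans (le_of_eq ?_)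
    rw [← Finset.mul_sum, Nat.cast_prod, Finset.prod_pow]
    ring
  exact hgoal

end Vale.Agent.P042.UU
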