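import Vale.Agent.P042.UU.Core5Defs
import Vale.Agent.P042.TT.CoreFib

set_option autoImplicit false

/-!
Block CORE5, fibre step, part A: the moduli and the rates.
-/

namespace Vale.Agent.P042.UU

open Polynomial Finset Vale.Agent.P042.SS Vale.Agent.P042.TT

/-- exponent facts of the fibre step -/
structure Core5Num (ε : ℝ) (J' : ℕ) (P : ℝ) : Prop where
  one_le : 1 ≤ P
  two : 2 < P ^ (94 * ε)
  gain : 3 ≤ ε / (10 * J') * P ^ (96 * ε)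
  rate : ∀ p : ℝ, P ^ (2 - 190 * ε) ≤ p →
    48 * P ^ (1 - 97 * ε) * p ^ (ε / 10) * (P ^ (ε / 2) * p ^ (-(1 / 2) + ε / 10 : ℝ)) ≤
      p ^ (-(ε / 10))
  size : 10 * J' * P ^ (1 - ε) ≤ 7 / 8 * P - Real.log P - P ^ (1 - 92 * ε) -
    P ^ (1 - 53 * ε) * (2 * Real.log P)

theorem core5_mem_QZ5 {ε P : ℝ} {J' Q q : ℕ} (hq : q ∈ QZ5 ε P J' Q) :
    1 ≤ q ∧ q ≤ Q ∧ ∀ p ∈ q.primeFactors, ⌊P ^ (2 - 190 * ε)⌋₊ < p ∧ q.factorization p ≤ J' := by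
  unfold QZ5 at hq
  rw [Finset.mem_filter, Finset.mem_Icc] at hq
  exact ⟨hq.1.1, hq.1.2, hq.2⟩

theorem core5_primeFactors_sub {ε P : ℝ} (hP : 1 ≤ P) {J' : ℕ} {R q : ℕ}
    (hq : q ∈ QZ5 ε P J' (Q5 ε P)) (hR : Nat.Coprime q R) : q.primeFactors ⊆ PrC5 ε P R := by
  obtain ⟨h1, h2, h5⟩ := core5_mem_QZ5 hq
  intro p hp
  have hpp := Nat.prime_of_mem_primeFactors hp
  have hd := Nat.dvd_of_mem_primeFactors hp
  unfold PrC5
  rw [Finset.mem_filter, Finset.mem_range]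
  refine ⟨?_, hpp, ?_, ?_⟩
  · have := Nat.le_of_dvd h1 hd
    omega
  · exact (Nat.floor_lt (by positivity)).1 (h5 p hp).1
  · exact Nat.Coprime.coprime_dvd_left hd hR

theorem core5_PrC_prime {ε P : ℝ} {R p : ℕ} (hp : p ∈ PrC5 ε P R) : p.Prime := by
  unfold PrC5 at hp
  exact (Finset.mem_filter.1 hp).2.1

theorem core5_PrC_low {ε P : ℝ} {R p : ℕ} (hp : p ∈ PrC5 ε P R) : P ^ (2 - 190 * ε) < p := by
  unfold PrC5 at hp
  exact (Finset.mem_filter.1 hp).2.2.1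

theorem core5_prime_of_W {ε P : ℝ} {V : Finset ℕ} (hV : V ⊆ W5 ε P) {p : ℕ} (hp : p ∈ V) :
    p.Prime := by
  have := hV hp
  unfold W5 Wp at this
  exact (Finset.mem_filter.1 this).2

theorem core5_W_le {ε P : ℝ} (hP : 1 ≤ P) {V : Finset ℕ} (hV : V ⊆ W5 ε P) {p : ℕ}
    (hp : p ∈ V) : (p : ℝ) ≤ P ^ (2 - 190 * ε) := by
  have := hV hp
  unfold W5 Wp at this
  have h1 := (Finset.mem_Ioc.1 (Finset.mem_filter.1 this).1).2
  exact (Nat.le_floor_iff (by positivity)).1 h1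

theorem core5_PrC_cop {ε P : ℝ} (hP : 1 ≤ P) {V T : Finset ℕ} (hV : V ⊆ W5 ε P) (hT : T ⊆ V)
    {R p : ℕ} (hp : p ∈ PrC5 ε P R) : Nat.Coprime p (R * ∏ p ∈ T, p) := by
  have hpp := core5_PrC_prime hp
  have hlow := core5_PrC_low hp
  unfold PrC5 at hp
  obtain ⟨_, _, _, h4⟩ := Finset.mem_filter.1 hp
  apply Nat.Coprime.mul_right h4
  apply Nat.Coprime.prod_right
  intro l hl
  rw [Nat.coprime_primes hpp (core5_prime_of_W hV (hT hl))]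
  rintro rfl
  have := core5_W_le hP hV (hT hl)
  linarith

/-- the rate of the range with parameter `m` -/
noncomputable def rho5 (ε : ℝ) (m p : ℕ) : ℝ := 1 / (24 * (m : ℝ) * (p : ℝ) ^ (ε / 10))

theorem core5_rho_nn {ε : ℝ} (m p : ℕ) : 0 ≤ rho5 ε m p := by
  unfold rho5; positivity

theorem core5_cond {ε : ℝ} (hε : 0 < ε) {m p : ℕ} (hm : 2 ≤ m) (hp : p.Prime) :
    12 * (m : ℝ) * rho5 ε m p * (1 + (p : ℝ) ^ (ε / 10)) ≤ 1 := by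
  unfold rho5
  have hm0 : (0 : ℝ) < (m : ℝ) := by exact_mod_cast (by omega : 0 < m)
  have hp1 : (1 : ℝ) ≤ p := by exact_mod_cast hp.one_le
  have hx : (1 : ℝ) ≤ (p : ℝ) ^ (ε / 10) := Real.one_le_rpow hp1 (by positivity)
  have hx0 : (0 : ℝ) < (p : ℝ) ^ (ε / 10) := by positivity
  have he : 12 * (m : ℝ) * (1 / (24 * (m : ℝ) * (p : ℝ) ^ (ε / 10))) * (1 + (p : ℝ) ^ (ε / 10)) =
      (1 + (p : ℝ) ^ (ε / 10)) / (2 * (p : ℝ) ^ (ε / 10)) := by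
    field_simp
    ring
  rw [he, div_le_one (by positivity)]
  linarith

theorem core5_zr_nn {ε P : ℝ} (hP : 1 ≤ P) (p j : ℕ) : 0 ≤ zr5 ε P p j := by
  unfold zr5
  split_ifs <;> positivity

theorem core5_zr_le {ε P : ℝ} (hε : 0 < ε) {J' : ℕ} (hC : Core5Num ε J' P) {m p i : ℕ}
    (hm : 2 ≤ m) (hm2 : (m : ℝ) ≤ 2 * P ^ (1 - 97 * ε)) (hp : p.Prime)
    (hlow : P ^ (2 - 190 * ε) < p) :
    zr5 ε P p i ≤ rho5 ε m p * (p : ℝ) ^ (-(ε / 10)) := by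
  have hP := hC.one_le
  have hp1 : (1 : ℝ) ≤ p := by exact_mod_cast hp.one_le
  have hm0 : (0 : ℝ) < (m : ℝ) := by exact_mod_cast (by omega : 0 < m)
  have hx0 : (0 : ℝ) < (p : ℝ) ^ (ε / 10) := by positivity
  have h1 : zr5 ε P p i ≤ P ^ (ε / 2) * (p : ℝ) ^ (-(1 / 2) + ε / 10 : ℝ) := by
    unfold zr5
    split_ifs
    · exact le_rfl
    · have ha : (p : ℝ) ^ (-0.9 : ℝ) ≤ (p : ℝ) ^ (-(1 / 2) + ε / 10 : ℝ) :=
        Real.rpow_le_rpow_of_exponent_le hp1 (by linarith)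
      have hb : (1 : ℝ) ≤ P ^ (ε / 2) := Real.one_le_rpow hP (by positivity)
      have hc : (0 : ℝ) ≤ (p : ℝ) ^ (-(1 / 2) + ε / 10 : ℝ) := by positivity
      nlinarith
  refine h1.trans ?_
  have h2 := hC.rate p hlow.le
  have h3 : (0 : ℝ) ≤ P ^ (ε / 2) * (p : ℝ) ^ (-(1 / 2) + ε / 10 : ℝ) := by positivity
  unfold rho5
  rw [div_mul_eq_mul_div, one_mul, le_div_iff₀ (by positivity)]
  refine le_trans ?_ h2
  have h4 : P ^ (ε / 2) * (p : ℝ) ^ (-(1 / 2) + ε / 10 : ℝ) * (24 * (m : ℝ) * (p : ℝ) ^ (ε / 10)) =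
      24 * (m : ℝ) * ((p : ℝ) ^ (ε / 10) * (P ^ (ε / 2) * (p : ℝ) ^ (-(1 / 2) + ε / 10 : ℝ))) := by
    ring
  have h5 : 48 * P ^ (1 - 97 * ε) * (p : ℝ) ^ (ε / 10) *
      (P ^ (ε / 2) * (p : ℝ) ^ (-(1 / 2) + ε / 10 : ℝ)) =
      24 * (2 * P ^ (1 - 97 * ε)) *
        ((p : ℝ) ^ (ε / 10) * (P ^ (ε / 2) * (p : ℝ) ^ (-(1 / 2) + ε / 10 : ℝ))) := by ring
  rw [h4, h5]
  have h6 : (0 : ℝ) ≤ (p : ℝ) ^ (ε / 10) * (P ^ (ε / 2) * (p : ℝ) ^ (-(1 / 2) + ε / 10 : ℝ)) := by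
    positivity
  gcongr

theorem core5_zR_le {ε P : ℝ} (hε : 0 < ε) {J' : ℕ} (hJ : 1 ≤ J') (hC : Core5Num ε J' P)
    {m q j : ℕ} (hm : 2 ≤ m) (hm2 : (m : ℝ) ≤ 2 * P ^ (1 - 97 * ε))
    (hq : q ∈ QZ5 ε P J' (Q5 ε P)) (hbig : (j : ℝ) * P ^ (96 * ε) ≤ Real.log q) :
    zR5 ε P q ≤ Real.exp (-(3 * (j : ℝ))) * ∏ p ∈ q.primeFactors, rho5 ε m p := by
  obtain ⟨h1, h2, h5⟩ := core5_mem_QZ5 hq
  have hP := hC.one_le
  have hstep : zR5 ε P q ≤ ∏ p ∈ q.primeFactors, (rho5 ε m p * (p : ℝ) ^ (-(ε / 10))) := by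
    unfold zR5
    apply Finset.prod_le_prod (fun p _ => core5_zr_nn hP p _)
    intro p hp
    have hpp := Nat.prime_of_mem_primeFactors hp
    have hlow : P ^ (2 - 190 * ε) < p := (Nat.floor_lt (by positivity)).1 (h5 p hp).1
    exact core5_zr_le hε hC hm hm2 hpp hlow
  refine hstep.trans ?_
  rw [Finset.prod_mul_distrib, mul_comm]
  apply mul_le_mul_of_nonneg_right _ (Finset.prod_nonneg fun p _ => core5_rho_nn m p)
  -- the radical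
  have hJ0 : (0 : ℝ) < J' := by exact_mod_cast hJ
  have hrad1 : (1 : ℝ) ≤ ((∏ p ∈ q.primeFactors, p : ℕ) : ℝ) := by
    exact_mod_cast Finset.one_le_prod' (fun p hp => (Nat.prime_of_mem_primeFactors hp).one_le)
  have hprod : ∏ p ∈ q.primeFactors, (p : ℝ) ^ (-(ε / 10)) =
      ((∏ p ∈ q.primeFactors, p : ℕ) : ℝ) ^ (-(ε / 10)) := by
    rw [Nat.cast_prod, Real.finsetProd_rpow _ _ (fun p _ => by positivity)]
  rw [hprod]
  have hq1 : (q : ℝ) ≤ ((∏ p ∈ q.primeFactors, p : ℕ) : ℝ) ^ J' := by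
    exact_mod_cast coref_le_rad_pow h1 (fun p hp => (h5 p hp).2)
  have hq0 : (0 : ℝ) < q := by exact_mod_cast h1
  have hlog : (j : ℝ) * P ^ (96 * ε) ≤ J' * Real.log ((∏ p ∈ q.primeFactors, p : ℕ) : ℝ) := by
    refine hbig.trans ?_
    have h7 := Real.log_le_log hq0 hq1
    rwa [Real.log_pow] at h7
  rw [Real.rpow_def_of_pos (by linarith)]
  apply Real.exp_le_exp.2
  have h8 : (j : ℝ) * P ^ (96 * ε) / J' ≤ Real.log ((∏ p ∈ q.primeFactors, p : ℕ) : ℝ) := by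
    rw [div_le_iff₀ hJ0]; linarith
  have h9 : (3 : ℝ) * j ≤ (ε / (10 * J') * P ^ (96 * ε)) * j :=
    mul_le_mul_of_nonneg_right hC.gain (by positivity)
  have h10 : (ε / (10 * J') * P ^ (96 * ε)) * j = (ε / 10) * ((j : ℝ) * P ^ (96 * ε) / J') := by
    field_simp
  have h11 : (ε / 10) * ((j : ℝ) * P ^ (96 * ε) / J') ≤
      (ε / 10) * Real.log ((∏ p ∈ q.primeFactors, p : ℕ) : ℝ) :=
    mul_le_mul_of_nonneg_left h8 (by positivity)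
  linarith

end Vale.Agent.P042.UU
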