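import Vale.Agent.P042.UU.Core5FibA

set_option autoImplicit false

/-!
Block CORE5, fibre step, part B: sizes, one range of moduli.
-/

namespace Vale.Agent.P042.UU

open Polynomial Finset Vale.Agent.P042.SS Vale.Agent.P042.TT

theorem core5_prodT_le {ε P : ℝ} (hε : 0 < ε) (hP : 1 ≤ P) {V T : Finset ℕ} (hV : V ⊆ W5 ε P)
    (hT : T ⊆ V) (hcard : T.card ≤ dT5 ε P) :
    ((∏ p ∈ T, p : ℕ) : ℝ) ≤ Real.exp (P ^ (1 - 53 * ε) * (2 * Real.log P)) := by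
  have hlogP : 0 ≤ Real.log P := Real.log_nonneg hP
  have hP0 : 0 < P := by linarith
  have h1 : Real.log ((∏ p ∈ T, p : ℕ) : ℝ) ≤ P ^ (1 - 53 * ε) * (2 * Real.log P) := by
    rw [Nat.cast_prod, Real.log_prod (fun p hp => by
      have := (core5_prime_of_W hV (hT hp)).pos
      positivity)]
    calc ∑ p ∈ T, Real.log (p : ℝ) ≤ ∑ _p ∈ T, 2 * Real.log P := by
          apply Finset.sum_le_sum
          intro p hp
          have hp0 : (0 : ℝ) < p := by exact_mod_cast (core5_prime_of_W hV (hT hp)).pos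
          have h2 := core5_W_le hP hV (hT hp)
          have h3 : (p : ℝ) ≤ P ^ (2 : ℝ) :=
            h2.trans (Real.rpow_le_rpow_of_exponent_le hP (by linarith))
          have h4 := Real.log_le_log hp0 h3
          rwa [Real.log_rpow hP0] at h4
      _ = (T.card : ℝ) * (2 * Real.log P) := by rw [Finset.sum_const, nsmul_eq_mul]
      _ ≤ P ^ (1 - 53 * ε) * (2 * Real.log P) := by
          apply mul_le_mul_of_nonneg_right _ (by positivity)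
          have h5 : (T.card : ℝ) ≤ (dT5 ε P : ℝ) := by exact_mod_cast hcard
          exact h5.trans (Nat.floor_le (by positivity))
  have h2 : (0 : ℝ) < ((∏ p ∈ T, p : ℕ) : ℝ) := by
    rw [Nat.cast_pos]
    exact Finset.prod_pos (fun p hp => (core5_prime_of_W hV (hT hp)).pos)
  rw [← Real.log_le_iff_le_exp h2]
  exact h1

theorem core5_size {ε P : ℝ} (hε : 0 < ε) (hP : 1 ≤ P) {N' M R J' m Qn : ℕ} {V T Pr : Finset ℕ}
    {E0 : ℝ} (hN : Real.exp (7 / 8 * P) ≤ N') (hNM : (N' : ℝ) ≤ P * M) (hV : V ⊆ W5 ε P)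
    (hT : T ⊆ V) (hcard : T.card ≤ dT5 ε P) (hR : 1 ≤ R)
    (hRl : Real.log R ≤ P ^ (1 - 92 * ε)) (hPr : ∀ p ∈ Pr, p.Prime)
    (hQ : (Qn : ℝ) ≤ Real.exp E0)
    (hs : E0 * (J' * (2 * (m : ℝ) + 1) + 2 * (m : ℝ)) ≤
      7 / 8 * P - Real.log P - P ^ (1 - 92 * ε) - P ^ (1 - 53 * ε) * (2 * Real.log P)) :
    R * (∏ p ∈ T, p) * ((Qn ^ J') ^ (2 * m + 1) * (TT.Fam Pr Qn).card ^ (2 * m)) ≤ M := by
  have hR0 : (0 : ℝ) < R := by exact_mod_cast hR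
  have h1 : (R : ℝ) ≤ Real.exp (P ^ (1 - 92 * ε)) := by
    rwa [← Real.log_le_iff_le_exp hR0]
  have h2 := core5_prodT_le hε hP hV hT hcard
  have h3 : (((Qn ^ J') ^ (2 * m + 1) : ℕ) : ℝ) ≤ Real.exp (E0 * (J' * (2 * (m : ℝ) + 1))) := by
    rw [← pow_mul, Nat.cast_pow]
    calc (Qn : ℝ) ^ (J' * (2 * m + 1)) ≤ (Real.exp E0) ^ (J' * (2 * m + 1)) :=
          pow_le_pow_left₀ (by positivity) hQ _
      _ = Real.exp (E0 * (J' * (2 * (m : ℝ) + 1))) := by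
          rw [← Real.exp_nat_mul]
          congr 1
          push_cast
          ring
  have h4 : (((TT.Fam Pr Qn).card ^ (2 * m) : ℕ) : ℝ) ≤ Real.exp (E0 * (2 * (m : ℝ))) := by
    rw [Nat.cast_pow]
    calc ((TT.Fam Pr Qn).card : ℝ) ^ (2 * m) ≤ (Real.exp E0) ^ (2 * m) := by
          apply pow_le_pow_left₀ (by positivity)
          exact le_trans (by exact_mod_cast coref_Fam_card hPr) hQ
      _ = Real.exp (E0 * (2 * (m : ℝ))) := by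
          rw [← Real.exp_nat_mul]
          congr 1
          push_cast
          ring
  have h5 : ((R * (∏ p ∈ T, p) * ((Qn ^ J') ^ (2 * m + 1) * (TT.Fam Pr Qn).card ^ (2 * m)) : ℕ) : ℝ)
      ≤ Real.exp (P ^ (1 - 92 * ε)) * Real.exp (P ^ (1 - 53 * ε) * (2 * Real.log P)) *
        (Real.exp (E0 * (J' * (2 * (m : ℝ) + 1))) * Real.exp (E0 * (2 * (m : ℝ)))) := by
    push_cast at h2 h3 h4 ⊢
    gcongr
  have h6 : Real.exp (P ^ (1 - 92 * ε)) * Real.exp (P ^ (1 - 53 * ε) * (2 * Real.log P)) *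
        (Real.exp (E0 * (J' * (2 * (m : ℝ) + 1))) * Real.exp (E0 * (2 * (m : ℝ)))) ≤
      Real.exp (7 / 8 * P) / P := by
    have hP0 : 0 < P := by linarith
    rw [← Real.exp_add, ← Real.exp_add, ← Real.exp_add]
    have : Real.exp (7 / 8 * P) / P = Real.exp (7 / 8 * P - Real.log P) := by
      rw [Real.exp_sub, Real.exp_log hP0]
    rw [this]
    apply Real.exp_le_exp.2
    nlinarith
  have h7 : Real.exp (7 / 8 * P) / P ≤ M := by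
    have hP0 : 0 < P := by linarith
    rw [div_le_iff₀ hP0]
    linarith
  exact_mod_cast h5.trans (h6.trans h7)

/-- one range of moduli -/
theorem core5_range {ε P : ℝ} (hε : 0 < ε) (hP : 1 ≤ P) {J' : ℕ} (hJ : 1 ≤ J')
    {N' M R m Qn : ℕ} {V T : Finset ℕ} {E0 Φ B Gm : ℝ} {G : ℤ → ℝ} {ν : ℕ → ℤ → ℝ}
    {y r : ℤ} {x : ℕ} {ρ : ℕ → ℝ} {Qs : Finset ℕ}
    (hN : Real.exp (7 / 8 * P) ≤ N') (hNM : (N' : ℝ) ≤ P * M) (hV : V ⊆ W5 ε P)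
    (hT : T ⊆ V) (hcard : T.card ≤ dT5 ε P) (hR : 1 ≤ R)
    (hcop : ∀ p ∈ V, Nat.Coprime p R)
    (hRl : Real.log R ≤ P ^ (1 - 92 * ε))
    (hQ : (Qn : ℝ) ≤ Real.exp E0)
    (hs : E0 * (J' * (2 * (m : ℝ) + 1) + 2 * (m : ℝ)) ≤
      7 / 8 * P - Real.log P - P ^ (1 - 92 * ε) - P ^ (1 - 53 * ε) * (2 * Real.log P))
    (hQ2 : Qn ≤ Q5 ε P) (hm : 2 ≤ m) (hΦ : 0 < Φ) (hB : 1 ≤ B) (hGm : 0 < Gm)
    (hν : ∀ p ∈ T, 0 < ν p x) (hρ0 : ∀ p, 0 ≤ ρ p)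
    (hρ : ∀ p ∈ PrC5 ε P R, 12 * (m : ℝ) * ρ p * (1 + (p : ℝ) ^ (ε / 10)) ≤ 1)
    (hG0 : ∀ n, 0 ≤ G n) (hG1 : ∀ n, G n ≤ Gm)
    (hmass : ∀ S ⊆ PrC5 ε P R, ∏ p ∈ S, p ≤ Q5 ε P → ∀ z : ℤ,
        z ≡ (x : ℤ) [ZMOD ((∏ p ∈ T, p : ℕ) : ℤ)] → z ≡ r [ZMOD (R : ℕ)] →
        mass G y M (R * ((∏ p ∈ T, p) * ∏ p ∈ S, p ^ J')) z ≤
          B * (∏ p ∈ S, (p : ℝ) ^ (ε / 10)) * (∏ p ∈ T, (ν p x / p)) *
            (Φ * M / (R * ∏ p ∈ S, (p : ℝ) ^ J')))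
    (hQs : ∀ q ∈ Qs, 1 ≤ q ∧ q ≤ Qn ∧ q ∈ QZ5 ε P J' (Q5 ε P) ∧ Nat.Coprime q R) :
    ∑ q ∈ Qs, (∏ p ∈ q.primeFactors, ρ p) * cellE G y M R (∏ p ∈ T, p) r x q ≤
      8 * ((M : ℝ) / (R * ((∏ p ∈ T, p : ℕ) : ℝ))) ^ 2 * (B * Φ * ∏ p ∈ T, ν p x) ^ 2 *
        (1 + (Gm / (B * Φ * ∏ p ∈ T, ν p x)) ^ (1 / (m : ℝ))) := by
  have hTp : ∀ p ∈ T, p.Prime := fun p hp => core5_prime_of_W hV (hT hp)
  have hDT : 1 ≤ ∏ p ∈ T, p := Finset.one_le_prod' (fun p hp => (hTp p hp).one_le)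
  have hνp : 0 < ∏ p ∈ T, ν p x := Finset.prod_pos hν
  have hβ : 0 < B * Φ * ∏ p ∈ T, ν p x := by positivity
  refine coreA_stmt (PrC5 ε P R) (fun _ => J') R (∏ p ∈ T, p) M (Qn ^ J') m
    (B * Φ * ∏ p ∈ T, ν p x) Gm ρ (fun p => (p : ℝ) ^ (ε / 10)) G y r x
    (TT.Fam (PrC5 ε P R) Qn) Qs
    (fun p hp => core5_PrC_prime hp) (fun p hp => core5_PrC_cop hP hV hT hp) (fun _ _ => hJ)
    hR hDT ?_ hm hβ hGm (fun p _ => hρ0 p) ?_ hρ hG0 hG1 ?_ ?_ ?_ ?_ ?_ ?_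
  · exact (Nat.Coprime.prod_left fun p hp => hcop p (hT hp)).symm
  · intro p hp
    exact Real.one_le_rpow (by exact_mod_cast (core5_PrC_prime hp).one_le) (by positivity)
  · intro S hS
    exact (coref_mem_Fam.1 hS).1
  · intro S hS T' hT'
    exact coref_Fam_down (fun p hp => core5_PrC_prime hp) hS hT'
  · intro S hS
    exact coref_Fam_D hS
  · exact core5_size hε hP hN hNM hV hT hcard hR hRl (fun p hp => core5_PrC_prime hp) hQ hs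
  · intro S hS z hz1 hz2
    have h1 := hmass S (coref_mem_Fam.1 hS).1 (le_trans (coref_mem_Fam.1 hS).2 hQ2) z hz1 hz2
    refine h1.trans (le_of_eq ?_)
    rw [Finset.prod_div_distrib, Nat.cast_prod]
    ring
  · intro q hq
    obtain ⟨h1, h2, h3, h4⟩ := hQs q hq
    refine ⟨h1, fun p hp => ⟨core5_primeFactors_sub hP h3 h4 hp, ((core5_mem_QZ5 h3).2.2 p hp).2⟩,
      ?_⟩
    rw [coref_mem_Fam]
    exact ⟨core5_primeFactors_sub hP h3 h4, (coref_rad_le h1).trans h2⟩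

end Vale.Agent.P042.UU
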