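import Vale.Agent.P042.UU.Core5FibB

set_option autoImplicit false

/-!
Block CORE5, fibre step, part C: the exponent facts hold for large `P`.
-/

namespace Vale.Agent.P042.UU

open Filter Topology Vale.Agent.P042.TT.CoreNumP

theorem core5_num {ε : ℝ} (hε : 0 < ε) (hε2 : ε ≤ 1 / 1000) {J' : ℕ} (hJ : 1 ≤ J') :
    ∃ P0 : ℝ, ∀ P : ℝ, P0 ≤ P → Core5Num ε J' P := by
  have hJ' : (1 : ℝ) ≤ J' := by exact_mod_cast hJ
  have hJ0 : (0 : ℝ) < J' := by linarith
  have H : ∀ᶠ P : ℝ in atTop, Core5Num ε J' P := by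
    filter_upwards [eventually_ge_atTop 1, ev0 (b := 94 * ε) (by positivity) 3,
      ev0 (b := 96 * ε) (by positivity) (3 * (10 * J' / ε)),
      ev0 (b := 0.9 * ε) (by positivity) 48,
      ev (a := 1 - ε) (b := 1) (by linarith) (8 * (10 * J')),
      ev (a := 1 - 92 * ε) (b := 1) (by linarith) 8,
      ev (a := 1 - 52 * ε) (b := 1) (by linarith) (8 * (2 / ε)),
      ev (a := 0.5) (b := 1) (by norm_num) 16] with P h1 h2 h3 h4 h5 h6 h7 h8
    have hP : 0 < P := by linarith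
    rw [Real.rpow_one] at h5 h6 h7 h8
    have hlog : Real.log P ≤ P / 8 := by
      have g1 := Real.log_le_rpow_div hP.le (show (0 : ℝ) < 0.5 by norm_num)
      have g2 : P ^ (0.5 : ℝ) / 0.5 = 2 * P ^ (0.5 : ℝ) := by ring
      linarith
    have hlog0 : 0 ≤ Real.log P := Real.log_nonneg h1
    refine ⟨h1, by linarith, ?_, ?_, ?_⟩
    · calc (3 : ℝ) = ε / (10 * J') * (3 * (10 * J' / ε)) := by
            field_simp
        _ ≤ ε / (10 * J') * P ^ (96 * ε) := mul_le_mul_of_nonneg_left h3 (by positivity)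
    · intro p hp
      have hP2 : (1 : ℝ) ≤ P ^ (2 - 190 * ε) := Real.one_le_rpow h1 (by linarith)
      have hp1 : 1 ≤ p := hP2.trans hp
      have hp0 : 0 < p := by linarith
      have e1 : 48 * P ^ (1 - 97 * ε) * p ^ (ε / 10) *
          (P ^ (ε / 2) * p ^ (-(1 / 2) + ε / 10 : ℝ)) =
          48 * (P ^ (1 - 97 * ε) * P ^ (ε / 2)) * (p ^ (ε / 10) * p ^ (-(1 / 2) + ε / 10 : ℝ)) := by
        ring
      have e2 : P ^ (1 - 97 * ε) * P ^ (ε / 2) = P ^ (1 - 96.5 * ε) := by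
        rw [← Real.rpow_add hP]
        congr 1
        ring
      have e3 : p ^ (ε / 10) * p ^ (-(1 / 2) + ε / 10 : ℝ) =
          p ^ (-(1 / 2 - 3 * ε / 10)) * p ^ (-(ε / 10)) := by
        rw [← Real.rpow_add hp0, ← Real.rpow_add hp0]
        congr 1
        ring
      rw [e1, e2, e3]
      have g3 : p ^ (-(1 / 2 - 3 * ε / 10)) ≤ P ^ (-((2 - 190 * ε) * (1 / 2 - 3 * ε / 10))) :=
        pw hP (by linarith) hp
      have g4 : P ^ (-((2 - 190 * ε) * (1 / 2 - 3 * ε / 10))) ≤ P ^ (-1 + 95.6 * ε) := by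
        apply Real.rpow_le_rpow_of_exponent_le h1
        nlinarith [mul_pos hε hε]
      have g5 : P ^ (1 - 96.5 * ε) * P ^ (-1 + 95.6 * ε) = P ^ (-(0.9 * ε)) := by
        rw [← Real.rpow_add hP]
        congr 1
        ring
      have g6 : P ^ (-(0.9 * ε)) = (P ^ (0.9 * ε))⁻¹ := Real.rpow_neg hP.le _
      have g7 : 0 < P ^ (0.9 * ε) := Real.rpow_pos_of_pos hP _
      have g8 : 0 ≤ p ^ (-(ε / 10)) := Real.rpow_nonneg hp0.le _
      have g9 : 0 ≤ P ^ (1 - 96.5 * ε) := Real.rpow_nonneg hP.le _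
      calc 48 * P ^ (1 - 96.5 * ε) * (p ^ (-(1 / 2 - 3 * ε / 10)) * p ^ (-(ε / 10)))
          ≤ 48 * P ^ (1 - 96.5 * ε) * (P ^ (-1 + 95.6 * ε) * p ^ (-(ε / 10))) := by
            gcongr
            exact g3.trans g4
        _ = 48 * (P ^ (1 - 96.5 * ε) * P ^ (-1 + 95.6 * ε)) * p ^ (-(ε / 10)) := by ring
        _ = 48 * (P ^ (0.9 * ε))⁻¹ * p ^ (-(ε / 10)) := by rw [g5, g6]
        _ ≤ P ^ (0.9 * ε) * (P ^ (0.9 * ε))⁻¹ * p ^ (-(ε / 10)) := by gcongr
        _ = p ^ (-(ε / 10)) := by rw [mul_inv_cancel₀ g7.ne', one_mul]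
    · have g1 : Real.log P ≤ P ^ ε / ε := Real.log_le_rpow_div hP.le hε
      have g2 : P ^ (1 - 53 * ε) * (2 * Real.log P) ≤ 2 / ε * P ^ (1 - 52 * ε) := by
        calc P ^ (1 - 53 * ε) * (2 * Real.log P) ≤ P ^ (1 - 53 * ε) * (2 * (P ^ ε / ε)) := by
              have := Real.rpow_nonneg hP.le (1 - 53 * ε)
              gcongr
          _ = 2 / ε * (P ^ (1 - 53 * ε) * P ^ ε) := by ring
          _ = 2 / ε * P ^ (1 - 52 * ε) := by
              rw [← Real.rpow_add hP]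
              congr 2
              ring
      linarith
  obtain ⟨P0, h⟩ := Filter.eventually_atTop.1 H
  exact ⟨P0, fun P hP => h P hP⟩

end Vale.Agent.P042.UU
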