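import Vale.Agent.P042.UU.SpecD

set_option autoImplicit false

/-!
Block DEC5, part 1: expansions and truncated subset sums.
-/

namespace Vale.Agent.P042.UU

open Finset

/-- tail of the elementary symmetric sums -/
lemma dec_tail (V : Finset ℕ) (a : ℕ → ℝ) (ha : ∀ p ∈ V, 0 ≤ a p) (d : ℕ) :
    ∑ T ∈ V.powerset.filter (fun T => d < T.card), ∏ p ∈ T, a p ≤
      Real.exp (3 * (∑ p ∈ V, a p) - (d + 1)) := by
  have he : Real.exp 1 ≤ 3 := by
    have := Real.exp_one_lt_d9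
    linarith
  have h1 : ∀ T ∈ V.powerset.filter (fun T => d < T.card), ∏ p ∈ T, a p ≤
      Real.exp (-(d + 1 : ℝ)) * ∏ p ∈ T, (Real.exp 1 * a p) := by
    intro T hT
    rw [mem_filter, mem_powerset] at hT
    have h0 : 0 ≤ ∏ p ∈ T, a p := prod_nonneg fun p hp => ha p (hT.1 hp)
    rw [prod_mul_distrib, prod_const, ← mul_assoc, ← Real.exp_nat_mul, ← Real.exp_add]
    have h2 : (1 : ℝ) ≤ Real.exp (-(d + 1 : ℝ) + (T.card : ℝ) * 1) := by
      apply Real.one_le_exp
      have : (d : ℝ) + 1 ≤ T.card := by exact_mod_cast hT.2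
      linarith
    nlinarith
  refine (sum_le_sum h1).trans ?_
  rw [← mul_sum]
  have h2 : ∑ T ∈ V.powerset.filter (fun T => d < T.card), ∏ p ∈ T, (Real.exp 1 * a p) ≤
      ∑ T ∈ V.powerset, ∏ p ∈ T, (Real.exp 1 * a p) :=
    sum_le_sum_of_subset_of_nonneg (filter_subset _ _) fun T hT _ =>
      prod_nonneg fun p hp => mul_nonneg (Real.exp_pos 1).le (ha p (mem_powerset.1 hT hp))
  have h3 : ∑ T ∈ V.powerset, ∏ p ∈ T, (Real.exp 1 * a p) = ∏ p ∈ V, (1 + Real.exp 1 * a p) :=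
    (prod_one_add V).symm
  have h4 : ∏ p ∈ V, (1 + Real.exp 1 * a p) ≤ Real.exp (3 * ∑ p ∈ V, a p) := by
    rw [mul_sum, Real.exp_sum]
    refine prod_le_prod (fun p hp => ?_) fun p hp => ?_
    · have := mul_nonneg (Real.exp_pos 1).le (ha p hp)
      linarith
    · have h5 := Real.add_one_le_exp (3 * a p)
      have h6 := mul_le_mul_of_nonneg_right he (ha p hp)
      linarith
  calc Real.exp (-(d + 1 : ℝ)) * ∑ T ∈ V.powerset.filter (fun T => d < T.card),
        ∏ p ∈ T, (Real.exp 1 * a p)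
      ≤ Real.exp (-(d + 1 : ℝ)) * Real.exp (3 * ∑ p ∈ V, a p) :=
        mul_le_mul_of_nonneg_left (h2.trans (h3 ▸ h4)) (Real.exp_pos _).le
    _ = Real.exp (3 * (∑ p ∈ V, a p) - (d + 1)) := by
        rw [← Real.exp_add]
        congr 1
        ring

/-- truncated subset sums -/
lemma dec_head (V : Finset ℕ) (a : ℕ → ℝ) (B X : ℝ) (hX : 1 ≤ X) (hB : 0 ≤ B)
    (hV : (V.card : ℝ) ≤ X) (ha : ∀ p ∈ V, 0 ≤ a p ∧ a p ≤ B) (u : ℕ) :
    ∑ T ∈ V.powerset.filter (fun T => T.card ≤ u), ∏ p ∈ T, a p ≤ X ^ u * Real.exp B := by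
  have hX0 : 0 < X := by linarith
  have h1 : ∀ T ∈ V.powerset.filter (fun T => T.card ≤ u), ∏ p ∈ T, a p ≤
      X ^ u * ∏ p ∈ T, (X⁻¹ * a p) := by
    intro T hT
    rw [mem_filter, mem_powerset] at hT
    have h0 : 0 ≤ ∏ p ∈ T, a p := prod_nonneg fun p hp => (ha p (hT.1 hp)).1
    rw [prod_mul_distrib, prod_const, ← mul_assoc]
    have h2 : (1 : ℝ) ≤ X ^ u * X⁻¹ ^ T.card := by
      rw [inv_pow]
      have h3 : X ^ T.card ≤ X ^ u := pow_le_pow_right₀ hX hT.2
      have h4 : 0 < X ^ T.card := pow_pos hX0 _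
      rw [← div_eq_mul_inv]
      exact (one_le_div h4).2 h3
    nlinarith
  refine (sum_le_sum h1).trans ?_
  rw [← mul_sum]
  refine mul_le_mul_of_nonneg_left ?_ (pow_pos hX0 _).le
  have h2 : ∑ T ∈ V.powerset.filter (fun T => T.card ≤ u), ∏ p ∈ T, (X⁻¹ * a p) ≤
      ∑ T ∈ V.powerset, ∏ p ∈ T, (X⁻¹ * a p) :=
    sum_le_sum_of_subset_of_nonneg (filter_subset _ _) fun T hT _ =>
      prod_nonneg fun p hp => mul_nonneg (inv_pos.2 hX0).le (ha p (mem_powerset.1 hT hp)).1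
  have h3 : ∑ T ∈ V.powerset, ∏ p ∈ T, (X⁻¹ * a p) = ∏ p ∈ V, (1 + X⁻¹ * a p) :=
    (prod_one_add V).symm
  refine (h2.trans (le_of_eq h3)).trans ?_
  have h4 : ∏ p ∈ V, (1 + X⁻¹ * a p) ≤ Real.exp (∑ p ∈ V, X⁻¹ * a p) := by
    rw [Real.exp_sum]
    refine prod_le_prod (fun p hp => ?_) fun p hp => ?_
    · have := mul_nonneg (inv_pos.2 hX0).le (ha p hp).1
      linarith
    · have h5 := Real.add_one_le_exp (X⁻¹ * a p)
      linarith
  refine h4.trans (Real.exp_le_exp.2 ?_)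
  calc ∑ p ∈ V, X⁻¹ * a p ≤ ∑ p ∈ V, X⁻¹ * B :=
        sum_le_sum fun p hp => mul_le_mul_of_nonneg_left (ha p hp).2 (inv_pos.2 hX0).le
    _ = (V.card / X) * B := by
        rw [sum_const, nsmul_eq_mul]
        field_simp
    _ ≤ 1 * B := mul_le_mul_of_nonneg_right ((div_le_one hX0).2 hV) hB
    _ = B := one_mul B

/-- pairs `S ⊆ U ⊆ V` and disjoint pairs -/
lemma dec_pairs (V : Finset ℕ) (F : Finset ℕ → Finset ℕ → ℝ) :
    ∑ U ∈ V.powerset, ∑ S ∈ U.powerset, F S (U \ S) =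
      ∑ S ∈ V.powerset, ∑ T ∈ (V \ S).powerset, F S T := by
  rw [sum_sigma', sum_sigma']
  refine sum_bij' (fun x _ => ⟨x.2, x.1 \ x.2⟩) (fun x _ => ⟨x.1 ∪ x.2, x.1⟩) ?_ ?_ ?_ ?_ ?_
  · rintro ⟨U, S⟩ h
    simp only [mem_sigma, mem_powerset] at h ⊢
    exact ⟨h.2.trans h.1, sdiff_subset_sdiff h.1 le_rfl⟩
  · rintro ⟨S, T⟩ h
    simp only [mem_sigma, mem_powerset] at h ⊢
    exact ⟨union_subset h.1 (h.2.trans sdiff_subset), subset_union_left⟩
  · rintro ⟨U, S⟩ h
    simp only [mem_sigma, mem_powerset] at h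
    simp [union_sdiff_of_subset h.2]
  · rintro ⟨S, T⟩ h
    simp only [mem_sigma, mem_powerset] at h
    have hd : Disjoint S T := (disjoint_sdiff (s := S) (t := V)).mono_right h.2
    simp [union_sdiff_cancel_left hd]
  · rintro ⟨U, S⟩ h
    rfl

/-- remainder of part (I) -/
noncomputable def decR (V : Finset ℕ) (z t : ℕ → ℝ) (d u : ℕ) : ℝ :=
  ∑ S ∈ V.powerset.filter (fun S => S.card ≤ u), (∏ p ∈ S, z p) *
    ∑ T ∈ (V \ S).powerset.filter (fun T => d < S.card + T.card), ∏ p ∈ T, t p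

/-- the terms of part (II) -/
noncomputable def decB (V : Finset ℕ) (z t : ℕ → ℝ) (d u : ℕ) : ℝ :=
  ∑ U ∈ V.powerset.filter (fun U => U.card ≤ d),
    ∑ S ∈ U.powerset.filter (fun S => u < S.card), (∏ p ∈ S, z p) * ∏ p ∈ U \ S, t p

/-- the decomposition -/
lemma dec_split (V : Finset ℕ) (z t : ℕ → ℝ) (d u : ℕ) :
    ∑ U ∈ V.powerset.filter (fun U => U.card ≤ d), ∏ p ∈ U, (z p + t p) -
      ∑ S ∈ V.powerset.filter (fun S => S.card ≤ u),
        (∏ p ∈ S, z p) * ∏ p ∈ V \ S, (1 + t p) = decB V z t d u - decR V z t d u := by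
  have h1 : ∑ U ∈ V.powerset.filter (fun U => U.card ≤ d), ∏ p ∈ U, (z p + t p) =
      ∑ U ∈ V.powerset, ∑ S ∈ U.powerset,
        (if S.card + (U \ S).card ≤ d then (∏ p ∈ S, z p) * ∏ p ∈ U \ S, t p else 0) := by
    rw [sum_filter]
    refine sum_congr rfl fun U _ => ?_
    have h2 : ∀ S ∈ U.powerset, S.card + (U \ S).card = U.card := by
      intro S hS
      rw [mem_powerset] at hS
      have := card_sdiff_add_card_eq_card hS
      omega
    split_ifs with h
    · rw [prod_add]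
      refine sum_congr rfl fun S hS => ?_
      rw [if_pos (by rw [h2 S hS]; exact h)]
    · symm
      refine sum_eq_zero fun S hS => ?_
      rw [if_neg (by rw [h2 S hS]; exact h)]
  have h3 : decB V z t d u = ∑ U ∈ V.powerset, ∑ S ∈ U.powerset,
        (if S.card + (U \ S).card ≤ d ∧ u < S.card then
          (∏ p ∈ S, z p) * ∏ p ∈ U \ S, t p else 0) := by
    unfold decB
    rw [sum_filter]
    refine sum_congr rfl fun U _ => ?_
    have h2 : ∀ S ∈ U.powerset, S.card + (U \ S).card = U.card := by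
      intro S hS
      rw [mem_powerset] at hS
      have := card_sdiff_add_card_eq_card hS
      omega
    split_ifs with h
    · rw [sum_filter]
      refine sum_congr rfl fun S hS => ?_
      rw [h2 S hS]
      simp [h]
    · symm
      refine sum_eq_zero fun S hS => ?_
      rw [if_neg (by rw [h2 S hS]; exact fun h' => h h'.1)]
  have h4 := dec_pairs V (fun S T => if S.card + T.card ≤ d then
    (∏ p ∈ S, z p) * ∏ p ∈ T, t p else 0)
  have h5 := dec_pairs V (fun S T => if S.card + T.card ≤ d ∧ u < S.card then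
    (∏ p ∈ S, z p) * ∏ p ∈ T, t p else 0)
  have h6 : ∑ S ∈ V.powerset.filter (fun S => S.card ≤ u),
        (∏ p ∈ S, z p) * ∏ p ∈ V \ S, (1 + t p) =
      ∑ S ∈ V.powerset, ∑ T ∈ (V \ S).powerset,
        (if S.card ≤ u then (∏ p ∈ S, z p) * ∏ p ∈ T, t p else 0) := by
    rw [sum_filter]
    refine sum_congr rfl fun S _ => ?_
    split_ifs with h
    · rw [prod_one_add, mul_sum]
    · simp
  have h7 : decR V z t d u = ∑ S ∈ V.powerset, ∑ T ∈ (V \ S).powerset,
        (if S.card ≤ u ∧ d < S.card + T.card then (∏ p ∈ S, z p) * ∏ p ∈ T, t p else 0) := by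
    unfold decR
    rw [sum_filter]
    refine sum_congr rfl fun S _ => ?_
    split_ifs with h
    · rw [mul_sum, sum_filter]
      refine sum_congr rfl fun T _ => ?_
      simp [h]
    · symm
      refine sum_eq_zero fun T _ => ?_
      rw [if_neg fun h' => h h'.1]
  rw [h1, h3, h4, h5, h6, h7, ← sum_sub_distrib, ← sum_sub_distrib]
  refine sum_congr rfl fun S _ => ?_
  rw [← sum_sub_distrib, ← sum_sub_distrib]
  refine sum_congr rfl fun T _ => ?_
  by_cases ha : S.card + T.card ≤ d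
  · by_cases hb : S.card ≤ u
    · have hb' : ¬ u < S.card := not_lt.2 hb
      have ha' : ¬ d < S.card + T.card := not_lt.2 ha
      simp [ha, hb, hb', ha']
    · have hb' : u < S.card := not_le.1 hb
      simp [ha, hb, hb']
  · have ha' : d < S.card + T.card := not_le.1 ha
    by_cases hb : S.card ≤ u
    · simp [ha, hb, ha']
    · simp [ha, hb]

/-- bound of the remainder -/
lemma dec_rem (V : Finset ℕ) (z t : ℕ → ℝ) (d u : ℕ) (B X A : ℝ) (hX : 1 ≤ X) (hB : 0 ≤ B)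
    (hV : (V.card : ℝ) ≤ X) (hz : ∀ p ∈ V, |z p| ≤ B) (hud : u ≤ d)
    (ht : ∑ p ∈ V, |t p| ≤ A) :
    |decR V z t d u| ≤ X ^ u * Real.exp B * Real.exp (3 * A - (d - u + 1)) := by
  unfold decR
  refine (abs_sum_le_sum_abs _ _).trans ?_
  have h1 : ∀ S ∈ V.powerset.filter (fun S => S.card ≤ u), |(∏ p ∈ S, z p) *
      ∑ T ∈ (V \ S).powerset.filter (fun T => d < S.card + T.card), ∏ p ∈ T, t p| ≤
      (∏ p ∈ S, |z p|) * Real.exp (3 * A - (d - u + 1)) := by
    intro S hS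
    rw [mem_filter, mem_powerset] at hS
    rw [abs_mul, abs_prod]
    refine mul_le_mul_of_nonneg_left ?_ (prod_nonneg fun p _ => abs_nonneg _)
    refine (abs_sum_le_sum_abs _ _).trans ?_
    have h2 : ∑ T ∈ (V \ S).powerset.filter (fun T => d < S.card + T.card), |∏ p ∈ T, t p| ≤
        ∑ T ∈ (V \ S).powerset.filter (fun T => d - u < T.card), ∏ p ∈ T, |t p| := by
      simp only [abs_prod]
      refine sum_le_sum_of_subset_of_nonneg ?_ fun T _ _ => prod_nonneg fun p _ => abs_nonneg _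
      intro T hT
      rw [mem_filter] at hT ⊢
      exact ⟨hT.1, by omega⟩
    refine h2.trans ((dec_tail (V \ S) (fun p => |t p|) (fun p _ => abs_nonneg _) (d - u)).trans ?_)
    apply Real.exp_le_exp.2
    have h3 : ∑ p ∈ V \ S, |t p| ≤ ∑ p ∈ V, |t p| :=
      sum_le_sum_of_subset_of_nonneg sdiff_subset fun p _ _ => abs_nonneg _
    push_cast [Nat.cast_sub hud]
    linarith
  refine (sum_le_sum h1).trans ?_
  rw [← sum_mul]
  refine mul_le_mul_of_nonneg_right ?_ (Real.exp_pos _).le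
  exact dec_head V (fun p => |z p|) B X hX hB hV (fun p hp => ⟨abs_nonneg _, hz p hp⟩) u

end Vale.Agent.P042.UU
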