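import Vale.Agent.P042.UU.Nps
import Vale.Agent.P042.H455.TiltD

set_option autoImplicit false

/-!
Block DEC5, part 2: forms of product kernels over two windows.
-/

namespace Vale.Agent.P042.UU

open Finset Vale.Agent.P042.SS Vale.Agent.P042.TT Vale.Agent.P042.H455

section ten

variable {ι : Type} [Fintype ι] [DecidableEq ι] {X : ι → Type} [∀ i, Fintype (X i)]
  {μ : ∀ i, X i → ℝ}

/-- real bilinear form of a product kernel -/
lemma dec_real (hμ : PM μ) (z : ∀ i, X i → X i → ℝ) (lam : ι → ℝ) (hl : ∀ i, 0 ≤ lam i)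
    (hz : ∀ (i : ι) (φ ψ : X i → ℝ), |∑ x, ∑ y, μ i x * μ i y * (φ x * z i x y * ψ y)| ≤
      lam i * (Real.sqrt (∑ x, μ i x * φ x ^ 2) * Real.sqrt (∑ y, μ i y * ψ y ^ 2)))
    (a c : (∀ i, X i) → ℝ) (B : ℝ) (hB : 0 ≤ B) (ha : ∀ x, |a x| ≤ B) (hc : ∀ x, |c x| ≤ B) :
    |∑ x : ∀ i, X i, ∑ y : ∀ i, X i, ((∏ i, (μ i (x i) * μ i (y i))) * ∏ i, z i (x i) (y i)) *
      (a x * c y)| ≤ (∏ i, lam i) * B ^ 2 := by
  have hsq : ∀ f : (∀ i, X i) → ℝ, (∀ x, |f x| ≤ B) → EX μ (fun x => f x ^ 2) ≤ B ^ 2 := by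
    intro f hf
    refine (hμ.EX_mono (g := fun _ => B ^ 2) fun x => ?_).trans (le_of_eq (hμ.EX_const _))
    rw [← sq_abs]
    exact pow_le_pow_left₀ (abs_nonneg _) (hf x) 2
  have h1 : ∑ x : ∀ i, X i, ∑ y : ∀ i, X i, ((∏ i, (μ i (x i) * μ i (y i))) *
      ∏ i, z i (x i) (y i)) * (a x * c y) = EX μ (fun y => c y * ZS μ z univ a y) := by
    rw [sum_comm]
    unfold EX
    refine sum_congr rfl fun y _ => ?_
    unfold ZS EX
    show _ = pw μ y * (c y * ∑ x, pw μ x * ((∏ i, z i (x i) (y i)) *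
      a ((univ : Finset ι).piecewise x y)))
    rw [mul_sum, mul_sum]
    refine sum_congr rfl fun x _ => ?_
    rw [piecewise_univ, prod_mul_distrib]
    unfold pw
    ring
  rw [h1]
  have h2 := hμ.ZS_norm z lam (fun i v => op_of_bil (hμ.nn i) (z i) (hl i) (hz i) v) univ a
  have hL : 0 ≤ ∏ i, lam i := prod_nonneg fun i _ => hl i
  refine (hμ.cs _ _).trans ?_
  have h3 : Real.sqrt (EX μ (fun x => c x ^ 2)) ≤ B := by
    apply Real.sqrt_le_iff.2
    exact ⟨hB, hsq c hc⟩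
  have h4 : Real.sqrt (EX μ (fun x => ZS μ z univ a x ^ 2)) ≤ (∏ i, lam i) * B := by
    apply Real.sqrt_le_iff.2
    refine ⟨mul_nonneg hL hB, h2.trans ?_⟩
    rw [mul_pow]
    exact mul_le_mul_of_nonneg_left (hsq a ha) (sq_nonneg _)
  calc _ ≤ B * ((∏ i, lam i) * B) := mul_le_mul h3 h4 (Real.sqrt_nonneg _) hB
    _ = _ := by ring

/-- complex form of a product kernel -/
lemma dec_cplx (hμ : PM μ) (z : ∀ i, X i → X i → ℝ) (lam : ι → ℝ) (hl : ∀ i, 0 ≤ lam i)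
    (hz : ∀ (i : ι) (φ ψ : X i → ℝ), |∑ x, ∑ y, μ i x * μ i y * (φ x * z i x y * ψ y)| ≤
      lam i * (Real.sqrt (∑ x, μ i x * φ x ^ 2) * Real.sqrt (∑ y, μ i y * ψ y ^ 2)))
    (f g : (∀ i, X i) → ℂ) (B : ℝ) (hB : 0 ≤ B) (hf : ∀ x, ‖f x‖ ≤ B) (hg : ∀ x, ‖g x‖ ≤ B) :
    ‖∑ x : ∀ i, X i, ∑ y : ∀ i, X i, (((∏ i, (μ i (x i) * μ i (y i))) *
      ∏ i, z i (x i) (y i) : ℝ) : ℂ) * (f x * (starRingEnd ℂ) (g y))‖ ≤
      4 * ((∏ i, lam i) * B ^ 2) := by
  set Q : ((∀ i, X i) → ℝ) → ((∀ i, X i) → ℝ) → ℝ := fun a c =>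
    ∑ x : ∀ i, X i, ∑ y : ∀ i, X i, ((∏ i, (μ i (x i) * μ i (y i))) * ∏ i, z i (x i) (y i)) *
      (a x * c y) with hQ
  have hfr : ∀ x, |(f x).re| ≤ B := fun x => (Complex.abs_re_le_norm _).trans (hf x)
  have hfi : ∀ x, |(f x).im| ≤ B := fun x => (Complex.abs_im_le_norm _).trans (hf x)
  have hgr : ∀ x, |(g x).re| ≤ B := fun x => (Complex.abs_re_le_norm _).trans (hg x)
  have hgi : ∀ x, |(g x).im| ≤ B := fun x => (Complex.abs_im_le_norm _).trans (hg x)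
  have key : ∑ x : ∀ i, X i, ∑ y : ∀ i, X i, (((∏ i, (μ i (x i) * μ i (y i))) *
      ∏ i, z i (x i) (y i) : ℝ) : ℂ) * (f x * (starRingEnd ℂ) (g y)) =
      ((Q (fun x => (f x).re) (fun y => (g y).re) : ℝ) : ℂ) +
      ((Q (fun x => (f x).im) (fun y => (g y).im) : ℝ) : ℂ) +
      (((Q (fun x => (f x).im) (fun y => (g y).re) : ℝ) : ℂ) -
        ((Q (fun x => (f x).re) (fun y => (g y).im) : ℝ) : ℂ)) * Complex.I := by
    simp only [hQ]
    push_cast
    rw [← sum_add_distrib, ← sum_sub_distrib, sum_mul, ← sum_add_distrib]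
    refine sum_congr rfl fun x _ => ?_
    rw [← sum_add_distrib, ← sum_sub_distrib, sum_mul, ← sum_add_distrib]
    refine sum_congr rfl fun y _ => ?_
    have e1 : f x = ((f x).re : ℂ) + ((f x).im : ℂ) * Complex.I := (Complex.re_add_im _).symm
    have e2 : (starRingEnd ℂ) (g y) = ((g y).re : ℂ) - ((g y).im : ℂ) * Complex.I := by
      apply Complex.ext <;> simp
    rw [e2]
    conv_lhs => rw [e1]
    have hI : Complex.I * Complex.I = -1 := Complex.I_mul_I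
    linear_combination (-(((∏ i, ((μ i (x i) : ℂ) * (μ i (y i) : ℂ))) *
      ∏ i, (z i (x i) (y i) : ℂ)) * ((f x).im : ℂ) * ((g y).im : ℂ))) * hI
  rw [key]
  have b1 := dec_real hμ z lam hl hz _ _ B hB hfr hgr
  have b2 := dec_real hμ z lam hl hz _ _ B hB hfi hgi
  have b3 := dec_real hμ z lam hl hz _ _ B hB hfi hgr
  have b4 := dec_real hμ z lam hl hz _ _ B hB hfr hgi
  have n1 : ∀ r : ℝ, ‖(r : ℂ)‖ = |r| := fun r => by rw [Complex.norm_real, Real.norm_eq_abs]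
  calc _ ≤ |Q (fun x => (f x).re) (fun y => (g y).re)| +
        |Q (fun x => (f x).im) (fun y => (g y).im)| +
        (|Q (fun x => (f x).im) (fun y => (g y).re)| +
          |Q (fun x => (f x).re) (fun y => (g y).im)|) := by
        refine (norm_add_le _ _).trans (add_le_add ?_ ?_)
        · refine (norm_add_le _ _).trans ?_
          rw [n1, n1]
        · rw [norm_mul, Complex.norm_I, mul_one]
          refine (norm_sub_le _ _).trans ?_
          rw [n1, n1]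
    _ ≤ _ := by
        simp only [hQ]
        linarith

end ten

end Vale.Agent.P042.UU
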