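import Vale.Agent.P042.UU.Dec2

set_option autoImplicit false

/-!
Block DEC5, part 3: the form of a product kernel over two windows, trivial bound of the densities.
-/

namespace Vale.Agent.P042.UU

open Finset Vale.Agent.P042.SS Vale.Agent.P042.TT Vale.Agent.P042.H455

/-- number of integers of a window in a class modulo `∏ U` -/
lemma dec_count (U : Finset ℕ) (hU : ∀ p ∈ U, p.Prime) (y : ℤ) (H : ℕ) (x : XS U) :
    ((((Ioc y (y + H)).filter (fun n : ℤ => n ≡ 0 [ZMOD ((1 : ℕ) : ℤ)] ∧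
      ∀ p : ↥U, n ≡ ((x p : ℕ) : ℤ) [ZMOD ((p : ℕ) : ℤ)])).card : ℕ) : ℝ) ≤
      (H : ℝ) / ((∏ p ∈ U, p : ℕ) : ℝ) + 1 := by
  set D : ℕ := ∏ p ∈ U, p with hD
  have hD0 : 0 < D := prod_pos fun p hp => (hU p hp).pos
  set S := (Ioc y (y + H)).filter (fun n : ℤ => n ≡ 0 [ZMOD ((1 : ℕ) : ℤ)] ∧
      ∀ p : ↥U, n ≡ ((x p : ℕ) : ℤ) [ZMOD ((p : ℕ) : ℤ)]) with hS
  rcases S.eq_empty_or_nonempty with h | ⟨n0, h0⟩
  · rw [h, card_empty]
    push_cast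
    positivity
  · have h1 : S ⊆ (Ioc y (y + H)).filter (fun n : ℤ => n ≡ n0 [ZMOD (D : ℕ)]) := by
      intro n hn
      rw [hS, mem_filter] at hn h0
      rw [mem_filter]
      refine ⟨hn.1, ?_⟩
      have h2 : ∀ p ∈ U, ((p : ℕ) : ℤ) ∣ n0 - n := by
        intro p hp
        have h3 := (hn.2.2 ⟨p, hp⟩).trans (h0.2.2 ⟨p, hp⟩).symm
        exact h3.dvd
      have h4 : (∏ p ∈ U, ((p : ℕ) : ℤ)) ∣ n0 - n := by
        refine Finset.prod_dvd_of_coprime ?_ h2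
        intro p hp q hq hpq
        exact Nat.isCoprime_iff_coprime.2 ((Nat.coprime_primes (hU p hp) (hU q hq)).2 hpq)
      rw [Int.modEq_iff_dvd, hD]
      push_cast
      exact h4
    have h2 := card_le_card h1
    have h3 := abs_le.1 (count_mod (N1 := H) hD0 y n0)
    have h4 : (S.card : ℝ) ≤ (((Ioc y (y + H)).filter (fun n : ℤ => n ≡ n0 [ZMOD (D : ℕ)])).card : ℝ) := by
      exact_mod_cast h2
    linarith [h3.2]

/-- trivial bound of the densities -/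
lemma dec_fV (U : Finset ℕ) (hU : ∀ p ∈ U, p.Prime) (ν : ℕ → ℤ → ℝ)
    (hnn : ∀ p n, 0 ≤ ν p n) (hlow : ∀ p ∈ U, ∀ x, ν p x = 0 ∨ 1 / 20 ≤ ν p x)
    (g : ℤ → ℝ) (A : ℝ) (hA : ∀ n, |g n| ≤ A) (H : ℕ) (hH : ∏ p ∈ U, p ≤ H) (y : ℤ) (θ : ℝ)
    (x : XS U) : ‖fV ν U g y H 1 0 θ x‖ ≤ 20 ^ U.card * (2 * H * A) := by
  have hA0 : 0 ≤ A := (abs_nonneg _).trans (hA 0)
  set D : ℕ := ∏ p ∈ U, p with hD
  have hD0 : 0 < D := prod_pos fun p hp => (hU p hp).pos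
  have hD0' : (0 : ℝ) < D := by exact_mod_cast hD0
  unfold fV
  rw [norm_mul, Complex.norm_real, Real.norm_eq_abs]
  have h1 : |∏ p : ↥U, (((p : ℕ) : ℝ) * (ν p (x p : ℕ))⁻¹)| ≤ 20 ^ U.card * D := by
    rw [abs_of_nonneg (prod_nonneg fun p _ => mul_nonneg (Nat.cast_nonneg _)
      (inv_nonneg.2 (hnn _ _)))]
    calc ∏ p : ↥U, (((p : ℕ) : ℝ) * (ν p (x p : ℕ))⁻¹) ≤ ∏ p : ↥U, (((p : ℕ) : ℝ) * 20) := by
          refine prod_le_prod (fun p _ => mul_nonneg (Nat.cast_nonneg _)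
            (inv_nonneg.2 (hnn _ _))) fun p _ => ?_
          refine mul_le_mul_of_nonneg_left ?_ (Nat.cast_nonneg _)
          rcases hlow p p.2 (x p : ℕ) with h | h
          · rw [h]; norm_num
          · rw [inv_le_comm₀ (by linarith) (by norm_num)]
            linarith
      _ = 20 ^ U.card * D := by
          rw [prod_coe_sort U (fun p : ℕ => ((p : ℝ) * 20)), prod_mul_distrib, prod_const, hD]
          push_cast
          ring
  have h2 : ‖∑ n ∈ (Ioc y (y + H)).filter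
      (fun n : ℤ => n ≡ 0 [ZMOD ((1 : ℕ) : ℤ)] ∧
        ∀ p : ↥U, n ≡ ((x p : ℕ) : ℤ) [ZMOD ((p : ℕ) : ℤ)]),
      (g n : ℂ) * e (-((n : ℝ) * θ))‖ ≤ ((H : ℝ) / D + 1) * A := by
    refine (norm_sum_le _ _).trans ?_
    refine (sum_le_card_nsmul _ _ A fun n _ => ?_).trans ?_
    · rw [norm_mul, norm_e, mul_one, Complex.norm_real, Real.norm_eq_abs]
      exact hA n
    · rw [nsmul_eq_mul]
      exact mul_le_mul_of_nonneg_right (dec_count U hU y H x) hA0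
  have h3 : ((H : ℝ) / D + 1) * D ≤ 2 * H := by
    have : (D : ℝ) ≤ H := by exact_mod_cast hH
    rw [add_mul, div_mul_cancel₀ _ hD0'.ne']
    linarith
  calc _ ≤ (20 ^ U.card * D) * (((H : ℝ) / D + 1) * A) :=
        mul_le_mul h1 h2 (norm_nonneg _) (by positivity)
    _ = 20 ^ U.card * ((((H : ℝ) / D + 1) * D) * A) := by ring
    _ ≤ 20 ^ U.card * ((2 * H) * A) := by
        refine mul_le_mul_of_nonneg_left ?_ (by positivity)
        exact mul_le_mul_of_nonneg_right h3 hA0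

/-- the form of a product kernel over two windows -/
theorem dec_form (U : Finset ℕ) (hU : ∀ p ∈ U, p.Prime) (ν : ℕ → ℤ → ℝ) (hw : Wts U ν)
    (hlow : ∀ p ∈ U, ∀ x, ν p x = 0 ∨ 1 / 20 ≤ ν p x) (Z : ℕ → ℤ → ℤ → ℝ)
    (hZ : ∀ p ∈ U, ∀ n m : ℤ, Z p (n + p) m = Z p n m ∧ Z p n (m + p) = Z p n m)
    (L : ℕ → ℝ) (hL : ∀ p ∈ U, 0 ≤ L p)
    (hb : ∀ p ∈ U, ∀ φ ψ : ℕ → ℝ,
      |∑ x ∈ range p, ∑ y ∈ range p, (ν p x / p) * (ν p y / p) *
        (φ x * Z p x y * ψ y)| ≤ L p *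
        (Real.sqrt (∑ x ∈ range p, ν p x / p * φ x ^ 2) *
          Real.sqrt (∑ y ∈ range p, ν p y / p * ψ y ^ 2)))
    (g : ℤ → ℝ) (A : ℝ) (hA : ∀ n, |g n| ≤ A)
    (hg : ∀ n, g n ≠ 0 → ∀ p ∈ U, ν p n ≠ 0) (H : ℕ) (hH : ∏ p ∈ U, p ≤ H) (y y' : ℤ)
    (θ : ℝ) :
    ‖∑ n ∈ Ioc y (y + H), ∑ m ∈ Ioc y' (y' + H),
      ((g n * g m * ∏ p ∈ U, Z p n m : ℝ) : ℂ) * e (-(((n : ℝ) - (m : ℝ)) * θ))‖ ≤
      16 * (∏ p ∈ U, (400 * L p)) * (H * A) ^ 2 := by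
  have hA0 : 0 ≤ A := (abs_nonneg _).trans (hA 0)
  have h0 := nps5_holds U univ ν g g y y' H H θ Z hU hw hg hg hZ
  have h1 : ∀ n m : ℤ, ∏ p : ↥U, Z (p : ℕ) n m = ∏ p ∈ U, Z p n m := fun n m =>
    prod_coe_sort U (fun p : ℕ => Z p n m)
  simp only [h1] at h0
  rw [h0]
  have hpr := piV_isPr hU hw
  have hμ : PM (piV ν U) := ⟨hpr.nn, hpr.one⟩
  have key := dec_cplx hμ (fun p s t => Z (p : ℕ) ((s : ℕ) : ℤ) ((t : ℕ) : ℤ))
    (fun p => L (p : ℕ)) (fun p => hL p p.2) (by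
      intro p φ ψ
      have hfin : ∀ F : ℕ → ℝ, ∑ s : Fin (p : ℕ), F (s : ℕ) = ∑ s ∈ range (p : ℕ), F s :=
        fun F => Fin.sum_univ_eq_sum_range F (p : ℕ)
      set φ' : ℕ → ℝ := fun n => if h : n < (p : ℕ) then φ ⟨n, h⟩ else 0 with hφ'
      set ψ' : ℕ → ℝ := fun n => if h : n < (p : ℕ) then ψ ⟨n, h⟩ else 0 with hψ'
      have e1 : ∀ s : Fin (p : ℕ), φ s = φ' (s : ℕ) := by
        intro s
        simp [hφ']
      have e2 : ∀ s : Fin (p : ℕ), ψ s = ψ' (s : ℕ) := by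
        intro s
        simp [hψ']
      have h2 := hb p p.2 φ' ψ'
      have e3 : ∑ s : Fin (p : ℕ), ∑ t : Fin (p : ℕ), piV ν U p s * piV ν U p t *
          (φ s * Z (p : ℕ) ((s : ℕ) : ℤ) ((t : ℕ) : ℤ) * ψ t) =
          ∑ x ∈ range (p : ℕ), ∑ y ∈ range (p : ℕ), (ν p x / (p : ℕ)) * (ν p y / (p : ℕ)) *
            (φ' x * Z p x y * ψ' y) := by
        rw [← hfin (fun x => ∑ y ∈ range (p : ℕ), (ν p x / (p : ℕ)) * (ν p y / (p : ℕ)) *
            (φ' x * Z p x y * ψ' y))]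
        refine sum_congr rfl fun s _ => ?_
        rw [← hfin (fun y => (ν p (s : ℕ) / (p : ℕ)) * (ν p y / (p : ℕ)) *
            (φ' s * Z p (s : ℕ) y * ψ' y))]
        refine sum_congr rfl fun t _ => ?_
        rw [e1, e2]
        rfl
      have e4 : ∑ s : Fin (p : ℕ), piV ν U p s * φ s ^ 2 =
          ∑ x ∈ range (p : ℕ), ν p x / (p : ℕ) * φ' x ^ 2 := by
        rw [← hfin (fun x => ν p x / (p : ℕ) * φ' x ^ 2)]
        refine sum_congr rfl fun s _ => ?_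
        rw [e1]
        rfl
      have e5 : ∑ s : Fin (p : ℕ), piV ν U p s * ψ s ^ 2 =
          ∑ x ∈ range (p : ℕ), ν p x / (p : ℕ) * ψ' x ^ 2 := by
        rw [← hfin (fun x => ν p x / (p : ℕ) * ψ' x ^ 2)]
        refine sum_congr rfl fun s _ => ?_
        rw [e2]
        rfl
      rw [e3, e4, e5]
      exact h2)
    (fV ν U g y H 1 0 θ) (fV ν U g y' H 1 0 θ) (20 ^ U.card * (2 * H * A)) (by positivity)
    (dec_fV U hU ν hw.nn hlow g A hA H hH y θ) (dec_fV U hU ν hw.nn hlow g A hA H hH y' θ)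
  refine key.trans (le_of_eq ?_)
  rw [prod_coe_sort U (fun p : ℕ => L p), prod_mul_distrib, prod_const]
  have h400 : (400 : ℝ) ^ U.card = (20 ^ U.card) ^ 2 := by
    rw [← pow_mul, mul_comm, pow_mul]
    norm_num
  rw [h400]
  ring

end Vale.Agent.P042.UU
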