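import Vale.Agent.P042.UU.Dec1
import Vale.Agent.P042.UU.Dec3

set_option autoImplicit false

/-!
Block DEC5, part 4: bounds of the correlations.
-/

namespace Vale.Agent.P042.UU

open Polynomial Finset Vale.Agent.P042.SS Vale.Agent.P042.TT

/-- rank one part of the kernel -/
noncomputable def decT (ν : ℕ → ℤ → ℝ) (f : ℤ[X]) (p : ℕ) (n m : ℤ) : ℝ :=
  (1 + cc ν f p) * (1 + ta ν f p n) * (1 + tb ν f p m) - 1

lemma dec_kp (ν : ℕ → ℤ → ℝ) (f : ℤ[X]) (p : ℕ) (n m : ℤ) :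
    kp f p (n - m) = ze ν f p n m + decT ν f p n m := by
  unfold ze decT
  ring

lemma dec_KU_KS (ε P : ℝ) (ν : ℕ → ℤ → ℝ) (f : ℤ[X]) (q : ℕ) (n m : ℤ) :
    KU ε P f q n m - KS ε P ν f q n m =
      decB (Vn ε P q) (fun p => ze ν f p n m) (fun p => decT ν f p n m) (d5 ε P) (u5 ε P) -
      decR (Vn ε P q) (fun p => ze ν f p n m) (fun p => decT ν f p n m) (d5 ε P) (u5 ε P) := by
  rw [← dec_split]
  unfold KU KS
  congr 1
  · refine sum_congr rfl fun U _ => prod_congr rfl fun p _ => ?_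
    exact dec_kp ν f p n m
  · refine sum_congr rfl fun S _ => ?_
    congr 1
    refine prod_congr rfl fun p _ => ?_
    unfold decT
    ring

lemma dec_gam (f : ℤ[X]) (a : ℤ) (q : ℕ) (hq : 1 ≤ q) : ‖Gam f a q‖ ≤ 1 := by
  unfold Gam
  have hq0 : (0 : ℝ) < q := by exact_mod_cast hq
  rw [norm_div, Complex.norm_natCast, div_le_one hq0]
  refine (norm_sum_le _ _).trans ?_
  simp [norm_e]

lemma dec_KQ (f : ℤ[X]) (q : ℕ) (hq : 1 ≤ q) (K0 : ℤ → ℤ → ℝ) (n m : ℤ) :
    ‖KQ f q K0 n m‖ ≤ q * |K0 n m| := by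
  unfold KQ
  rw [norm_mul, Complex.norm_real, Real.norm_eq_abs]
  refine mul_le_mul_of_nonneg_right ?_ (abs_nonneg _)
  refine (norm_sum_le _ _).trans ?_
  refine (sum_le_card_nsmul _ _ 1 fun b _ => ?_).trans ?_
  · rw [norm_mul, norm_e, mul_one]
    exact dec_gam f b q hq
  · rw [nsmul_eq_mul, mul_one]
    have h := card_filter_le (range q) (Nat.Coprime q)
    rw [card_range] at h
    exact_mod_cast h

lemma dec_card (N' : ℕ) : ((Icc (-(N' : ℤ)) (2 * N')).card : ℝ) = 3 * N' + 1 := by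
  rw [Int.card_Icc]
  have : (2 * (N' : ℤ) + 1 - -(N' : ℤ)).toNat = 3 * N' + 1 := by omega
  rw [this]
  push_cast
  ring

/-- bound of a correlation from a bound for each window -/
lemma dec_cor_win (G : ℤ → ℝ) (N' H : ℕ) (K : ℤ → ℤ → ℂ) (B : ℝ)
    (hK : ∀ y y' : ℤ, ‖∑ n ∈ Ioc y (y + H), ∑ m ∈ Ioc y' (y' + H),
      ((G n * G m : ℝ) : ℂ) * K n m‖ ≤ B) :
    ‖Cor G G N' H K‖ ≤ (3 * N' + 1) * B := by
  unfold Cor
  refine (norm_sum_le _ _).trans ?_
  refine (sum_le_card_nsmul _ _ B fun y _ => hK _ _).trans ?_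
  rw [nsmul_eq_mul, dec_card]

/-- trivial bound of a correlation -/
lemma dec_cor (G : ℤ → ℝ) (A : ℝ) (hA : ∀ n, |G n| ≤ A) (N' H : ℕ) (K : ℤ → ℤ → ℂ) (B : ℝ)
    (hB : 0 ≤ B) (hK : ∀ n m, G n ≠ 0 → G m ≠ 0 → ‖K n m‖ ≤ B) :
    ‖Cor G G N' H K‖ ≤ (3 * N' + 1) * ((H * A) ^ 2 * B) := by
  have hA0 : 0 ≤ A := (abs_nonneg _).trans (hA 0)
  refine dec_cor_win G N' H K _ fun y y' => ?_
  refine (norm_sum_le _ _).trans ?_
  have hc : ∀ y : ℤ, ((Ioc y (y + H)).card : ℝ) = H := by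
    intro y
    rw [Int.card_Ioc]
    simp
  refine (sum_le_card_nsmul _ _ (H * (A ^ 2 * B)) fun n _ => ?_).trans ?_
  · refine (norm_sum_le _ _).trans ?_
    refine (sum_le_card_nsmul _ _ (A ^ 2 * B) fun m _ => ?_).trans ?_
    · rw [norm_mul, Complex.norm_real, Real.norm_eq_abs, abs_mul]
      by_cases hn : G n = 0
      · rw [hn]
        simp only [abs_zero, zero_mul]
        positivity
      · by_cases hm : G m = 0
        · rw [hm]
          simp only [abs_zero, zero_mul, mul_zero]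
          positivity
        · refine mul_le_mul ?_ (hK n m hn hm) (norm_nonneg _) (by positivity)
          rw [sq]
          exact mul_le_mul (hA n) (hA m) (abs_nonneg _) hA0
    · rw [nsmul_eq_mul, hc]
  · rw [nsmul_eq_mul, hc]
    apply le_of_eq
    ring

lemma dec_cor_sum {α : Type*} (s : Finset α) (G : ℤ → ℝ) (N' H : ℕ) (K : α → ℤ → ℤ → ℂ) :
    ‖Cor G G N' H (fun n m => ∑ i ∈ s, K i n m)‖ ≤ ∑ i ∈ s, ‖Cor G G N' H (K i)‖ := by
  have h1 : Cor G G N' H (fun n m => ∑ i ∈ s, K i n m) = ∑ i ∈ s, Cor G G N' H (K i) := by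
    unfold Cor
    symm
    rw [sum_comm]
    refine sum_congr rfl fun y _ => ?_
    rw [sum_comm]
    refine sum_congr rfl fun n _ => ?_
    rw [sum_comm]
    refine sum_congr rfl fun m _ => ?_
    rw [mul_sum]
  rw [h1]
  exact norm_sum_le _ _

lemma dec_cor_sub (G : ℤ → ℝ) (N' H : ℕ) (f : ℤ[X]) (q : ℕ) (K1 K2 : ℤ → ℤ → ℝ) :
    ‖Cor G G N' H (KQ f q (fun n m => K1 n m - K2 n m))‖ ≤
      ‖Cor G G N' H (KQ f q K1)‖ + ‖Cor G G N' H (KQ f q K2)‖ := by
  have h1 : Cor G G N' H (KQ f q (fun n m => K1 n m - K2 n m)) =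
      Cor G G N' H (KQ f q K1) - Cor G G N' H (KQ f q K2) := by
    unfold Cor
    rw [← sum_sub_distrib]
    refine sum_congr rfl fun y _ => ?_
    rw [← sum_sub_distrib]
    refine sum_congr rfl fun n _ => ?_
    rw [← sum_sub_distrib]
    refine sum_congr rfl fun m _ => ?_
    unfold KQ
    push_cast
    ring
  rw [h1]
  exact norm_sub_le _ _

/-- part (II): the terms with many centred factors -/
theorem dec_big (V : Finset ℕ) (hV : ∀ p ∈ V, p.Prime) (ν : ℕ → ℤ → ℝ) (hw : Wts V ν)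
    (hlow : ∀ p ∈ V, ∀ x, ν p x = 0 ∨ 1 / 20 ≤ ν p x) (Z T : ℕ → ℤ → ℤ → ℝ)
    (hZ : ∀ p ∈ V, ∀ n m : ℤ, Z p (n + p) m = Z p n m ∧ Z p n (m + p) = Z p n m)
    (hT : ∀ p ∈ V, ∀ n m : ℤ, T p (n + p) m = T p n m ∧ T p n (m + p) = T p n m)
    (L : ℕ → ℝ) (hL : ∀ p ∈ V, 0 ≤ L p)
    (hbZ : ∀ p ∈ V, ∀ φ ψ : ℕ → ℝ,
      |∑ x ∈ range p, ∑ y ∈ range p, (ν p x / p) * (ν p y / p) *
        (φ x * Z p x y * ψ y)| ≤ L p *
        (Real.sqrt (∑ x ∈ range p, ν p x / p * φ x ^ 2) *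
          Real.sqrt (∑ y ∈ range p, ν p y / p * ψ y ^ 2)))
    (hbT : ∀ p ∈ V, ∀ φ ψ : ℕ → ℝ,
      |∑ x ∈ range p, ∑ y ∈ range p, (ν p x / p) * (ν p y / p) *
        (φ x * T p x y * ψ y)| ≤ L p *
        (Real.sqrt (∑ x ∈ range p, ν p x / p * φ x ^ 2) *
          Real.sqrt (∑ y ∈ range p, ν p y / p * ψ y ^ 2)))
    (G : ℤ → ℝ) (A : ℝ) (hA : ∀ n, |G n| ≤ A)
    (hG : ∀ n, G n ≠ 0 → ∀ p ∈ V, ν p n ≠ 0) (N' H : ℕ) (d u : ℕ)
    (hH : ∀ U ⊆ V, U.card ≤ d → ∏ p ∈ U, p ≤ H) (f : ℤ[X]) (q : ℕ) (hq : 1 ≤ q) :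
    ‖Cor G G N' H (KQ f q (fun n m => decB V (fun p => Z p n m) (fun p => T p n m) d u))‖ ≤
      (3 * N' + 1) * ((H * A) ^ 2 * (q * (16 * Real.exp (3 * (∑ p ∈ V, 800 * L p) - (u + 1))))) := by
  set Kb : ℕ → ℤ → ℤ → ℂ := fun b n m => Gam f b q *
    e (-(((n : ℝ) - (m : ℝ)) * ((b : ℝ) / q))) with hKb
  have e1 : KQ f q (fun n m => decB V (fun p => Z p n m) (fun p => T p n m) d u) =
      fun n m => ∑ b ∈ (range q).filter (Nat.Coprime q),
        ∑ U ∈ V.powerset.filter (fun U => U.card ≤ d),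
          ∑ S ∈ U.powerset.filter (fun S => u < S.card),
            Kb b n m * (((∏ p ∈ S, Z p n m) * ∏ p ∈ U \ S, T p n m : ℝ) : ℂ) := by
    funext n m
    unfold KQ decB
    rw [sum_mul]
    refine sum_congr rfl fun b _ => ?_
    rw [Complex.ofReal_sum, mul_sum]
    refine sum_congr rfl fun U _ => ?_
    rw [Complex.ofReal_sum, mul_sum]
  rw [e1]
  have hq0 : (0 : ℝ) ≤ q := Nat.cast_nonneg _
  set c0 : ℝ := (3 * N' + 1) * ((H * A) ^ 2 * 16) with hc0
  have hc00 : 0 ≤ c0 := by positivity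
  -- one term
  have hone : ∀ b : ℕ, ∀ U ∈ V.powerset.filter (fun U => U.card ≤ d),
      ∀ S ∈ U.powerset.filter (fun S => u < S.card),
      ‖Cor G G N' H (fun n m => Kb b n m *
        (((∏ p ∈ S, Z p n m) * ∏ p ∈ U \ S, T p n m : ℝ) : ℂ))‖ ≤
      c0 * ∏ p ∈ U, (400 * L p) := by
    intro b U hU S hS
    rw [mem_filter, mem_powerset] at hU hS
    have hprod : ∀ n m : ℤ, (∏ p ∈ S, Z p n m) * ∏ p ∈ U \ S, T p n m =
        ∏ p ∈ U, (if p ∈ S then Z p n m else T p n m) := by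
      intro n m
      rw [prod_ite]
      congr 1
      · refine prod_congr ?_ fun _ _ => rfl
        ext p
        rw [mem_filter]
        exact ⟨fun h => ⟨hS.1 h, h⟩, fun h => h.2⟩
      · refine prod_congr ?_ fun _ _ => rfl
        ext p
        rw [mem_filter, mem_sdiff]
    have hwin := dec_cor_win G N' H (fun n m => Kb b n m *
        (((∏ p ∈ S, Z p n m) * ∏ p ∈ U \ S, T p n m : ℝ) : ℂ))
        (16 * (∏ p ∈ U, (400 * L p)) * (H * A) ^ 2) (by
      intro y y'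
      have h2 := dec_form U (fun p hp => hV p (hU.1 hp)) ν
        ⟨hw.nn, fun p hp => hw.per p (hU.1 hp), fun p hp => hw.mean p (hU.1 hp)⟩
        (fun p hp => hlow p (hU.1 hp)) (fun p n m => if p ∈ S then Z p n m else T p n m)
        (by
          intro p hp n m
          by_cases h : p ∈ S
          · simp only [if_pos h]; exact hZ p (hU.1 hp) n m
          · simp only [if_neg h]; exact hT p (hU.1 hp) n m)
        L (fun p hp => hL p (hU.1 hp))
        (by
          intro p hp φ ψ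
          by_cases h : p ∈ S
          · simp only [if_pos h]; exact hbZ p (hU.1 hp) φ ψ
          · simp only [if_neg h]; exact hbT p (hU.1 hp) φ ψ)
        G A hA (fun n hn p hp => hG n hn p (hU.1 hp)) H (hH U hU.1 hU.2) y y' ((b : ℝ) / q)
      have h3 : ∑ n ∈ Ioc y (y + H), ∑ m ∈ Ioc y' (y' + H),
          ((G n * G m : ℝ) : ℂ) * (Kb b n m *
            (((∏ p ∈ S, Z p n m) * ∏ p ∈ U \ S, T p n m : ℝ) : ℂ)) =
          Gam f b q * ∑ n ∈ Ioc y (y + H), ∑ m ∈ Ioc y' (y' + H),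
          ((G n * G m * ∏ p ∈ U, (if p ∈ S then Z p n m else T p n m) : ℝ) : ℂ) *
            e (-(((n : ℝ) - (m : ℝ)) * ((b : ℝ) / q))) := by
        rw [mul_sum]
        refine sum_congr rfl fun n _ => ?_
        rw [mul_sum]
        refine sum_congr rfl fun m _ => ?_
        rw [hprod]
        simp only [hKb]
        push_cast
        ring
      rw [h3, norm_mul]
      calc _ ≤ 1 * _ := mul_le_mul (dec_gam f b q hq) h2 (norm_nonneg _) zero_le_one
        _ = _ := one_mul _)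
    refine hwin.trans (le_of_eq ?_)
    rw [hc0]
    ring
  have hU : ∀ b : ℕ, ‖Cor G G N' H (fun n m => ∑ U ∈ V.powerset.filter (fun U => U.card ≤ d),
          ∑ S ∈ U.powerset.filter (fun S => u < S.card),
            Kb b n m * (((∏ p ∈ S, Z p n m) * ∏ p ∈ U \ S, T p n m : ℝ) : ℂ))‖ ≤
      c0 * Real.exp (3 * (∑ p ∈ V, 800 * L p) - (u + 1)) := by
    intro b
    refine (dec_cor_sum _ G N' H (fun U n m => ∑ S ∈ U.powerset.filter (fun S => u < S.card),
            Kb b n m * (((∏ p ∈ S, Z p n m) * ∏ p ∈ U \ S, T p n m : ℝ) : ℂ))).trans ?_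
    have h4 : ∀ U ∈ V.powerset.filter (fun U => U.card ≤ d),
        ‖Cor G G N' H (fun n m => ∑ S ∈ U.powerset.filter (fun S => u < S.card),
            Kb b n m * (((∏ p ∈ S, Z p n m) * ∏ p ∈ U \ S, T p n m : ℝ) : ℂ))‖ ≤
        if u < U.card then c0 * ∏ p ∈ U, (800 * L p) else 0 := by
      intro U hU'
      refine (dec_cor_sum _ G N' H (fun S n m =>
            Kb b n m * (((∏ p ∈ S, Z p n m) * ∏ p ∈ U \ S, T p n m : ℝ) : ℂ))).trans ?_
      refine (sum_le_sum fun S hS => hone b U hU' S hS).trans ?_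
      have hUV := (mem_powerset.1 (mem_filter.1 hU').1)
      have hp0 : 0 ≤ ∏ p ∈ U, (400 * L p) :=
        prod_nonneg fun p hp => mul_nonneg (by norm_num) (hL p (hUV hp))
      rw [sum_const, nsmul_eq_mul]
      split_ifs with h
      · have h5 : ((U.powerset.filter (fun S => u < S.card)).card : ℝ) ≤ 2 ^ U.card := by
          have := card_filter_le U.powerset (fun S => u < S.card)
          rw [card_powerset] at this
          exact_mod_cast this
        have h6 : ∏ p ∈ U, (800 * L p) = 2 ^ U.card * ∏ p ∈ U, (400 * L p) := by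
          rw [← prod_const, ← prod_mul_distrib]
          refine prod_congr rfl fun p _ => ?_
          ring
        rw [h6]
        calc _ ≤ 2 ^ U.card * (c0 * ∏ p ∈ U, (400 * L p)) :=
              mul_le_mul_of_nonneg_right h5 (mul_nonneg hc00 hp0)
          _ = _ := by ring
      · have h7 : U.powerset.filter (fun S => u < S.card) = ∅ := by
          rw [filter_eq_empty_iff]
          intro S hS
          have := card_le_card (mem_powerset.1 hS)
          omega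
        rw [h7]
        simp
    refine (sum_le_sum h4).trans ?_
    rw [← sum_filter, ← mul_sum]
    refine mul_le_mul_of_nonneg_left ?_ hc00
    refine le_trans ?_ (dec_tail V (fun p => 800 * L p) (fun p hp => mul_nonneg (by norm_num)
      (hL p hp)) u)
    rw [filter_filter]
    refine sum_le_sum_of_subset_of_nonneg ?_ fun T hT _ => ?_
    · intro T hT
      rw [mem_filter] at hT ⊢
      exact ⟨hT.1, hT.2.2⟩
    · rw [mem_filter, mem_powerset] at hT
      exact prod_nonneg fun p hp => mul_nonneg (by norm_num) (hL p (hT.1 hp))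
  refine (dec_cor_sum _ G N' H (fun b n m => ∑ U ∈ V.powerset.filter (fun U => U.card ≤ d),
          ∑ S ∈ U.powerset.filter (fun S => u < S.card),
            Kb b n m * (((∏ p ∈ S, Z p n m) * ∏ p ∈ U \ S, T p n m : ℝ) : ℂ))).trans ?_
  refine (sum_le_sum fun b _ => hU b).trans ?_
  rw [sum_const, nsmul_eq_mul]
  have h8 : (((range q).filter (Nat.Coprime q)).card : ℝ) ≤ q := by
    have h := card_filter_le (range q) (Nat.Coprime q)
    rw [card_range] at h
    exact_mod_cast h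
  calc _ ≤ (q : ℝ) * (c0 * Real.exp (3 * (∑ p ∈ V, 800 * L p) - (u + 1))) :=
        mul_le_mul_of_nonneg_right h8 (mul_nonneg hc00 (Real.exp_pos _).le)
    _ = _ := by rw [hc0]; ring

end Vale.Agent.P042.UU
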