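import Vale.Agent.P042.UU.Dec4

set_option autoImplicit false

/-!
Block DEC5, part 5: numbers and assembly, `dec5_of : KB5Stmt → DEC5Stmt`.
-/

namespace Vale.Agent.P042.UU

open Polynomial Finset Vale.Agent.P042.SS Vale.Agent.P042.TT

lemma dec_sqrt_sum (N : ℕ) :
    ∑ n ∈ Icc 1 N, (n : ℝ) ^ (-(1 / 2) : ℝ) ≤ 2 * Real.sqrt N := by
  induction N with
  | zero => simp
  | succ N ih =>
    rw [sum_Icc_succ_top (by omega)]
    have h1 : ((N + 1 : ℕ) : ℝ) ^ (-(1 / 2) : ℝ) = (Real.sqrt ((N + 1 : ℕ) : ℝ))⁻¹ := by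
      rw [Real.rpow_neg (Nat.cast_nonneg _), Real.sqrt_eq_rpow]
    rw [h1]
    set a := Real.sqrt ((N + 1 : ℕ) : ℝ) with ha
    set b := Real.sqrt (N : ℝ) with hb
    have ha2 : a * a = (N : ℝ) + 1 := by
      rw [ha, Real.mul_self_sqrt (Nat.cast_nonneg _)]
      push_cast
      ring
    have hb2 : b * b = (N : ℝ) := Real.mul_self_sqrt (Nat.cast_nonneg _)
    have ha0 : 0 < a := Real.sqrt_pos.2 (by positivity)
    have hb0 : 0 ≤ b := Real.sqrt_nonneg _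
    have hba : b ≤ a := Real.sqrt_le_sqrt (by push_cast; linarith)
    have h2 : a⁻¹ ≤ 2 * (a - b) := by
      rw [inv_le_iff_one_le_mul₀ ha0]
      nlinarith
    linarith

lemma dec_W5 {ε P : ℝ} {p : ℕ} (hp : p ∈ W5 ε P) :
    p.Prime ∧ 1 ≤ p ∧ p ≤ ⌊P ^ (2 - 190 * ε)⌋₊ := by
  unfold W5 Wp at hp
  rw [mem_filter, mem_Ioc] at hp
  exact ⟨hp.2, hp.2.one_lt.le, hp.1.2⟩

lemma dec_W5_sub (ε P : ℝ) : W5 ε P ⊆ Icc 1 ⌊P ^ (2 - 190 * ε)⌋₊ := fun p hp =>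
  mem_Icc.2 (dec_W5 hp).2

lemma dec_lam (ε P : ℝ) (hP : 1 ≤ P) (V : Finset ℕ) (hV : V ⊆ W5 ε P) :
    ∑ p ∈ V, lam5 ε P p ≤ 2 * P ^ (1 - 94.9 * ε) := by
  have hP0 : 0 < P := by linarith
  unfold lam5
  rw [← mul_sum]
  have h1 : ∑ p ∈ V, (p : ℝ) ^ (-(1 / 2) : ℝ) ≤
      2 * Real.sqrt (⌊P ^ (2 - 190 * ε)⌋₊ : ℕ) :=
    (sum_le_sum_of_subset_of_nonneg (hV.trans (dec_W5_sub ε P)) fun p _ _ =>
      Real.rpow_nonneg (Nat.cast_nonneg _) _).trans (dec_sqrt_sum _)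
  have h2 : Real.sqrt (⌊P ^ (2 - 190 * ε)⌋₊ : ℕ) ≤ P ^ (1 - 95 * ε) := by
    have h3 : ((⌊P ^ (2 - 190 * ε)⌋₊ : ℕ) : ℝ) ≤ P ^ (2 - 190 * ε) :=
      Nat.floor_le (Real.rpow_nonneg hP0.le _)
    refine (Real.sqrt_le_sqrt h3).trans (le_of_eq ?_)
    rw [Real.sqrt_eq_rpow, ← Real.rpow_mul hP0.le]
    congr 1
    ring
  calc P ^ (ε / 10) * ∑ p ∈ V, (p : ℝ) ^ (-(1 / 2) : ℝ)
      ≤ P ^ (ε / 10) * (2 * P ^ (1 - 95 * ε)) :=
        mul_le_mul_of_nonneg_left (h1.trans (by linarith)) (Real.rpow_nonneg hP0.le _)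
    _ = 2 * (P ^ (ε / 10) * P ^ (1 - 95 * ε)) := by ring
    _ = 2 * P ^ (1 - 94.9 * ε) := by
        rw [← Real.rpow_add hP0]
        congr 2
        ring

lemma dec_T_le {c a b : ℝ} (hc : |c| ≤ 1 / 10) (ha : |a| ≤ 1 / 10) (hb : |b| ≤ 1 / 10) :
    |(1 + c) * (1 + a) * (1 + b) - 1| ≤ 2 * (|c| + |a| + |b|) := by
  have h1 : (1 + c) * (1 + a) * (1 + b) - 1 = c * ((1 + a) * (1 + b)) + a * (1 + b) + b := by ring
  rw [h1]
  have ha' : |1 + a| ≤ 11 / 10 := by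
    have := abs_add_le (1 : ℝ) a
    rw [abs_one] at this
    linarith
  have hb' : |1 + b| ≤ 11 / 10 := by
    have := abs_add_le (1 : ℝ) b
    rw [abs_one] at this
    linarith
  have h2 : |(1 + a) * (1 + b)| ≤ 2 := by
    rw [abs_mul]
    nlinarith [abs_nonneg (1 + a), abs_nonneg (1 + b)]
  calc |c * ((1 + a) * (1 + b)) + a * (1 + b) + b|
      ≤ |c * ((1 + a) * (1 + b))| + |a * (1 + b)| + |b| :=
        (abs_add_le _ _).trans (add_le_add (abs_add_le _ _) le_rfl)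
    _ = |c| * |(1 + a) * (1 + b)| + |a| * |1 + b| + |b| := by rw [abs_mul, abs_mul a]
    _ ≤ |c| * 2 + |a| * 2 + |b| := by
        have := mul_le_mul_of_nonneg_left h2 (abs_nonneg c)
        have := mul_le_mul_of_nonneg_left hb' (abs_nonneg a)
        linarith [abs_nonneg a]
    _ ≤ _ := by linarith [abs_nonneg b]

open Filter in
lemma dec_pow_ev {a b C : ℝ} (hab : a < b) : ∀ᶠ P : ℝ in atTop, C * P ^ a ≤ P ^ b := by
  have h1 := (tendsto_rpow_atTop (sub_pos.2 hab)).eventually_ge_atTop C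
  filter_upwards [h1, eventually_gt_atTop (0 : ℝ)] with P h2 h3
  have h4 : P ^ b = P ^ (b - a) * P ^ a := by
    rw [← Real.rpow_add h3]
    congr 1
    ring
  rw [h4]
  exact mul_le_mul_of_nonneg_right h2 (Real.rpow_nonneg h3.le _)

open Filter in
lemma dec_log_ev {a C : ℝ} (ha : 0 < a) : ∀ᶠ P : ℝ in atTop, C * Real.log P + C ≤ P ^ a := by
  have h1 : ∀ᶠ P : ℝ in atTop, |C| * Real.log P ≤ P ^ a / 2 := by
    have h2 := (isLittleO_log_rpow_atTop ha).bound (c := 1 / (2 * (|C| + 1))) (by positivity)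
    filter_upwards [h2, eventually_ge_atTop (1 : ℝ)] with P h3 h4
    have h5 : 0 ≤ Real.log P := Real.log_nonneg h4
    have h6 : 0 ≤ P ^ a := Real.rpow_nonneg (by linarith) _
    rw [Real.norm_of_nonneg h5, Real.norm_of_nonneg h6] at h3
    calc |C| * Real.log P ≤ |C| * (1 / (2 * (|C| + 1)) * P ^ a) :=
          mul_le_mul_of_nonneg_left h3 (abs_nonneg _)
      _ = (|C| / (|C| + 1)) * (P ^ a / 2) := by
          field_simp
      _ ≤ 1 * (P ^ a / 2) := by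
          refine mul_le_mul_of_nonneg_right ?_ (by linarith)
          rw [div_le_one (by positivity)]
          linarith
      _ = P ^ a / 2 := one_mul _
  have h2 := (tendsto_rpow_atTop ha).eventually_ge_atTop (2 * C)
  filter_upwards [h1, h2, eventually_ge_atTop (1 : ℝ)] with P h3 h4 h5
  have h6 : C * Real.log P ≤ |C| * Real.log P :=
    mul_le_mul_of_nonneg_right (le_abs_self C) (Real.log_nonneg h5)
  linarith

/-- the numerical facts -/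
structure DecNum (k : ℕ) (ε P : ℝ) : Prop where
  P1 : 16 ≤ P
  n1 : 100 * P ^ (1 - 95 * ε) ≤ P ^ (1 - 94.5 * ε)
  n2 : 100 * P ^ (1 - 97.9 * ε) ≤ P ^ (1 - 94.5 * ε)
  n3 : 100 * P ^ (1 - 95.5 * ε) ≤ P ^ (1 - 94.5 * ε)
  n4 : 960000 * P ^ (1 - 94.9 * ε) ≤ P ^ (1 - 94.5 * ε)
  n5 : 1000 * ((k : ℝ) + 1) ≤ P ^ (1 - 94.5 * ε)
  n6 : 1800 * P ^ (1 - 142 * ε) ≤ P ^ (1 - 94.5 * ε)
  n7 : 10 * Real.log P + 10 ≤ P ^ (0.5 * ε)
  n8 : 10 * Real.log P + 10 ≤ P ^ (94 * ε)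
  n9 : 10 * P ^ (-(96 * ε)) ≤ 1
  n10 : 10 * P ^ (-(190 * ε)) ≤ 1

open Filter in
lemma dec_num (k : ℕ) (ε : ℝ) (h0 : 0 < ε) (h1 : ε ≤ 1 / 1000) :
    ∀ᶠ P : ℝ in atTop, DecNum k ε P := by
  have e5 : ∀ᶠ P : ℝ in atTop, 1000 * ((k : ℝ) + 1) ≤ P ^ (1 - 94.5 * ε) :=
    (tendsto_rpow_atTop (by linarith)).eventually_ge_atTop _
  have e9 := dec_pow_ev (a := -(96 * ε)) (b := 0) (C := 10) (by linarith)
  have e10 := dec_pow_ev (a := -(190 * ε)) (b := 0) (C := 10) (by linarith)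
  filter_upwards [eventually_ge_atTop (16 : ℝ),
    dec_pow_ev (a := 1 - 95 * ε) (b := 1 - 94.5 * ε) (C := 100) (by linarith),
    dec_pow_ev (a := 1 - 97.9 * ε) (b := 1 - 94.5 * ε) (C := 100) (by linarith),
    dec_pow_ev (a := 1 - 95.5 * ε) (b := 1 - 94.5 * ε) (C := 100) (by linarith),
    dec_pow_ev (a := 1 - 94.9 * ε) (b := 1 - 94.5 * ε) (C := 960000) (by linarith), e5,
    dec_pow_ev (a := 1 - 142 * ε) (b := 1 - 94.5 * ε) (C := 1800) (by linarith),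
    dec_log_ev (a := 0.5 * ε) (C := 10) (by linarith),
    dec_log_ev (a := 94 * ε) (C := 10) (by linarith), e9, e10]
    with P a0 a1 a2 a3 a4 a5 a6 a7 a8 a9 a10
  rw [Real.rpow_zero] at a9 a10
  exact ⟨a0, a1, a2, a3, a4, a5, a6, a7, a8, a9, a10⟩

end Vale.Agent.P042.UU
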