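import Vale.Agent.P042.UU.Dec5

set_option autoImplicit false

/-!
Block DEC5, part 6: assembly, `dec5_of : KB5Stmt → DEC5Stmt`.
-/

namespace Vale.Agent.P042.UU

open Polynomial Finset Vale.Agent.P042.SS Vale.Agent.P042.TT

/-- size of the product of a small set of primes of the window -/
lemma dec_prod {k : ℕ} {ε P : ℝ} (h0 : 0 < ε) (hn : DecNum k ε P) {N' H : ℕ}
    (hN : Real.exp (7 / 8 * P) ≤ N') (hH : N' ≤ 16 * H) (U : Finset ℕ) (hU : U ⊆ W5 ε P)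
    (hc : U.card ≤ d5 ε P) : ∏ p ∈ U, p ≤ H := by
  have hP1 : (1 : ℝ) ≤ P := by linarith [hn.P1]
  have hP0 : (0 : ℝ) < P := by linarith
  have hl0 : 0 ≤ Real.log P := Real.log_nonneg hP1
  have h1 : ((∏ p ∈ U, p : ℕ) : ℝ) ≤ (P ^ 2) ^ U.card := by
    push_cast
    rw [← prod_const]
    refine prod_le_prod (fun _ _ => Nat.cast_nonneg _) fun p hp => ?_
    have h2 := (dec_W5 (hU hp)).2.2
    have h3 : ((⌊P ^ (2 - 190 * ε)⌋₊ : ℕ) : ℝ) ≤ P ^ (2 - 190 * ε) :=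
      Nat.floor_le (Real.rpow_nonneg hP0.le _)
    calc (p : ℝ) ≤ ((⌊P ^ (2 - 190 * ε)⌋₊ : ℕ) : ℝ) := by exact_mod_cast h2
      _ ≤ P ^ (2 - 190 * ε) := h3
      _ ≤ P ^ (2 : ℝ) := Real.rpow_le_rpow_of_exponent_le hP1 (by linarith)
      _ = P ^ 2 := by norm_cast
  have h2 : (P ^ 2) ^ U.card ≤ (P ^ 2) ^ d5 ε P :=
    pow_le_pow_right₀ (one_le_pow₀ hP1) hc
  have h3 : (P ^ 2) ^ d5 ε P = Real.exp (2 * Real.log P * d5 ε P) := by
    rw [← pow_mul, ← Real.rpow_natCast, Real.rpow_def_of_pos hP0]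
    congr 1
    push_cast
    ring
  have h4 : (d5 ε P : ℝ) ≤ P ^ (1 - 94 * ε) := Nat.floor_le (Real.rpow_nonneg hP0.le _)
  have h5 : 2 * Real.log P * d5 ε P ≤ P / 2 := by
    have h6 : P ^ (94 * ε) * P ^ (1 - 94 * ε) = P := by
      rw [← Real.rpow_add hP0]
      simp
    have h7 : (10 * Real.log P + 10) * P ^ (1 - 94 * ε) ≤ P := by
      calc _ ≤ P ^ (94 * ε) * P ^ (1 - 94 * ε) :=
            mul_le_mul_of_nonneg_right hn.n8 (Real.rpow_nonneg hP0.le _)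
        _ = P := h6
    have h8 : 0 ≤ P ^ (1 - 94 * ε) := Real.rpow_nonneg hP0.le _
    have h9 : Real.log P * d5 ε P ≤ Real.log P * P ^ (1 - 94 * ε) :=
      mul_le_mul_of_nonneg_left h4 hl0
    nlinarith [mul_nonneg hl0 h8]
  have h6 : Real.exp (P / 2) * 16 ≤ Real.exp (7 / 8 * P) := by
    have h7 : (16 : ℝ) ≤ Real.exp (3 / 8 * P) := by
      have := hn.P1
      have h8 : (6 : ℝ) ≤ 3 / 8 * P := by linarith
      have h9 : Real.exp 6 ≤ Real.exp (3 / 8 * P) := Real.exp_le_exp.2 h8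
      have h10 : (16 : ℝ) ≤ Real.exp 6 := by
        have h11 : Real.exp 6 = (Real.exp 1) ^ 6 := by
          rw [← Real.exp_nat_mul]
          norm_num
        have h12 : (2 : ℝ) ≤ Real.exp 1 := by
          have := Real.add_one_le_exp (1 : ℝ)
          linarith
        rw [h11]
        calc (16 : ℝ) ≤ 2 ^ 6 := by norm_num
          _ ≤ (Real.exp 1) ^ 6 := pow_le_pow_left₀ (by norm_num) h12 6
      linarith
    calc Real.exp (P / 2) * 16 ≤ Real.exp (P / 2) * Real.exp (3 / 8 * P) :=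
          mul_le_mul_of_nonneg_left h7 (Real.exp_pos _).le
      _ = Real.exp (7 / 8 * P) := by
          rw [← Real.exp_add]
          congr 1
          ring
  have h7 : (N' : ℝ) ≤ 16 * H := by exact_mod_cast hH
  have h8 : ((∏ p ∈ U, p : ℕ) : ℝ) ≤ H := by
    have h9 : Real.exp (2 * Real.log P * d5 ε P) ≤ Real.exp (P / 2) := Real.exp_le_exp.2 h5
    have := h1.trans (h2.trans (h3.le.trans h9))
    linarith
  exact_mod_cast h8

/-- the numbers -/
lemma dec_final {k : ℕ} {ε P : ℝ} (h0 : 0 < ε) (hn : DecNum k ε P) {N' : ℕ}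
    (hN : 1 ≤ N') (H : ℕ) {E : ℝ} {Lm : ℝ} (hLm : Lm ≤ 2 * P ^ (1 - 94.9 * ε))
    (hE : E = (P ^ 2) ^ u5 ε P * Real.exp (k + 1) *
        Real.exp (3 * (6 * P ^ (1 - 142 * ε)) - (d5 ε P - u5 ε P + 1)) +
      16 * Real.exp (3 * (1600 * Lm) - (u5 ε P + 1))) :
    (3 * (N' : ℝ) + 1) * ((H * Real.exp (P ^ (1 - 97.9 * ε))) ^ 2 * ((Q5 ε P : ℝ) ^ 2 * E)) ≤
      Real.exp (-(P ^ (1 - 95.5 * ε))) * N' * (H : ℝ) ^ 2 := by
  have hP1 : (1 : ℝ) ≤ P := by linarith [hn.P1]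
  have hP0 : (0 : ℝ) < P := by linarith
  have hl0 : 0 ≤ Real.log P := Real.log_nonneg hP1
  set x : ℝ := P ^ (1 - 94.5 * ε) with hx
  have hx0 : 0 ≤ x := Real.rpow_nonneg hP0.le _
  have hx1 : 1000 ≤ x := by
    have := hn.n5
    have : (0 : ℝ) ≤ k := Nat.cast_nonneg _
    linarith [hn.n5]
  have hu : (u5 ε P : ℝ) ≤ x := Nat.floor_le hx0
  have hu' : x < u5 ε P + 1 := Nat.lt_floor_add_one _
  have hd' : P ^ (1 - 94 * ε) < d5 ε P + 1 := Nat.lt_floor_add_one _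
  have hdx : (10 * Real.log P + 10) * x ≤ P ^ (1 - 94 * ε) := by
    have h1 : P ^ (0.5 * ε) * x = P ^ (1 - 94 * ε) := by
      rw [hx, ← Real.rpow_add hP0]
      congr 1
      ring
    rw [← h1]
    exact mul_le_mul_of_nonneg_right hn.n7 hx0
  have hE1 : (P ^ 2) ^ u5 ε P * Real.exp (k + 1) *
      Real.exp (3 * (6 * P ^ (1 - 142 * ε)) - (d5 ε P - u5 ε P + 1)) ≤
      Real.exp (-(0.98 * x)) := by
    have h3 : (P ^ 2) ^ u5 ε P = Real.exp (2 * Real.log P * u5 ε P) := by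
      rw [← pow_mul, ← Real.rpow_natCast, Real.rpow_def_of_pos hP0]
      congr 1
      push_cast
      ring
    rw [h3, ← Real.exp_add, ← Real.exp_add]
    apply Real.exp_le_exp.2
    have h4 := hn.n6
    have h5 := hn.n5
    have h6 : Real.log P * u5 ε P ≤ Real.log P * x := mul_le_mul_of_nonneg_left hu hl0
    nlinarith [mul_nonneg hl0 hx0]
  have hE2 : 16 * Real.exp (3 * (1600 * Lm) - (u5 ε P + 1)) ≤ 16 * Real.exp (-(0.98 * x)) := by
    refine mul_le_mul_of_nonneg_left (Real.exp_le_exp.2 ?_) (by norm_num)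
    have h4 := hn.n4
    linarith
  have hE3 : E ≤ 17 * Real.exp (-(0.98 * x)) := by
    rw [hE]
    linarith
  have hE0 : 0 ≤ E := by
    rw [hE]
    positivity
  have hQ : (Q5 ε P : ℝ) ^ 2 ≤ Real.exp (0.02 * x) := by
    have h1 : (Q5 ε P : ℝ) ≤ Real.exp (P ^ (1 - 95 * ε)) := Nat.floor_le (Real.exp_pos _).le
    calc (Q5 ε P : ℝ) ^ 2 ≤ (Real.exp (P ^ (1 - 95 * ε))) ^ 2 :=
          pow_le_pow_left₀ (Nat.cast_nonneg _) h1 2
      _ = Real.exp (2 * P ^ (1 - 95 * ε)) := by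
          rw [← Real.exp_nat_mul]
          norm_num
      _ ≤ Real.exp (0.02 * x) := Real.exp_le_exp.2 (by linarith [hn.n1])
  have hA : (Real.exp (P ^ (1 - 97.9 * ε))) ^ 2 ≤ Real.exp (0.02 * x) := by
    rw [← Real.exp_nat_mul]
    apply Real.exp_le_exp.2
    push_cast
    linarith [hn.n2]
  have hN' : 3 * (N' : ℝ) + 1 ≤ 4 * N' := by
    have : (1 : ℝ) ≤ N' := by exact_mod_cast hN
    linarith
  have h68 : (68 : ℝ) ≤ Real.exp 6 := by
    have h11 : Real.exp 6 = (Real.exp 1) ^ 6 := by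
      rw [← Real.exp_nat_mul]
      norm_num
    have h12 : (2.7 : ℝ) ≤ Real.exp 1 := by
      have := Real.exp_one_gt_d9
      linarith
    rw [h11]
    calc (68 : ℝ) ≤ 2.7 ^ 6 := by norm_num
      _ ≤ (Real.exp 1) ^ 6 := pow_le_pow_left₀ (by norm_num) h12 6
  have hH0 : (0 : ℝ) ≤ (H : ℝ) ^ 2 := by positivity
  have hN0 : (0 : ℝ) ≤ N' := Nat.cast_nonneg _
  calc (3 * (N' : ℝ) + 1) * ((H * Real.exp (P ^ (1 - 97.9 * ε))) ^ 2 * ((Q5 ε P : ℝ) ^ 2 * E))
      = ((3 * (N' : ℝ) + 1) * (H : ℝ) ^ 2) *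
          ((Real.exp (P ^ (1 - 97.9 * ε))) ^ 2 * ((Q5 ε P : ℝ) ^ 2 * E)) := by ring
    _ ≤ ((4 * N') * (H : ℝ) ^ 2) *
          (Real.exp (0.02 * x) * (Real.exp (0.02 * x) * (17 * Real.exp (-(0.98 * x))))) := by
        refine mul_le_mul (mul_le_mul_of_nonneg_right hN' hH0) ?_ (by positivity) (by positivity)
        refine mul_le_mul hA ?_ (by positivity) (Real.exp_pos _).le
        exact mul_le_mul hQ hE3 hE0 (Real.exp_pos _).le
    _ = 68 * Real.exp (-(0.94 * x)) * N' * (H : ℝ) ^ 2 := by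
        have : Real.exp (0.02 * x) * (Real.exp (0.02 * x) * Real.exp (-(0.98 * x))) =
            Real.exp (-(0.94 * x)) := by
          rw [← Real.exp_add, ← Real.exp_add]
          congr 1
          ring
        rw [← this]
        ring
    _ ≤ Real.exp (-(P ^ (1 - 95.5 * ε))) * N' * (H : ℝ) ^ 2 := by
        refine mul_le_mul_of_nonneg_right (mul_le_mul_of_nonneg_right ?_ hN0) hH0
        calc 68 * Real.exp (-(0.94 * x)) ≤ Real.exp 6 * Real.exp (-(0.94 * x)) :=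
              mul_le_mul_of_nonneg_right h68 (Real.exp_pos _).le
          _ = Real.exp (6 - 0.94 * x) := by
              rw [← Real.exp_add]
              congr 1
          _ ≤ _ := Real.exp_le_exp.2 (by linarith [hn.n3])

/-- block DEC5 from block KB5 -/
theorem dec5_of (hKB : KB5Stmt) : DEC5Stmt := by
  intro k E K p0 kap ε hk hE hkap hε0 hε1
  obtain ⟨P1, hP1⟩ := hKB k E K p0 kap ε hk hE hkap hε0 hε1
  obtain ⟨P2, hP2⟩ := Filter.eventually_atTop.1 (dec_num k ε hε0 hε1)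
  refine ⟨max P1 P2, ?_⟩
  intro P hP N' H G ν hN hN2 hH1 hH2 hw hνle hlow hG0 hGs hGle hGν f hGam hkp hgood
  have hn : DecNum k ε P := hP2 P ((le_max_right _ _).trans hP)
  obtain ⟨hcc, hccs, hta, htb, -, -, hper, hzn, hkn⟩ :=
    hP1 P ((le_max_left _ _).trans hP) ν hw hνle hlow f hGam hkp
  have hP1' : (1 : ℝ) ≤ P := by linarith [hn.P1]
  have hP0 : (0 : ℝ) < P := by linarith
  have hN1 : 1 ≤ N' := by
    rcases Nat.eq_zero_or_pos N' with h | h
    · rw [h] at hN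
      have := Real.exp_pos (7 / 8 * P)
      push_cast at hN
      linarith
    · exact h
  -- sizes
  have hb5 : b5 ε P / 4 ≤ 1 / 10 := by
    have := hn.n9
    unfold b5
    linarith
  have hcc1 : ∀ p ∈ W5 ε P, |cc ν f p| ≤ 1 / 10 := fun p hp => by
    have := hcc p hp
    have := hn.n10
    linarith
  have hta1 : ∀ p ∈ W5 ε P, ∀ n, |ta ν f p n| ≤ 1 / 10 := fun p hp n => (hta.le p hp n).trans hb5
  have htb1 : ∀ p ∈ W5 ε P, ∀ n, |tb ν f p n| ≤ 1 / 10 := fun p hp n => (htb.le p hp n).trans hb5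
  have hT : ∀ p ∈ W5 ε P, ∀ n m, |decT ν f p n m| ≤
      2 * (|cc ν f p| + |ta ν f p n| + |tb ν f p m|) := fun p hp n m =>
    dec_T_le (hcc1 p hp) (hta1 p hp n) (htb1 p hp m)
  have hze : ∀ p ∈ W5 ε P, ∀ n m : ℤ, |ze ν f p n m| ≤ k + 1 := by
    intro p hp n m
    have h1 : ze ν f p n m = kp f p (n - m) - decT ν f p n m := by
      rw [dec_kp ν f p n m]
      ring
    rw [h1]
    have h2 := hkp p hp (n - m)
    have h3 := hT p hp n m
    have h4 := hcc1 p hp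
    have h5 := hta1 p hp n
    have h6 := htb1 p hp m
    have h7 := abs_sub (kp f p (n - m)) (decT ν f p n m)
    linarith
  have hA142 : P ^ (1 - 191 * ε) ≤ P ^ (1 - 142 * ε) :=
    Real.rpow_le_rpow_of_exponent_le hP1' (by linarith)
  have hTs : ∀ V ⊆ W5 ε P, ∀ n m, G n ≠ 0 → G m ≠ 0 →
      ∑ p ∈ V, |decT ν f p n m| ≤ 6 * P ^ (1 - 142 * ε) := by
    intro V hV n m hGn hGm
    obtain ⟨-, g1, -⟩ := hgood n hGn
    obtain ⟨-, -, g2⟩ := hgood m hGm
    unfold Ma5 at g1 g2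
    calc ∑ p ∈ V, |decT ν f p n m| ≤ ∑ p ∈ W5 ε P, |decT ν f p n m| :=
          sum_le_sum_of_subset_of_nonneg hV fun _ _ _ => abs_nonneg _
      _ ≤ ∑ p ∈ W5 ε P, 2 * (|cc ν f p| + |ta ν f p n| + |tb ν f p m|) :=
          sum_le_sum fun p hp => hT p hp n m
      _ = 2 * (∑ p ∈ W5 ε P, |cc ν f p| + ∑ p ∈ W5 ε P, |ta ν f p n| +
            ∑ p ∈ W5 ε P, |tb ν f p m|) := by
          rw [← mul_sum, sum_add_distrib, sum_add_distrib]
      _ ≤ 6 * P ^ (1 - 142 * ε) := by linarith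
  -- rates
  have hL0 : ∀ p, 0 ≤ lam5 ε P p := fun p =>
    mul_nonneg (Real.rpow_nonneg hP0.le _) (Real.rpow_nonneg (Nat.cast_nonneg _) _)
  have hTn : ∀ p ∈ W5 ε P, ∀ φ ψ : ℕ → ℝ,
      |∑ x ∈ range p, ∑ y ∈ range p, (ν p x / p) * (ν p y / p) *
        (φ x * decT ν f p x y * ψ y)| ≤ (2 * lam5 ε P p) *
        (Real.sqrt (∑ x ∈ range p, ν p x / p * φ x ^ 2) *
          Real.sqrt (∑ y ∈ range p, ν p y / p * ψ y ^ 2)) := by
    intro p hp φ ψ
    have h1 : ∑ x ∈ range p, ∑ y ∈ range p, (ν p x / p) * (ν p y / p) *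
        (φ x * decT ν f p x y * ψ y) =
        ∑ x ∈ range p, ∑ y ∈ range p, (ν p x / p) * (ν p y / p) *
          (φ x * kp f p ((x : ℤ) - (y : ℤ)) * ψ y) -
        ∑ x ∈ range p, ∑ y ∈ range p, (ν p x / p) * (ν p y / p) *
          (φ x * ze ν f p x y * ψ y) := by
      rw [← sum_sub_distrib]
      refine sum_congr rfl fun x _ => ?_
      rw [← sum_sub_distrib]
      refine sum_congr rfl fun y _ => ?_
      rw [dec_kp ν f p x y]
      ring
    rw [h1]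
    have h2 := hzn p hp φ ψ
    have h3 := hkn p hp φ ψ
    have h4 := abs_sub (∑ x ∈ range p, ∑ y ∈ range p, (ν p x / p) * (ν p y / p) *
          (φ x * kp f p ((x : ℤ) - (y : ℤ)) * ψ y)) (∑ x ∈ range p, ∑ y ∈ range p,
          (ν p x / p) * (ν p y / p) * (φ x * ze ν f p x y * ψ y))
    linarith
  have hZn : ∀ p ∈ W5 ε P, ∀ φ ψ : ℕ → ℝ,
      |∑ x ∈ range p, ∑ y ∈ range p, (ν p x / p) * (ν p y / p) *
        (φ x * ze ν f p x y * ψ y)| ≤ (2 * lam5 ε P p) *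
        (Real.sqrt (∑ x ∈ range p, ν p x / p * φ x ^ 2) *
          Real.sqrt (∑ y ∈ range p, ν p y / p * ψ y ^ 2)) := by
    intro p hp φ ψ
    have h2 := hzn p hp φ ψ
    have h3 : 0 ≤ lam5 ε P p * (Real.sqrt (∑ x ∈ range p, ν p x / p * φ x ^ 2) *
          Real.sqrt (∑ y ∈ range p, ν p y / p * ψ y ^ 2)) :=
      mul_nonneg (hL0 p) (mul_nonneg (Real.sqrt_nonneg _) (Real.sqrt_nonneg _))
    linarith
  have hTper : ∀ p ∈ W5 ε P, ∀ n m : ℤ, decT ν f p (n + p) m = decT ν f p n m ∧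
      decT ν f p n (m + p) = decT ν f p n m := by
    intro p hp n m
    unfold decT
    rw [hta.per p hp, htb.per p hp]
    exact ⟨rfl, rfl⟩
  have hGA : ∀ n, |G n| ≤ Real.exp (P ^ (1 - 97.9 * ε)) := fun n => by
    rw [abs_of_nonneg (hG0 n)]
    exact hGle n
  have hcardW : ∀ V ⊆ W5 ε P, (V.card : ℝ) ≤ P ^ 2 := by
    intro V hV
    have h1 := card_le_card (hV.trans (dec_W5_sub ε P))
    rw [Nat.card_Icc, Nat.add_sub_cancel] at h1
    have h3 : ((⌊P ^ (2 - 190 * ε)⌋₊ : ℕ) : ℝ) ≤ P ^ (2 - 190 * ε) :=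
      Nat.floor_le (Real.rpow_nonneg hP0.le _)
    calc (V.card : ℝ) ≤ ((⌊P ^ (2 - 190 * ε)⌋₊ : ℕ) : ℝ) := by exact_mod_cast h1
      _ ≤ P ^ (2 - 190 * ε) := h3
      _ ≤ P ^ (2 : ℝ) := Real.rpow_le_rpow_of_exponent_le hP1' (by linarith)
      _ = P ^ 2 := by norm_cast
  have hud : u5 ε P ≤ d5 ε P :=
    Nat.floor_le_floor (Real.rpow_le_rpow_of_exponent_le hP1' (by linarith))
  set Lm : ℝ := ∑ p ∈ W5 ε P, lam5 ε P p with hLm
  have hLm1 : Lm ≤ 2 * P ^ (1 - 94.9 * ε) := dec_lam ε P hP1' _ (Subset.refl _)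
  set E1 : ℝ := (P ^ 2) ^ u5 ε P * Real.exp (k + 1) *
        Real.exp (3 * (6 * P ^ (1 - 142 * ε)) - (d5 ε P - u5 ε P + 1)) with hE1
  set E2 : ℝ := 16 * Real.exp (3 * (1600 * Lm) - (u5 ε P + 1)) with hE2
  have hE10 : 0 ≤ E1 := by positivity
  have hE20 : 0 ≤ E2 := by positivity
  set A : ℝ := Real.exp (P ^ (1 - 97.9 * ε)) with hAdef
  have hterm : ∀ q ∈ EV5 ε P (Q5 ε P), ‖Cor G G N' H
        (KQ f q (fun n m => KU ε P f q n m - KS ε P ν f q n m))‖ ≤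
      (3 * (N' : ℝ) + 1) * ((H * A) ^ 2 * ((Q5 ε P : ℝ) * (E1 + E2))) := by
    intro q hq
    unfold EV5 at hq
    rw [mem_filter, mem_Icc] at hq
    have hq1 := hq.1.1
    have hqQ : (q : ℝ) ≤ Q5 ε P := by exact_mod_cast hq.1.2
    have hVW : Vn ε P q ⊆ W5 ε P := filter_subset _ _
    have hfun : (fun n m : ℤ => KU ε P f q n m - KS ε P ν f q n m) = fun n m =>
        decB (Vn ε P q) (fun p => ze ν f p n m) (fun p => decT ν f p n m) (d5 ε P) (u5 ε P) -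
        decR (Vn ε P q) (fun p => ze ν f p n m) (fun p => decT ν f p n m) (d5 ε P) (u5 ε P) := by
      funext n m
      exact dec_KU_KS ε P ν f q n m
    rw [hfun]
    refine (dec_cor_sub G N' H f q _ _).trans ?_
    have hB := dec_big (Vn ε P q) (fun p hp => (dec_W5 (hVW hp)).1) ν
      ⟨hw.nn, fun p hp => hw.per p (hVW hp), fun p hp => hw.mean p (hVW hp)⟩
      (fun p hp => hlow p (hVW hp)) (fun p n m => ze ν f p n m) (fun p n m => decT ν f p n m)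
      (fun p hp n m => ⟨(hper p (hVW hp) n m).2.1, (hper p (hVW hp) n m).2.2⟩)
      (fun p hp n m => hTper p (hVW hp) n m) (fun p => 2 * lam5 ε P p)
      (fun p _ => mul_nonneg (by norm_num) (hL0 p))
      (fun p hp φ ψ => hZn p (hVW hp) φ ψ) (fun p hp φ ψ => hTn p (hVW hp) φ ψ)
      G A hGA (fun n hGn p hp => hGν n hGn p (hVW hp)) N' H (d5 ε P) (u5 ε P)
      (fun U hU hc => dec_prod hε0 hn hN hH2 U (hU.trans hVW) hc) f q hq1
    have hR : ‖Cor G G N' H (KQ f q (fun n m =>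
        decR (Vn ε P q) (fun p => ze ν f p n m) (fun p => decT ν f p n m) (d5 ε P) (u5 ε P)))‖ ≤
        (3 * (N' : ℝ) + 1) * ((H * A) ^ 2 * ((q : ℝ) * E1)) := by
      refine dec_cor G A hGA N' H _ ((q : ℝ) * E1) (by positivity) fun n m hGn hGm => ?_
      refine (dec_KQ f q hq1 _ n m).trans (mul_le_mul_of_nonneg_left ?_ (Nat.cast_nonneg _))
      exact dec_rem (Vn ε P q) _ _ (d5 ε P) (u5 ε P) (k + 1) (P ^ 2) (6 * P ^ (1 - 142 * ε))
        (one_le_pow₀ hP1') (by positivity) (hcardW _ hVW) (fun p hp => hze p (hVW hp) n m) hud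
        (hTs _ hVW n m hGn hGm)
    have hB2 : (q : ℝ) * (16 * Real.exp (3 * (∑ p ∈ Vn ε P q, 800 * (2 * lam5 ε P p)) -
        (u5 ε P + 1))) ≤ (q : ℝ) * E2 := by
      refine mul_le_mul_of_nonneg_left ?_ (Nat.cast_nonneg _)
      rw [hE2]
      refine mul_le_mul_of_nonneg_left (Real.exp_le_exp.2 ?_) (by norm_num)
      have h1 : ∑ p ∈ Vn ε P q, 800 * (2 * lam5 ε P p) ≤ 1600 * Lm := by
        rw [hLm, mul_sum]
        refine (sum_le_sum_of_subset_of_nonneg hVW fun p _ _ => ?_).trans (le_of_eq ?_)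
        · have := hL0 p
          positivity
        · refine sum_congr rfl fun p _ => ?_
          ring
      linarith
    have hc0 : 0 ≤ (3 * (N' : ℝ) + 1) * (H * A) ^ 2 := by positivity
    calc _ ≤ (3 * (N' : ℝ) + 1) * ((H * A) ^ 2 * ((q : ℝ) * E2)) +
          (3 * (N' : ℝ) + 1) * ((H * A) ^ 2 * ((q : ℝ) * E1)) := by
          refine add_le_add (hB.trans ?_) hR
          have := mul_le_mul_of_nonneg_left hB2 hc0
          calc _ = (3 * (N' : ℝ) + 1) * (H * A) ^ 2 * ((q : ℝ) * (16 * Real.exp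
                (3 * (∑ p ∈ Vn ε P q, 800 * (2 * lam5 ε P p)) - (u5 ε P + 1)))) := by ring
            _ ≤ _ := this
            _ = _ := by ring
      _ = (3 * (N' : ℝ) + 1) * (H * A) ^ 2 * ((q : ℝ) * (E1 + E2)) := by ring
      _ ≤ (3 * (N' : ℝ) + 1) * (H * A) ^ 2 * ((Q5 ε P : ℝ) * (E1 + E2)) := by
          refine mul_le_mul_of_nonneg_left ?_ hc0
          exact mul_le_mul_of_nonneg_right hqQ (by positivity)
      _ = _ := by ring
  refine (norm_sum_le _ _).trans ((sum_le_sum hterm).trans ?_)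
  rw [sum_const, nsmul_eq_mul]
  have hcard : ((EV5 ε P (Q5 ε P)).card : ℝ) ≤ Q5 ε P := by
    have h1 := card_filter_le (Icc 1 (Q5 ε P)) (fun q => ∀ p ∈ W5 ε P, q.factorization p ≠ 1)
    rw [Nat.card_Icc, Nat.add_sub_cancel] at h1
    exact_mod_cast h1
  have hfin := dec_final hε0 hn hN1 H (E := E1 + E2) hLm1 rfl
  refine le_trans ?_ hfin
  calc _ ≤ (Q5 ε P : ℝ) * ((3 * (N' : ℝ) + 1) * ((H * A) ^ 2 * ((Q5 ε P : ℝ) * (E1 + E2)))) :=
        mul_le_mul_of_nonneg_right hcard (by positivity)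
    _ = _ := by ring

end Vale.Agent.P042.UU
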