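import Vale.Agent.P042.TT.Spec

set_option autoImplicit false

/-!
Abstract blocks of Theorem S5.
-/

namespace Vale.Agent.P042.UU

open Polynomial Finset Vale.Agent.P042.SS Vale.Agent.P042.TT

/-- block LOC5: truncated global hypercontractivity with erasures (hypothesis for sets
`|S| ≤ d`, `|S| + |T| ≤ 2 d`; conclusion for `|T| ≤ d`) -/
def LOC5Stmt : Prop :=
  ∀ (m : ℕ) (c : ℝ), 2 ≤ m → 1 ≤ c → ∃ C : ℝ, 1 ≤ C ∧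
  ∀ (ι : Type) [Fintype ι] [DecidableEq ι] (Ω : ι → Type) [∀ i, Fintype (Ω i)]
    (π : ∀ i, Ω i → ℝ) (f : (∀ i, Ω i) → ℝ) (s t : ι → ℝ) (B : ℝ) (d : ℕ),
    IsPr π → (∀ x, 0 ≤ f x) → 0 < B → (∀ i, 0 ≤ t i ∧ C * t i ≤ s i ∧ s i ≤ 1) →
    4 * ∑ i, s i ≤ d →
    (∀ (S : Finset ι) (x : ∀ i, Ω i), S.card ≤ d → (∀ i ∈ S, π i (x i) ≠ 0) →
      ∑ T ∈ Sᶜ.powerset.filter (fun T => S.card + T.card ≤ 2 * d), wtR s Sᶜ T *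
        Ex π T (fun z => (rho π f (S ∪ T) z) ^ ((2 * m : ℝ) / (2 * m - 1))) x ≤
          (c ^ S.card * B) ^ ((2 * m : ℝ) / (2 * m - 1))) →
    ∑ T ∈ (univ : Finset (Finset ι)).filter (fun T => T.card ≤ d), wtR t univ T *
        Ev π (fun x => (rho π f T x) ^ (2 * m)) ≤ (C * B) ^ (2 * m)

/-- block TILT5: bilinear forms of doubly centred kernels with multipliers, degree at most `u` -/
def TILT5Stmt : Prop :=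
  ∀ (ι : Type) [Fintype ι] [DecidableEq ι] (Ω : ι → Type) [∀ i, Fintype (Ω i)]
    (π : ∀ i, Ω i → ℝ) (ζ : ∀ i, Ω i → Ω i → ℝ) (m m' : ∀ i, Ω i → ℝ)
    (f f' : (∀ i, Ω i) → ℂ) (lam σ : ι → ℝ) (u : ℕ) (δ X X' : ℝ),
    IsPr π → (∀ i y, ∑ x, π i x * ζ i x y = 0) → (∀ i x, ∑ y, π i y * ζ i x y = 0) →
    (∀ i, 0 ≤ lam i ∧ lam i ≤ 1) → (∀ i, 0 ≤ σ i) →
    (∀ (i : ι) (φ ψ : Ω i → ℝ), |∑ x, ∑ y, π i x * π i y * (φ x * ζ i x y * ψ y)| ≤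
      lam i * (Real.sqrt (∑ x, π i x * φ x ^ 2) * Real.sqrt (∑ y, π i y * ψ y ^ 2))) →
    (∀ i x, |m i x| ≤ 2) → (∀ i x, |m' i x| ≤ 2) →
    (∀ i, ∑ x, π i x * (m i x - 1) ^ 2 ≤ σ i) → (∀ i, ∑ x, π i x * (m' i x - 1) ^ 2 ≤ σ i) →
    8 * ∑ i, lam i * σ i ≤ δ → δ ≤ 1 →
    ∑ W ∈ ((univ : Finset (Finset ι)).filter (fun W => W.card ≤ u)).erase ∅,
      (∏ i ∈ W, (16 * lam i)) * TT.en π f W ≤ X →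
    ∑ W ∈ ((univ : Finset (Finset ι)).filter (fun W => W.card ≤ u)).erase ∅,
      (∏ i ∈ W, (16 * lam i)) * TT.en π f' W ≤ X' →
    ‖∑ S ∈ (univ : Finset (Finset ι)).filter (fun S => S.card ≤ u),
        ∑ x : ∀ i, Ω i, ∑ y : ∀ i, Ω i, (((∏ i, (π i (x i) * π i (y i))) *
          ∏ i ∈ S, (ζ i (x i) (y i) * (m i (x i) * m' i (y i))) : ℝ) : ℂ) *
          (f x * (starRingEnd ℂ) (f' y)) - Ev π f * (starRingEnd ℂ) (Ev π f')‖ ≤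
      4 * (Real.sqrt (X + δ * ‖Ev π f‖ ^ 2) * Real.sqrt (X' + δ * ‖Ev π f'‖ ^ 2))

/-- block COEF5: truncated elementary symmetric sums -/
def COEF5Stmt : Prop :=
  ∀ (V : Finset ℕ) (τ : ℕ → ℝ) (d : ℕ), ∑ p ∈ V, |τ p| ≤ (d + 1 : ℝ) / 10 →
    |∑ T ∈ V.powerset.filter (fun T => T.card ≤ d), ∏ p ∈ T, τ p - ∏ p ∈ V, (1 + τ p)| ≤
      2 * (3 * (∑ p ∈ V, |τ p|) / (d + 1)) ^ (d + 1)

/-- block NPS5: product space form of correlations of two windows -/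
def NPS5Stmt : Prop :=
  ∀ (V : Finset ℕ) (S : Finset ↥V) (ν : ℕ → ℤ → ℝ) (g g' : ℤ → ℝ) (y y' : ℤ) (M M' : ℕ) (θ : ℝ)
    (Z : ℕ → ℤ → ℤ → ℝ), (∀ p ∈ V, p.Prime) → Wts V ν →
    (∀ n, g n ≠ 0 → ∀ p ∈ V, ν p n ≠ 0) → (∀ n, g' n ≠ 0 → ∀ p ∈ V, ν p n ≠ 0) →
    (∀ p ∈ V, ∀ n m : ℤ, Z p (n + p) m = Z p n m ∧ Z p n (m + p) = Z p n m) →
    ∑ n ∈ Ioc y (y + M), ∑ m ∈ Ioc y' (y' + M'),
      ((g n * g' m * ∏ p ∈ S, Z (p : ℕ) n m : ℝ) : ℂ) * e (-(((n : ℝ) - (m : ℝ)) * θ)) =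
    ∑ x : XS V, ∑ x' : XS V, (((∏ p : ↥V, (piV ν V p (x p) * piV ν V p (x' p))) *
        ∏ p ∈ S, Z (p : ℕ) ((x p : ℕ) : ℤ) ((x' p : ℕ) : ℤ) : ℝ) : ℂ) *
      (fV ν V g y M 1 0 θ x * (starRingEnd ℂ) (fV ν V g' y' M' 1 0 θ x'))

/-- block MIX5: multiplication by a function of `n mod Y0`, `Y0 ^ 2 ∣ q`, mixes the units mod `q` -/
def MIX5Stmt : Prop :=
  ∀ (V U : Finset ℕ) (ν : ℕ → ℤ → ℝ) (G h : ℤ → ℝ) (y : ℤ) (M q Y0 : ℕ) (B : ℝ),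
    (∀ p ∈ V, p.Prime) → Wts V ν → U ⊆ V → (∀ n, G n ≠ 0 → ∀ p ∈ V, ν p n ≠ 0) →
    1 ≤ q → 1 ≤ Y0 → Y0 ^ 2 ∣ q → (∀ n : ℤ, h (n + Y0) = h n) → (∀ n, |h n| ≤ B) →
    ∑ b ∈ (range q).filter (Nat.Coprime q),
      ew ν (fun n => G n * h n) y M 1 0 ((b : ℝ) / q) U ≤
    B ^ 2 * ∑ b ∈ (range q).filter (Nat.Coprime q), ew ν G y M 1 0 ((b : ℝ) / q) U

end Vale.Agent.P042.UU
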