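import Vale.Agent.P042.TT.Tilt
import Vale.Agent.P042.UU.SpecA

set_option autoImplicit false

/-!
Block DEC5, part (II): tensor products of kernels of small norm.
-/

namespace Vale.Agent.P042.UU

open Finset Vale.Agent.P042.SS Vale.Agent.P042.TT

section
variable {ι : Type} [Fintype ι] [DecidableEq ι] {Ω : ι → Type} [∀ i, Fintype (Ω i)]

/-- from the bilinear to the operator form of the norm, one coordinate -/
lemma decB_op {α : Type} [Fintype α] (w : α → ℝ) (hw : ∀ x, 0 ≤ w x) (Z : α → α → ℝ) {l : ℝ}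
    (hl : 0 ≤ l) (hZ : ∀ φ ψ : α → ℝ, |∑ x, ∑ y, w x * w y * (φ x * Z x y * ψ y)| ≤
      l * (Real.sqrt (∑ x, w x * φ x ^ 2) * Real.sqrt (∑ y, w y * ψ y ^ 2))) (v : α → ℝ) :
    ∑ s, w s * (∑ t, w t * (Z t s * v t)) ^ 2 ≤ l ^ 2 * ∑ t, w t * v t ^ 2 := by
  set ψ : α → ℝ := fun s => ∑ t, w t * (Z t s * v t) with hψ
  have h1 := hZ v ψ
  have h2 : ∑ x, ∑ y, w x * w y * (v x * Z x y * ψ y) = ∑ s, w s * ψ s ^ 2 := by
    rw [sum_comm]
    refine sum_congr rfl fun s _ => ?_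
    have : ∑ x, w x * w s * (v x * Z x s * ψ s) = w s * ψ s * ∑ x, w x * (Z x s * v x) := by
      rw [mul_sum]
      exact sum_congr rfl fun x _ => by ring
    rw [this]
    change w s * ψ s * ψ s = _
    ring
  rw [h2] at h1
  set A := ∑ s, w s * ψ s ^ 2 with hA
  set B := ∑ t, w t * v t ^ 2 with hB
  have hA0 : 0 ≤ A := sum_nonneg fun s _ => mul_nonneg (hw s) (sq_nonneg _)
  have hB0 : 0 ≤ B := sum_nonneg fun s _ => mul_nonneg (hw s) (sq_nonneg _)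
  have h3 := (le_abs_self A).trans h1
  have h4 := Real.sq_sqrt hA0
  have h5 := Real.sq_sqrt hB0
  have h6 := Real.sqrt_nonneg A
  have h7 := Real.sqrt_nonneg B
  have h8 : Real.sqrt A ≤ l * Real.sqrt B := by
    rcases h6.eq_or_lt with h9 | h9
    · rw [← h9]; positivity
    · have h10 : Real.sqrt A * Real.sqrt A ≤ (l * Real.sqrt B) * Real.sqrt A := by nlinarith
      exact le_of_mul_le_mul_right h10 h9
  calc A = Real.sqrt A ^ 2 := h4.symm
    _ ≤ (l * Real.sqrt B) ^ 2 := pow_le_pow_left₀ h6 h8 2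
    _ = l ^ 2 * B := by rw [mul_pow, h5]

/-- tensor product, real functions -/
lemma decB_real {π : ∀ i, Ω i → ℝ} (hπ : IsPr π) (Z : ∀ i, Ω i → Ω i → ℝ) (lam : ι → ℝ)
    (hl : ∀ i, 0 ≤ lam i)
    (hZ : ∀ (i : ι) (φ ψ : Ω i → ℝ), |∑ x, ∑ y, π i x * π i y * (φ x * Z i x y * ψ y)| ≤
      lam i * (Real.sqrt (∑ x, π i x * φ x ^ 2) * Real.sqrt (∑ y, π i y * ψ y ^ 2)))
    (u v : (∀ i, Ω i) → ℝ) :
    |H455.RF π (fun i x y => Z i x y - 1) u v| ≤ (∏ i, lam i) *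
      (Real.sqrt (H455.EX π (fun x => u x ^ 2)) * Real.sqrt (H455.EX π (fun x => v x ^ 2))) := by
  have hμ : H455.PM π := ⟨hπ.nn, hπ.one⟩
  have h1 : H455.RF π (fun i x y => Z i x y - 1) u v =
      H455.EX π (fun y => v y * H455.ZS π Z univ u y) := by
    unfold H455.RF
    rw [H455.EX_comm]
    congr 1
    funext y
    unfold H455.ZS
    rw [← H455.EX_smul]
    congr 1
    funext x
    have e1 : (univ : Finset ι).piecewise x y = x := by
      funext i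
      simp
    have e2 : ∏ i, (1 + (Z i (x i) (y i) - 1)) = ∏ i, Z i (x i) (y i) :=
      prod_congr rfl fun i _ => by ring
    rw [e1, e2]
    ring
  rw [h1]
  refine (hμ.cs _ _).trans ?_
  have h2 := hμ.ZS_norm Z lam (fun i w => decB_op (π i) (hπ.nn i) (Z i) (hl i) (hZ i) w) univ u
  have h3 : 0 ≤ ∏ i, lam i := prod_nonneg fun i _ => hl i
  have h4 : 0 ≤ H455.EX π (fun x => u x ^ 2) := hμ.EX_nonneg fun x => sq_nonneg _
  have h5 : Real.sqrt (H455.EX π (fun y => H455.ZS π Z univ u y ^ 2)) ≤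
      (∏ i, lam i) * Real.sqrt (H455.EX π (fun x => u x ^ 2)) := by
    calc Real.sqrt (H455.EX π (fun y => H455.ZS π Z univ u y ^ 2)) ≤
          Real.sqrt ((∏ i, lam i) ^ 2 * H455.EX π (fun x => u x ^ 2)) := Real.sqrt_le_sqrt h2
      _ = _ := by rw [Real.sqrt_mul (sq_nonneg _), Real.sqrt_sq h3]
  calc Real.sqrt (H455.EX π (fun x => v x ^ 2)) *
        Real.sqrt (H455.EX π (fun y => H455.ZS π Z univ u y ^ 2))
      ≤ Real.sqrt (H455.EX π (fun x => v x ^ 2)) *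
        ((∏ i, lam i) * Real.sqrt (H455.EX π (fun x => u x ^ 2))) :=
        mul_le_mul_of_nonneg_left h5 (Real.sqrt_nonneg _)
    _ = _ := by ring

/-- **tensor product, complex functions** -/
theorem decB_tensor {π : ∀ i, Ω i → ℝ} (hπ : IsPr π) (Z : ∀ i, Ω i → Ω i → ℝ) (lam : ι → ℝ)
    (hl : ∀ i, 0 ≤ lam i)
    (hZ : ∀ (i : ι) (φ ψ : Ω i → ℝ), |∑ x, ∑ y, π i x * π i y * (φ x * Z i x y * ψ y)| ≤
      lam i * (Real.sqrt (∑ x, π i x * φ x ^ 2) * Real.sqrt (∑ y, π i y * ψ y ^ 2)))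
    (f f' : (∀ i, Ω i) → ℂ) {A A' : ℝ} (hA : ∑ x, (∏ i, π i (x i)) * ‖f x‖ ^ 2 ≤ A)
    (hA' : ∑ x, (∏ i, π i (x i)) * ‖f' x‖ ^ 2 ≤ A') :
    ‖∑ x : ∀ i, Ω i, ∑ y : ∀ i, Ω i, (((∏ i, (π i (x i) * π i (y i))) *
        ∏ i, Z i (x i) (y i) : ℝ) : ℂ) * (f x * (starRingEnd ℂ) (f' y))‖ ≤
      2 * (∏ i, lam i) * (Real.sqrt A * Real.sqrt A') := by
  have hμ : H455.PM π := ⟨hπ.nn, hπ.one⟩
  have hB : ∑ x : ∀ i, Ω i, ∑ y : ∀ i, Ω i, (((∏ i, (π i (x i) * π i (y i))) *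
        ∏ i, Z i (x i) (y i) : ℝ) : ℂ) * (f x * (starRingEnd ℂ) (f' y)) =
      Bform π (fun i x y => Z i x y - 1) f f' := by
    unfold Bform
    refine sum_congr rfl fun x _ => sum_congr rfl fun y _ => ?_
    congr 2
    rw [← prod_mul_distrib]
    exact prod_congr rfl fun i _ => by ring
  rw [hB]
  set u1 : (∀ i, Ω i) → ℝ := fun x => (f x).re with hu1
  set u2 : (∀ i, Ω i) → ℝ := fun x => (f x).im with hu2
  set v1 : (∀ i, Ω i) → ℝ := fun x => (f' x).re with hv1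
  set v2 : (∀ i, Ω i) → ℝ := fun x => (f' x).im with hv2
  have hR := decB_real hπ Z lam hl hZ
  set L := ∏ i, lam i with hL
  have hL0 : 0 ≤ L := prod_nonneg fun i _ => hl i
  have split : ∀ g : (∀ i, Ω i) → ℂ, H455.EX π (fun x => (g x).re ^ 2) +
      H455.EX π (fun x => (g x).im ^ 2) = ∑ x, (∏ i, π i (x i)) * ‖g x‖ ^ 2 := by
    intro g
    rw [← H455.EX_add]
    unfold H455.EX H455.pw
    refine sum_congr rfl fun x _ => ?_
    rw [Complex.sq_norm, Complex.normSq_apply]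
    ring
  set a1 := H455.EX π (fun x => u1 x ^ 2) with ha1
  set a2 := H455.EX π (fun x => u2 x ^ 2) with ha2
  set b1 := H455.EX π (fun x => v1 x ^ 2) with hb1
  set b2 := H455.EX π (fun x => v2 x ^ 2) with hb2
  have ha1' : 0 ≤ a1 := hμ.EX_nonneg fun x => sq_nonneg _
  have ha2' : 0 ≤ a2 := hμ.EX_nonneg fun x => sq_nonneg _
  have hb1' : 0 ≤ b1 := hμ.EX_nonneg fun x => sq_nonneg _
  have hb2' : 0 ≤ b2 := hμ.EX_nonneg fun x => sq_nonneg _
  have hsA : a1 + a2 ≤ A := by rw [ha1, ha2, split f]; exact hA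
  have hsB : b1 + b2 ≤ A' := by rw [hb1, hb2, split f']; exact hA'
  have two : ∀ {a b z : ℝ}, 0 ≤ a → 0 ≤ b → a + b ≤ z → √a + √b ≤ √2 * √z := by
    intro a b z ha hb hab
    rw [← Real.sqrt_mul (by norm_num)]
    apply Real.le_sqrt_of_sq_le
    have e1 := Real.sq_sqrt ha
    have e2 := Real.sq_sqrt hb
    nlinarith [sq_nonneg (√a - √b)]
  have t1 := two ha1' ha2' hsA
  have t2 := two hb1' hb2' hsB
  have hnorm := Complex.norm_le_abs_re_add_abs_im (Bform π (fun i x y => Z i x y - 1) f f')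
  rw [bform_re, bform_im] at hnorm
  have r1 := hR u1 v1
  have r2 := hR u2 v2
  have r3 := hR u2 v1
  have r4 := hR u1 v2
  have e1 : |H455.RF π (fun i x y => Z i x y - 1) u1 v1 +
      H455.RF π (fun i x y => Z i x y - 1) u2 v2| ≤ L * (√a1 * √b1) + L * (√a2 * √b2) :=
    (abs_add_le _ _).trans (add_le_add r1 r2)
  have e2 : |H455.RF π (fun i x y => Z i x y - 1) u2 v1 -
      H455.RF π (fun i x y => Z i x y - 1) u1 v2| ≤ L * (√a2 * √b1) + L * (√a1 * √b2) :=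
    (abs_sub _ _).trans (add_le_add r3 r4)
  have s2 : √2 * √2 = (2 : ℝ) := Real.mul_self_sqrt (by norm_num)
  calc ‖Bform π (fun i x y => Z i x y - 1) f f'‖ ≤
        (L * (√a1 * √b1) + L * (√a2 * √b2)) + (L * (√a2 * √b1) + L * (√a1 * √b2)) :=
        hnorm.trans (add_le_add e1 e2)
    _ = L * ((√a1 + √a2) * (√b1 + √b2)) := by ring
    _ ≤ L * ((√2 * √A) * (√2 * √A')) :=
        mul_le_mul_of_nonneg_left (mul_le_mul t1 t2 (by positivity) (by positivity)) hL0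
    _ = (√2 * √2) * (L * (√A * √A')) := by ring
    _ = _ := by rw [s2]; ring

end

end Vale.Agent.P042.UU
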