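import Vale.Agent.P042.UU.SpecA
import Vale.Agent.P042.TT.Ew
import Vale.Agent.P042.H584.Sum

set_option autoImplicit false

/-!
Block NPS5: product space form of correlations of two windows.
-/

namespace Vale.Agent.P042.UU

open Finset Vale.Agent.P042.SS Vale.Agent.P042.TT

section nps

variable {V : Finset ℕ} {ν : ℕ → ℤ → ℝ}

/-- residue vector of an integer -/
def nps_res (hp : ∀ p ∈ V, p.Prime) (n : ℤ) : XS V :=
  fun p => ⟨(n % ((p : ℕ) : ℤ)).toNat, by
    have h1 : (0 : ℤ) < ((p : ℕ) : ℤ) := by exact_mod_cast (hp p p.2).pos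
    have h2 := Int.emod_lt_of_pos n h1
    have h3 := Int.emod_nonneg n h1.ne'
    omega⟩

lemma nps_res_val (hp : ∀ p ∈ V, p.Prime) (n : ℤ) (p : ↥V) :
    (((nps_res hp n p : Fin (p : ℕ)) : ℕ) : ℤ) = n % ((p : ℕ) : ℤ) := by
  have h1 : (0 : ℤ) < ((p : ℕ) : ℤ) := by exact_mod_cast (hp p p.2).pos
  have h3 := Int.emod_nonneg n h1.ne'
  show (((n % ((p : ℕ) : ℤ)).toNat : ℕ) : ℤ) = n % ((p : ℕ) : ℤ)
  exact Int.toNat_of_nonneg h3

lemma nps_res_iff (hp : ∀ p ∈ V, p.Prime) (n : ℤ) (x : XS V) :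
    (∀ p : ↥V, n ≡ ((x p : ℕ) : ℤ) [ZMOD ((p : ℕ) : ℤ)]) ↔ x = nps_res hp n := by
  constructor
  · intro h
    funext p
    refine Fin.ext ?_
    have h1 := h p
    have h2 := nps_res_val hp n p
    have h3 : ((x p : ℕ) : ℤ) % ((p : ℕ) : ℤ) = ((x p : ℕ) : ℤ) :=
      Int.emod_eq_of_lt (by positivity) (by exact_mod_cast (x p).2)
    unfold Int.ModEq at h1
    rw [h3] at h1
    have : ((x p : ℕ) : ℤ) = (((nps_res hp n p : Fin (p : ℕ)) : ℕ) : ℤ) := by
      rw [h2, h1]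
    exact_mod_cast this
  · rintro rfl p
    rw [nps_res_val]
    exact (Int.mod_modEq n _).symm

/-- weighted sums over the product space as sums over the window -/
lemma nps_sum (hp : ∀ p ∈ V, p.Prime) (hw : Wts V ν) (g : ℤ → ℝ) (y : ℤ) (M : ℕ) (θ : ℝ)
    (hg : ∀ n, g n ≠ 0 → ∀ p ∈ V, ν p n ≠ 0) (H : XS V → ℂ) :
    ∑ x : XS V, ((∏ p : ↥V, piV ν V p (x p) : ℝ) : ℂ) * (H x * fV ν V g y M 1 0 θ x) =
      ∑ n ∈ Ioc y (y + M), (g n : ℂ) * e (-((n : ℝ) * θ)) * H (nps_res hp n) := by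
  have h1 : ∀ x : XS V, ((∏ p : ↥V, piV ν V p (x p) : ℝ) : ℂ) * (H x * fV ν V g y M 1 0 θ x) =
      ∑ n ∈ Ioc y (y + M), if x = nps_res hp n then
        (g n : ℂ) * e (-((n : ℝ) * θ)) * H (nps_res hp n) else 0 := by
    intro x
    unfold fV
    have hset : (Ioc y (y + M)).filter (fun n : ℤ => n ≡ 0 [ZMOD ((1 : ℕ) : ℤ)] ∧
        ∀ p : ↥V, n ≡ ((x p : ℕ) : ℤ) [ZMOD ((p : ℕ) : ℤ)]) =
        (Ioc y (y + M)).filter (fun n : ℤ => x = nps_res hp n) := by
      refine filter_congr fun n _ => ?_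
      rw [nps_res_iff hp]
      constructor
      · exact fun h => h.2
      · exact fun h => ⟨by rw [Nat.cast_one]; exact Int.modEq_one, h⟩
    rw [hset, sum_filter, mul_sum, mul_sum, mul_sum]
    refine sum_congr rfl fun n _ => ?_
    by_cases hx : x = nps_res hp n
    · rw [if_pos hx, if_pos hx]
      by_cases h0 : g n = 0
      · simp [h0]
      · have h2 : ((∏ p : ↥V, piV ν V p (x p) : ℝ) : ℂ) *
            ((∏ p : ↥V, (((p : ℕ) : ℝ) * (ν p (x p : ℕ))⁻¹) : ℝ) : ℂ) = 1 := by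
          rw [← Complex.ofReal_mul, ← prod_mul_distrib]
          have h3 : ∀ p : ↥V, piV ν V p (x p) * (((p : ℕ) : ℝ) * (ν p (x p : ℕ))⁻¹) = 1 := by
            intro p
            have hp0 : ((p : ℕ) : ℝ) ≠ 0 := by exact_mod_cast (hp p p.2).ne_zero
            have hν : ν p (x p : ℕ) ≠ 0 := by
              have h4 := hg n h0 p p.2
              have h5 := (nps_res_iff hp n x).2 hx p
              rwa [per_modEq hw p.2 h5] at h4
            unfold piV
            field_simp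
          rw [prod_congr rfl fun p _ => h3 p]
          simp
        calc _ = (((∏ p : ↥V, piV ν V p (x p) : ℝ) : ℂ) *
            ((∏ p : ↥V, (((p : ℕ) : ℝ) * (ν p (x p : ℕ))⁻¹) : ℝ) : ℂ)) *
              ((g n : ℂ) * e (-((n : ℝ) * θ)) * H x) := by ring
          _ = _ := by rw [h2, one_mul, hx]
    · rw [if_neg hx, if_neg hx]
      simp
  simp only [h1]
  rw [sum_comm]
  refine sum_congr rfl fun n _ => ?_
  rw [sum_ite_eq' univ (nps_res hp n) (fun _ => (g n : ℂ) * e (-((n : ℝ) * θ)) *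
    H (nps_res hp n))]
  simp


end nps

lemma nps_zper {p : ℕ} {Z : ℤ → ℤ → ℝ}
    (h : ∀ n m : ℤ, Z (n + p) m = Z n m ∧ Z n (m + p) = Z n m) (n m : ℤ) :
    Z (n % (p : ℤ)) (m % (p : ℤ)) = Z n m := by
  have key1 : ∀ (k : ℕ) (n m : ℤ), Z (n + k * p) m = Z n m := by
    intro k
    induction k with
    | zero => intro n m; simp
    | succ k ih =>
      intro n m
      have h1 := (h (n + k * p) m).1
      rw [ih] at h1
      rw [← h1]
      congr 1
      push_cast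
      ring
  have key2 : ∀ (k : ℤ) (n m : ℤ), Z (n + k * p) m = Z n m := by
    intro k n m
    rcases le_total 0 k with h0 | h0
    · obtain ⟨j, rfl⟩ := Int.eq_ofNat_of_zero_le h0
      exact key1 j n m
    · obtain ⟨j, hj⟩ := Int.eq_ofNat_of_zero_le (by omega : 0 ≤ -k)
      have h1 := key1 j (n + k * p) m
      rw [← h1]
      congr 1
      have : (j : ℤ) = -k := by omega
      rw [this]
      ring
  have key3 : ∀ (k : ℕ) (n m : ℤ), Z n (m + k * p) = Z n m := by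
    intro k
    induction k with
    | zero => intro n m; simp
    | succ k ih =>
      intro n m
      have h1 := (h n (m + k * p)).2
      rw [ih] at h1
      rw [← h1]
      congr 1
      push_cast
      ring
  have key4 : ∀ (k : ℤ) (n m : ℤ), Z n (m + k * p) = Z n m := by
    intro k n m
    rcases le_total 0 k with h0 | h0
    · obtain ⟨j, rfl⟩ := Int.eq_ofNat_of_zero_le h0
      exact key3 j n m
    · obtain ⟨j, hj⟩ := Int.eq_ofNat_of_zero_le (by omega : 0 ≤ -k)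
      have h1 := key3 j n (m + k * p)
      rw [← h1]
      congr 1
      have : (j : ℤ) = -k := by omega
      rw [this]
      ring
  have e1 : n = n % (p : ℤ) + n / (p : ℤ) * p := by
    have := Int.emod_add_mul_ediv n p
    linarith
  have e2 : m = m % (p : ℤ) + m / (p : ℤ) * p := by
    have := Int.emod_add_mul_ediv m p
    linarith
  conv_rhs => rw [e1, e2]
  rw [key2, key4]

theorem nps5_holds : NPS5Stmt := by
  intro V S ν g g' y y' M M' θ Z hp hw hg hg' hZ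
  have h1 : ∀ x : XS V, ∑ x' : XS V, (((∏ p : ↥V, (piV ν V p (x p) * piV ν V p (x' p))) *
        ∏ p ∈ S, Z (p : ℕ) ((x p : ℕ) : ℤ) ((x' p : ℕ) : ℤ) : ℝ) : ℂ) *
      (fV ν V g y M 1 0 θ x * (starRingEnd ℂ) (fV ν V g' y' M' 1 0 θ x')) =
      ((∏ p : ↥V, piV ν V p (x p) : ℝ) : ℂ) *
        ((starRingEnd ℂ) (∑ m ∈ Ioc y' (y' + M'), (g' m : ℂ) * e (-((m : ℝ) * θ)) *
          ((∏ p ∈ S, Z (p : ℕ) ((x p : ℕ) : ℤ) ((nps_res hp m p : ℕ) : ℤ) : ℝ) : ℂ)) *
            fV ν V g y M 1 0 θ x) := by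
    intro x
    rw [← nps_sum hp hw g' y' M' θ hg' (fun x' =>
      ((∏ p ∈ S, Z (p : ℕ) ((x p : ℕ) : ℤ) ((x' p : ℕ) : ℤ) : ℝ) : ℂ)), map_sum, sum_mul,
      mul_sum]
    refine sum_congr rfl fun x' _ => ?_
    rw [map_mul, map_mul, Complex.conj_ofReal, Complex.conj_ofReal, prod_mul_distrib]
    push_cast
    ring
  simp only [h1]
  rw [nps_sum hp hw g y M θ hg (fun x => (starRingEnd ℂ) (∑ m ∈ Ioc y' (y' + M'),
    (g' m : ℂ) * e (-((m : ℝ) * θ)) *
      ((∏ p ∈ S, Z (p : ℕ) ((x p : ℕ) : ℤ) ((nps_res hp m p : ℕ) : ℤ) : ℝ) : ℂ)))]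
  refine sum_congr rfl fun n _ => ?_
  rw [map_sum, mul_sum]
  refine sum_congr rfl fun m _ => ?_
  have h2 : ∏ p ∈ S, Z (p : ℕ) ((nps_res hp n p : ℕ) : ℤ) ((nps_res hp m p : ℕ) : ℤ) =
      ∏ p ∈ S, Z (p : ℕ) n m := by
    refine prod_congr rfl fun p _ => ?_
    rw [nps_res_val, nps_res_val]
    exact nps_zper (hZ p p.2) n m
  rw [h2, map_mul, map_mul, Complex.conj_ofReal, Complex.conj_ofReal, conj_e]
  have h3 : e (-(((n : ℝ) - (m : ℝ)) * θ)) =
      e (-((n : ℝ) * θ)) * e (-(-((m : ℝ) * θ))) := by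
    rw [← e_add]
    congr 1
    ring
  rw [h3]
  push_cast
  ring

end Vale.Agent.P042.UU
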