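import Vale.Agent.P042.UU.DecBA
import Vale.Agent.P042.UU.Nps

set_option autoImplicit false

/-!
Block DEC5, part (II): the bilinear form of a product kernel over a set `U` of primes.
-/

namespace Vale.Agent.P042.UU

open Finset Vale.Agent.P042.SS Vale.Agent.P042.TT

/-- integers of a window in a class -/
lemma decB_card (y : ℤ) (M D : ℕ) (hD : 0 < D) (v : ℤ) :
    (((Ioc y (y + M)).filter (fun n : ℤ => n ≡ v [ZMOD (D : ℕ)])).card : ℝ) ≤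
      (M : ℝ) / D + 1 := by
  have hD' : (0 : ℤ) < (D : ℤ) := by exact_mod_cast hD
  have h1 := Int.Ioc_filter_modEq_card y (y + M) hD' v
  have h2 : (0 : ℚ) < (D : ℚ) := by exact_mod_cast hD
  set A : ℤ := ⌊((y + M : ℤ) - v : ℚ) / ((D : ℤ) : ℚ)⌋ with hA
  set B : ℤ := ⌊(y - v : ℚ) / ((D : ℤ) : ℚ)⌋ with hB
  have h3 : ((((Ioc y (y + M)).filter (fun n : ℤ => n ≡ v [ZMOD (D : ℕ)])).card : ℤ) : ℝ) =
      ((max (A - B) 0 : ℤ) : ℝ) := by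
    rw [h1]
  have h4 : (((Ioc y (y + M)).filter (fun n : ℤ => n ≡ v [ZMOD (D : ℕ)])).card : ℝ) =
      ((max (A - B) 0 : ℤ) : ℝ) := by
    rw [← h3]; push_cast; rfl
  rw [h4]
  have h5 : (A : ℚ) ≤ ((y + M : ℤ) - v : ℚ) / ((D : ℤ) : ℚ) := Int.floor_le _
  have h6 : (y - v : ℚ) / ((D : ℤ) : ℚ) < B + 1 := Int.lt_floor_add_one _
  have h7 : ((A - B : ℤ) : ℚ) ≤ (M : ℚ) / D + 1 := by
    push_cast at h5 h6 ⊢
    have : ((y : ℚ) + M - v) / D = (y - v) / D + M / D := by ring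
    linarith
  have h8 : ((A - B : ℤ) : ℝ) ≤ (M : ℝ) / D + 1 := by
    have h9 : (((A - B : ℤ) : ℚ) : ℝ) ≤ (((M : ℚ) / D + 1 : ℚ) : ℝ) := by exact_mod_cast h7
    push_cast at h9 ⊢
    exact h9
  have h10 : (0 : ℝ) ≤ (M : ℝ) / D + 1 := by positivity
  rw [Int.cast_max]
  exact max_le h8 (by simpa using h10)

section
variable {U : Finset ℕ} {ν : ℕ → ℤ → ℝ}

/-- the density of a point of the window -/
lemma decB_point (hp : ∀ p ∈ U, p.Prime) (hw : Wts U ν)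
    (hlow : ∀ p ∈ U, ∀ x, ν p x = 0 ∨ 1 / 20 ≤ ν p x) {G : ℤ → ℝ} {g0 : ℝ} (hG0 : ∀ n, 0 ≤ G n)
    (hG1 : ∀ n, G n ≤ g0) (hG : ∀ n, G n ≠ 0 → ∀ p ∈ U, ν p n ≠ 0) (y : ℤ) (M : ℕ) (θ : ℝ)
    {n : ℤ} (hn : G n ≠ 0) :
    ‖fV ν U G y M 1 0 θ (nps_res hp n)‖ ≤
      20 ^ U.card * ((M : ℝ) + ((∏ p ∈ U, p : ℕ) : ℝ)) * g0 := by
  have hg0 : 0 ≤ g0 := (hG0 n).trans (hG1 n)
  have hD : 0 < ∏ p ∈ U, p := prod_pos fun p hpU => (hp p hpU).pos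
  set D := ∏ p ∈ U, p with hDd
  have hDr : (0 : ℝ) < D := by exact_mod_cast hD
  unfold fV
  rw [norm_mul]
  have h1 : ‖((∏ p : ↥U, (((p : ℕ) : ℝ) * (ν p (nps_res hp n p : ℕ))⁻¹) : ℝ) : ℂ)‖ ≤
      20 ^ U.card * D := by
    rw [Complex.norm_real, Real.norm_eq_abs, abs_of_nonneg (prod_nonneg fun p _ =>
      mul_nonneg (Nat.cast_nonneg _) (inv_nonneg.2 (hw.nn _ _)))]
    have h2 : ∀ p : ↥U, ((p : ℕ) : ℝ) * (ν p (nps_res hp n p : ℕ))⁻¹ ≤ 20 * ((p : ℕ) : ℝ) := by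
      intro p
      have h3 : ν p ((nps_res hp n p : ℕ) : ℤ) = ν p n :=
        (per_modEq hw p.2 ((nps_res_iff hp n (nps_res hp n)).2 rfl p)).symm
      rw [h3]
      have h4 : 1 / 20 ≤ ν p n := by
        rcases hlow p p.2 n with h | h
        · exact absurd h (hG n hn p p.2)
        · exact h
      have h5 : (ν p n)⁻¹ ≤ 20 := by
        have := inv_anti₀ (by norm_num : (0 : ℝ) < 1 / 20) h4
        norm_num at this
        exact this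
      have := mul_le_mul_of_nonneg_left h5 (Nat.cast_nonneg (α := ℝ) (p : ℕ))
      linarith
    calc ∏ p : ↥U, (((p : ℕ) : ℝ) * (ν p (nps_res hp n p : ℕ))⁻¹) ≤
          ∏ p : ↥U, (20 * ((p : ℕ) : ℝ)) := by
          refine prod_le_prod (fun p _ => mul_nonneg (Nat.cast_nonneg _)
            (inv_nonneg.2 (hw.nn _ _))) fun p _ => h2 p
      _ = 20 ^ U.card * D := by
          rw [prod_mul_distrib, prod_const, card_univ, Fintype.card_coe, hDd]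
          push_cast
          congr 1
          exact prod_coe_sort U (fun p : ℕ => (p : ℝ))
  have h2 : ‖∑ m ∈ (Ioc y (y + M)).filter (fun m : ℤ => m ≡ 0 [ZMOD ((1 : ℕ) : ℤ)] ∧
        ∀ p : ↥U, m ≡ ((nps_res hp n p : ℕ) : ℤ) [ZMOD ((p : ℕ) : ℤ)]),
      (G m : ℂ) * e (-((m : ℝ) * θ))‖ ≤ ((M : ℝ) / D + 1) * g0 := by
    have hsub : (Ioc y (y + M)).filter (fun m : ℤ => m ≡ 0 [ZMOD ((1 : ℕ) : ℤ)] ∧
        ∀ p : ↥U, m ≡ ((nps_res hp n p : ℕ) : ℤ) [ZMOD ((p : ℕ) : ℤ)]) ⊆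
        (Ioc y (y + M)).filter (fun m : ℤ => m ≡ n [ZMOD (D : ℕ)]) := by
      intro m hm
      rw [mem_filter] at hm ⊢
      refine ⟨hm.1, ?_⟩
      have h3 : ∀ p ∈ U, ((p : ℕ) : ℤ) ∣ n - m := by
        intro p hpU
        have h4 := hm.2.2 ⟨p, hpU⟩
        have h5 := (nps_res_iff hp n (nps_res hp n)).2 rfl ⟨p, hpU⟩
        exact Int.modEq_iff_dvd.1 (h4.trans h5.symm)
      have h4 : (((∏ p ∈ U, p : ℕ) : ℕ) : ℤ) ∣ n - m := by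
        push_cast
        refine Finset.prod_dvd_of_coprime ?_ h3
        intro p hpU q hqU hpq
        exact Nat.isCoprime_iff_coprime.2
          ((Nat.coprime_primes (hp p hpU) (hp q hqU)).2 hpq)
      exact Int.modEq_iff_dvd.2 h4
    refine (norm_sum_le _ _).trans ?_
    calc ∑ m ∈ (Ioc y (y + M)).filter (fun m : ℤ => m ≡ 0 [ZMOD ((1 : ℕ) : ℤ)] ∧
        ∀ p : ↥U, m ≡ ((nps_res hp n p : ℕ) : ℤ) [ZMOD ((p : ℕ) : ℤ)]),
          ‖(G m : ℂ) * e (-((m : ℝ) * θ))‖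
        ≤ ∑ m ∈ (Ioc y (y + M)).filter (fun m : ℤ => m ≡ 0 [ZMOD ((1 : ℕ) : ℤ)] ∧
        ∀ p : ↥U, m ≡ ((nps_res hp n p : ℕ) : ℤ) [ZMOD ((p : ℕ) : ℤ)]), g0 := by
          refine sum_le_sum fun m _ => ?_
          rw [norm_mul, norm_e, mul_one, Complex.norm_real, Real.norm_eq_abs,
            abs_of_nonneg (hG0 m)]
          exact hG1 m
      _ ≤ ∑ m ∈ (Ioc y (y + M)).filter (fun m : ℤ => m ≡ n [ZMOD (D : ℕ)]), g0 :=
          sum_le_sum_of_subset_of_nonneg hsub fun _ _ _ => hg0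
      _ = (((Ioc y (y + M)).filter (fun m : ℤ => m ≡ n [ZMOD (D : ℕ)])).card : ℝ) * g0 := by
          rw [sum_const, nsmul_eq_mul]
      _ ≤ _ := mul_le_mul_of_nonneg_right (decB_card y M D hD n) hg0
  calc _ ≤ (20 ^ U.card * (D : ℝ)) * (((M : ℝ) / D + 1) * g0) :=
        mul_le_mul h1 h2 (norm_nonneg _) (by positivity)
    _ = _ := by
        field_simp

/-- the energy on the whole set `U`, uniformly in the frequency -/
lemma decB_en (hp : ∀ p ∈ U, p.Prime) (hw : Wts U ν)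
    (hlow : ∀ p ∈ U, ∀ x, ν p x = 0 ∨ 1 / 20 ≤ ν p x) {G : ℤ → ℝ} {g0 : ℝ} (hG0 : ∀ n, 0 ≤ G n)
    (hG1 : ∀ n, G n ≤ g0) (hG : ∀ n, G n ≠ 0 → ∀ p ∈ U, ν p n ≠ 0) (y : ℤ) (M : ℕ) (θ : ℝ) :
    ∑ x : XS U, (∏ p : ↥U, piV ν U p (x p)) * ‖fV ν U G y M 1 0 θ x‖ ^ 2 ≤
      20 ^ U.card * (M : ℝ) * ((M : ℝ) + ((∏ p ∈ U, p : ℕ) : ℝ)) * g0 ^ 2 := by
  have hg0 : 0 ≤ g0 := (hG0 0).trans (hG1 0)
  have h1 := nps_sum hp hw G y M θ hG (fun x => (starRingEnd ℂ) (fV ν U G y M 1 0 θ x))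
  have h2 : ((∑ x : XS U, (∏ p : ↥U, piV ν U p (x p)) * ‖fV ν U G y M 1 0 θ x‖ ^ 2 : ℝ) : ℂ) =
      ∑ x : XS U, ((∏ p : ↥U, piV ν U p (x p) : ℝ) : ℂ) *
        ((starRingEnd ℂ) (fV ν U G y M 1 0 θ x) * fV ν U G y M 1 0 θ x) := by
    push_cast
    refine sum_congr rfl fun x _ => ?_
    congr 1
    rw [mul_comm, Complex.mul_conj, Complex.normSq_eq_norm_sq]
    push_cast
    rfl
  rw [← h2] at h1
  have h0 : 0 ≤ ∑ x : XS U, (∏ p : ↥U, piV ν U p (x p)) * ‖fV ν U G y M 1 0 θ x‖ ^ 2 := by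
    refine sum_nonneg fun x _ => mul_nonneg (prod_nonneg fun p _ => ?_) (sq_nonneg _)
    exact (piV_isPr hp hw).nn p _
  have h3 : ∑ x : XS U, (∏ p : ↥U, piV ν U p (x p)) * ‖fV ν U G y M 1 0 θ x‖ ^ 2 =
      ‖((∑ x : XS U, (∏ p : ↥U, piV ν U p (x p)) * ‖fV ν U G y M 1 0 θ x‖ ^ 2 : ℝ) : ℂ)‖ := by
    rw [Complex.norm_real, Real.norm_eq_abs, abs_of_nonneg h0]
  rw [h3, h1]
  refine (norm_sum_le _ _).trans ?_
  have h4 : ∀ n ∈ Ioc y (y + M), ‖(G n : ℂ) * e (-((n : ℝ) * θ)) *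
      (starRingEnd ℂ) (fV ν U G y M 1 0 θ (nps_res hp n))‖ ≤
      g0 * (20 ^ U.card * ((M : ℝ) + ((∏ p ∈ U, p : ℕ) : ℝ)) * g0) := by
    intro n _
    by_cases hn : G n = 0
    · rw [hn]
      simp only [Complex.ofReal_zero, zero_mul, norm_zero]
      positivity
    · rw [norm_mul, norm_mul, norm_e, mul_one, Complex.norm_real, Real.norm_eq_abs,
        abs_of_nonneg (hG0 n), RCLike.norm_conj]
      exact mul_le_mul (hG1 n) (decB_point hp hw hlow hG0 hG1 hG y M θ hn) (norm_nonneg _) hg0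
  refine (sum_le_sum h4).trans (le_of_eq ?_)
  rw [sum_const, nsmul_eq_mul, Int.card_Ioc]
  have h5 : (((y + M - y).toNat : ℕ) : ℝ) = M := by
    have : (y + M - y).toNat = M := by omega
    rw [this]
  rw [h5]
  ring

/-- **the bilinear form of a product kernel** -/
theorem decB_form (hp : ∀ p ∈ U, p.Prime) (hw : Wts U ν)
    (hlow : ∀ p ∈ U, ∀ x, ν p x = 0 ∨ 1 / 20 ≤ ν p x) {G : ℤ → ℝ} {g0 : ℝ} (hG0 : ∀ n, 0 ≤ G n)
    (hG1 : ∀ n, G n ≤ g0) (hG : ∀ n, G n ≠ 0 → ∀ p ∈ U, ν p n ≠ 0)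
    (Z : ℕ → ℤ → ℤ → ℝ) (hZp : ∀ p ∈ U, ∀ n m : ℤ, Z p (n + p) m = Z p n m ∧
      Z p n (m + p) = Z p n m) (lam : ℕ → ℝ) (hlam : ∀ p ∈ U, 0 ≤ lam p)
    (hZ : ∀ p ∈ U, ∀ φ ψ : ℕ → ℝ,
      |∑ x ∈ range p, ∑ y ∈ range p, (ν p x / p) * (ν p y / p) * (φ x * Z p x y * ψ y)| ≤
        lam p * (Real.sqrt (∑ x ∈ range p, ν p x / p * φ x ^ 2) *
          Real.sqrt (∑ y ∈ range p, ν p y / p * ψ y ^ 2)))
    (y y' : ℤ) (M : ℕ) (θ : ℝ) :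
    ‖∑ n ∈ Ioc y (y + M), ∑ m ∈ Ioc y' (y' + M),
      ((G n * G m * ∏ p ∈ U, Z p n m : ℝ) : ℂ) * e (-(((n : ℝ) - (m : ℝ)) * θ))‖ ≤
      2 * (∏ p ∈ U, lam p) *
        (20 ^ U.card * (M : ℝ) * ((M : ℝ) + ((∏ p ∈ U, p : ℕ) : ℝ)) * g0 ^ 2) := by
  have h1 := nps5_holds U univ ν G G y y' M M θ Z hp hw hG hG hZp
  have h2 : ∀ n m : ℤ, ∏ p ∈ (univ : Finset ↥U), Z (p : ℕ) n m = ∏ p ∈ U, Z p n m :=
    fun n m => prod_coe_sort U (fun p : ℕ => Z p n m)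
  simp only [h2] at h1
  rw [h1]
  have h3 := decB_tensor (piV_isPr hp hw)
    (fun (p : ↥U) (x x' : Fin (p : ℕ)) => Z (p : ℕ) ((x : ℕ) : ℤ) ((x' : ℕ) : ℤ))
    (fun p : ↥U => lam p) (fun p => hlam p p.2) ?_ (fV ν U G y M 1 0 θ) (fV ν U G y' M 1 0 θ)
    (decB_en hp hw hlow hG0 hG1 hG y M θ) (decB_en hp hw hlow hG0 hG1 hG y' M θ)
  · rw [Real.mul_self_sqrt (by positivity)] at h3
    rw [prod_coe_sort U (fun p : ℕ => lam p)] at h3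
    exact h3
  · intro p φ ψ
    set φ' : ℕ → ℝ := fun x => if h : x < (p : ℕ) then φ ⟨x, h⟩ else 0 with hφ'
    set ψ' : ℕ → ℝ := fun x => if h : x < (p : ℕ) then ψ ⟨x, h⟩ else 0 with hψ'
    have h4 := hZ p p.2 φ' ψ'
    have e1 : ∀ x : Fin (p : ℕ), φ' (x : ℕ) = φ x := fun x => by simp [hφ']
    have e2 : ∀ x : Fin (p : ℕ), ψ' (x : ℕ) = ψ x := fun x => by simp [hψ']
    have e3 : ∑ x ∈ range (p : ℕ), ∑ y ∈ range (p : ℕ), (ν p x / (p : ℕ)) * (ν p y / (p : ℕ)) *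
        (φ' x * Z p x y * ψ' y) =
        ∑ x : Fin (p : ℕ), ∑ y : Fin (p : ℕ), piV ν U p x * piV ν U p y *
          (φ x * Z (p : ℕ) ((x : ℕ) : ℤ) ((y : ℕ) : ℤ) * ψ y) := by
      rw [Finset.sum_range]
      refine sum_congr rfl fun x _ => ?_
      rw [Finset.sum_range]
      refine sum_congr rfl fun y _ => ?_
      rw [e1, e2]
      rfl
    have e4 : ∑ x ∈ range (p : ℕ), ν p x / (p : ℕ) * φ' x ^ 2 =
        ∑ x : Fin (p : ℕ), piV ν U p x * φ x ^ 2 := by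
      rw [Finset.sum_range]
      exact sum_congr rfl fun x _ => by rw [e1]; rfl
    have e5 : ∑ x ∈ range (p : ℕ), ν p x / (p : ℕ) * ψ' x ^ 2 =
        ∑ x : Fin (p : ℕ), piV ν U p x * ψ x ^ 2 := by
      rw [Finset.sum_range]
      exact sum_congr rfl fun x _ => by rw [e2]; rfl
    rw [e3, e4, e5] at h4
    exact h4

end

end Vale.Agent.P042.UU
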