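import Vale.Agent.P042.UU.Defs

set_option autoImplicit false

/-!
Theorem S5: the main term and the assembly.
-/

namespace Vale.Agent.P042.UU

open Polynomial Finset Vale.Agent.P042.SS Vale.Agent.P042.TT

/-- block ROOT5: pointwise bound of the kernel -/
def ROOT5Stmt : Prop :=
  ∀ (k R : ℕ) (f : ℤ[X]), 1 ≤ k → 1 ≤ R → f.natDegree = k →
    (∀ g : ℤ, (∀ j : ℕ, 1 ≤ j → g ∣ f.coeff j) → g ∣ (R : ℤ)) →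
    ∀ p : ℕ, p.Prime → R < p → ∀ t : ℤ, |kp f p t| ≤ k

/-- block KB5: size of the kernel and of its parts -/
def KB5Stmt : Prop :=
  ∀ (k E K p0 : ℕ) (kap : ℕ → ℕ → ℝ) (ε : ℝ), 1 ≤ k → 1 ≤ E → KapOK k E K p0 kap →
  0 < ε → ε ≤ 1 / 1000 →
  ∃ P0 : ℝ, ∀ P : ℝ, P0 ≤ P →
  ∀ (ν : ℕ → ℤ → ℝ), Wts (W5 ε P) ν → (∀ p ∈ W5 ε P, ∀ x, ν p x ≤ Real.exp (bn5 ε P)) →
    (∀ p ∈ W5 ε P, ∀ x, ν p x = 0 ∨ 1 / 20 ≤ ν p x) →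
  ∀ f : ℤ[X],
    (∀ (q : ℕ) (a : ℤ), 1 ≤ q → IsCoprime a (q : ℤ) → ‖Gam f a q‖ ≤ kapProd kap q) →
    (∀ p ∈ W5 ε P, ∀ t : ℤ, |kp f p t| ≤ k) →
    (∀ p ∈ W5 ε P, |cc ν f p| ≤ P ^ (-(190 * ε))) ∧
    ∑ p ∈ W5 ε P, |cc ν f p| ≤ P ^ (1 - 191 * ε) ∧
    TiltOK ε P ν (ta ν f) ∧ TiltOK ε P ν (tb ν f) ∧
    (∀ p ∈ W5 ε P, ∀ m : ℤ, ∑ x ∈ range p, ν p x * ze ν f p x m = 0) ∧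
    (∀ p ∈ W5 ε P, ∀ n : ℤ, ∑ y ∈ range p, ν p y * ze ν f p n y = 0) ∧
    (∀ p ∈ W5 ε P, ∀ n m : ℤ, kp f p (n + p) = kp f p n ∧ ze ν f p (n + p) m = ze ν f p n m ∧
      ze ν f p n (m + p) = ze ν f p n m) ∧
    (∀ p ∈ W5 ε P, ∀ φ ψ : ℕ → ℝ,
      |∑ x ∈ range p, ∑ y ∈ range p, (ν p x / p) * (ν p y / p) *
        (φ x * ze ν f p x y * ψ y)| ≤ lam5 ε P p *
        (Real.sqrt (∑ x ∈ range p, ν p x / p * φ x ^ 2) *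
          Real.sqrt (∑ y ∈ range p, ν p y / p * ψ y ^ 2))) ∧
    (∀ p ∈ W5 ε P, ∀ φ ψ : ℕ → ℝ,
      |∑ x ∈ range p, ∑ y ∈ range p, (ν p x / p) * (ν p y / p) *
        (φ x * kp f p ((x : ℤ) - (y : ℤ)) * ψ y)| ≤ lam5 ε P p *
        (Real.sqrt (∑ x ∈ range p, ν p x / p * φ x ^ 2) *
          Real.sqrt (∑ y ∈ range p, ν p y / p * ψ y ^ 2)))

/-- block TRUNC5: the sum of the circle method in physical space, truncated -/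
def TRUNC5Stmt : Prop :=
  ∀ (k E K p0 : ℕ) (kap : ℕ → ℕ → ℝ) (ε : ℝ), 1 ≤ k → 1 ≤ E → KapOK k E K p0 kap →
  0 < ε → ε ≤ 1 / 1000 →
  ∃ P0 : ℝ, ∀ P : ℝ, P0 ≤ P →
  ∀ (N' H : ℕ) (G : ℤ → ℝ), Real.exp (7 / 8 * P) ≤ N' → (N' : ℝ) ≤ Real.exp P →
    8 * H ≤ N' → N' ≤ 16 * H → (∀ n, 0 ≤ G n) → (∀ n, G n ≠ 0 → 1 ≤ n ∧ n ≤ N') →
    (∀ n, G n ≤ Real.exp (P ^ (1 - 97.9 * ε))) →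
  ∀ f : ℤ[X],
    (∀ (q : ℕ) (a : ℤ), 1 ≤ q → IsCoprime a (q : ℤ) → ‖Gam f a q‖ ≤ kapProd kap q) →
    Gam f 0 1 = 1 →
    ‖∑ q ∈ Icc 1 (Q5 ε P), ∑ a ∈ (range q).filter (Nat.Coprime q),
        Gam f a q * Bil G N' H ((a : ℝ) / q) -
      ∑ q ∈ EV5 ε P (Q5 ε P), Cor G G N' H (KQ f q (KU ε P f q))‖ ≤
      Real.exp (-(P ^ (1 - 95.5 * ε))) * N' * (H : ℝ) ^ 2

/-- block DEC5: the truncated kernel is its main part up to a negligible error -/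
def DEC5Stmt : Prop :=
  ∀ (k E K p0 : ℕ) (kap : ℕ → ℕ → ℝ) (ε : ℝ), 1 ≤ k → 1 ≤ E → KapOK k E K p0 kap →
  0 < ε → ε ≤ 1 / 1000 →
  ∃ P0 : ℝ, ∀ P : ℝ, P0 ≤ P →
  ∀ (N' H : ℕ) (G : ℤ → ℝ) (ν : ℕ → ℤ → ℝ), Real.exp (7 / 8 * P) ≤ N' →
    (N' : ℝ) ≤ Real.exp P → 8 * H ≤ N' → N' ≤ 16 * H → Wts (W5 ε P) ν →
    (∀ p ∈ W5 ε P, ∀ x, ν p x ≤ Real.exp (bn5 ε P)) →
    (∀ p ∈ W5 ε P, ∀ x, ν p x = 0 ∨ 1 / 20 ≤ ν p x) → (∀ n, 0 ≤ G n) →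
    (∀ n, G n ≠ 0 → 1 ≤ n ∧ n ≤ N') → (∀ n, G n ≤ Real.exp (P ^ (1 - 97.9 * ε))) →
    (∀ n, G n ≠ 0 → ∀ p ∈ W5 ε P, ν p n ≠ 0) →
  ∀ f : ℤ[X],
    (∀ (q : ℕ) (a : ℤ), 1 ≤ q → IsCoprime a (q : ℤ) → ‖Gam f a q‖ ≤ kapProd kap q) →
    (∀ p ∈ W5 ε P, ∀ t : ℤ, |kp f p t| ≤ k) →
    (∀ n, G n ≠ 0 → goodA ε P ν (ta ν f) (tb ν f) n) →
    ‖∑ q ∈ EV5 ε P (Q5 ε P), Cor G G N' H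
        (KQ f q (fun n m => KU ε P f q n m - KS ε P ν f q n m))‖ ≤
      Real.exp (-(P ^ (1 - 95.5 * ε))) * N' * (H : ℝ) ^ 2

/-- block FORM5: the bilinear form of the normalised main part at one frequency -/
def FORM5Stmt : Prop :=
  ∀ (k E K p0 : ℕ) (kap : ℕ → ℕ → ℝ) (ε : ℝ), 1 ≤ k → 1 ≤ E → KapOK k E K p0 kap →
  0 < ε → ε ≤ 1 / 1000 →
  ∃ P0 : ℝ, ∀ P : ℝ, P0 ≤ P →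
  ∀ (g g' : ℤ → ℝ) (ν : ℕ → ℤ → ℝ), Wts (W5 ε P) ν →
    (∀ p ∈ W5 ε P, ∀ x, ν p x ≤ Real.exp (bn5 ε P)) →
    (∀ p ∈ W5 ε P, ∀ x, ν p x = 0 ∨ 1 / 20 ≤ ν p x) →
    (∀ n, g n ≠ 0 → ∀ p ∈ W5 ε P, ν p n ≠ 0) → (∀ n, g' n ≠ 0 → ∀ p ∈ W5 ε P, ν p n ≠ 0) →
  ∀ f : ℤ[X],
    (∀ (q : ℕ) (a : ℤ), 1 ≤ q → IsCoprime a (q : ℤ) → ‖Gam f a q‖ ≤ kapProd kap q) →
    (∀ p ∈ W5 ε P, ∀ t : ℤ, |kp f p t| ≤ k) →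
  ∀ (q M M' : ℕ) (y y' : ℤ) (θ : ℝ), 1 ≤ q →
    ‖∑ n ∈ Ioc y (y + M), ∑ m ∈ Ioc y' (y' + M'),
        ((g n * g' m * KG ε P ν f q n m : ℝ) : ℂ) * e (-(((n : ℝ) - (m : ℝ)) * θ)) -
      Fw g y M θ * (starRingEnd ℂ) (Fw g' y' M' θ)‖ ≤
      4 * (Real.sqrt (ews (t6 ε P) (u5 ε P) (Vn ε P q) ν g y M 1 0 θ -
          (1 - P ^ (-(80 * ε))) * ‖Fw g y M θ‖ ^ 2) *
        Real.sqrt (ews (t6 ε P) (u5 ε P) (Vn ε P q) ν g' y' M' 1 0 θ -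
          (1 - P ^ (-(80 * ε))) * ‖Fw g' y' M' θ‖ ^ 2))

/-- block GOOD5: the main part is large -/
def GOOD5Stmt : Prop :=
  ∀ (k E K p0 : ℕ) (kap : ℕ → ℕ → ℝ) (ε : ℝ), 1 ≤ k → 1 ≤ E → KapOK k E K p0 kap →
  0 < ε → ε ≤ 1 / 1000 →
  ∃ P0 : ℝ, ∀ P : ℝ, P0 ≤ P →
  ∀ (N' H : ℕ) (Φ : ℝ) (G1 G2 : ℤ → ℝ) (ν : ℕ → ℤ → ℝ),
    St5 ε P k N' Φ G1 ν → St5 ε P k N' Φ G2 ν → 8 * H ≤ N' → N' ≤ 16 * H →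
  ∀ f : ℤ[X],
    (∀ (q : ℕ) (a : ℤ), 1 ≤ q → IsCoprime a (q : ℤ) → ‖Gam f a q‖ ≤ kapProd kap q) →
    (∀ p ∈ W5 ε P, ∀ t : ℤ, |kp f p t| ≤ k) → Gam f 0 1 = 1 →
    1 / 8 * N' * (H * Φ) ^ 2 ≤
    (∑ q ∈ EV5 ε P (Q5 ε P), ((∏ p ∈ Yn ε P q, (1 + cc ν f p)⁻¹ : ℝ) : ℂ) *
      Cor (fun n => G1 n * YA ε P (ta ν f) q n) (fun m => G2 m * YA ε P (tb ν f) q m) N' H
        (KQ f q (KG ε P ν f q))).re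

/-- block LOWER5: lower bound for the sum of the circle method -/
def LOWER5Stmt : Prop :=
  ∀ (k E K p0 : ℕ) (kap : ℕ → ℕ → ℝ) (ε : ℝ), 1 ≤ k → 1 ≤ E → KapOK k E K p0 kap →
  0 < ε → ε ≤ 1 / 1000 →
  ∃ P0 : ℝ, ∀ P : ℝ, P0 ≤ P →
  ∀ (N' H : ℕ) (Φ : ℝ) (G : ℤ → ℝ) (ν : ℕ → ℤ → ℝ), Pin5 ε P k N' Φ G ν →
    8 * H ≤ N' → N' ≤ 16 * H →
  ∀ f : ℤ[X],
    (∀ (q : ℕ) (a : ℤ), 1 ≤ q → IsCoprime a (q : ℤ) → ‖Gam f a q‖ ≤ kapProd kap q) →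
    (∀ p ∈ W5 ε P, ∀ t : ℤ, |kp f p t| ≤ k) → Gam f 0 1 = 1 →
    1 / 20 * Real.exp (-(P ^ (1 - 190 * ε))) * N' * (H * Φ) ^ 2 ≤
      ‖∑ q ∈ Icc 1 (Q5 ε P), ∑ a ∈ (range q).filter (Nat.Coprime q),
        Gam f a q * Bil (Gg ε P ν (ta ν f) (tb ν f) G) N' H ((a : ℝ) / q)‖

/-- the final theorem -/
def Final5Stmt : Prop :=
  ∀ h : ℤ[X], 2 ≤ h.natDegree → 0 < h.leadingCoeff → Intersective h →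
    ∀ c : ℝ, c < 1 → ∃ C : ℝ, 0 < C ∧ ∀ N : ℕ, 1 ≤ N →
      (rMax h N : ℝ) ≤ C * N * Real.exp (-(Real.log N) ^ c)

end Vale.Agent.P042.UU
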