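import Vale.Agent.P042.UU.DecBB
import Vale.Agent.P042.UU.SpecD
import Vale.Agent.P042.TT.NvA

set_option autoImplicit false

/-!
Block DEC5, part (II): the part `|S| > u5` of the truncated kernel is negligible, for one frequency
and one pair of windows.
-/

namespace Vale.Agent.P042.UU

open Polynomial Finset Vale.Agent.P042.SS Vale.Agent.P042.TT

/-- the part `|S| > u` of the expansion of `∑_{|U| ≤ d} ∏_U k_p` into the parts `z_p` (on `S`)
and `k_p - z_p` -/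
noncomputable def KBig (V : Finset ℕ) (d u : ℕ) (k z : ℕ → ℤ → ℤ → ℝ) (n m : ℤ) : ℝ :=
  ∑ U ∈ V.powerset.filter (fun U => U.card ≤ d), ∑ S ∈ U.powerset.filter (fun S => u < S.card),
    (∏ p ∈ S, z p n m) * ∏ p ∈ U \ S, (k p n m - z p n m)

/-- interchange of the sums -/
lemma decC_swap {α : Type*} (T : Finset α) (I J : Finset ℤ) (g : ℤ → ℤ → ℝ) (w : ℤ → ℤ → ℂ)
    (F : α → ℤ → ℤ → ℝ) :
    ∑ n ∈ I, ∑ m ∈ J, ((g n m * ∑ S ∈ T, F S n m : ℝ) : ℂ) * w n m =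
      ∑ S ∈ T, ∑ n ∈ I, ∑ m ∈ J, ((g n m * F S n m : ℝ) : ℂ) * w n m := by
  calc ∑ n ∈ I, ∑ m ∈ J, ((g n m * ∑ S ∈ T, F S n m : ℝ) : ℂ) * w n m
      = ∑ n ∈ I, ∑ m ∈ J, ∑ S ∈ T, ((g n m * F S n m : ℝ) : ℂ) * w n m := by
        refine sum_congr rfl fun n _ => sum_congr rfl fun m _ => ?_
        rw [Finset.mul_sum, Complex.ofReal_sum, Finset.sum_mul]
    _ = ∑ n ∈ I, ∑ S ∈ T, ∑ m ∈ J, ((g n m * F S n m : ℝ) : ℂ) * w n m :=
        sum_congr rfl fun n _ => Finset.sum_comm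
    _ = _ := Finset.sum_comm

/-- one set `U` -/
lemma decC_one {U : Finset ℕ} {ν : ℕ → ℤ → ℝ} (hp : ∀ p ∈ U, p.Prime) (hw : Wts U ν)
    (hlow : ∀ p ∈ U, ∀ x, ν p x = 0 ∨ 1 / 20 ≤ ν p x) {G : ℤ → ℝ} {g0 : ℝ} (hG0 : ∀ n, 0 ≤ G n)
    (hG1 : ∀ n, G n ≤ g0) (hG : ∀ n, G n ≠ 0 → ∀ p ∈ U, ν p n ≠ 0)
    (k z : ℕ → ℤ → ℤ → ℝ)
    (hkp : ∀ p ∈ U, ∀ n m : ℤ, k p (n + p) m = k p n m ∧ k p n (m + p) = k p n m)
    (hzp : ∀ p ∈ U, ∀ n m : ℤ, z p (n + p) m = z p n m ∧ z p n (m + p) = z p n m)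
    (lam : ℕ → ℝ) (hlam : ∀ p ∈ U, 0 ≤ lam p)
    (hk : ∀ p ∈ U, ∀ φ ψ : ℕ → ℝ,
      |∑ x ∈ range p, ∑ y ∈ range p, (ν p x / p) * (ν p y / p) * (φ x * k p x y * ψ y)| ≤
        lam p * (Real.sqrt (∑ x ∈ range p, ν p x / p * φ x ^ 2) *
          Real.sqrt (∑ y ∈ range p, ν p y / p * ψ y ^ 2)))
    (hz : ∀ p ∈ U, ∀ φ ψ : ℕ → ℝ,
      |∑ x ∈ range p, ∑ y ∈ range p, (ν p x / p) * (ν p y / p) * (φ x * z p x y * ψ y)| ≤
        lam p * (Real.sqrt (∑ x ∈ range p, ν p x / p * φ x ^ 2) *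
          Real.sqrt (∑ y ∈ range p, ν p y / p * ψ y ^ 2)))
    (y y' : ℤ) (M : ℕ) (hM : ∏ p ∈ U, p ≤ M) (θ : ℝ) (u : ℕ) :
    ‖∑ n ∈ Ioc y (y + M), ∑ m ∈ Ioc y' (y' + M),
      ((G n * G m * ∑ S ∈ U.powerset.filter (fun S => u < S.card),
        (∏ p ∈ S, z p n m) * ∏ p ∈ U \ S, (k p n m - z p n m) : ℝ) : ℂ) *
        e (-(((n : ℝ) - (m : ℝ)) * θ))‖ ≤
      4 * (∏ p ∈ U, (80 * lam p)) * ((M : ℝ) ^ 2 * g0 ^ 2) := by
  classical
  -- one set `S`
  have key : ∀ S ∈ U.powerset.filter (fun S => u < S.card),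
      ‖∑ n ∈ Ioc y (y + M), ∑ m ∈ Ioc y' (y' + M),
      ((G n * G m * ((∏ p ∈ S, z p n m) * ∏ p ∈ U \ S, (k p n m - z p n m)) : ℝ) : ℂ) *
        e (-(((n : ℝ) - (m : ℝ)) * θ))‖ ≤
      4 * (∏ p ∈ U, (40 * lam p)) * ((M : ℝ) ^ 2 * g0 ^ 2) := by
    intro S hS
    have hSU := mem_powerset.1 (mem_filter.1 hS).1
    set Z : ℕ → ℤ → ℤ → ℝ := fun p n m => if p ∈ S then z p n m else k p n m - z p n m with hZd
    have h1 : ∀ n m : ℤ, (∏ p ∈ S, z p n m) * ∏ p ∈ U \ S, (k p n m - z p n m) =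
        ∏ p ∈ U, Z p n m := by
      intro n m
      rw [← prod_sdiff hSU, mul_comm]
      congr 1
      · refine prod_congr rfl fun p hp' => ?_
        simp only [hZd]
        rw [if_neg (mem_sdiff.1 hp').2]
      · refine prod_congr rfl fun p hp' => ?_
        simp only [hZd]
        rw [if_pos hp']
    simp only [h1]
    have h2 := decB_form hp hw hlow hG0 hG1 hG Z (fun p hpU n m => by
        simp only [hZd]
        split_ifs
        · exact hzp p hpU n m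
        · rw [(hkp p hpU n m).1, (hkp p hpU n m).2, (hzp p hpU n m).1, (hzp p hpU n m).2]
          exact ⟨rfl, rfl⟩)
      (fun p => 2 * lam p) (fun p hpU => by have := hlam p hpU; linarith)
      (fun p hpU φ ψ => by
        set X := Real.sqrt (∑ x ∈ range p, ν p x / p * φ x ^ 2) *
          Real.sqrt (∑ y ∈ range p, ν p y / p * ψ y ^ 2) with hX
        have hX0 : 0 ≤ X := by positivity
        have hl := hlam p hpU
        by_cases hpS : p ∈ S
        · have e1 : ∀ x y : ℕ, Z p (x : ℤ) (y : ℤ) = z p x y := fun x y => by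
            simp only [hZd]
            rw [if_pos hpS]
          simp only [e1]
          refine (hz p hpU φ ψ).trans ?_
          nlinarith
        · have e1 : ∀ x y : ℕ, Z p (x : ℤ) (y : ℤ) = k p x y - z p x y := fun x y => by
            simp only [hZd]
            rw [if_neg hpS]
          simp only [e1]
          have e2 : ∑ x ∈ range p, ∑ y ∈ range p, (ν p x / p) * (ν p y / p) *
              (φ x * (k p x y - z p x y) * ψ y) =
              ∑ x ∈ range p, ∑ y ∈ range p, (ν p x / p) * (ν p y / p) * (φ x * k p x y * ψ y) -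
              ∑ x ∈ range p, ∑ y ∈ range p, (ν p x / p) * (ν p y / p) *
                (φ x * z p x y * ψ y) := by
            rw [← sum_sub_distrib]
            refine sum_congr rfl fun x _ => ?_
            rw [← sum_sub_distrib]
            exact sum_congr rfl fun y _ => by ring
          rw [e2]
          have a1 := hk p hpU φ ψ
          have a2 := hz p hpU φ ψ
          refine (abs_sub _ _).trans ?_
          linarith)
      y y' M θ
    refine h2.trans ?_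
    have hMr : ((∏ p ∈ U, p : ℕ) : ℝ) ≤ M := by exact_mod_cast hM
    have h3 : 0 ≤ ∏ p ∈ U, (2 * lam p) :=
      prod_nonneg fun p hpU => by have := hlam p hpU; linarith
    have h4 : (20 : ℝ) ^ U.card * (M : ℝ) * ((M : ℝ) + ((∏ p ∈ U, p : ℕ) : ℝ)) * g0 ^ 2 ≤
        20 ^ U.card * (2 * ((M : ℝ) ^ 2 * g0 ^ 2)) := by
      have h5 : (0 : ℝ) ≤ 20 ^ U.card * M * g0 ^ 2 := by positivity
      have h6 := mul_le_mul_of_nonneg_left hMr h5
      nlinarith
    refine (mul_le_mul_of_nonneg_left h4 (by positivity)).trans (le_of_eq ?_)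
    have h5 : ∏ p ∈ U, (40 * lam p) = 20 ^ U.card * ∏ p ∈ U, (2 * lam p) := by
      rw [← prod_const, ← prod_mul_distrib]
      exact prod_congr rfl fun p _ => by ring
    rw [h5]
    ring
  have e1 : ∑ n ∈ Ioc y (y + M), ∑ m ∈ Ioc y' (y' + M),
      ((G n * G m * ∑ S ∈ U.powerset.filter (fun S => u < S.card),
        (∏ p ∈ S, z p n m) * ∏ p ∈ U \ S, (k p n m - z p n m) : ℝ) : ℂ) *
        e (-(((n : ℝ) - (m : ℝ)) * θ)) =
      ∑ S ∈ U.powerset.filter (fun S => u < S.card), ∑ n ∈ Ioc y (y + M),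
        ∑ m ∈ Ioc y' (y' + M),
      ((G n * G m * ((∏ p ∈ S, z p n m) * ∏ p ∈ U \ S, (k p n m - z p n m)) : ℝ) : ℂ) *
        e (-(((n : ℝ) - (m : ℝ)) * θ)) :=
    decC_swap _ _ _ (fun n m => G n * G m) (fun n m => e (-(((n : ℝ) - (m : ℝ)) * θ)))
      (fun S n m => (∏ p ∈ S, z p n m) * ∏ p ∈ U \ S, (k p n m - z p n m))
  rw [e1]
  refine (norm_sum_le _ _).trans ((sum_le_sum key).trans ?_)
  rw [sum_const, nsmul_eq_mul]
  have h2 : ((U.powerset.filter (fun S => u < S.card)).card : ℝ) ≤ 2 ^ U.card := by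
    have h3 := card_le_card (filter_subset (fun S => u < S.card) U.powerset)
    rw [card_powerset] at h3
    exact_mod_cast h3
  have h3 : 0 ≤ ∏ p ∈ U, (40 * lam p) :=
    prod_nonneg fun p hpU => by have := hlam p hpU; linarith
  refine (mul_le_mul_of_nonneg_right h2 (by positivity)).trans (le_of_eq ?_)
  have h5 : ∏ p ∈ U, (80 * lam p) = 2 ^ U.card * ∏ p ∈ U, (40 * lam p) := by
    rw [← prod_const, ← prod_mul_distrib]
    exact prod_congr rfl fun p _ => by ring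
  rw [h5]
  ring

/-- the sum over the sets `U` with more than `u` elements -/
lemma decC_sum {V : Finset ℕ} {t : ℕ → ℝ} (ht : ∀ p ∈ V, 0 ≤ t p) {a : ℝ} (ha : 1 ≤ a) (u : ℕ) :
    ∑ U ∈ V.powerset.filter (fun U => u < U.card), ∏ p ∈ U, t p ≤
      a⁻¹ ^ u * Real.exp (a * ∑ p ∈ V, t p) := by
  classical
  have ha0 : 0 < a := by linarith
  calc ∑ U ∈ V.powerset.filter (fun U => u < U.card), ∏ p ∈ U, t p
      ≤ ∑ U ∈ V.powerset.filter (fun U => u < U.card), a⁻¹ ^ u * ∏ p ∈ U, (a * t p) := by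
        refine sum_le_sum fun U hU => ?_
        obtain ⟨h1, h2⟩ := mem_filter.1 hU
        have h3 : 0 ≤ ∏ p ∈ U, t p := prod_nonneg fun p hp => ht p (mem_powerset.1 h1 hp)
        rw [prod_mul_distrib, prod_const]
        have h4 : 1 ≤ a⁻¹ ^ u * a ^ U.card := by
          rw [inv_pow, ← div_eq_inv_mul, le_div_iff₀ (pow_pos ha0 _), one_mul]
          exact pow_le_pow_right₀ ha h2.le
        calc ∏ p ∈ U, t p = 1 * ∏ p ∈ U, t p := (one_mul _).symm
          _ ≤ (a⁻¹ ^ u * a ^ U.card) * ∏ p ∈ U, t p := mul_le_mul_of_nonneg_right h4 h3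
          _ = _ := by ring
    _ ≤ ∑ U ∈ V.powerset, a⁻¹ ^ u * ∏ p ∈ U, (a * t p) := by
        refine sum_le_sum_of_subset_of_nonneg (filter_subset _ _) fun U hU _ => ?_
        refine mul_nonneg (by positivity) (prod_nonneg fun p hp => ?_)
        exact mul_nonneg ha0.le (ht p (mem_powerset.1 hU hp))
    _ = a⁻¹ ^ u * ∏ p ∈ V, (1 + a * t p) := by rw [← mul_sum, prod_one_add]
    _ ≤ a⁻¹ ^ u * ∏ p ∈ V, Real.exp (a * t p) := by
        refine mul_le_mul_of_nonneg_left (prod_le_prod (fun p hp => ?_) fun p _ => ?_)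
          (by positivity)
        · have := mul_nonneg ha0.le (ht p hp)
          linarith
        · rw [add_comm]
          exact Real.add_one_le_exp _
    _ = _ := by rw [← Real.exp_sum, mul_sum]

/-- all the sets -/
theorem decC_all {V : Finset ℕ} {ν : ℕ → ℤ → ℝ} (hp : ∀ p ∈ V, p.Prime) (hw : Wts V ν)
    (hlow : ∀ p ∈ V, ∀ x, ν p x = 0 ∨ 1 / 20 ≤ ν p x) {G : ℤ → ℝ} {g0 : ℝ} (hG0 : ∀ n, 0 ≤ G n)
    (hG1 : ∀ n, G n ≤ g0) (hG : ∀ n, G n ≠ 0 → ∀ p ∈ V, ν p n ≠ 0)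
    (k z : ℕ → ℤ → ℤ → ℝ)
    (hkp : ∀ p ∈ V, ∀ n m : ℤ, k p (n + p) m = k p n m ∧ k p n (m + p) = k p n m)
    (hzp : ∀ p ∈ V, ∀ n m : ℤ, z p (n + p) m = z p n m ∧ z p n (m + p) = z p n m)
    (lam : ℕ → ℝ) (hlam : ∀ p ∈ V, 0 ≤ lam p)
    (hk : ∀ p ∈ V, ∀ φ ψ : ℕ → ℝ,
      |∑ x ∈ range p, ∑ y ∈ range p, (ν p x / p) * (ν p y / p) * (φ x * k p x y * ψ y)| ≤
        lam p * (Real.sqrt (∑ x ∈ range p, ν p x / p * φ x ^ 2) *
          Real.sqrt (∑ y ∈ range p, ν p y / p * ψ y ^ 2)))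
    (hz : ∀ p ∈ V, ∀ φ ψ : ℕ → ℝ,
      |∑ x ∈ range p, ∑ y ∈ range p, (ν p x / p) * (ν p y / p) * (φ x * z p x y * ψ y)| ≤
        lam p * (Real.sqrt (∑ x ∈ range p, ν p x / p * φ x ^ 2) *
          Real.sqrt (∑ y ∈ range p, ν p y / p * ψ y ^ 2)))
    (y y' : ℤ) (M d u : ℕ) (hM : ∀ U ⊆ V, U.card ≤ d → ∏ p ∈ U, p ≤ M) (θ : ℝ)
    {a : ℝ} (ha : 1 ≤ a) :
    ‖∑ n ∈ Ioc y (y + M), ∑ m ∈ Ioc y' (y' + M),
      ((G n * G m * KBig V d u k z n m : ℝ) : ℂ) * e (-(((n : ℝ) - (m : ℝ)) * θ))‖ ≤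
      4 * (a⁻¹ ^ u * Real.exp (a * (80 * ∑ p ∈ V, lam p))) * ((M : ℝ) ^ 2 * g0 ^ 2) := by
  classical
  have e1 : ∑ n ∈ Ioc y (y + M), ∑ m ∈ Ioc y' (y' + M),
      ((G n * G m * KBig V d u k z n m : ℝ) : ℂ) * e (-(((n : ℝ) - (m : ℝ)) * θ)) =
      ∑ U ∈ V.powerset.filter (fun U => U.card ≤ d), ∑ n ∈ Ioc y (y + M),
        ∑ m ∈ Ioc y' (y' + M),
      ((G n * G m * ∑ S ∈ U.powerset.filter (fun S => u < S.card),
        (∏ p ∈ S, z p n m) * ∏ p ∈ U \ S, (k p n m - z p n m) : ℝ) : ℂ) *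
        e (-(((n : ℝ) - (m : ℝ)) * θ)) :=
    decC_swap _ _ _ (fun n m => G n * G m) (fun n m => e (-(((n : ℝ) - (m : ℝ)) * θ)))
      (fun U n m => ∑ S ∈ U.powerset.filter (fun S => u < S.card),
        (∏ p ∈ S, z p n m) * ∏ p ∈ U \ S, (k p n m - z p n m))
  rw [e1]
  refine (norm_sum_le _ _).trans ?_
  have key : ∀ U ∈ V.powerset.filter (fun U => U.card ≤ d),
      ‖∑ n ∈ Ioc y (y + M), ∑ m ∈ Ioc y' (y' + M),
      ((G n * G m * ∑ S ∈ U.powerset.filter (fun S => u < S.card),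
        (∏ p ∈ S, z p n m) * ∏ p ∈ U \ S, (k p n m - z p n m) : ℝ) : ℂ) *
        e (-(((n : ℝ) - (m : ℝ)) * θ))‖ ≤
      if u < U.card then 4 * (∏ p ∈ U, (80 * lam p)) * ((M : ℝ) ^ 2 * g0 ^ 2) else 0 := by
    intro U hU
    obtain ⟨h1, h2⟩ := mem_filter.1 hU
    have hUV := mem_powerset.1 h1
    split_ifs with h3
    · exact decC_one (fun p hpU => hp p (hUV hpU))
        ⟨hw.nn, fun p hpU => hw.per p (hUV hpU), fun p hpU => hw.mean p (hUV hpU)⟩
        (fun p hpU => hlow p (hUV hpU)) hG0 hG1 (fun n hn p hpU => hG n hn p (hUV hpU)) k z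
        (fun p hpU => hkp p (hUV hpU)) (fun p hpU => hzp p (hUV hpU)) lam
        (fun p hpU => hlam p (hUV hpU)) (fun p hpU => hk p (hUV hpU))
        (fun p hpU => hz p (hUV hpU)) y y' M (hM U hUV h2) θ u
    · have h4 : U.powerset.filter (fun S => u < S.card) = ∅ := by
        rw [filter_eq_empty_iff]
        intro S hS
        have := card_le_card (mem_powerset.1 hS)
        omega
      rw [h4]
      simp
  refine (sum_le_sum key).trans ?_
  have h5 : ∑ U ∈ V.powerset.filter (fun U => U.card ≤ d),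
      (if u < U.card then 4 * (∏ p ∈ U, (80 * lam p)) * ((M : ℝ) ^ 2 * g0 ^ 2) else 0) ≤
      ∑ U ∈ V.powerset, (if u < U.card then 4 * (∏ p ∈ U, (80 * lam p)) *
        ((M : ℝ) ^ 2 * g0 ^ 2) else 0) := by
    refine sum_le_sum_of_subset_of_nonneg (filter_subset _ _) fun U hU _ => ?_
    split_ifs
    · have : 0 ≤ ∏ p ∈ U, (80 * lam p) := prod_nonneg fun p hpU => by
        have := hlam p (mem_powerset.1 hU hpU)
        linarith
      positivity
    · exact le_rfl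
  refine h5.trans ?_
  rw [← sum_filter]
  have h6 := decC_sum (V := V) (t := fun p => 80 * lam p)
    (fun p hpV => by have := hlam p hpV; linarith) ha u
  rw [← mul_sum] at h6
  calc ∑ U ∈ V.powerset.filter (fun U => u < U.card),
        4 * (∏ p ∈ U, (80 * lam p)) * ((M : ℝ) ^ 2 * g0 ^ 2)
      = 4 * (∑ U ∈ V.powerset.filter (fun U => u < U.card), ∏ p ∈ U, (80 * lam p)) *
        ((M : ℝ) ^ 2 * g0 ^ 2) := by
        rw [mul_sum, sum_mul]
    _ ≤ _ := by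
        refine mul_le_mul_of_nonneg_right (mul_le_mul_of_nonneg_left h6 (by norm_num))
          (by positivity)

end Vale.Agent.P042.UU
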