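import Vale.Agent.P042.UU.DecBC
import Vale.Agent.P042.UU.Core5Asm

set_option autoImplicit false

/-!
Block DEC5, part (II): the part `|S| > u5` of the truncated kernel is negligible.
-/

namespace Vale.Agent.P042.UU

open Polynomial Finset Vale.Agent.P042.SS Vale.Agent.P042.TT

/-- sum of the rates -/
theorem decD_sum {ε P : ℝ} (hP : 1 ≤ P) {V : Finset ℕ} (hV : V ⊆ W5 ε P) :
    ∑ p ∈ V, lam5 ε P p ≤ 2 * P ^ (1 - 94.9 * ε) := by
  have hP0 : 0 < P := by linarith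
  set N := ⌊P ^ (2 - 190 * ε)⌋₊ with hN
  have h1 : V ⊆ Ioc 0 N := by
    intro p hp
    have h2 := hV hp
    unfold W5 Wp at h2
    rw [mem_filter, mem_Ioc] at h2
    rw [mem_Ioc]
    exact ⟨h2.2.pos, h2.1.2⟩
  have h3 : ∑ p ∈ V, lam5 ε P p ≤ ∑ p ∈ Ioc 0 N, lam5 ε P p := by
    refine Finset.sum_le_sum_of_subset_of_nonneg h1 fun p _ _ => ?_
    unfold lam5
    positivity
  refine h3.trans ?_
  unfold lam5
  rw [← Finset.mul_sum]
  have h4 := core5_sum_half N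
  have h5 : Real.sqrt (N : ℝ) ≤ P ^ (1 - 95 * ε) := by
    have h6 : (N : ℝ) ≤ P ^ (2 - 190 * ε) := Nat.floor_le (by positivity)
    calc Real.sqrt (N : ℝ) ≤ Real.sqrt (P ^ (2 - 190 * ε)) := Real.sqrt_le_sqrt h6
      _ = P ^ (1 - 95 * ε) := by
        rw [Real.sqrt_eq_rpow, ← Real.rpow_mul hP0.le]
        congr 1
        ring
  calc P ^ (ε / 10) * ∑ p ∈ Ioc 0 N, (p : ℝ) ^ (-(1 / 2) : ℝ)
      ≤ P ^ (ε / 10) * (2 * P ^ (1 - 95 * ε)) :=
        mul_le_mul_of_nonneg_left (by linarith) (by positivity)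
    _ = 2 * P ^ (1 - 94.9 * ε) := by
        rw [show (1 - 94.9 * ε : ℝ) = ε / 10 + (1 - 95 * ε) by ring, Real.rpow_add hP0]
        ring

lemma decD_swap {α : Type*} (T : Finset α) (I J : Finset ℤ) (c : α → ℂ)
    (F : α → ℤ → ℤ → ℂ) :
    ∑ b ∈ T, c b * ∑ n ∈ I, ∑ m ∈ J, F b n m = ∑ n ∈ I, ∑ m ∈ J, ∑ b ∈ T, c b * F b n m := by
  calc ∑ b ∈ T, c b * ∑ n ∈ I, ∑ m ∈ J, F b n m
      = ∑ b ∈ T, ∑ n ∈ I, ∑ m ∈ J, c b * F b n m := by
        refine Finset.sum_congr rfl fun b _ => ?_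
        rw [Finset.mul_sum]
        exact Finset.sum_congr rfl fun n _ => by rw [Finset.mul_sum]
    _ = ∑ n ∈ I, ∑ b ∈ T, ∑ m ∈ J, c b * F b n m := Finset.sum_comm
    _ = _ := Finset.sum_congr rfl fun n _ => Finset.sum_comm

/-- one modulus -/
lemma decD_cor (G : ℤ → ℝ) (N' H q : ℕ) (f : ℤ[X]) (K0 : ℤ → ℤ → ℝ) {B : ℝ}
    (hΓ : ∀ b ∈ (range q).filter (Nat.Coprime q), ‖Gam f b q‖ ≤ 1)
    (hK : ∀ (y y' : ℤ) (θ : ℝ), ‖∑ n ∈ Ioc y (y + H), ∑ m ∈ Ioc y' (y' + H),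
      ((G n * G m * K0 n m : ℝ) : ℂ) * e (-(((n : ℝ) - (m : ℝ)) * θ))‖ ≤ B) :
    ‖Cor G G N' H (KQ f q K0)‖ ≤ (3 * N' + 1) * (q * B) := by
  have hB : 0 ≤ B := (norm_nonneg _).trans (hK 0 0 0)
  have e1 : ∀ y : ℤ, ∑ n ∈ Ioc (y + H) (y + H + H),
      ∑ m ∈ Ioc (y - 2 * H - 1) (y - 2 * H - 1 + H),
        ((G n * G m : ℝ) : ℂ) * KQ f q K0 n m =
      ∑ b ∈ (range q).filter (Nat.Coprime q), Gam f b q *
        ∑ n ∈ Ioc (y + H) (y + H + H), ∑ m ∈ Ioc (y - 2 * H - 1) (y - 2 * H - 1 + H),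
        ((G n * G m * K0 n m : ℝ) : ℂ) * e (-(((n : ℝ) - (m : ℝ)) * ((b : ℝ) / q))) := by
    intro y
    refine Eq.trans ?_ (decD_swap ((range q).filter (Nat.Coprime q)) (Ioc (y + H) (y + H + H))
      (Ioc (y - 2 * H - 1) (y - 2 * H - 1 + H)) (fun b => Gam f b q) (fun b n m =>
        ((G n * G m * K0 n m : ℝ) : ℂ) * e (-(((n : ℝ) - (m : ℝ)) * ((b : ℝ) / q))))).symm
    refine Finset.sum_congr rfl fun n _ => Finset.sum_congr rfl fun m _ => ?_
    unfold KQ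
    rw [Finset.sum_mul, Finset.mul_sum]
    refine Finset.sum_congr rfl fun b _ => ?_
    push_cast
    ring
  unfold Cor
  simp only [e1]
  have h1 : ∀ y ∈ Icc (-(N' : ℤ)) (2 * N'), ‖∑ b ∈ (range q).filter (Nat.Coprime q),
      Gam f b q * ∑ n ∈ Ioc (y + H) (y + H + H),
        ∑ m ∈ Ioc (y - 2 * H - 1) (y - 2 * H - 1 + H),
        ((G n * G m * K0 n m : ℝ) : ℂ) * e (-(((n : ℝ) - (m : ℝ)) * ((b : ℝ) / q)))‖ ≤
      q * B := by
    intro y _
    refine (norm_sum_le _ _).trans ?_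
    calc ∑ b ∈ (range q).filter (Nat.Coprime q), ‖Gam f b q *
          ∑ n ∈ Ioc (y + H) (y + H + H), ∑ m ∈ Ioc (y - 2 * H - 1) (y - 2 * H - 1 + H),
          ((G n * G m * K0 n m : ℝ) : ℂ) * e (-(((n : ℝ) - (m : ℝ)) * ((b : ℝ) / q)))‖
        ≤ ∑ b ∈ (range q).filter (Nat.Coprime q), B := by
          refine sum_le_sum fun b hb => ?_
          rw [norm_mul]
          have h2 := hK (y + H) (y - 2 * H - 1) ((b : ℝ) / q)
          calc _ ≤ 1 * B := mul_le_mul (hΓ b hb) h2 (norm_nonneg _) (by norm_num)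
            _ = B := one_mul _
      _ = ((range q).filter (Nat.Coprime q)).card * B := by rw [sum_const, nsmul_eq_mul]
      _ ≤ q * B := by
          refine mul_le_mul_of_nonneg_right ?_ hB
          have := card_filter_le (range q) (Nat.Coprime q)
          rw [card_range] at this
          exact_mod_cast this
  refine (norm_sum_le _ _).trans ((sum_le_sum h1).trans (le_of_eq ?_))
  rw [sum_const, nsmul_eq_mul, Int.card_Icc]
  congr 1
  have h2 : (((2 * (N' : ℤ) + 1 - -(N' : ℤ)).toNat : ℕ) : ℤ) = 3 * (N' : ℤ) + 1 := by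
    rw [Int.toNat_of_nonneg (by omega)]
    ring
  have h3 : (((2 * (N' : ℤ) + 1 - -(N' : ℤ)).toNat : ℕ) : ℝ) = 3 * (N' : ℝ) + 1 := by
    exact_mod_cast h2
  exact h3

/-- asymptotics -/
lemma decD_asym (ε : ℝ) (h0 : 0 < ε) (h1 : ε ≤ 1 / 1000) : ∃ P0 : ℝ, ∀ P : ℝ, P0 ≤ P →
    1 ≤ P ∧ 1 ≤ 0.3 * ε * Real.log P ∧
    2 * P ^ (1 - 94 * ε) * Real.log P ≤ P / 2 ∧ Real.log 16 ≤ 3 / 8 * P ∧
    2 * P ^ (1 - 95 * ε) + (Real.log 32 + 1) + 160 * P ^ (1 - 94.6 * ε) +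
      2 * P ^ (1 - 97.9 * ε) + P ^ (1 - 95.5 * ε) ≤ P ^ (1 - 94.5 * ε) := by
  have a1 := Filter.eventually_ge_atTop (1 : ℝ)
  have a2 := Filter.eventually_ge_atTop (Real.exp (1 / (0.3 * ε)))
  have a3 := pow_dom (1 - 93 * ε) 1 (4 / ε) (by linarith)
  have a4 := Filter.eventually_ge_atTop (8 / 3 * Real.log 16)
  have b1 := pow_dom (1 - 95 * ε) (1 - 94.5 * ε) 10 (by linarith)
  have b2 := pow_dom 0 (1 - 94.5 * ε) (5 * (Real.log 32 + 1)) (by linarith)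
  have b3 := pow_dom (1 - 94.6 * ε) (1 - 94.5 * ε) 800 (by linarith)
  have b4 := pow_dom (1 - 97.9 * ε) (1 - 94.5 * ε) 10 (by linarith)
  have b5 := pow_dom (1 - 95.5 * ε) (1 - 94.5 * ε) 5 (by linarith)
  obtain ⟨P0, hP0⟩ := Filter.eventually_atTop.1
    (a1.and (a2.and (a3.and (a4.and (b1.and (b2.and (b3.and (b4.and b5))))))))
  refine ⟨P0, fun P hP => ?_⟩
  obtain ⟨c1, c2, c3, c4, d1, d2, d3, d4, d5⟩ := hP0 P hP
  have hPp : 0 < P := by linarith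
  refine ⟨c1, ?_, ?_, ?_, ?_⟩
  · have h2 : 1 / (0.3 * ε) ≤ Real.log P := by
      rw [Real.le_log_iff_exp_le hPp]
      exact c2
    rwa [div_le_iff₀' (by positivity)] at h2
  · have h2 : Real.log P ≤ P ^ ε / ε := Real.log_le_rpow_div hPp.le h0
    have h3 : (0 : ℝ) ≤ 2 * P ^ (1 - 94 * ε) := by positivity
    refine (mul_le_mul_of_nonneg_left h2 h3).trans ?_
    have h4 : P ^ (1 - 94 * ε) * P ^ ε = P ^ (1 - 93 * ε) := by
      rw [← Real.rpow_add hPp]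
      congr 1
      ring
    rw [Real.rpow_one] at c3
    have h5 : 2 * P ^ (1 - 94 * ε) * (P ^ ε / ε) = (4 / ε * P ^ (1 - 93 * ε)) / 2 := by
      rw [← h4]
      ring
    rw [h5]
    linarith
  · linarith
  · rw [Real.rpow_zero, mul_one] at d2
    linarith

/-- products of few primes of the window -/
lemma decD_prod {ε P : ℝ} {H N' : ℕ} (h0 : 0 < ε) (hP1 : 1 ≤ P)
    (c3 : 2 * P ^ (1 - 94 * ε) * Real.log P ≤ P / 2) (c4 : Real.log 16 ≤ 3 / 8 * P)
    (hN : Real.exp (7 / 8 * P) ≤ N') (hH : N' ≤ 16 * H) {U : Finset ℕ} (hU : U ⊆ W5 ε P)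
    (hd : U.card ≤ d5 ε P) : ∏ p ∈ U, p ≤ H := by
  have hPp : 0 < P := by linarith
  have hl : 0 ≤ Real.log P := Real.log_nonneg hP1
  have h1 : ((∏ p ∈ U, p : ℕ) : ℝ) ≤ Real.exp (P / 2) := by
    push_cast
    calc ∏ p ∈ U, (p : ℝ) ≤ ∏ p ∈ U, Real.exp (2 * Real.log P) := by
          refine prod_le_prod (fun p _ => by positivity) fun p hp => ?_
          have h2 := hU hp
          unfold W5 Wp at h2
          rw [mem_filter, mem_Ioc] at h2
          have h3 : (p : ℝ) ≤ P ^ (2 - 190 * ε) :=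
            (Nat.cast_le.2 h2.1.2).trans (Nat.floor_le (by positivity))
          refine h3.trans ?_
          rw [Real.rpow_def_of_pos hPp]
          refine Real.exp_le_exp.2 ?_
          have : 0 ≤ Real.log P * (190 * ε) := by positivity
          linarith
      _ = Real.exp (U.card * (2 * Real.log P)) := by
          rw [prod_const, ← Real.exp_nat_mul]
      _ ≤ Real.exp (P / 2) := by
          refine Real.exp_le_exp.2 ?_
          have h2 : (U.card : ℝ) ≤ P ^ (1 - 94 * ε) :=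
            (Nat.cast_le.2 hd).trans (Nat.floor_le (by positivity))
          have h3 : 0 ≤ 2 * Real.log P := by positivity
          have h4 := mul_le_mul_of_nonneg_right h2 h3
          linarith
  have h2 : Real.exp (P / 2) ≤ (H : ℝ) := by
    have h3 : (N' : ℝ) ≤ 16 * H := by exact_mod_cast hH
    have h4 : Real.exp (P / 2) * 16 ≤ Real.exp (7 / 8 * P) := by
      calc Real.exp (P / 2) * 16 = Real.exp (P / 2 + Real.log 16) := by
            rw [Real.exp_add, Real.exp_log (by norm_num)]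
        _ ≤ _ := Real.exp_le_exp.2 (by linarith)
    linarith
  exact_mod_cast h1.trans h2

/-- block DEC5, part (II) -/
def DecBig5 : Prop :=
  ∀ (k E K p0 : ℕ) (kap : ℕ → ℕ → ℝ) (ε : ℝ), 1 ≤ k → 1 ≤ E → KapOK k E K p0 kap →
  0 < ε → ε ≤ 1 / 1000 →
  ∃ P0 : ℝ, ∀ P : ℝ, P0 ≤ P →
  ∀ (N' H : ℕ) (G : ℤ → ℝ) (ν : ℕ → ℤ → ℝ), Real.exp (7 / 8 * P) ≤ N' →
    (N' : ℝ) ≤ Real.exp P → 8 * H ≤ N' → N' ≤ 16 * H → Wts (W5 ε P) ν →
    (∀ p ∈ W5 ε P, ∀ x, ν p x ≤ Real.exp (bn5 ε P)) →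
    (∀ p ∈ W5 ε P, ∀ x, ν p x = 0 ∨ 1 / 20 ≤ ν p x) → (∀ n, 0 ≤ G n) →
    (∀ n, G n ≤ Real.exp (P ^ (1 - 97.9 * ε))) →
    (∀ n, G n ≠ 0 → ∀ p ∈ W5 ε P, ν p n ≠ 0) →
  ∀ f : ℤ[X],
    (∀ (q : ℕ) (a : ℤ), 1 ≤ q → IsCoprime a (q : ℤ) → ‖Gam f a q‖ ≤ kapProd kap q) →
    (∀ p ∈ W5 ε P, ∀ t : ℤ, |kp f p t| ≤ k) →
    ‖∑ q ∈ EV5 ε P (Q5 ε P), Cor G G N' H
        (KQ f q (KBig (Vn ε P q) (d5 ε P) (u5 ε P) (fun p n m => kp f p (n - m)) (ze ν f)))‖ ≤
      1 / 2 * (Real.exp (-(P ^ (1 - 95.5 * ε))) * N' * (H : ℝ) ^ 2)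

theorem decBig5 (hKB : KB5Stmt) : DecBig5 := by
  intro k E K p0 kap ε hk hE hkap h0 h1
  obtain ⟨P1, hP1⟩ := hKB k E K p0 kap ε hk hE hkap h0 h1
  obtain ⟨P2, hP2⟩ := decD_asym ε h0 h1
  refine ⟨max P1 P2, fun P hP N' H G ν hN1 hN2 hH1 hH2 hW hνle hlow hG0 hG1 hGν f hΓ hkp => ?_⟩
  obtain ⟨-, -, -, -, -, -, hper, hze, hkn⟩ :=
    hP1 P ((le_max_left _ _).trans hP) ν hW hνle hlow f hΓ hkp
  obtain ⟨c1, c2, c3, c4, c5⟩ := hP2 P ((le_max_right _ _).trans hP)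
  have hPp : 0 < P := by linarith
  set A := P ^ (1 - 94.5 * ε) with hA
  set a := P ^ (0.3 * ε) with ha
  have ha1 : 1 ≤ a := Real.one_le_rpow c1 (by positivity)
  have hap : 0 < a := by linarith
  set g0 := Real.exp (P ^ (1 - 97.9 * ε)) with hg0
  set B : ℝ := 4 * (Real.exp (1 - A) * Real.exp (160 * P ^ (1 - 94.6 * ε))) *
    ((H : ℝ) ^ 2 * g0 ^ 2) with hBd
  have hB0 : 0 ≤ B := by positivity
  -- the constant
  have hconst : ∀ V ⊆ W5 ε P, 4 * (a⁻¹ ^ (u5 ε P) * Real.exp (a * (80 * ∑ p ∈ V, lam5 ε P p))) *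
      ((H : ℝ) ^ 2 * g0 ^ 2) ≤ B := by
    intro V hV
    have h2 : a⁻¹ ^ (u5 ε P) ≤ Real.exp (1 - A) := by
      have h3 : a = Real.exp (0.3 * ε * Real.log P) := by
        rw [ha, Real.rpow_def_of_pos hPp]
        congr 1
        ring
      rw [h3, ← Real.exp_neg, ← Real.exp_nat_mul]
      refine Real.exp_le_exp.2 ?_
      have h4 : A < (u5 ε P : ℝ) + 1 := Nat.lt_floor_add_one _
      have h5 : (0 : ℝ) ≤ u5 ε P := Nat.cast_nonneg _
      have h6 := mul_le_mul_of_nonneg_left c2 h5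
      linarith
    have h3 : a * (80 * ∑ p ∈ V, lam5 ε P p) ≤ 160 * P ^ (1 - 94.6 * ε) := by
      have h4 := decD_sum c1 hV
      have h5 : a * (80 * (2 * P ^ (1 - 94.9 * ε))) = 160 * P ^ (1 - 94.6 * ε) := by
        rw [show (1 - 94.6 * ε : ℝ) = 0.3 * ε + (1 - 94.9 * ε) by ring, Real.rpow_add hPp]
        ring
      rw [← h5]
      exact mul_le_mul_of_nonneg_left (by linarith) hap.le
    have h4 := Real.exp_le_exp.2 h3
    have h5 : a⁻¹ ^ (u5 ε P) * Real.exp (a * (80 * ∑ p ∈ V, lam5 ε P p)) ≤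
        Real.exp (1 - A) * Real.exp (160 * P ^ (1 - 94.6 * ε)) :=
      mul_le_mul h2 h4 (Real.exp_nonneg _) (Real.exp_nonneg _)
    exact mul_le_mul_of_nonneg_right (by linarith) (by positivity)
  -- one modulus
  have hq : ∀ q ∈ EV5 ε P (Q5 ε P), ‖Cor G G N' H
        (KQ f q (KBig (Vn ε P q) (d5 ε P) (u5 ε P) (fun p n m => kp f p (n - m)) (ze ν f)))‖ ≤
      (3 * N' + 1) * ((Q5 ε P : ℝ) * B) := by
    intro q hq
    have hq' := (mem_filter.1 hq).1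
    rw [mem_Icc] at hq'
    have hVW : Vn ε P q ⊆ W5 ε P := filter_subset _ _
    have h2 := decD_cor G N' H q f
      (KBig (Vn ε P q) (d5 ε P) (u5 ε P) (fun p n m => kp f p (n - m)) (ze ν f)) (B := B)
      (fun b hb => by
        have hb' := (mem_filter.1 hb).2
        refine (hΓ q b hq'.1 ?_).trans (kapProd_le_one hkap.nn hkap.le1 q)
        exact (Nat.isCoprime_iff_coprime.2 hb').symm)
      (fun y y' θ => by
        refine (decC_all (V := Vn ε P q) (ν := ν) (g0 := g0)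
          (fun p hp => by
            have h3 := hVW hp
            unfold W5 Wp at h3
            exact (mem_filter.1 h3).2)
          ⟨hW.nn, fun p hp => hW.per p (hVW hp), fun p hp => hW.mean p (hVW hp)⟩
          (fun p hp => hlow p (hVW hp)) hG0 hG1 (fun n hn p hp => hGν n hn p (hVW hp))
          (fun p n m => kp f p (n - m)) (ze ν f)
          (fun p hp n m => by
            constructor
            · have := (hper p (hVW hp) (n - m) 0).1
              rw [show n + (p : ℤ) - m = n - m + p by ring]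
              exact this
            · have := (hper p (hVW hp) (n - (m + p)) 0).1
              rw [← this]
              congr 1
              ring)
          (fun p hp n m => (hper p (hVW hp) n m).2) (lam5 ε P)
          (fun p _ => by unfold lam5; positivity)
          (fun p hp => hkn p (hVW hp)) (fun p hp => hze p (hVW hp)) y y' H (d5 ε P) (u5 ε P)
          (fun U hU hd => decD_prod h0 c1 c3 c4 hN1 hH2 (hU.trans hVW) hd) θ ha1).trans
          (hconst _ hVW))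
    refine h2.trans ?_
    have h3 : (q : ℝ) ≤ Q5 ε P := by exact_mod_cast hq'.2
    exact mul_le_mul_of_nonneg_left (mul_le_mul_of_nonneg_right h3 hB0) (by positivity)
  refine (norm_sum_le _ _).trans ((sum_le_sum hq).trans ?_)
  rw [sum_const, nsmul_eq_mul]
  have hcard : ((EV5 ε P (Q5 ε P)).card : ℝ) ≤ Q5 ε P := by
    have h2 : (EV5 ε P (Q5 ε P)).card ≤ (Icc 1 (Q5 ε P)).card := card_le_card (filter_subset _ _)
    rw [Nat.card_Icc] at h2
    have h3 : (EV5 ε P (Q5 ε P)).card ≤ Q5 ε P := by omega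
    exact_mod_cast h3
  have hQ : (Q5 ε P : ℝ) ≤ Real.exp (P ^ (1 - 95 * ε)) := Nat.floor_le (Real.exp_nonneg _)
  have hN3 : (1 : ℝ) ≤ N' := by
    refine le_trans ?_ hN1
    have := Real.add_one_le_exp (7 / 8 * P)
    linarith
  have hH0 : (0 : ℝ) ≤ (H : ℝ) ^ 2 := by positivity
  have h3 : ((EV5 ε P (Q5 ε P)).card : ℝ) * ((3 * N' + 1) * ((Q5 ε P : ℝ) * B)) ≤
      Real.exp (P ^ (1 - 95 * ε)) * ((4 * N') * (Real.exp (P ^ (1 - 95 * ε)) * B)) := by
    refine mul_le_mul (hcard.trans hQ) ?_ (by positivity) (Real.exp_nonneg _)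
    exact mul_le_mul (by linarith) (mul_le_mul_of_nonneg_right hQ hB0) (by positivity)
      (by positivity)
  refine h3.trans ?_
  have h4 : 32 * (Real.exp (P ^ (1 - 95 * ε)) * Real.exp (P ^ (1 - 95 * ε)) *
      (Real.exp (1 - A) * Real.exp (160 * P ^ (1 - 94.6 * ε))) * g0 ^ 2) ≤
      Real.exp (-(P ^ (1 - 95.5 * ε))) := by
    have h5 : (32 : ℝ) = Real.exp (Real.log 32) := (Real.exp_log (by norm_num)).symm
    rw [h5, hg0, ← Real.exp_nat_mul, ← Real.exp_add, ← Real.exp_add, ← Real.exp_add,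
      ← Real.exp_add, ← Real.exp_add]
    refine Real.exp_le_exp.2 ?_
    push_cast
    linarith
  have h5 : (0 : ℝ) ≤ 1 / 2 * (N' * (H : ℝ) ^ 2) := by positivity
  calc Real.exp (P ^ (1 - 95 * ε)) * ((4 * N') * (Real.exp (P ^ (1 - 95 * ε)) * B))
      = 1 / 2 * (N' * (H : ℝ) ^ 2) * (32 * (Real.exp (P ^ (1 - 95 * ε)) *
          Real.exp (P ^ (1 - 95 * ε)) *
          (Real.exp (1 - A) * Real.exp (160 * P ^ (1 - 94.6 * ε))) * g0 ^ 2)) := by
        rw [hBd]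
        ring
    _ ≤ 1 / 2 * (N' * (H : ℝ) ^ 2) * Real.exp (-(P ^ (1 - 95.5 * ε))) :=
        mul_le_mul_of_nonneg_left h4 h5
    _ = _ := by ring

end Vale.Agent.P042.UU
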