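import Vale.Agent.P042.TT.Spec

set_option autoImplicit false

/-!
Definitions for Theorem S5 (every exponent below one).  `P = log N`, `0 < ε ≤ 1/1000`.
-/

namespace Vale.Agent.P042.UU

open Polynomial Finset Vale.Agent.P042.SS Vale.Agent.P042.TT

/-! ### parameters -/

/-- the window of primes `(P^{190ε}, P^{2-190ε}]` -/
noncomputable def W5 (ε P : ℝ) : Finset ℕ := Wp ⌊P ^ (190 * ε)⌋₊ ⌊P ^ (2 - 190 * ε)⌋₊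

noncomputable def eta5 (ε P : ℝ) : ℝ := P ^ (-(98 * ε))

noncomputable def bn5 (ε P : ℝ) : ℝ := P ^ (-(97 * ε))

noncomputable def b5 (ε P : ℝ) : ℝ := P ^ (-(96 * ε))

/-- exponent of the loss in the modulus -/
noncomputable def bc5 (ε P : ℝ) : ℝ := P ^ (-(95.8 * ε))

/-- rates -/
noncomputable def s5 (ε P : ℝ) (p : ℕ) : ℝ := P ^ (40 * ε) * (p : ℝ) ^ (-(1 / 2) : ℝ)

noncomputable def t5 (ε P : ℝ) (p : ℕ) : ℝ := P ^ (38 * ε) * (p : ℝ) ^ (-(1 / 2) : ℝ)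

noncomputable def t6 (ε P : ℝ) (p : ℕ) : ℝ := P ^ (30 * ε) * (p : ℝ) ^ (-(1 / 2) : ℝ)

/-- true rates are at most this -/
noncomputable def lam5 (ε P : ℝ) (p : ℕ) : ℝ := P ^ (ε / 10) * (p : ℝ) ^ (-(1 / 2) : ℝ)

noncomputable def Q5 (ε P : ℝ) : ℕ := ⌊Real.exp (P ^ (1 - 95 * ε))⌋₊

/-- sizes of sets of primes -/
noncomputable def dS5 (ε P : ℝ) : ℕ := ⌊P ^ (1 - 52 * ε)⌋₊

noncomputable def dT5 (ε P : ℝ) : ℕ := ⌊P ^ (1 - 53 * ε)⌋₊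

noncomputable def d5 (ε P : ℝ) : ℕ := ⌊P ^ (1 - 94 * ε)⌋₊

noncomputable def u5 (ε P : ℝ) : ℕ := ⌊P ^ (1 - 94.5 * ε)⌋₊

/-- clip levels -/
noncomputable def Mc1 (ε P : ℝ) : ℝ := P ^ (1 - 98 * ε)

noncomputable def Mc2 (ε P : ℝ) : ℝ := P ^ (1 - 49 * ε)

noncomputable def Ma5 (ε P : ℝ) : ℝ := P ^ (1 - 142 * ε)

/-- admissible Hellinger deviation of the weights -/
noncomputable def V05 (ε P : ℝ) : ℝ := P ^ (1 - 50.5 * ε)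

/-! ### the clipped weights -/

/-- `max (½ log t) (-3)`, `-3` for `t = 0` -/
noncomputable def lg (t : ℝ) : ℝ := if t = 0 then -3 else max (Real.log t / 2) (-3)

noncomputable def Xn (W : Finset ℕ) (ν : ℕ → ℤ → ℝ) (n : ℤ) : ℝ := ∑ p ∈ W, lg (ν p n)

/-- Hellinger deviation of the weights -/
noncomputable def Hl (W : Finset ℕ) (ν : ℕ → ℤ → ℝ) : ℝ :=
  ∑ p ∈ W, (1 - (∑ x ∈ range p, Real.sqrt (ν p x)) / p)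

/-- weighted function with clip -/
noncomputable def Gc (W : Finset ℕ) (M : ℝ) (g : ℤ → ℝ) (ν : ℕ → ℤ → ℝ) (n : ℤ) : ℝ :=
  if Xn W ν n ≤ M then g n * ∏ p ∈ W, Real.sqrt (ν p n) else 0

/-- primes of the window not dividing `D` -/
noncomputable def Vn (ε P : ℝ) (D : ℕ) : Finset ℕ := (W5 ε P).filter (fun p => ¬ p ∣ D)

/-- primes of the window dividing `D` -/
noncomputable def Yn (ε P : ℝ) (D : ℕ) : Finset ℕ := (W5 ε P).filter (fun p => p ∣ D)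

/-- integers of the window `(y, y+M]` in the class `x mod D` -/
noncomputable def cel (y : ℤ) (M D : ℕ) (x : ℤ) : Finset ℤ :=
  (Ioc y (y + M)).filter (fun n : ℤ => n ≡ x [ZMOD (D : ℕ)])

/-- the near extremal state, raw form: `g` is (the indicator of) the set on the progression -/
structure Raw5 (ε P : ℝ) (k N' Nmin : ℕ) (Φ : ℝ) (g : ℤ → ℝ) (ν : ℕ → ℤ → ℝ) : Prop where
  wts : Wts (W5 ε P) ν
  le4 : ∀ p ∈ W5 ε P, ∀ n, ν p n ≤ 4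
  hell : Hl (W5 ε P) ν ≤ V05 ε P
  g0 : ∀ n, 0 ≤ g n
  g1 : ∀ n, g n ≤ 1
  gsupp : ∀ n, g n ≠ 0 → 1 ≤ n ∧ n ≤ N'
  N'lo : Real.exp (7 / 8 * P) ≤ N'
  N'hi : (N' : ℝ) ≤ Real.exp P
  Nmin_le : (Nmin : ℝ) ≤ Real.exp (P / 2) + 1
  Φlo : Real.exp (-(3 * P ^ (1 - 100 * ε))) ≤ Φ
  Φhi : Φ ≤ 3
  Gsum : ∑ n ∈ Icc (1 : ℤ) N', Gc (W5 ε P) (Mc2 ε P) g ν n = N' * Φ
  max : ∀ (D M : ℕ) (y x : ℤ) (μ : ℕ → ℤ → ℝ), 1 ≤ D → D ^ k * Nmin ≤ M →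
    D ^ k * Nmin ≤ N' → Wts (Vn ε P D) μ → (∀ p ∈ Vn ε P D, ∀ n, μ p n ≤ 4) →
    Hl (Vn ε P D) μ ≤ V05 ε P →
    (∑ n ∈ cel y M D x, Gc (Vn ε P D) (Mc2 ε P) g μ n) *
        Real.exp (1 / 8 * ∑ p ∈ Vn ε P D, zf μ p) ≤
      (M : ℝ) / D * Φ * (1 + (D : ℝ) ^ k / M) * ((N' * (D : ℝ) ^ k / M) ^ (eta5 ε P)) *
        Real.exp (Real.exp (-(P ^ (1 - 49.5 * ε)))) *
        Real.exp (1 / 8 * ∑ p ∈ W5 ε P, zf ν p)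

/-- the near extremal state, usable form -/
structure Pin5 (ε P : ℝ) (k N' : ℕ) (Φ : ℝ) (G : ℤ → ℝ) (ν : ℕ → ℤ → ℝ) : Prop where
  wts : Wts (W5 ε P) ν
  νle : ∀ p ∈ W5 ε P, ∀ x, ν p x ≤ Real.exp (bn5 ε P)
  low : ∀ p ∈ W5 ε P, ∀ x, ν p x = 0 ∨ 1 / 20 ≤ ν p x
  hell : Hl (W5 ε P) ν ≤ P ^ (1 - 99.5 * ε)
  N'lo : Real.exp (7 / 8 * P) ≤ N'
  N'hi : (N' : ℝ) ≤ Real.exp P
  Φlo : Real.exp (-(3 * P ^ (1 - 100 * ε))) ≤ Φ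
  Φhi : Φ ≤ 3
  G0 : ∀ n, 0 ≤ G n
  Gsupp : ∀ n, G n ≠ 0 → 1 ≤ n ∧ n ≤ N'
  Gsum : ∑ n ∈ Icc (1 : ℤ) N', G n = N' * Φ
  Gle : ∀ n, G n ≤ Real.exp (Xn (W5 ε P) ν n)
  Gclip : ∀ n, G n ≠ 0 → Xn (W5 ε P) ν n ≤ Mc2 ε P
  Gν : ∀ n, G n ≠ 0 → ∀ p ∈ W5 ε P, ν p n ≠ 0
  marg : ∀ p ∈ W5 ε P, ∀ x : ℤ,
    |mass G 0 N' p x - N' * Φ * ν p x / p| ≤ Real.exp (-(P ^ (1 - 50 * ε))) * (N' * Φ)
  klv : ∀ (D M : ℕ) (y x : ℤ) (U : Finset ℕ) (F : ℕ → ℤ → ℝ), 1 ≤ D →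
    Real.log D ≤ P ^ (1 - 51 * ε) → M ≤ N' → (N' : ℝ) ≤ P * M → U ⊆ Vn ε P D →
    (∀ p ∈ U, ∀ n, F p (n + p) = F p n) → (∀ p ∈ U, ∀ n, 1 / 3 ≤ F p n ∧ F p n ≤ 3) →
    (∀ p ∈ U, ∑ z ∈ range p, ν p z * F p z = p) →
    ∑ p ∈ U, (∑ z ∈ range p, ν p z * (F p z - 1) ^ 2) / (p : ℝ) ≤ P ^ (1 - 50.8 * ε) →
    ∑ n ∈ (cel y M D x).filter (fun n => Xn (W5 ε P) ν n + (∑ p ∈ U, Real.log (F p n)) / 2 ≤
        Mc2 ε P / 2), G n * ∏ p ∈ U, Real.sqrt (F p n) ≤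
      (M * Φ / D) * Real.exp (P ^ (-(96.9 * ε)) * (1 + Real.log D))

/-- the (tilted) state, basic part -/
structure Sb5 (ε P : ℝ) (k N' : ℕ) (Φ : ℝ) (G : ℤ → ℝ) (ν : ℕ → ℤ → ℝ) : Prop where
  wts : Wts (W5 ε P) ν
  νle : ∀ p ∈ W5 ε P, ∀ x, ν p x ≤ Real.exp (bn5 ε P)
  low : ∀ p ∈ W5 ε P, ∀ x, ν p x = 0 ∨ 1 / 20 ≤ ν p x
  N'lo : Real.exp (7 / 8 * P) ≤ N'
  N'hi : (N' : ℝ) ≤ Real.exp P
  Φlo : Real.exp (-(3 * P ^ (1 - 100 * ε))) ≤ Φ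
  Φhi : Φ ≤ 3
  G0 : ∀ n, 0 ≤ G n
  Gsupp : ∀ n, G n ≠ 0 → 1 ≤ n ∧ n ≤ N'
  Gsum : (1 - P ^ (-(0.4 * ε))) * (N' * Φ) ≤ ∑ n ∈ Icc (1 : ℤ) N', G n
  Gle : ∀ n, G n ≤ Real.exp (P ^ (1 - 97.5 * ε)) * Φ
  Gν : ∀ n, G n ≠ 0 → ∀ p ∈ W5 ε P, ν p n ≠ 0
  sup : ∀ (D M : ℕ) (y x : ℤ), 1 ≤ D → Real.log D ≤ P ^ (1 - 51 * ε) → M ≤ N' →
    (N' : ℝ) ≤ P * M →
    mass G y M D x ≤ (M * Φ / D) * Real.exp (P ^ (-(90 * ε)) + b5 ε P * Real.log D)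

/-- the (tilted) state: standing situation of all blocks on cells; `klc` is the inequality for
the relative entropies of the residues mod `p`, `p ∈ V`, in every sub-cell -/
structure St5 (ε P : ℝ) (k N' : ℕ) (Φ : ℝ) (G : ℤ → ℝ) (ν : ℕ → ℤ → ℝ) : Prop
    extends Sb5 ε P k N' Φ G ν where
  klc : ∀ (V : Finset ℕ) (R M : ℕ) (y r : ℤ) (S0 S : Finset ↥V) (x : XS V) (a : ℝ),
    V ⊆ W5 ε P → 1 ≤ R → (∀ p ∈ V, Nat.Coprime p R) → Real.log R ≤ P ^ (1 - 90 * ε) →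
    M ≤ N' → (N' : ℝ) ≤ P * M → S0 ⊆ S → S.card ≤ dS5 ε P →
    a = (∏ p ∈ S0, ν p (x p : ℕ)) * R / (M * Φ) →
    ∑ i ∈ Sᶜ, klr (piV ν V) (fun z => a * gV ν V G y M R r z) S i x ≤
      P ^ (ε / 10) * (rho (piV ν V) (fun z => a * gV ν V G y M R r z) S x *
        (2 + P ^ (-(95.9 * ε)) * Real.log R + P ^ (-(95.9 * ε)) * (S.card : ℝ) +
          ∑ i ∈ S \ S0, max 0 (Real.log (1 / ν i (x i : ℕ))) -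
          Real.log (rho (piV ν V) (fun z => a * gV ν V G y M R r z) S x))) +
        Real.exp (-(P ^ (1 - 51 * ε)))

/-! ### truncated exponential -/

noncomputable def TD (D : ℕ) (x : ℝ) : ℝ := ∑ j ∈ range (D + 1), x ^ j / (j.factorial : ℝ)

noncomputable def Dt5 (ε P : ℝ) : ℕ := 2 * ⌊P ^ (1 - 48 * ε)⌋₊

/-! ### energies with truncation -/

noncomputable def totd (t : ℕ → ℝ) (d : ℕ) (V : Finset ℕ) (ν : ℕ → ℤ → ℝ) (G : ℤ → ℝ) (y : ℤ)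
    (M R : ℕ) (r : ℤ) (θ : ℝ) : ℝ :=
  ∑ T ∈ V.powerset.filter (fun T => T.card ≤ d), wtR t V T * enT ν G y M R r θ T

noncomputable def ews (t : ℕ → ℝ) (u : ℕ) (V : Finset ℕ) (ν : ℕ → ℤ → ℝ) (G : ℤ → ℝ) (y : ℤ)
    (M R : ℕ) (r : ℤ) (θ : ℝ) : ℝ :=
  ∑ U ∈ V.powerset.filter (fun U => U.card ≤ u), (∏ p ∈ U, t p) * ew ν G y M R r θ U

/-! ### moduli -/

/-- no prime of the window divides `q` exactly once -/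
noncomputable def EV5 (ε P : ℝ) (Q : ℕ) : Finset ℕ :=
  (Icc 1 Q).filter (fun q => ∀ p ∈ W5 ε P, q.factorization p ≠ 1)

/-- no prime of the window divides `q` -/
noncomputable def E05 (ε P : ℝ) (Q : ℕ) : Finset ℕ :=
  (Icc 1 Q).filter (fun q => ∀ p ∈ W5 ε P, ¬ p ∣ q)

/-- all primes larger than `P^{2-190ε}`, exponents at most `J'` -/
noncomputable def QZ5 (ε P : ℝ) (J' Q : ℕ) : Finset ℕ :=
  (Icc 1 Q).filter (fun q => ∀ p ∈ q.primeFactors,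
    ⌊P ^ (2 - 190 * ε)⌋₊ < p ∧ q.factorization p ≤ J')

noncomputable def zr5 (ε P : ℝ) (p j : ℕ) : ℝ :=
  if j = 1 then P ^ (ε / 2) * (p : ℝ) ^ (-(1 / 2) + ε / 10 : ℝ) else (p : ℝ) ^ (-0.9 : ℝ)

noncomputable def zR5 (ε P : ℝ) (q : ℕ) : ℝ :=
  ∏ p ∈ q.primeFactors, zr5 ε P p (q.factorization p)

/-! ### the kernel in physical space -/

/-- `#{z mod p : f(z) = t} - 1` -/
noncomputable def kp (f : ℤ[X]) (p : ℕ) (t : ℤ) : ℝ :=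
  ∑ c ∈ Ico 1 p, (Gam f c p * e (-((c : ℝ) * (t : ℝ) / (p : ℝ)))).re

noncomputable def al (ν : ℕ → ℤ → ℝ) (f : ℤ[X]) (p : ℕ) (n : ℤ) : ℝ :=
  (∑ y ∈ range p, ν p y * kp f p (n - y)) / p

noncomputable def be (ν : ℕ → ℤ → ℝ) (f : ℤ[X]) (p : ℕ) (m : ℤ) : ℝ :=
  (∑ x ∈ range p, ν p x * kp f p (x - m)) / p

noncomputable def cc (ν : ℕ → ℤ → ℝ) (f : ℤ[X]) (p : ℕ) : ℝ :=
  (∑ x ∈ range p, ν p x * al ν f p x) / p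

noncomputable def ta (ν : ℕ → ℤ → ℝ) (f : ℤ[X]) (p : ℕ) (n : ℤ) : ℝ :=
  (al ν f p n - cc ν f p) / (1 + cc ν f p)

noncomputable def tb (ν : ℕ → ℤ → ℝ) (f : ℤ[X]) (p : ℕ) (m : ℤ) : ℝ :=
  (be ν f p m - cc ν f p) / (1 + cc ν f p)

/-- the doubly centred part of the kernel -/
noncomputable def ze (ν : ℕ → ℤ → ℝ) (f : ℤ[X]) (p : ℕ) (n m : ℤ) : ℝ :=
  kp f p (n - m) - ((1 + cc ν f p) * (1 + ta ν f p n) * (1 + tb ν f p m) - 1)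

/-- good integers -/
def goodA (ε P : ℝ) (ν a a' : ℕ → ℤ → ℝ) (n : ℤ) : Prop :=
  Xn (W5 ε P) ν n ≤ Mc1 ε P ∧ ∑ p ∈ W5 ε P, |a p n| ≤ Ma5 ε P ∧
    ∑ p ∈ W5 ε P, |a' p n| ≤ Ma5 ε P

open Classical in
/-- restriction to the good integers -/
noncomputable def Gg (ε P : ℝ) (ν a a' : ℕ → ℤ → ℝ) (G : ℤ → ℝ) (n : ℤ) : ℝ :=
  if goodA ε P ν a a' n then G n else 0

/-- tilted function (restricted to the good integers, tilt `c`) -/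
noncomputable def Gt (ε P : ℝ) (ν a a' c : ℕ → ℤ → ℝ) (G : ℤ → ℝ) (n : ℤ) : ℝ :=
  Gg ε P ν a a' G n * ∏ p ∈ W5 ε P, (1 + c p n)

/-- admissible tilts -/
structure TiltOK (ε P : ℝ) (ν a : ℕ → ℤ → ℝ) : Prop where
  per : ∀ p ∈ W5 ε P, ∀ n, a p (n + p) = a p n
  le : ∀ p ∈ W5 ε P, ∀ n, |a p n| ≤ b5 ε P / 4
  cen : ∀ p ∈ W5 ε P, ∑ z ∈ range p, ν p z * a p z = 0
  sq : ∑ p ∈ W5 ε P, (∑ z ∈ range p, (a p z) ^ 2) / (p : ℝ) ≤ P ^ (-(95 * ε))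

/-- weighted correlation over the windows of the circle method -/
noncomputable def Cor (g1 g2 : ℤ → ℝ) (N' H : ℕ) (K : ℤ → ℤ → ℂ) : ℂ :=
  ∑ y ∈ Icc (-(N' : ℤ)) (2 * N'), ∑ n ∈ Ioc (y + H) (y + H + H),
    ∑ m ∈ Ioc (y - 2 * H - 1) (y - 2 * H - 1 + H), ((g1 n * g2 m : ℝ) : ℂ) * K n m

/-- the part of the kernel at the exceptional modulus `q`, times a real kernel -/
noncomputable def KQ (f : ℤ[X]) (q : ℕ) (K0 : ℤ → ℤ → ℝ) (n m : ℤ) : ℂ :=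
  (∑ b ∈ (range q).filter (Nat.Coprime q), Gam f b q *
    e (-(((n : ℝ) - (m : ℝ)) * ((b : ℝ) / q)))) * ((K0 n m : ℝ) : ℂ)

/-- truncated expansion of the kernel -/
noncomputable def KU (ε P : ℝ) (f : ℤ[X]) (q : ℕ) (n m : ℤ) : ℝ :=
  ∑ U ∈ (Vn ε P q).powerset.filter (fun U => U.card ≤ d5 ε P), ∏ p ∈ U, kp f p (n - m)

/-- main part -/
noncomputable def KS (ε P : ℝ) (ν : ℕ → ℤ → ℝ) (f : ℤ[X]) (q : ℕ) (n m : ℤ) : ℝ :=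
  ∑ S ∈ (Vn ε P q).powerset.filter (fun S => S.card ≤ u5 ε P),
    (∏ p ∈ S, ze ν f p n m) * ∏ p ∈ Vn ε P q \ S,
      ((1 + cc ν f p) * (1 + ta ν f p n) * (1 + tb ν f p m))

/-- main part, normalised -/
noncomputable def KG (ε P : ℝ) (ν : ℕ → ℤ → ℝ) (f : ℤ[X]) (q : ℕ) (n m : ℤ) : ℝ :=
  ∑ S ∈ (Vn ε P q).powerset.filter (fun S => S.card ≤ u5 ε P),
    ∏ p ∈ S, (ze ν f p n m / ((1 + cc ν f p) * (1 + ta ν f p n) * (1 + tb ν f p m)))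

noncomputable def YA (ε P : ℝ) (a : ℕ → ℤ → ℝ) (q : ℕ) (n : ℤ) : ℝ :=
  ∏ p ∈ Yn ε P q, (1 + a p n)⁻¹

end Vale.Agent.P042.UU
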