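import Vale.Agent.P042.UU.SpecC
import Vale.Agent.P042.TT.Ew

set_option autoImplicit false

/-!
Block EWS5: truncated random energies and component energies.
-/

namespace Vale.Agent.P042.UU

open Finset Vale.Agent.P042.SS Vale.Agent.P042.TT

section wt

variable {κ : Type*} [DecidableEq κ]

lemma ews_one (t : κ → ℝ) (S : Finset κ) : ∑ T ∈ S.powerset, wtR t S T = 1 := by
  induction S using Finset.induction_on with
  | empty => simp [wtR]
  | insert i S hi ih =>
    rw [sum_powerset_insert hi]
    have h1 : ∑ T ∈ S.powerset, wtR t (insert i S) T = (1 - t i) * ∑ T ∈ S.powerset, wtR t S T := by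
      rw [mul_sum]
      exact sum_congr rfl fun T hT => wtR_ins_not t hi (mem_powerset.1 hT)
    have h2 : ∑ T ∈ S.powerset, wtR t (insert i S) (insert i T) =
        t i * ∑ T ∈ S.powerset, wtR t S T := by
      rw [mul_sum]
      exact sum_congr rfl fun T hT => wtR_ins_ins t hi (mem_powerset.1 hT)
    rw [h1, h2, ih]
    ring

/-- expected size of the random set -/
lemma ews_mean (t : κ → ℝ) (S : Finset κ) :
    ∑ T ∈ S.powerset, wtR t S T * (T.card : ℝ) = ∑ i ∈ S, t i := by
  induction S using Finset.induction_on with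
  | empty => simp
  | insert i S hi ih =>
    rw [sum_powerset_insert hi, sum_insert hi]
    have h1 : ∑ T ∈ S.powerset, wtR t (insert i S) T * (T.card : ℝ) =
        (1 - t i) * ∑ T ∈ S.powerset, wtR t S T * (T.card : ℝ) := by
      rw [mul_sum]
      refine sum_congr rfl fun T hT => ?_
      rw [wtR_ins_not t hi (mem_powerset.1 hT)]
      ring
    have h2 : ∑ T ∈ S.powerset, wtR t (insert i S) (insert i T) * ((insert i T).card : ℝ) =
        t i * (∑ T ∈ S.powerset, wtR t S T * (T.card : ℝ) + ∑ T ∈ S.powerset, wtR t S T) := by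
      rw [← sum_add_distrib, mul_sum]
      refine sum_congr rfl fun T hT => ?_
      rw [wtR_ins_ins t hi (mem_powerset.1 hT),
        card_insert_of_notMem (fun h => hi (mem_powerset.1 hT h))]
      push_cast
      ring
    rw [h1, h2, ih, ews_one]
    ring

lemma ews_nonneg {t : κ → ℝ} {S T : Finset κ} (ht : ∀ p ∈ S, 0 ≤ t p ∧ t p ≤ 1) (hT : T ⊆ S) :
    0 ≤ wtR t S T := by
  unfold wtR
  exact mul_nonneg (prod_nonneg fun i hi => (ht i (hT hi)).1)
    (prod_nonneg fun i hi => by linarith [(ht i (mem_sdiff.1 hi).1).2])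

/-- Markov -/
lemma ews_markov {t : κ → ℝ} {S : Finset κ} (ht : ∀ p ∈ S, 0 ≤ t p ∧ t p ≤ 1) {m : ℕ}
    (hm : 2 * ∑ p ∈ S, t p ≤ m) :
    1 / 2 ≤ ∑ T ∈ S.powerset.filter (fun T => T.card ≤ m), wtR t S T := by
  have h1 : ∑ T ∈ S.powerset, wtR t S T =
      ∑ T ∈ S.powerset.filter (fun T => T.card ≤ m), wtR t S T +
      ∑ T ∈ S.powerset.filter (fun T => ¬ T.card ≤ m), wtR t S T :=
    (sum_filter_add_sum_filter_not _ _ _).symm
  rw [ews_one] at h1
  have h2 : ((m : ℝ) + 1) * ∑ T ∈ S.powerset.filter (fun T => ¬ T.card ≤ m), wtR t S T ≤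
      ∑ p ∈ S, t p := by
    rw [mul_sum, ← ews_mean t S]
    calc ∑ T ∈ S.powerset.filter (fun T => ¬ T.card ≤ m), ((m : ℝ) + 1) * wtR t S T ≤
          ∑ T ∈ S.powerset.filter (fun T => ¬ T.card ≤ m), wtR t S T * (T.card : ℝ) := by
          refine sum_le_sum fun T hT => ?_
          rw [mem_filter, mem_powerset] at hT
          have h3 := ews_nonneg ht hT.1
          have h4 : ((m : ℝ) + 1) ≤ (T.card : ℝ) := by
            have : m + 1 ≤ T.card := by omega
            exact_mod_cast this
          nlinarith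
      _ ≤ _ := by
          refine sum_le_sum_of_subset_of_nonneg (filter_subset _ _) fun T hT _ => ?_
          exact mul_nonneg (ews_nonneg ht (mem_powerset.1 hT)) (Nat.cast_nonneg _)
  have h3 : (0 : ℝ) ≤ m := Nat.cast_nonneg m
  nlinarith

lemma ews_split (t : κ → ℝ) {V W : Finset κ} {T : Finset κ} (hT : T ⊆ V \ W) :
    wtR t V (W ∪ T) = (∏ p ∈ W, t p) * wtR t (V \ W) T := by
  unfold wtR
  have hd : Disjoint W T := by
    rw [disjoint_left]
    intro a ha hb
    exact (mem_sdiff.1 (hT hb)).2 ha
  rw [prod_union hd]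
  have : V \ (W ∪ T) = (V \ W) \ T := by
    ext a
    simp only [mem_sdiff, mem_union]
    tauto
  rw [this]
  ring

/-- sums over the sets containing `W` -/
lemma ews_sup (t : κ → ℝ) {V W : Finset κ} (hW : W ⊆ V) (d : ℕ) :
    ∑ T ∈ V.powerset.filter (fun T => W ⊆ T ∧ T.card ≤ d), wtR t V T =
      (∏ p ∈ W, t p) * ∑ T ∈ (V \ W).powerset.filter (fun T => W.card + T.card ≤ d),
        wtR t (V \ W) T := by
  rw [mul_sum]
  refine sum_bij' (fun T _ => T \ W) (fun T _ => W ∪ T) ?_ ?_ ?_ ?_ ?_
  · intro T hT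
    rw [mem_filter, mem_powerset] at hT
    rw [mem_filter, mem_powerset]
    refine ⟨sdiff_subset_sdiff hT.1 (Subset.refl _), ?_⟩
    rw [card_sdiff_of_subset hT.2.1]
    have := card_le_card hT.2.1
    omega
  · intro T hT
    rw [mem_filter, mem_powerset] at hT
    rw [mem_filter, mem_powerset]
    refine ⟨union_subset hW (hT.1.trans sdiff_subset), subset_union_left, ?_⟩
    exact (card_union_le _ _).trans hT.2
  · intro T hT
    rw [mem_filter, mem_powerset] at hT
    exact union_sdiff_of_subset hT.2.1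
  · intro T hT
    rw [mem_filter, mem_powerset] at hT
    ext a
    simp only [mem_sdiff, mem_union]
    constructor
    · rintro ⟨h1 | h1, h2⟩
      · exact absurd h1 h2
      · exact h1
    · intro h
      exact ⟨Or.inr h, (mem_sdiff.1 (hT.1 h)).2⟩
  · intro T hT
    rw [mem_filter, mem_powerset] at hT
    rw [← ews_split t (sdiff_subset_sdiff hT.1 (Subset.refl _)),
      union_sdiff_of_subset hT.2.1]

end wt

theorem ews5_holds : EWS5Stmt := by
  intro V ν G y M R r θ t d u hp hw hG ht
  have hew := ew_holds V ν G y M R r θ hp hw hG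
  have h0 : ∀ W ∈ V.powerset, 0 ≤ ew ν G y M R r θ W := fun W hW => hew.1 W (mem_powerset.1 hW)
  -- the total energy through the components
  have htot : totd t d V ν G y M R r θ = ∑ W ∈ V.powerset, ew ν G y M R r θ W *
      ∑ T ∈ V.powerset.filter (fun T => W ⊆ T ∧ T.card ≤ d), wtR t V T := by
    unfold totd
    have h1 : ∀ T ∈ V.powerset.filter (fun T => T.card ≤ d),
        wtR t V T * enT ν G y M R r θ T =
        ∑ W ∈ V.powerset, if W ⊆ T then ew ν G y M R r θ W * wtR t V T else 0 := by
      intro T hT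
      rw [mem_filter, mem_powerset] at hT
      rw [hew.2.2.2.1 T hT.1, mul_sum, ← sum_filter]
      have h2 : V.powerset.filter (fun W => W ⊆ T) = T.powerset := by
        ext W
        rw [mem_filter, mem_powerset, mem_powerset]
        exact ⟨fun h => h.2, fun h => ⟨h.trans hT.1, h⟩⟩
      rw [h2]
      exact sum_congr rfl fun W _ => by ring
    rw [sum_congr rfl h1, sum_comm]
    refine sum_congr rfl fun W _ => ?_
    rw [← sum_filter, filter_filter, mul_sum]
    refine sum_congr ?_ fun T _ => rfl
    ext T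
    simp only [mem_filter]
    tauto
  have hA : ∀ W ∈ V.powerset,
      ∑ T ∈ V.powerset.filter (fun T => W ⊆ T ∧ T.card ≤ d), wtR t V T ≤ ∏ p ∈ W, t p := by
    intro W hW
    have hWV := mem_powerset.1 hW
    rw [ews_sup t hWV d]
    have h1 : ∑ T ∈ (V \ W).powerset.filter (fun T => W.card + T.card ≤ d), wtR t (V \ W) T ≤
        1 := by
      rw [← ews_one t (V \ W)]
      refine sum_le_sum_of_subset_of_nonneg (filter_subset _ _) fun T hT _ => ?_
      exact ews_nonneg (fun p hp' => ht p (mem_sdiff.1 hp').1) (mem_powerset.1 hT)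
    have h2 : 0 ≤ ∏ p ∈ W, t p := prod_nonneg fun p hp' => (ht p (hWV hp')).1
    nlinarith
  constructor
  · rw [htot]
    unfold ews
    have h1 : ∀ W ∈ V.powerset, ew ν G y M R r θ W *
        ∑ T ∈ V.powerset.filter (fun T => W ⊆ T ∧ T.card ≤ d), wtR t V T ≤
        if W.card ≤ d then (∏ p ∈ W, t p) * ew ν G y M R r θ W else 0 := by
      intro W hW
      by_cases hd : W.card ≤ d
      · rw [if_pos hd, mul_comm]
        exact mul_le_mul_of_nonneg_right (hA W hW) (h0 W hW)
      · rw [if_neg hd]
        have h2 : V.powerset.filter (fun T => W ⊆ T ∧ T.card ≤ d) = ∅ := by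
          rw [filter_eq_empty_iff]
          rintro T _ ⟨h3, h4⟩
          exact hd ((card_le_card h3).trans h4)
        rw [h2]
        simp
    refine (sum_le_sum h1).trans (le_of_eq ?_)
    rw [sum_filter]
  · intro hd
    rw [htot]
    unfold ews
    rw [sum_filter, mul_sum]
    refine sum_le_sum fun W hW => ?_
    have hWV := mem_powerset.1 hW
    have hsum0 : 0 ≤ ∑ T ∈ V.powerset.filter (fun T => W ⊆ T ∧ T.card ≤ d), wtR t V T :=
      sum_nonneg fun T hT => ews_nonneg ht (mem_powerset.1 (mem_filter.1 hT).1)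
    by_cases hu : W.card ≤ u
    · rw [if_pos hu]
      have hts : (0 : ℝ) ≤ ∑ p ∈ V, t p := sum_nonneg fun p hp' => (ht p hp').1
      have hud : (u : ℝ) ≤ d := by linarith
      have hud' : u ≤ d := by exact_mod_cast hud
      have h1 : 1 / 2 ≤ ∑ T ∈ (V \ W).powerset.filter (fun T => W.card + T.card ≤ d),
          wtR t (V \ W) T := by
        have h2 := ews_markov (t := t) (S := V \ W) (m := d - W.card)
          (fun p hp' => ht p (mem_sdiff.1 hp').1) (by
            have h3 : ∑ p ∈ V \ W, t p ≤ ∑ p ∈ V, t p :=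
              sum_le_sum_of_subset_of_nonneg sdiff_subset fun p hp' _ => (ht p hp').1
            have h4 : ((d - W.card : ℕ) : ℝ) = d - W.card := by
              rw [Nat.cast_sub (hu.trans hud')]
            have h5 : (W.card : ℝ) ≤ u := by exact_mod_cast hu
            rw [h4]
            linarith)
        refine h2.trans (le_of_eq ?_)
        refine sum_congr ?_ fun T _ => rfl
        ext T
        simp only [mem_filter]
        have := hu.trans hud'
        constructor
        · rintro ⟨a, b⟩
          exact ⟨a, by omega⟩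
        · rintro ⟨a, b⟩
          exact ⟨a, by omega⟩
      rw [ews_sup t hWV d]
      have h2 : 0 ≤ ∏ p ∈ W, t p := prod_nonneg fun p hp' => (ht p (hWV hp')).1
      have h3 := h0 W hW
      have h4 : 0 ≤ (∏ p ∈ W, t p) * ew ν G y M R r θ W := mul_nonneg h2 h3
      nlinarith
    · rw [if_neg hu]
      have := mul_nonneg (h0 W hW) hsum0
      linarith

end Vale.Agent.P042.UU
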