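import Vale.Agent.P042.UU.Lower
import Vale.Agent.P042.SS.FinE2
import Vale.Agent.P042.SS.FinG0

set_option autoImplicit false

/-!
Last step of the assembly of Theorem S5.
-/

namespace Vale.Agent.P042.UU

open Polynomial Finset Vale.Agent.P042.SS Vale.Agent.P042.TT

/-- everything that is needed of `P` in the last step -/
theorem fin5_ev (k E2 K2 S R : ℕ) (ε : ℝ) (hε : 0 < ε) (hε1 : ε ≤ 1 / 1000) :
    ∀ᶠ P : ℝ in Filter.atTop,
      16 ≤ P ∧ (R : ℝ) + 1 ≤ P ^ (190 * ε) ∧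
      Real.log 2 + E2 * (Real.log K2 + P ^ (1 - 96 * ε)) ≤ P ^ (1 - 95 * ε) ∧
      E2 * (Real.log K2 + (2 * Real.log S + k * (Real.log 2 + P ^ (1 - 1.9 * ε))) +
        P ^ (1 - 95 * ε) + P ^ (1 - 96 * ε)) ≤ 7 / 8 * P ∧
      Real.log 20 + P ^ (1 - 190 * ε) + P ^ (1 - 97.9 * ε) + 3 * P ^ (1 - 100 * ε) + 1 ≤
        P ^ (1 - 96 * ε) ∧
      P ^ (1 - 98 * ε) ≤ P ^ (1 - 97.9 * ε) := by
  have hc := fun c : ℝ => Filter.eventually_ge_atTop (α := ℝ) c
  filter_upwards [hc 16, lower5_ev_const ((R : ℝ) + 1) (190 * ε) (by positivity),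
    lower5_ev_pow (2 * E2) (1 - 96 * ε) (1 - 95 * ε) (by linarith),
    lower5_ev_const (2 * (Real.log 2 + E2 * Real.log K2)) (1 - 95 * ε) (by linarith),
    lower5_ev_pow (8 * E2 * k) (1 - 1.9 * ε) 1 (by linarith),
    lower5_ev_pow (8 * E2) (1 - 95 * ε) 1 (by linarith),
    lower5_ev_pow (8 * E2) (1 - 96 * ε) 1 (by linarith),
    hc (8 * E2 * (Real.log K2 + 2 * Real.log S + k * Real.log 2)),
    lower5_ev_pow 4 (1 - 190 * ε) (1 - 96 * ε) (by linarith),
    lower5_ev_pow 4 (1 - 97.9 * ε) (1 - 96 * ε) (by linarith),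
    lower5_ev_pow 12 (1 - 100 * ε) (1 - 96 * ε) (by linarith),
    lower5_ev_const (4 * (Real.log 20 + 1)) (1 - 96 * ε) (by linarith)] with
    P h1 hR h2 h3 h4 h5 h6 h7 h8 h9 h10 h11
  rw [Real.rpow_one] at h4 h5 h6
  refine ⟨h1, hR, ?_, ?_, ?_, ?_⟩
  · nlinarith
  · nlinarith
  · linarith
  · exact Real.rpow_le_rpow_of_exponent_le (by linarith) (by linarith)

theorem fin5_eps (hRaw : RAW5Stmt) (hPin : PIN5Stmt) (hRoot : ROOT5Stmt)
    (hLow : LOWER5Stmt) (hAN : ANStmt) (h : ℤ[X]) (hdeg : 2 ≤ h.natDegree)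
    (hpos : 0 < h.leadingCoeff) (hint : Intersective h) (ε : ℝ) (hε : 0 < ε)
    (hε1 : ε ≤ 1 / 1000) :
    ∃ C : ℝ, 0 < C ∧ ∀ N : ℕ, 1 ≤ N →
      (rMax h N : ℝ) ≤ C * N * Real.exp (-(Real.log N) ^ (1 - 100 * ε)) := by
  classical
  have hex : 0 ≤ 1 - 100 * ε := by linarith
  obtain ⟨k, hk⟩ : ∃ k : ℕ, h.natDegree = k := ⟨_, rfl⟩
  have hk2 : 2 ≤ k := hk ▸ hdeg
  have hk1 : 1 ≤ k := by omega
  have hk' : 1 ≤ h.natDegree := by omega
  have hkr : (0 : ℝ) < k := by exact_mod_cast hk1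
  obtain ⟨lam0, r, Hh, R, hR, hH, hmul, hdvd, hr, hrr, hgcd⟩ := exists_aux h hk' hpos hint
  have hAux : AuxData h lam0 r Hh R := ⟨hR, hH, hmul, hdvd, hr, hrr, hgcd⟩
  obtain ⟨S, hS, hcoef⟩ := hAux.coeff_bound hk' hpos
  obtain ⟨E2, hE2, hAN2⟩ := hAN k hk2
  obtain ⟨K2, hK2, hANi⟩ := hAN2 R hR
  obtain ⟨E, hE, hcomp⟩ := complete_sums k hk1
  obtain ⟨K, p0, kap, hK, hkap0, hkap1, hkapK, hkapp1, hkappj, hkapS⟩ := hcomp R hR
  have hKap : KapOK k E K p0 kap := ⟨hkap0, hkap1, hkapK, hkapp1, hkappj⟩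
  obtain ⟨Pa, hPa⟩ := hRaw h lam0 r Hh R hAux hk' ε hε hε1
  obtain ⟨Pb, hPb⟩ := hLow k E K p0 kap ε hk1 hE hKap hε hε1
  obtain ⟨Pc, hPc⟩ := hPin k hk1 ε hε hε1
  obtain ⟨Pd, hPd⟩ := Filter.eventually_atTop.1 (fin5_ev k E2 K2 S R ε hε hε1)
  obtain ⟨Ps, hPs⟩ : ∃ x : ℝ, x = max (max (max Pa Pb) (max Pc Pd)) 1 := ⟨_, rfl⟩
  have hPa' : Pa ≤ Ps := by
    rw [hPs]; exact (le_max_left _ _).trans ((le_max_left _ _).trans (le_max_left _ _))
  have hPb' : Pb ≤ Ps := by
    rw [hPs]; exact (le_max_right _ _).trans ((le_max_left _ _).trans (le_max_left _ _))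
  have hPc' : Pc ≤ Ps := by
    rw [hPs]; exact (le_max_left _ _).trans ((le_max_right _ _).trans (le_max_left _ _))
  have hPd' : Pd ≤ Ps := by
    rw [hPs]; exact (le_max_right _ _).trans ((le_max_right _ _).trans (le_max_left _ _))
  have hPs1 : 1 ≤ Ps := by rw [hPs]; exact le_max_right _ _
  refine ⟨Real.exp (Ps ^ (1 - 100 * ε)), Real.exp_pos _, fun N hN => ?_⟩
  have hN0 : (0 : ℝ) < N := by exact_mod_cast hN
  have hred : ∀ B : ℝ, 0 ≤ B → (∀ A0 : Finset ℤ, A0 ⊆ Icc (1 : ℤ) N → DiffFree h A0 →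
      (A0.card : ℝ) ≤ B) → (rMax h N : ℝ) ≤ B := by
    intro B hB hall
    have h1 : rMax h N ≤ ⌊B⌋₊ := by
      unfold rMax
      refine Finset.sup_le fun A0 hA0 => ?_
      rw [mem_filter, mem_powerset] at hA0
      exact Nat.le_floor (hall A0 hA0.1 hA0.2)
    exact (Nat.cast_le.2 h1).trans (Nat.floor_le hB)
  have hlogN : 0 ≤ Real.log N := Real.log_nonneg (by exact_mod_cast hN)
  rcases lt_or_ge (Real.log N) Ps with hlt | hge
  · have h1 : (rMax h N : ℝ) ≤ N := by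
      refine hred N hN0.le fun A0 hA0 _ => ?_
      have h2 := Finset.card_le_card hA0
      rw [Int.card_Icc] at h2
      have h3 : A0.card ≤ N := by omega
      exact_mod_cast h3
    have h2 : (Real.log N) ^ (1 - 100 * ε) ≤ Ps ^ (1 - 100 * ε) :=
      Real.rpow_le_rpow hlogN hlt.le hex
    have h3 : (1 : ℝ) ≤ Real.exp (Ps ^ (1 - 100 * ε)) *
        Real.exp (-(Real.log N) ^ (1 - 100 * ε)) := by
      rw [← Real.exp_add]
      apply Real.one_le_exp
      linarith
    calc (rMax h N : ℝ) ≤ N := h1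
      _ = N * 1 := (mul_one _).symm
      _ ≤ N * (Real.exp (Ps ^ (1 - 100 * ε)) * Real.exp (-(Real.log N) ^ (1 - 100 * ε))) :=
          mul_le_mul_of_nonneg_left h3 hN0.le
      _ = _ := by ring
  · obtain ⟨P, hP⟩ : ∃ x : ℝ, x = Real.log N := ⟨_, rfl⟩
    rw [← hP] at hge ⊢
    have h1 : (rMax h N : ℝ) ≤ Real.exp (-(P ^ (1 - 100 * ε))) * N := by
      refine hred _ (by positivity) fun A0 hA0 hfree => ?_
      by_contra hcon
      rw [not_le] at hcon
      obtain ⟨d, N', Nmin, Φ, g, ν, hd1, hdle, hraw, hdf⟩ :=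
        hPa P (hPa'.trans hge) N hN hP.symm A0 hA0 hfree hcon.le
      obtain ⟨hP16, hR1, hn1, hn2, hn3, hn4⟩ := hPd P (hPd'.trans hge)
      have hP1 : 1 ≤ P := by linarith
      rw [hk] at hraw
      have hpin := hPc P (hPc'.trans hge) N' Nmin Φ g ν hraw
      have hΦpos : 0 < Φ := lt_of_lt_of_le (Real.exp_pos _) hpin.Φlo
      have hfdeg : (Hh d).natDegree = k := by rw [hAux.natDegree_H (by omega) d hd1, hk]
      have hflead : 0 < (Hh d).leadingCoeff := hAux.lead_pos (by omega) hpos d hd1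
      have hfcont := hAux.hgcd d hd1
      have hgam : ∀ (q : ℕ) (a : ℤ), 1 ≤ q → IsCoprime a (q : ℤ) →
          ‖Gam (Hh d) a q‖ ≤ kapProd kap q := fun q a hq hqa => by
        have h2 := hkapS (Hh d) hfdeg hflead hfcont q a hq hqa
        have hq0 : (0 : ℝ) < q := by exact_mod_cast hq
        unfold Gam kapProd
        rw [norm_div, Complex.norm_natCast, div_le_iff₀ hq0]
        exact h2
      have hgam1 : Gam (Hh d) 0 1 = 1 := by
        unfold Gam e
        simp
      have hroot : ∀ p ∈ W5 ε P, ∀ t : ℤ, |kp (Hh d) p t| ≤ k := by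
        intro p hp t
        unfold W5 Wp at hp
        rw [mem_filter, mem_Ioc] at hp
        refine hRoot k R (Hh d) hk1 hR hfdeg hfcont p hp.2 ?_ t
        have h3 : R ≤ ⌊P ^ (190 * ε)⌋₊ := Nat.le_floor (by linarith)
        omega
      -- the window length
      have hN'r : (1 : ℝ) ≤ N' := by
        refine le_trans ?_ hpin.N'lo
        exact Real.one_le_exp (by linarith)
      have hN'1 : 1 ≤ N' := by exact_mod_cast hN'r
      have hN'16 : 16 ≤ N' := by
        have h3 : (14 : ℝ) + 1 ≤ Real.exp 14 := Real.add_one_le_exp 14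
        have h4 : Real.exp 14 ≤ Real.exp (7 / 8 * P) := Real.exp_le_exp.2 (by linarith)
        have h5 : (16 : ℝ) ≤ Real.exp 14 := by
          have h6 := Real.add_one_le_exp (7 : ℝ)
          have h7 : Real.exp 14 = Real.exp 7 * Real.exp 7 := by
            rw [← Real.exp_add]
            norm_num
          rw [h7]
          nlinarith
        have h6 : (16 : ℝ) ≤ N' := h5.trans (h4.trans hpin.N'lo)
        exact_mod_cast h6
      obtain ⟨H, hHdef⟩ : ∃ H : ℕ, H = N' / 8 := ⟨_, rfl⟩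
      have h8H : 8 * H ≤ N' := by omega
      have h16H : N' ≤ 16 * H := by omega
      have hH1 : 1 ≤ H := by omega
      have hHr : (1 : ℝ) ≤ H := by exact_mod_cast hH1
      obtain ⟨Ga, hGa⟩ : ∃ Ga : ℤ → ℝ, Ga = Gg ε P ν (ta ν (Hh d)) (tb ν (Hh d))
        (Gc (W5 ε P) (Mc2 ε P) g ν) := ⟨_, rfl⟩
      have hlower := hPb P (hPb'.trans hge) N' H Φ _ ν hpin h8H h16H (Hh d) hgam hroot hgam1
      rw [← hGa] at hlower
      have hGane : ∀ n, Ga n ≠ 0 → goodA ε P ν (ta ν (Hh d)) (tb ν (Hh d)) n ∧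
          Ga n = Gc (W5 ε P) (Mc2 ε P) g ν n := by
        intro n hn
        rw [hGa] at hn ⊢
        unfold Gg at hn ⊢
        split_ifs at hn ⊢ with h
        · exact ⟨h, rfl⟩
        · exact absurd rfl hn
      have hGa0 : ∀ n, 0 ≤ Ga n := by
        intro n
        rw [hGa]
        unfold Gg
        split_ifs
        · exact hpin.G0 n
        · exact le_rfl
      have hGaG : ∀ n, Ga n ≠ 0 → Gc (W5 ε P) (Mc2 ε P) g ν n ≠ 0 := fun n hn => by
        rw [← (hGane n hn).2]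
        exact hn
      have hGag : ∀ n, Ga n ≠ 0 → g n ≠ 0 := fun n hn => by
        have h3 := hGaG n hn
        unfold Gc at h3
        split_ifs at h3
        · exact left_ne_zero_of_mul h3
        · exact absurd rfl h3
      have hGasupp : ∀ n, Ga n ≠ 0 → 1 ≤ n ∧ n ≤ N' := fun n hn => hpin.Gsupp n (hGaG n hn)
      have hGadf : ∀ n m : ℤ, Ga n ≠ 0 → Ga m ≠ 0 → ∀ x : ℕ, 1 ≤ x →
          n - m = (Hh d).eval (x : ℤ) → n = m := fun n m hn hm x hx he =>
        hdf n m (hGag n hn) (hGag m hm) x hx he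
      have hGm : ∀ n, Ga n ≤ Real.exp (P ^ (1 - 97.9 * ε)) := by
        intro n
        by_cases hn : Ga n = 0
        · rw [hn]
          exact (Real.exp_pos _).le
        · obtain ⟨hg, he⟩ := hGane n hn
          rw [he]
          refine (hpin.Gle n).trans (Real.exp_le_exp.2 ?_)
          exact hg.1.trans hn4
      -- the circle method
      obtain ⟨δ, hδ⟩ : ∃ x : ℝ, x = Real.exp (-(P ^ (1 - 96 * ε))) := ⟨_, rfl⟩
      have hδ0 : 0 < δ := by rw [hδ]; exact Real.exp_pos _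
      have hP06 : 0 ≤ P ^ (1 - 96 * ε) := Real.rpow_nonneg (by linarith) _
      have hδ1 : δ ≤ 1 := by
        rw [hδ]
        exact Real.exp_le_one_iff.2 (by linarith)
      have hP9996 : 0 ≤ P ^ (1 - 1.9 * ε) := Real.rpow_nonneg (by linarith) _
      obtain ⟨X, hX⟩ : ∃ x : ℝ, x = Real.exp (P ^ (1 - 1.9 * ε)) := ⟨_, rfl⟩
      have hX1 : 1 ≤ X := by rw [hX]; exact Real.one_le_exp hP9996
      have hcoef' := hcoef d hd1
      rw [hk] at hcoef'
      obtain ⟨hB1, hBc⟩ := coeff_B k S d (Hh d) X hS hX1 hcoef'.1 hcoef'.2 (by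
        rw [hX]
        have := Real.exp_pos (P ^ (1 - 1.9 * ε))
        linarith)
      have hK2r : (1 : ℝ) ≤ K2 := by exact_mod_cast hK2
      have hSr : (1 : ℝ) ≤ S := by exact_mod_cast hS
      have hQle : (Q5 ε P : ℝ) ≤ Real.exp (P ^ (1 - 95 * ε)) := Nat.floor_le (Real.exp_pos _).le
      have hQge : ((K2 : ℝ) / δ) ^ E2 ≤ (Q5 ε P : ℝ) := by
        have h3 : ((K2 : ℝ) / δ) ^ E2 = Real.exp (E2 * (Real.log K2 + P ^ (1 - 96 * ε))) := by
          rw [hδ, Real.exp_neg, div_inv_eq_mul, mul_pow, ← Real.exp_nat_mul, mul_add, Real.exp_add]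
          congr 1
          rw [← Real.log_pow, Real.exp_log (by positivity)]
        have h4 : 2 * Real.exp (E2 * (Real.log K2 + P ^ (1 - 96 * ε))) ≤
            Real.exp (P ^ (1 - 95 * ε)) := by
          calc 2 * Real.exp (E2 * (Real.log K2 + P ^ (1 - 96 * ε)))
              = Real.exp (Real.log 2 + E2 * (Real.log K2 + P ^ (1 - 96 * ε))) := by
                rw [Real.exp_add, Real.exp_log (by norm_num)]
            _ ≤ _ := Real.exp_le_exp.2 hn1
        have h5 : Real.exp (P ^ (1 - 95 * ε)) < Q5 ε P + 1 := Nat.lt_floor_add_one _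
        have h6 : (1 : ℝ) ≤ Real.exp (E2 * (Real.log K2 + P ^ (1 - 96 * ε))) := by
          apply Real.one_le_exp
          have := Real.log_nonneg hK2r
          positivity
        rw [h3]
        linarith
      have hKBQ : ((K2 : ℝ) * (S * (S * (2 * X) ^ k)) * Q5 ε P / δ) ^ E2 ≤ (N' : ℝ) := by
        have hQ0 : (0 : ℝ) ≤ Q5 ε P := Nat.cast_nonneg _
        have h3 : ((K2 : ℝ) * (S * (S * (2 * X) ^ k)) * Q5 ε P / δ) ^ E2 ≤
            (K2 * (S * (S * (2 * X) ^ k)) * Real.exp (P ^ (1 - 95 * ε)) / δ) ^ E2 := by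
          apply pow_le_pow_left₀ (by positivity)
          gcongr
        refine h3.trans ?_
        have h4 : (K2 : ℝ) * (S * (S * (2 * X) ^ k)) * Real.exp (P ^ (1 - 95 * ε)) / δ =
            Real.exp (Real.log K2 + (2 * Real.log S + k * (Real.log 2 + P ^ (1 - 1.9 * ε))) +
              P ^ (1 - 95 * ε) + P ^ (1 - 96 * ε)) := by
          have hXk : (2 * X) ^ k = Real.exp (k * (Real.log 2 + P ^ (1 - 1.9 * ε))) := by
            rw [hX, Real.exp_nat_mul, Real.exp_add, Real.exp_log (by norm_num)]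
          rw [hXk, hδ, Real.exp_neg, div_inv_eq_mul, Real.exp_add, Real.exp_add, Real.exp_add,
            Real.exp_add, Real.exp_log (by linarith), two_mul (Real.log (S : ℝ)), Real.exp_add,
            Real.exp_log (by linarith)]
          ring
        rw [h4, ← Real.exp_nat_mul]
        exact (Real.exp_le_exp.2 hn2).trans hpin.N'lo
      have hANres := hANi (Hh d) N' H (Q5 ε P) δ _ Ga hfdeg hflead hfcont hδ0 hδ1 hB1 hBc
        h8H h16H hQge hKBQ hGa0 hGasupp hGadf
      have hsum : ∑ n ∈ Icc (1 : ℤ) N', Ga n ^ 2 ≤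
          Real.exp (P ^ (1 - 97.9 * ε)) * (N' * Φ) := by
        rw [← hpin.Gsum, mul_sum]
        refine sum_le_sum fun n _ => ?_
        rw [sq]
        refine mul_le_mul (hGm n) ?_ (hGa0 n) (Real.exp_pos _).le
        by_cases hn : Ga n = 0
        · rw [hn]
          exact hpin.G0 n
        · exact (hGane n hn).2.le
      have hfin := hlower.trans (hANres.trans
        (mul_le_mul_of_nonneg_left hsum (by positivity)))
      have hZ : (0 : ℝ) < N' * (H : ℝ) ^ 2 * Φ := by positivity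
      have h3 : 1 / 20 * Real.exp (-(P ^ (1 - 190 * ε))) * Φ * (N' * (H : ℝ) ^ 2 * Φ) ≤
          (δ * Real.exp (P ^ (1 - 97.9 * ε))) * (N' * (H : ℝ) ^ 2 * Φ) := by
        calc 1 / 20 * Real.exp (-(P ^ (1 - 190 * ε))) * Φ * (N' * (H : ℝ) ^ 2 * Φ)
            = 1 / 20 * Real.exp (-(P ^ (1 - 190 * ε))) * N' * (H * Φ) ^ 2 := by ring
          _ ≤ _ := hfin
          _ = _ := by ring
      have h4 := le_of_mul_le_mul_right h3 hZ
      have h5 : δ * Real.exp (P ^ (1 - 97.9 * ε)) =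
          Real.exp (-(P ^ (1 - 96 * ε)) + P ^ (1 - 97.9 * ε)) := by
        rw [hδ, ← Real.exp_add]
      have h6 : Real.exp (-(Real.log 20) + -(P ^ (1 - 190 * ε)) + -(3 * P ^ (1 - 100 * ε))) ≤
          1 / 20 * Real.exp (-(P ^ (1 - 190 * ε))) * Φ := by
        rw [Real.exp_add, Real.exp_add, Real.exp_neg (Real.log 20), Real.exp_log (by norm_num)]
        have h7 := mul_le_mul_of_nonneg_left hpin.Φlo
          (show 0 ≤ (20 : ℝ)⁻¹ * Real.exp (-(P ^ (1 - 190 * ε))) by positivity)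
        refine h7.trans (le_of_eq ?_)
        norm_num
      have h7 := h6.trans h4
      rw [h5, Real.exp_le_exp] at h7
      linarith
    have h2 : (1 : ℝ) ≤ Real.exp (Ps ^ (1 - 100 * ε)) :=
      Real.one_le_exp (Real.rpow_nonneg (by linarith) _)
    calc (rMax h N : ℝ) ≤ Real.exp (-(P ^ (1 - 100 * ε))) * N := h1
      _ = 1 * (N * Real.exp (-P ^ (1 - 100 * ε))) := by ring
      _ ≤ Real.exp (Ps ^ (1 - 100 * ε)) * (N * Real.exp (-P ^ (1 - 100 * ε))) :=
          mul_le_mul_of_nonneg_right h2 (by positivity)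
      _ = _ := by ring

theorem final5_of (hRaw : RAW5Stmt) (hPin : PIN5Stmt) (hRoot : ROOT5Stmt)
    (hLow : LOWER5Stmt) (hAN : ANStmt) : Final5Stmt := by
  intro h hdeg hpos hint c hc
  obtain ⟨ε, hε⟩ : ∃ x : ℝ, x = min ((1 - c) / 100) (1 / 1000) := ⟨_, rfl⟩
  have hε0 : 0 < ε := by
    rw [hε]
    exact lt_min (by linarith) (by norm_num)
  have hε1 : ε ≤ 1 / 1000 := by rw [hε]; exact min_le_right _ _
  have hε2 : ε ≤ (1 - c) / 100 := by rw [hε]; exact min_le_left _ _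
  obtain ⟨C, hC, hall⟩ := fin5_eps hRaw hPin hRoot hLow hAN h hdeg hpos hint ε hε0 hε1
  obtain ⟨C', hC'⟩ : ∃ x : ℝ, x = C + Real.exp ((Real.log (1 : ℕ)) ^ c) * C +
    Real.exp ((Real.log (2 : ℕ)) ^ c) * C := ⟨_, rfl⟩
  have hC'C : C ≤ C' := by
    rw [hC']
    have h1 : 0 ≤ Real.exp ((Real.log (1 : ℕ)) ^ c) * C := by positivity
    have h2 : 0 ≤ Real.exp ((Real.log (2 : ℕ)) ^ c) * C := by positivity
    linarith
  refine ⟨C', by linarith, fun N hN => ?_⟩
  have hN0 : (0 : ℝ) < N := by exact_mod_cast hN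
  have h1 := hall N hN
  by_cases hN3 : 3 ≤ N
  · have hlog : 1 ≤ Real.log N := by
      rw [Real.le_log_iff_exp_le hN0]
      have h2 := Real.exp_one_lt_d9
      have h3 : (3 : ℝ) ≤ N := by exact_mod_cast hN3
      linarith
    have h2 : (Real.log N) ^ c ≤ (Real.log N) ^ (1 - 100 * ε) :=
      Real.rpow_le_rpow_of_exponent_le hlog (by linarith)
    calc (rMax h N : ℝ) ≤ C * N * Real.exp (-(Real.log N) ^ (1 - 100 * ε)) := h1
      _ ≤ C' * N * Real.exp (-(Real.log N) ^ c) := by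
          have h3 : Real.exp (-(Real.log N) ^ (1 - 100 * ε)) ≤ Real.exp (-(Real.log N) ^ c) :=
            Real.exp_le_exp.2 (by linarith)
          have h4 : C * N ≤ C' * N := mul_le_mul_of_nonneg_right hC'C hN0.le
          have h5 : 0 ≤ C' * N := mul_nonneg (by linarith) hN0.le
          exact mul_le_mul h4 h3 (Real.exp_pos _).le h5
  · have h2 : (rMax h N : ℝ) ≤ C * N := by
      refine h1.trans ?_
      have h3 : Real.exp (-(Real.log N) ^ (1 - 100 * ε)) ≤ 1 := by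
        rw [Real.exp_le_one_iff]
        have h4 : 0 ≤ Real.log N := Real.log_nonneg (by exact_mod_cast hN)
        have h5 := Real.rpow_nonneg h4 (1 - 100 * ε)
        linarith
      have h4 : 0 ≤ C * N := by positivity
      nlinarith
    have h3 : Real.exp ((Real.log N) ^ c) * C ≤ C' := by
      have e1 : 0 ≤ Real.exp ((Real.log (1 : ℕ)) ^ c) * C := by positivity
      have e2 : 0 ≤ Real.exp ((Real.log (2 : ℕ)) ^ c) * C := by positivity
      interval_cases N
      · rw [hC']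
        linarith
      · rw [hC']
        linarith
    calc (rMax h N : ℝ) ≤ C * N := h2
      _ = (Real.exp ((Real.log N) ^ c) * C) * N * Real.exp (-(Real.log N) ^ c) := by
          have e1 : Real.exp ((Real.log N) ^ c) * Real.exp (-(Real.log N) ^ c) = 1 := by
            rw [← Real.exp_add]
            simp
          calc C * N = (Real.exp ((Real.log N) ^ c) * Real.exp (-(Real.log N) ^ c)) * (C * N) := by
                rw [e1, one_mul]
            _ = _ := by ring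
      _ ≤ C' * N * Real.exp (-(Real.log N) ^ c) := by
          gcongr

end Vale.Agent.P042.UU
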