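import Vale.Agent.P042.UU.TiltU1
import Vale.Agent.P042.H455.TiltC

set_option autoImplicit false
set_option linter.unusedSectionVars false
set_option linter.unusedVariables false

/-!
Block TILT5, part 2: one term, and the sum over the sets of size at most `u`.
-/

namespace Vale.Agent.P042.UU.TU

open Finset Vale.Agent.P042.H455

variable {ι : Type*} [Fintype ι] [DecidableEq ι] {X : ι → Type*} [∀ i, Fintype (X i)]
  {μ : ∀ i, X i → ℝ}

/-- the term of the set `S` -/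
def QS (μ : ∀ i, X i → ℝ) (z : ∀ i, X i → X i → ℝ) (m m' : ∀ i, X i → ℝ) (S : Finset ι)
    (f g : (∀ i, X i) → ℝ) : ℝ :=
  EX μ (fun x => EX μ (fun y => f x * g y *
    ∏ i ∈ S, (z i (x i) (y i) * (m i (x i) * m' i (y i)))))

lemma NU_nonneg {s : ι → ℝ} (hs : ∀ i, 0 ≤ s i) (f : (∀ i, X i) → ℝ) (S U : Finset ι) :
    0 ≤ NU μ s f S U :=
  sum_nonneg fun W _ => mul_nonneg (mul_nonneg (by positivity)
    (prod_nonneg fun j _ => hs j)) (Real.sqrt_nonneg _)

/-- one term -/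
theorem term_bound (hμ : PM μ) {z : ∀ i, X i → X i → ℝ} {m m' : ∀ i, X i → ℝ}
    {lam s : ι → ℝ} (hs : ∀ i, 0 ≤ s i) (hl : ∀ i, 0 ≤ lam i)
    (zc1 : ∀ i, ∀ y, ∑ t, μ i t * z i t y = 0) (zc2 : ∀ i, ∀ x, ∑ t, μ i t * z i x t = 0)
    (zn : ∀ i, ∀ v : X i → ℝ,
      ∑ s, μ i s * (∑ t, μ i t * (z i t s * v t)) ^ 2 ≤ lam i ^ 2 * ∑ t, μ i t * v t ^ 2)
    (hm : ∀ i x, |m i x| ≤ 2) (hm' : ∀ i x, |m' i x| ≤ 2)
    (hσ : ∀ i, ∑ x, μ i x * (m i x - 1) ^ 2 ≤ s i ^ 2)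
    (hσ' : ∀ i, ∑ x, μ i x * (m' i x - 1) ^ 2 ≤ s i ^ 2)
    (S : Finset ι) (f g : (∀ i, X i) → ℝ) :
    |QS μ z m m' S f g| ≤ (∏ i ∈ S, lam i) * (NU μ s f S ∅ * NU μ s g S ∅) := by
  set G : (∀ i, X i) → ℝ := fun x =>
    EX μ (fun y => g y * ((∏ i ∈ S, z i (x i) (y i)) * (∏ i ∈ S, m' i (y i)))) with hGdef
  have hGdep : DepOn S G := by
    intro x x' h
    have : ∀ y : ∀ i, X i, ∏ i ∈ S, z i (x i) (y i) = ∏ i ∈ S, z i (x' i) (y i) := fun y =>
      prod_congr rfl fun i hi => by rw [h i hi]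
    simp only [hGdef, this]
  have hGcent : ∀ i ∈ S, Cent μ i G := by
    intro i hi x
    have h1 : ∀ t, μ i t * G (Function.update x i t) =
        EX μ (fun y => (g y * ((∏ j ∈ S.erase i, z j (x j) (y j)) * (∏ i ∈ S, m' i (y i)))) *
          (μ i t * z i t (y i))) := by
      intro t
      simp only [hGdef]
      rw [← EX_smul]
      congr 1
      funext y
      rw [← mul_prod_erase S (fun j => z j (Function.update x i t j) (y j)) hi]
      have e1 : ∏ j ∈ S.erase i, z j (Function.update x i t j) (y j)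
          = ∏ j ∈ S.erase i, z j (x j) (y j) :=
        prod_congr rfl fun j hj => by
          rw [Function.update_of_ne (ne_of_mem_erase hj)]
      rw [e1]
      simp
      ring
    simp only [h1]
    rw [← EX_sum]
    have h2 : (fun y : ∀ i, X i => ∑ t, (g y * ((∏ j ∈ S.erase i, z j (x j) (y j)) *
        (∏ i ∈ S, m' i (y i)))) * (μ i t * z i t (y i))) = fun _ => 0 := by
      funext y
      rw [← mul_sum, zc1 i, mul_zero]
    rw [h2]
    simp [EX]
  -- norm of G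
  have hGn : Real.sqrt (EX μ (fun x => G x ^ 2)) ≤ (∏ i ∈ S, lam i) * NU μ s g S ∅ := by
    set N := Real.sqrt (EX μ (fun x => G x ^ 2)) with hN
    have hN0 : 0 ≤ N := Real.sqrt_nonneg _
    have hNN : N * N = EX μ (fun x => G x ^ 2) :=
      Real.mul_self_sqrt (hμ.EX_nonneg fun x => sq_nonneg _)
    have h1 : EX μ (fun x => G x ^ 2) =
        EX μ (fun y => g y * ((∏ i ∈ S, m' i (y i)) * ZS μ z S G y)) := by
      have : (fun x => G x ^ 2) = fun x => EX μ (fun y => G x *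
          (g y * ((∏ i ∈ S, z i (x i) (y i)) * (∏ i ∈ S, m' i (y i))))) := by
        funext x
        rw [EX_smul, sq]
      rw [this, EX_comm]
      congr 1
      funext y
      rw [ZS_eq_of_dep z hGdep, ← EX_smul, ← EX_smul]
      congr 1
      funext x
      ring
    have hZdep : DepOn S (ZS μ z S G) := by
      intro y y' h
      rw [ZS_eq_of_dep z hGdep, ZS_eq_of_dep z hGdep]
      congr 1
      funext x
      rw [prod_congr rfl fun i hi => by rw [h i hi]]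
    have hZcent : ∀ i ∈ S, Cent μ i (ZS μ z S G) := by
      intro i hi y
      have h1 : ∀ t, μ i t * ZS μ z S G (Function.update y i t) =
          EX μ (fun x => ((∏ j ∈ S.erase i, z j (x j) (y j)) * G x) *
            (μ i t * z i (x i) t)) := by
        intro t
        rw [ZS_eq_of_dep z hGdep, ← EX_smul]
        congr 1
        funext x
        rw [← mul_prod_erase S _ hi]
        have e1 : ∏ j ∈ S.erase i, z j (x j) (Function.update y i t j)
            = ∏ j ∈ S.erase i, z j (x j) (y j) :=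
          prod_congr rfl fun j hj => by
            rw [Function.update_of_ne (ne_of_mem_erase hj)]
        rw [e1]
        simp
        ring
      simp only [h1]
      rw [← EX_sum]
      have h2 : (fun x : ∀ i, X i => ∑ t, ((∏ j ∈ S.erase i, z j (x j) (y j)) * G x) *
          (μ i t * z i (x i) t)) = fun _ => 0 := by
        funext x
        rw [← mul_sum, zc2 i, mul_zero]
      rw [h2]
      simp [EX]
    have h2 := mult_bound hμ hs hm' hσ' g S ∅ (ZS μ z S G) (disjoint_empty_right S)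
      (by rw [union_empty]; exact hZdep) (by rw [union_empty]; exact hZcent)
    have h4 := hμ.ZS_norm z lam zn S G
    have h5 : Real.sqrt (EX μ (fun y => ZS μ z S G y ^ 2)) ≤ (∏ i ∈ S, lam i) * N := by
      apply Real.sqrt_le_iff.2
      refine ⟨mul_nonneg (prod_nonneg fun i _ => hl i) hN0, ?_⟩
      rw [mul_pow, sq N, hNN]
      exact h4
    have h6 : N * N ≤ ((∏ i ∈ S, lam i) * NU μ s g S ∅) * N := by
      calc N * N = EX μ (fun y => g y * ((∏ i ∈ S, m' i (y i)) * ZS μ z S G y)) := by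
            rw [hNN, h1]
        _ ≤ |EX μ (fun y => g y * ((∏ i ∈ S, m' i (y i)) * ZS μ z S G y))| := le_abs_self _
        _ ≤ _ := h2
        _ ≤ NU μ s g S ∅ * ((∏ i ∈ S, lam i) * N) :=
            mul_le_mul_of_nonneg_left h5 (NU_nonneg hs _ _ _)
        _ = _ := by ring
    rcases hN0.eq_or_lt with h0 | h0
    · rw [← h0]
      exact mul_nonneg (prod_nonneg fun i _ => hl i) (NU_nonneg hs _ _ _)
    · exact le_of_mul_le_mul_right h6 h0
  have ht : QS μ z m m' S f g = EX μ (fun x => f x * ((∏ i ∈ S, m i (x i)) * G x)) := by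
    unfold QS
    congr 1
    funext x
    simp only [hGdef]
    rw [← EX_smul, ← EX_smul]
    congr 1
    funext y
    rw [prod_mul_distrib, prod_mul_distrib]
    ring
  rw [ht]
  have h2 := mult_bound hμ hs hm hσ f S ∅ G (disjoint_empty_right S)
      (by rw [union_empty]; exact hGdep) (by rw [union_empty]; exact hGcent)
  calc |EX μ (fun x => f x * ((∏ i ∈ S, m i (x i)) * G x))|
      ≤ _ := h2
    _ ≤ NU μ s f S ∅ * ((∏ i ∈ S, lam i) * NU μ s g S ∅) :=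
        mul_le_mul_of_nonneg_left hGn (NU_nonneg hs _ _ _)
    _ = _ := by ring

/-- the sets of size at most `u` -/
def Fu (ι : Type*) [Fintype ι] [DecidableEq ι] (u : ℕ) : Finset (Finset ι) :=
  (univ : Finset (Finset ι)).filter (fun S => S.card ≤ u)

/-- truncated energy -/
def EU (μ : ∀ i, X i → ℝ) (u : ℕ) (lam : ι → ℝ) (f : (∀ i, X i) → ℝ) : ℝ :=
  ∑ W ∈ (Fu ι u).erase ∅, (∏ i ∈ W, (16 * lam i)) * en μ W f

lemma EU_nonneg (hμ : PM μ) (u : ℕ) {lam : ι → ℝ} (hl : ∀ i, 0 ≤ lam i)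
    (f : (∀ i, X i) → ℝ) : 0 ≤ EU μ u lam f :=
  sum_nonneg fun W _ => mul_nonneg (prod_nonneg fun i _ => by have := hl i; positivity)
    (hμ.en_nonneg _ _)

lemma NU_sq (hμ : PM μ) {s : ι → ℝ} {lam : ι → ℝ} (hl : ∀ i, 0 ≤ lam i) (f : (∀ i, X i) → ℝ)
    (S : Finset ι) :
    (∏ i ∈ S, lam i) * NU μ s f S ∅ ^ 2 ≤
      ∑ W ∈ S.powerset, ((∏ i ∈ W, (8 * lam i)) * en μ W f) *
        ∏ i ∈ S \ W, (2 * lam i * s i ^ 2) := by
  have h1 : NU μ s f S ∅ ^ 2 ≤ (S.powerset.card : ℝ) * ∑ W ∈ S.powerset,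
      ((2 ^ W.card * ∏ i ∈ S \ W, s i) * Real.sqrt (en μ (W ∪ ∅) f)) ^ 2 :=
    sq_sum_le_card_mul_sum_sq
  refine (mul_le_mul_of_nonneg_left h1 (prod_nonneg fun i _ => hl i)).trans (le_of_eq ?_)
  rw [← mul_assoc, mul_sum]
  refine sum_congr rfl fun W hW => ?_
  have hWS := mem_powerset.1 hW
  rw [union_empty, mul_pow, Real.sq_sqrt (hμ.en_nonneg _ _), card_powerset]
  have e1 : ∏ i ∈ S, lam i = (∏ i ∈ S \ W, lam i) * ∏ i ∈ W, lam i :=
    (prod_sdiff hWS).symm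
  have e2 : ((2 ^ S.card : ℕ) : ℝ) = (∏ i ∈ S \ W, (2 : ℝ)) * ∏ i ∈ W, (2 : ℝ) := by
    rw [prod_sdiff hWS, prod_const]
    push_cast
    rfl
  have e3 : ((2 : ℝ) ^ W.card * ∏ i ∈ S \ W, s i) ^ 2 =
      (∏ i ∈ W, (4 : ℝ)) * ∏ i ∈ S \ W, s i ^ 2 := by
    rw [mul_pow, ← prod_pow, prod_const, ← pow_mul, mul_comm W.card 2, pow_mul]
    norm_num
  rw [e1, e2, e3]
  have e4 : ∏ i ∈ W, (8 * lam i) = (∏ i ∈ W, lam i) * (∏ i ∈ W, (2 : ℝ)) * ∏ i ∈ W, (4 : ℝ) := by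
    rw [← prod_mul_distrib, ← prod_mul_distrib]
    exact prod_congr rfl fun i _ => by ring
  have e5 : ∏ i ∈ S \ W, (2 * lam i * s i ^ 2) =
      (∏ i ∈ S \ W, lam i) * (∏ i ∈ S \ W, (2 : ℝ)) * ∏ i ∈ S \ W, s i ^ 2 := by
    rw [← prod_mul_distrib, ← prod_mul_distrib]
    exact prod_congr rfl fun i _ => by ring
  rw [e4, e5]
  ring

lemma prod_one_add_le (r : ι → ℝ) (hr : ∀ i, 0 ≤ r i) {δ : ℝ} (hd : ∑ i, r i ≤ δ)
    (hd1 : δ ≤ 1 / 4) : ∏ i, (1 + r i) - 1 ≤ 2 * δ ∧ ∏ i, (1 + r i) ≤ 2 := by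
  have h0 : 0 ≤ ∑ i, r i := sum_nonneg fun i _ => hr i
  have hd0 : 0 ≤ δ := h0.trans hd
  have h1 : ∏ i, (1 + r i) ≤ Real.exp δ := by
    calc ∏ i, (1 + r i) ≤ ∏ i, Real.exp (r i) :=
          prod_le_prod (fun i _ => by have := hr i; linarith) fun i _ => by
            have := Real.add_one_le_exp (r i); linarith
      _ = Real.exp (∑ i, r i) := (Real.exp_sum _ _).symm
      _ ≤ _ := Real.exp_le_exp.2 hd
  have h2 := Real.abs_exp_sub_one_sub_id_le (x := δ) (by rw [abs_of_nonneg hd0]; linarith)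
  have h3 := (abs_le.1 h2).2
  constructor <;> nlinarith

lemma sum_powerset_prod (r : ι → ℝ) :
    ∑ T : Finset ι, ∏ i ∈ T, r i = ∏ i, (1 + r i) := by
  rw [prod_one_add]
  exact (sum_congr (powerset_univ).symm fun _ _ => rfl)

/-- summation over the sets of size at most `u` -/
theorem sum_bound (hμ : PM μ) {s : ι → ℝ} {lam : ι → ℝ} (hl : ∀ i, 0 ≤ lam i)
    {δ : ℝ} (hδ : 8 * ∑ i, lam i * s i ^ 2 ≤ δ) (hδ1 : δ ≤ 1) (u : ℕ)
    (f : (∀ i, X i) → ℝ) :
    ∑ S ∈ (Fu ι u).erase ∅, (∏ i ∈ S, lam i) * NU μ s f S ∅ ^ 2 ≤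
      EU μ u lam f + δ * (EX μ f) ^ 2 := by
  classical
  set r : ι → ℝ := fun i => 2 * lam i * s i ^ 2 with hr
  have hr0 : ∀ i, 0 ≤ r i := fun i => by
    have := hl i
    simp only [hr]
    positivity
  have hrs : ∑ i, r i ≤ δ / 4 := by
    have : ∑ i, r i = 2 * ∑ i, lam i * s i ^ 2 := by
      rw [mul_sum]
      exact sum_congr rfl fun i _ => by simp only [hr]; ring
    rw [this]
    linarith
  obtain ⟨p1, p2⟩ := prod_one_add_le r hr0 hrs (by linarith)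
  set a : Finset ι → ℝ := fun W => (∏ i ∈ W, (8 * lam i)) * en μ W f with ha
  have ha0 : ∀ W, 0 ≤ a W := fun W => mul_nonneg (prod_nonneg fun i _ => by
    have := hl i; positivity) (hμ.en_nonneg _ _)
  have hb0 : ∀ T : Finset ι, 0 ≤ ∏ i ∈ T, r i := fun T => prod_nonneg fun i _ => hr0 i
  -- termwise
  have h1 : ∑ S ∈ (Fu ι u).erase ∅, (∏ i ∈ S, lam i) * NU μ s f S ∅ ^ 2 ≤
      ∑ S ∈ (Fu ι u).erase ∅, ∑ W ∈ S.powerset, a W * ∏ i ∈ S \ W, r i :=
    sum_le_sum fun S _ => NU_sq hμ hl f S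
  -- the indicator form
  set c : Finset ι → Finset ι → ℝ := fun W T =>
    if W = ∅ then (if T = ∅ then 0 else a ∅ * ∏ i ∈ T, r i)
    else (if W.card ≤ u then a W * ∏ i ∈ T, r i else 0) with hc
  have hc0 : ∀ W T, 0 ≤ c W T := by
    intro W T
    simp only [hc]
    split_ifs
    · exact le_rfl
    · exact mul_nonneg (ha0 _) (hb0 _)
    · exact mul_nonneg (ha0 _) (hb0 _)
    · exact le_rfl
  have h2 : ∑ S ∈ (Fu ι u).erase ∅, ∑ W ∈ S.powerset, a W * ∏ i ∈ S \ W, r i ≤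
      ∑ S : Finset ι, ∑ W ∈ S.powerset, c W (S \ W) := by
    have h3 : ∑ S ∈ (Fu ι u).erase ∅, ∑ W ∈ S.powerset, a W * ∏ i ∈ S \ W, r i =
        ∑ S ∈ (Fu ι u).erase ∅, ∑ W ∈ S.powerset, c W (S \ W) := by
      refine sum_congr rfl fun S hS => sum_congr rfl fun W hW => ?_
      have hSne : S ≠ ∅ := ne_of_mem_erase hS
      have hSu : S.card ≤ u := (mem_filter.1 (mem_of_mem_erase hS)).2
      have hWS := mem_powerset.1 hW
      simp only [hc]
      by_cases hWe : W = ∅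
      · subst hWe
        rw [if_pos rfl, sdiff_empty, if_neg hSne]
      · rw [if_neg hWe, if_pos ((card_le_card hWS).trans hSu)]
    rw [h3]
    exact sum_le_sum_of_subset_of_nonneg (subset_univ _) fun S _ _ =>
      sum_nonneg fun W _ => hc0 _ _
  have h4 : ∑ S : Finset ι, ∑ W ∈ S.powerset, c W (S \ W) ≤
      ∑ W : Finset ι, ∑ T : Finset ι, c W T := by
    rw [← sum_reindex]
    exact sum_le_sum fun W _ => sum_le_sum_of_subset_of_nonneg (subset_univ _) fun T _ _ => hc0 _ _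
  have h5 : ∀ W : Finset ι, W ≠ ∅ → ∑ T : Finset ι, c W T ≤
      if W.card ≤ u then (∏ i ∈ W, (16 * lam i)) * en μ W f else 0 := by
    intro W hW
    simp only [hc, if_neg hW]
    split_ifs with hu
    · rw [← mul_sum, sum_powerset_prod]
      have e1 : (2 : ℝ) ≤ 2 ^ W.card := by
        have : 1 ≤ W.card := card_pos.2 (nonempty_iff_ne_empty.2 hW)
        calc (2 : ℝ) = 2 ^ 1 := by norm_num
          _ ≤ _ := pow_le_pow_right₀ (by norm_num) this
      have e2 : ∏ i ∈ W, (16 * lam i) = 2 ^ W.card * ∏ i ∈ W, (8 * lam i) := by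
        rw [← prod_const, ← prod_mul_distrib]
        exact prod_congr rfl fun i _ => by ring
      calc a W * ∏ i, (1 + r i) ≤ a W * 2 := mul_le_mul_of_nonneg_left p2 (ha0 W)
        _ ≤ a W * 2 ^ W.card := mul_le_mul_of_nonneg_left e1 (ha0 W)
        _ = _ := by rw [e2]; simp only [ha]; ring
    · simp
  have h6 : ∑ T : Finset ι, c ∅ T ≤ δ * (EX μ f) ^ 2 := by
    have e1 : ∀ T : Finset ι, c ∅ T = a ∅ * (∏ i ∈ T, r i) - if T = ∅ then a ∅ else 0 := by
      intro T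
      simp only [hc, if_true]
      by_cases hT : T = ∅
      · subst hT; simp
      · rw [if_neg hT, if_neg hT, sub_zero]
    simp only [e1, sum_sub_distrib, ← mul_sum, sum_powerset_prod]
    rw [sum_ite_eq' univ ∅ (fun _ => a ∅), if_pos (mem_univ _)]
    have e2 : a ∅ = (EX μ f) ^ 2 := by
      simp only [ha, prod_empty, one_mul, hμ.en_empty]
    rw [e2]
    have e3 := sq_nonneg (EX μ f)
    have hdd : 0 ≤ δ := by
      have : 0 ≤ ∑ i, r i := sum_nonneg fun i _ => hr0 i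
      linarith
    nlinarith
  refine h1.trans (h2.trans (h4.trans ?_))
  rw [← add_sum_erase univ (fun W : Finset ι => ∑ T : Finset ι, c W T) (mem_univ ∅), add_comm]
  refine add_le_add ?_ h6
  unfold EU
  have h7 : ∑ W ∈ univ.erase (∅ : Finset ι), ∑ T : Finset ι, c W T ≤
      ∑ W ∈ univ.erase (∅ : Finset ι),
        if W.card ≤ u then (∏ i ∈ W, (16 * lam i)) * en μ W f else 0 :=
    sum_le_sum fun W hW => h5 W (ne_of_mem_erase hW)
  refine h7.trans (le_of_eq ?_)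
  rw [← sum_filter]
  refine sum_congr ?_ fun _ _ => rfl
  ext W
  simp only [Fu, mem_filter, mem_erase, mem_univ, and_true, true_and]

/-- real valued truncated tilt inequality -/
theorem real_tilt5 (hμ : PM μ) {z : ∀ i, X i → X i → ℝ} {m m' : ∀ i, X i → ℝ}
    {lam s : ι → ℝ} (hs : ∀ i, 0 ≤ s i) (hl : ∀ i, 0 ≤ lam i)
    (zc1 : ∀ i, ∀ y, ∑ t, μ i t * z i t y = 0) (zc2 : ∀ i, ∀ x, ∑ t, μ i t * z i x t = 0)
    (zn : ∀ i, ∀ v : X i → ℝ,
      ∑ s, μ i s * (∑ t, μ i t * (z i t s * v t)) ^ 2 ≤ lam i ^ 2 * ∑ t, μ i t * v t ^ 2)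
    (hm : ∀ i x, |m i x| ≤ 2) (hm' : ∀ i x, |m' i x| ≤ 2)
    (hσ : ∀ i, ∑ x, μ i x * (m i x - 1) ^ 2 ≤ s i ^ 2)
    (hσ' : ∀ i, ∑ x, μ i x * (m' i x - 1) ^ 2 ≤ s i ^ 2)
    {δ : ℝ} (hδ : 8 * ∑ i, lam i * s i ^ 2 ≤ δ) (hδ1 : δ ≤ 1) (u : ℕ)
    (f g : (∀ i, X i) → ℝ) :
    |∑ S ∈ Fu ι u, QS μ z m m' S f g - EX μ f * EX μ g| ≤
      Real.sqrt (EU μ u lam f + δ * (EX μ f) ^ 2) *
        Real.sqrt (EU μ u lam g + δ * (EX μ g) ^ 2) := by
  have he : (∅ : Finset ι) ∈ Fu ι u := by simp [Fu]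
  have h0 : QS μ z m m' ∅ f g = EX μ f * EX μ g := by
    unfold QS
    simp only [prod_empty, mul_one]
    have : (fun x : ∀ i, X i => EX μ (fun y => f x * g y)) = fun x => EX μ g * f x := by
      funext x
      rw [EX_smul]
      ring
    rw [this, EX_smul]
    ring
  rw [← add_sum_erase _ _ he, h0, add_sub_cancel_left]
  have h1 : |∑ S ∈ (Fu ι u).erase ∅, QS μ z m m' S f g| ≤
      ∑ S ∈ (Fu ι u).erase ∅, (Real.sqrt (∏ i ∈ S, lam i) * NU μ s f S ∅) *
        (Real.sqrt (∏ i ∈ S, lam i) * NU μ s g S ∅) := by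
    refine (abs_sum_le_sum_abs _ _).trans (sum_le_sum fun S _ => ?_)
    refine (term_bound hμ hs hl zc1 zc2 zn hm hm' hσ hσ' S f g).trans (le_of_eq ?_)
    have := Real.mul_self_sqrt (prod_nonneg fun i (_ : i ∈ S) => hl i)
    calc (∏ i ∈ S, lam i) * (NU μ s f S ∅ * NU μ s g S ∅) =
        (Real.sqrt (∏ i ∈ S, lam i) * Real.sqrt (∏ i ∈ S, lam i)) *
          (NU μ s f S ∅ * NU μ s g S ∅) := by rw [this]
      _ = _ := by ring
  refine h1.trans ((Real.sum_mul_le_sqrt_mul_sqrt _ _ _).trans ?_)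
  have h2 : ∀ f : (∀ i, X i) → ℝ, ∑ S ∈ (Fu ι u).erase ∅,
      (Real.sqrt (∏ i ∈ S, lam i) * NU μ s f S ∅) ^ 2 ≤ EU μ u lam f + δ * (EX μ f) ^ 2 := by
    intro f
    refine le_trans (le_of_eq ?_) (sum_bound hμ hl hδ hδ1 u f)
    refine sum_congr rfl fun S _ => ?_
    rw [mul_pow, Real.sq_sqrt (prod_nonneg fun i _ => hl i)]
  exact mul_le_mul (Real.sqrt_le_sqrt (h2 f)) (Real.sqrt_le_sqrt (h2 g)) (Real.sqrt_nonneg _)
    (Real.sqrt_nonneg _)

end Vale.Agent.P042.UU.TU
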