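import Vale.Agent.P042.UU.SpecA
import Vale.Agent.P042.UU.TiltU2
import Vale.Agent.P042.TT.Tilt

set_option autoImplicit false

/-!
Block TILT5.
-/

namespace Vale.Agent.P042.UU

open Finset Vale.Agent.P042.TT

section
variable {ι : Type} [Fintype ι] [DecidableEq ι] {Ω : ι → Type} [∀ i, Fintype (Ω i)]

lemma tilt5_EU_split (π : ∀ i, Ω i → ℝ) (lam : ι → ℝ) (u : ℕ) (f : (∀ i, Ω i) → ℂ) :
    ∑ W ∈ ((univ : Finset (Finset ι)).filter (fun W => W.card ≤ u)).erase ∅,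
      (∏ i ∈ W, (16 * lam i)) * TT.en π f W =
      TU.EU π u lam (fun x => (f x).re) + TU.EU π u lam (fun x => (f x).im) := by
  unfold TU.EU TU.Fu
  rw [← sum_add_distrib]
  refine sum_congr rfl fun W _ => ?_
  rw [TT.en_split]
  ring

/-- the bilinear form of `TILT5Stmt` -/
noncomputable def tilt5_form (π : ∀ i, Ω i → ℝ) (ζ : ∀ i, Ω i → Ω i → ℝ) (m m' : ∀ i, Ω i → ℝ)
    (f f' : (∀ i, Ω i) → ℂ) (S : Finset ι) : ℂ :=
  ∑ x : ∀ i, Ω i, ∑ y : ∀ i, Ω i, (((∏ i, (π i (x i) * π i (y i))) *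
    ∏ i ∈ S, (ζ i (x i) (y i) * (m i (x i) * m' i (y i))) : ℝ) : ℂ) *
    (f x * (starRingEnd ℂ) (f' y))

lemma tilt5_form_re (π : ∀ i, Ω i → ℝ) (ζ : ∀ i, Ω i → Ω i → ℝ) (m m' : ∀ i, Ω i → ℝ)
    (f g : (∀ i, Ω i) → ℂ) (S : Finset ι) :
    (tilt5_form π ζ m m' f g S).re =
      TU.QS π ζ m m' S (fun x => (f x).re) (fun x => (g x).re) +
      TU.QS π ζ m m' S (fun x => (f x).im) (fun x => (g x).im) := by
  unfold tilt5_form TU.QS
  rw [← H455.EX_add]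
  unfold H455.EX
  rw [Complex.re_sum]
  refine sum_congr rfl fun x _ => ?_
  beta_reduce
  rw [Complex.re_sum, ← sum_add_distrib, mul_sum]
  refine sum_congr rfl fun y _ => ?_
  rw [Complex.re_ofReal_mul]
  simp only [H455.pw, prod_mul_distrib, Complex.mul_re, Complex.conj_re, Complex.conj_im]
  ring

lemma tilt5_form_im (π : ∀ i, Ω i → ℝ) (ζ : ∀ i, Ω i → Ω i → ℝ) (m m' : ∀ i, Ω i → ℝ)
    (f g : (∀ i, Ω i) → ℂ) (S : Finset ι) :
    (tilt5_form π ζ m m' f g S).im =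
      TU.QS π ζ m m' S (fun x => (f x).im) (fun x => (g x).re) -
      TU.QS π ζ m m' S (fun x => (f x).re) (fun x => (g x).im) := by
  unfold tilt5_form TU.QS
  rw [← H455.EX_sub]
  unfold H455.EX
  rw [Complex.im_sum]
  refine sum_congr rfl fun x _ => ?_
  beta_reduce
  rw [Complex.im_sum, ← sum_sub_distrib, mul_sum]
  refine sum_congr rfl fun y _ => ?_
  rw [Complex.im_ofReal_mul]
  simp only [H455.pw, prod_mul_distrib, Complex.mul_im, Complex.conj_re, Complex.conj_im]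
  ring

end

/-- numeric assembly -/
lemma tilt5_num {A1 A2 B1 B2 A B r1 r2 r3 r4 : ℝ}
    (hA1 : 0 ≤ A1) (hA2 : 0 ≤ A2) (hB1 : 0 ≤ B1) (hB2 : 0 ≤ B2)
    (hA : A1 + A2 ≤ A) (hB : B1 + B2 ≤ B)
    (h1 : |r1| ≤ √A1 * √B1) (h2 : |r2| ≤ √A2 * √B2)
    (h3 : |r3| ≤ √A2 * √B1) (h4 : |r4| ≤ √A1 * √B2) :
    |r1| + |r2| + |r3| + |r4| ≤ 4 * (√A * √B) := by
  have two : ∀ {a b Z : ℝ}, 0 ≤ a → 0 ≤ b → a + b ≤ Z → √a + √b ≤ √2 * √Z := by
    intro a b Z ha hb hab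
    rw [← Real.sqrt_mul (by norm_num)]
    apply Real.le_sqrt_of_sq_le
    have e1 := Real.sq_sqrt ha
    have e2 := Real.sq_sqrt hb
    nlinarith [sq_nonneg (√a - √b)]
  have a1 := two hA1 hA2 hA
  have b1 := two hB1 hB2 hB
  have s2 : √2 * √2 = (2 : ℝ) := Real.mul_self_sqrt (by norm_num)
  have nB : 0 ≤ √B1 + √B2 := add_nonneg (Real.sqrt_nonneg _) (Real.sqrt_nonneg _)
  have m1 : (√A1 + √A2) * (√B1 + √B2) ≤ 2 * (√A * √B) := by
    calc (√A1 + √A2) * (√B1 + √B2) ≤ (√2 * √A) * (√2 * √B) :=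
          mul_le_mul a1 b1 nB (by positivity)
      _ = (√2 * √2) * (√A * √B) := by ring
      _ = 2 * (√A * √B) := by rw [s2]
  have m0 : 0 ≤ √A * √B := by positivity
  have e : (√A1 + √A2) * (√B1 + √B2) = √A1 * √B1 + √A2 * √B2 + √A2 * √B1 + √A1 * √B2 := by ring
  linarith

theorem tilt5_holds : TILT5Stmt := by
  intro ι _ _ Ω _ π ζ m m' f f' lam σ u δ X X' hπ hz1 hz2 hl hσ0 hb hm hm' hs hs' hδ hδ1 hX hX'
  have hμ : H455.PM π := ⟨hπ.nn, hπ.one⟩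
  have hl0 : ∀ i, 0 ≤ lam i := fun i => (hl i).1
  rw [tilt5_EU_split] at hX hX'
  have hsq : ∀ i, Real.sqrt (σ i) ^ 2 = σ i := fun i => Real.sq_sqrt (hσ0 i)
  have hδ2 : 8 * ∑ i, lam i * Real.sqrt (σ i) ^ 2 ≤ δ := by simpa only [hsq] using hδ
  have hδ0 : 0 ≤ δ := by
    refine le_trans ?_ hδ
    have : 0 ≤ ∑ i, lam i * σ i := sum_nonneg fun i _ => mul_nonneg (hl0 i) (hσ0 i)
    linarith
  have hR := fun a b => TU.real_tilt5 hμ (z := ζ) (m := m) (m' := m') (lam := lam)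
    (s := fun i => Real.sqrt (σ i)) (fun i => Real.sqrt_nonneg _) hl0 hz1 hz2
    (fun i v => H455.op_of_bil (hπ.nn i) (ζ i) (hl0 i) (hb i) v) hm hm'
    (fun i => by rw [hsq]; exact hs i) (fun i => by rw [hsq]; exact hs' i) hδ2 hδ1 u a b
  set u1 : (∀ i, Ω i) → ℝ := fun x => (f x).re with hu1
  set u2 : (∀ i, Ω i) → ℝ := fun x => (f x).im with hu2
  set v1 : (∀ i, Ω i) → ℝ := fun x => (f' x).re with hv1
  set v2 : (∀ i, Ω i) → ℝ := fun x => (f' x).im with hv2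
  have hEn : ∀ w : (∀ i, Ω i) → ℝ, 0 ≤ TU.EU π u lam w + δ * (H455.EX π w) ^ 2 := fun w =>
    add_nonneg (TU.EU_nonneg hμ u hl0 w) (mul_nonneg hδ0 (sq_nonneg _))
  have hEf : ‖Ev π f‖ ^ 2 = H455.EX π u1 ^ 2 + H455.EX π u2 ^ 2 := by
    rw [Complex.sq_norm, Complex.normSq_apply, TT.ev_re, TT.ev_im]; ring
  have hEf' : ‖Ev π f'‖ ^ 2 = H455.EX π v1 ^ 2 + H455.EX π v2 ^ 2 := by
    rw [Complex.sq_norm, Complex.normSq_apply, TT.ev_re, TT.ev_im]; ring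
  have hnum := tilt5_num (hEn u1) (hEn u2) (hEn v1) (hEn v2)
    (A := X + δ * ‖Ev π f‖ ^ 2) (B := X' + δ * ‖Ev π f'‖ ^ 2)
    (by rw [hEf]; linarith) (by rw [hEf']; linarith)
    (hR u1 v1) (hR u2 v2) (hR u2 v1) (hR u1 v2)
  change ‖∑ S ∈ (univ : Finset (Finset ι)).filter (fun S => S.card ≤ u),
    tilt5_form π ζ m m' f f' S - Ev π f * (starRingEnd ℂ) (Ev π f')‖ ≤ _
  set D : ℂ := ∑ S ∈ (univ : Finset (Finset ι)).filter (fun S => S.card ≤ u),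
    tilt5_form π ζ m m' f f' S - Ev π f * (starRingEnd ℂ) (Ev π f') with hD
  have hre : D.re = (∑ S ∈ TU.Fu ι u, TU.QS π ζ m m' S u1 v1 - H455.EX π u1 * H455.EX π v1) +
      (∑ S ∈ TU.Fu ι u, TU.QS π ζ m m' S u2 v2 - H455.EX π u2 * H455.EX π v2) := by
    rw [hD, Complex.sub_re, Complex.re_sum]
    simp only [tilt5_form_re]
    rw [sum_add_distrib, Complex.mul_re, Complex.conj_re,
      Complex.conj_im, TT.ev_re, TT.ev_im, TT.ev_re, TT.ev_im]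
    unfold TU.Fu
    ring
  have him : D.im = (∑ S ∈ TU.Fu ι u, TU.QS π ζ m m' S u2 v1 - H455.EX π u2 * H455.EX π v1) -
      (∑ S ∈ TU.Fu ι u, TU.QS π ζ m m' S u1 v2 - H455.EX π u1 * H455.EX π v2) := by
    rw [hD, Complex.sub_im, Complex.im_sum]
    simp only [tilt5_form_im]
    rw [sum_sub_distrib, Complex.mul_im, Complex.conj_re,
      Complex.conj_im, TT.ev_re, TT.ev_im, TT.ev_re, TT.ev_im]
    unfold TU.Fu
    ring
  have h1 : ‖D‖ ≤ |D.re| + |D.im| := Complex.norm_le_abs_re_add_abs_im D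
  have h2 : |D.re| ≤ |∑ S ∈ TU.Fu ι u, TU.QS π ζ m m' S u1 v1 - H455.EX π u1 * H455.EX π v1| +
      |∑ S ∈ TU.Fu ι u, TU.QS π ζ m m' S u2 v2 - H455.EX π u2 * H455.EX π v2| := by
    rw [hre]; exact abs_add_le _ _
  have h3 : |D.im| ≤ |∑ S ∈ TU.Fu ι u, TU.QS π ζ m m' S u2 v1 - H455.EX π u2 * H455.EX π v1| +
      |∑ S ∈ TU.Fu ι u, TU.QS π ζ m m' S u1 v2 - H455.EX π u1 * H455.EX π v2| := by
    rw [him, sub_eq_add_neg]
    refine (abs_add_le _ _).trans ?_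
    rw [abs_neg]
  linarith

end Vale.Agent.P042.UU
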