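import Vale.Agent.P042.UU.SpecD
import Vale.Agent.P042.UU.Nps
import Vale.Agent.P042.UU.TiltU
import Vale.Agent.P042.TT.Ew

set_option autoImplicit false

/-!
Block FORM5: the bilinear form of the normalised main part at one frequency.
-/

namespace Vale.Agent.P042.UU

open Polynomial Finset Vale.Agent.P042.SS Vale.Agent.P042.TT

lemma form5_conv {F : Type*} [AddCommMonoid F] (V : Finset ℕ) (u : ℕ) (f : Finset ℕ → F) :
    ∑ S ∈ V.powerset.filter (fun S => S.card ≤ u), f S =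
      ∑ S ∈ (univ : Finset (Finset ↥V)).filter (fun S => S.card ≤ u),
        f (S.map (Function.Embedding.subtype _)) := by
  symm
  refine sum_bij' (fun S _ => S.map (Function.Embedding.subtype _))
    (fun S _ => S.subtype (fun p => p ∈ V)) ?_ ?_ ?_ ?_ ?_
  · intro S hS
    rw [mem_filter] at hS ⊢
    refine ⟨mem_powerset.2 ?_, by rw [card_map]; exact hS.2⟩
    intro p hp
    obtain ⟨a, -, rfl⟩ := mem_map.1 hp
    exact a.2
  · intro S hS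
    rw [mem_filter] at hS ⊢
    refine ⟨mem_univ _, ?_⟩
    have hSV := mem_powerset.1 hS.1
    have h1 : (S.subtype (fun p => p ∈ V)).map (Function.Embedding.subtype _) = S := by
      rw [subtype_map_of_mem (fun p hp => hSV hp)]
    have h2 := congrArg card h1
    rw [card_map] at h2
    rw [h2]
    exact hS.2
  · intro S _
    ext p
    simp
  · intro S hS
    exact subtype_map_of_mem (fun p hp => mem_powerset.1 (mem_filter.1 hS).1 hp)
  · intro S _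
    rfl

lemma form5_Ev {V : Finset ℕ} {ν : ℕ → ℤ → ℝ} (hp : ∀ p ∈ V, p.Prime) (hw : Wts V ν)
    (g : ℤ → ℝ) (y : ℤ) (M : ℕ) (θ : ℝ) (hg : ∀ n, g n ≠ 0 → ∀ p ∈ V, ν p n ≠ 0) :
    Ev (piV ν V) (fV ν V g y M 1 0 θ) = Fw g y M θ := by
  have h1 := nps_sum hp hw g y M θ hg (fun _ => 1)
  unfold Ev Fw
  simp only [mul_one, one_mul] at h1
  rw [← h1]
  refine sum_congr rfl fun x _ => ?_
  rw [Complex.real_smul]

lemma form5_Fc (g : ℤ → ℝ) (y : ℤ) (M : ℕ) (θ : ℝ) : Fc g y M 1 0 θ = Fw g y M θ := by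
  unfold Fc Fw
  congr 1
  refine filter_true_of_mem fun n _ => ?_
  rw [Nat.cast_one]
  exact Int.modEq_one

lemma form5_lift {p : ℕ} (π : ℕ → ℝ) (K : ℤ → ℤ → ℝ) {L : ℝ}
    (h : ∀ φ ψ : ℕ → ℝ, |∑ x ∈ range p, ∑ y ∈ range p, (π x / p) * (π y / p) *
        (φ x * K x y * ψ y)| ≤ L *
        (Real.sqrt (∑ x ∈ range p, π x / p * φ x ^ 2) *
          Real.sqrt (∑ y ∈ range p, π y / p * ψ y ^ 2)))
    (φ ψ : Fin p → ℝ) :
    |∑ x : Fin p, ∑ y : Fin p, (π x / p) * (π y / p) * (φ x * K (x : ℕ) (y : ℕ) * ψ y)| ≤ L *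
        (Real.sqrt (∑ x : Fin p, π x / p * φ x ^ 2) *
          Real.sqrt (∑ y : Fin p, π y / p * ψ y ^ 2)) := by
  have h1 := h (fun x => if hx : x < p then φ ⟨x, hx⟩ else 0)
    (fun x => if hx : x < p then ψ ⟨x, hx⟩ else 0)
  simp only [Finset.sum_range] at h1
  simpa using h1

/-- the energies of the product space are those of `ews` -/
lemma form5_energy {V : Finset ℕ} {ν : ℕ → ℤ → ℝ} (hp : ∀ p ∈ V, p.Prime) (hw : Wts V ν)
    (g : ℤ → ℝ) (y : ℤ) (M : ℕ) (θ : ℝ) (hg : ∀ n, g n ≠ 0 → ∀ p ∈ V, ν p n ≠ 0)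
    (t : ℕ → ℝ) (lam : ↥V → ℝ) (hl : ∀ i, 0 ≤ lam i) (hlt : ∀ i : ↥V, 16 * lam i ≤ t i) (u : ℕ) :
    ∑ W ∈ ((univ : Finset (Finset ↥V)).filter (fun W => W.card ≤ u)).erase ∅,
      (∏ i ∈ W, (16 * lam i)) * TT.en (piV ν V) (fV ν V g y M 1 0 θ) W ≤
    ews t u V ν g y M 1 0 θ - ‖Fw g y M θ‖ ^ 2 := by
  obtain ⟨e1, e2, -, -, e5⟩ := ew_holds V ν g y M 1 0 θ hp hw hg
  have hem : (∅ : Finset ↥V) ∈ (univ : Finset (Finset ↥V)).filter (fun W => W.card ≤ u) := by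
    simp
  unfold ews
  rw [form5_conv V u (fun U => (∏ p ∈ U, t p) * ew ν g y M 1 0 θ U),
    ← add_sum_erase _ _ hem]
  rw [map_empty, prod_empty, one_mul, e2, form5_Fc, add_sub_cancel_left]
  refine sum_le_sum fun W _ => ?_
  rw [e5, prod_map]
  refine mul_le_mul_of_nonneg_right ?_ (e1 _ ?_)
  · refine prod_le_prod (fun i _ => ?_) fun i _ => hlt i
    have := hl i
    positivity
  · intro p hp'
    obtain ⟨a, -, rfl⟩ := mem_map.1 hp'
    exact a.2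

lemma form5_wts {W V : Finset ℕ} {ν : ℕ → ℤ → ℝ} (h : Wts W ν) (hV : V ⊆ W) : Wts V ν where
  nn := h.nn
  per := fun p hp => h.per p (hV hp)
  mean := fun p hp => h.mean p (hV hp)

lemma form5_mul {w a B : ℝ} (ha : |a| ≤ 1 / 4) (hw0 : 0 ≤ w) (hw : w ≤ B) :
    |(1 + a)⁻¹| ≤ 2 ∧ w * ((1 + a)⁻¹ - 1) ^ 2 ≤ 4 * B * a ^ 2 := by
  obtain ⟨h1, h2⟩ := abs_le.1 ha
  have h3 : 1 / 2 ≤ 1 + a := by linarith
  have h4 : 0 < 1 + a := by linarith
  have h5 : (1 + a)⁻¹ ≤ 2 := by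
    rw [inv_le_comm₀ h4 (by norm_num)]
    linarith
  refine ⟨by rw [abs_of_pos (inv_pos.2 h4)]; exact h5, ?_⟩
  have h6 : ((1 + a)⁻¹ - 1) = -(a * (1 + a)⁻¹) := by
    field_simp
    ring
  have h7 : ((1 + a)⁻¹ - 1) ^ 2 ≤ 4 * a ^ 2 := by
    rw [h6, neg_sq, mul_pow]
    have h8 : ((1 + a)⁻¹) ^ 2 ≤ 4 := by
      have := pow_le_pow_left₀ (inv_nonneg.2 h4.le) h5 2
      linarith
    nlinarith [sq_nonneg a]
  calc w * ((1 + a)⁻¹ - 1) ^ 2 ≤ B * (4 * a ^ 2) :=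
        mul_le_mul hw h7 (sq_nonneg _) (hw0.trans hw)
    _ = _ := by ring

/-- numerical facts -/
lemma form5_num {ε P : ℝ} (hε : 0 < ε) (hP : 1 ≤ P) (hPe : 192 ≤ P ^ ε) :
    (∀ c : ℝ, 1 ≤ c → P ^ (-(c * ε)) ≤ 1 / 192) ∧
    Real.exp (bn5 ε P) ≤ 2 ∧ (∀ p ∈ W5 ε P, 2 * lam5 ε P p ≤ 1) ∧
    (∀ p : ℕ, 16 * (2 * lam5 ε P p) ≤ t6 ε P p) ∧
    128 * P ^ (-(95 * ε)) ≤ P ^ (-(80 * ε)) := by
  have hP0 : 0 < P := by linarith
  have h1 : ∀ c : ℝ, 1 ≤ c → P ^ (-(c * ε)) ≤ 1 / 192 := by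
    intro c hc
    have h2 : P ^ (-(c * ε)) ≤ P ^ (-ε) :=
      Real.rpow_le_rpow_of_exponent_le hP (by nlinarith)
    refine h2.trans ?_
    rw [Real.rpow_neg hP0.le, one_div]
    exact inv_anti₀ (by norm_num) hPe
  refine ⟨h1, ?_, ?_, ?_, ?_⟩
  · have h2 : bn5 ε P ≤ Real.log 2 := by
      have := h1 97 (by norm_num)
      have h3 := Real.log_two_gt_d9
      unfold bn5
      linarith
    calc Real.exp (bn5 ε P) ≤ Real.exp (Real.log 2) := Real.exp_le_exp.2 h2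
      _ = 2 := Real.exp_log (by norm_num)
  · intro p hp
    have hp1 : P ^ (190 * ε) ≤ (p : ℝ) := by
      have h2 : ⌊P ^ (190 * ε)⌋₊ < p := (mem_Ioc.1 (mem_filter.1 hp).1).1
      exact (Nat.lt_of_floor_lt h2).le
    have h2 : (p : ℝ) ^ (-(1 / 2) : ℝ) ≤ P ^ (-(95 * ε)) := by
      refine (Real.rpow_le_rpow_of_nonpos (Real.rpow_pos_of_pos hP0 _) hp1 (by norm_num)).trans
        (le_of_eq ?_)
      rw [← Real.rpow_mul hP0.le]
      congr 1
      ring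
    have h3 : P ^ (ε / 10) * P ^ (-(95 * ε)) = P ^ (-(94.9 * ε)) := by
      rw [← Real.rpow_add hP0]
      congr 1
      ring
    have h4 : lam5 ε P p ≤ P ^ (-(94.9 * ε)) := by
      rw [← h3]
      exact mul_le_mul_of_nonneg_left h2 (Real.rpow_nonneg hP0.le _)
    have := h1 94.9 (by norm_num)
    linarith
  · intro p
    unfold lam5 t6
    have h2 : 32 * P ^ (ε / 10) ≤ P ^ (30 * ε) := by
      calc 32 * P ^ (ε / 10) ≤ P ^ ε * P ^ (ε / 10) :=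
            mul_le_mul_of_nonneg_right (by linarith) (Real.rpow_nonneg hP0.le _)
        _ = P ^ (ε + ε / 10) := (Real.rpow_add hP0 _ _).symm
        _ ≤ _ := Real.rpow_le_rpow_of_exponent_le hP (by linarith)
    have h3 : 0 ≤ (p : ℝ) ^ (-(1 / 2) : ℝ) := Real.rpow_nonneg (Nat.cast_nonneg _) _
    nlinarith [mul_le_mul_of_nonneg_right h2 h3]
  · have h2 : P ^ (-(80 * ε)) = P ^ (15 * ε) * P ^ (-(95 * ε)) := by
      rw [← Real.rpow_add hP0]
      congr 1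
      ring
    rw [h2]
    refine mul_le_mul_of_nonneg_right ?_ (Real.rpow_nonneg hP0.le _)
    have h3 : P ^ ε ≤ P ^ (15 * ε) := Real.rpow_le_rpow_of_exponent_le hP (by linarith)
    linarith

theorem form5_of (hKB : KB5Stmt) : FORM5Stmt := by
  intro k E K p0 kap ε hk hE hkap hε hε2
  obtain ⟨P1, hP1⟩ := hKB k E K p0 kap ε hk hE hkap hε hε2
  refine ⟨max (max P1 1) ((192 : ℝ) ^ (1 / ε)), ?_⟩
  intro P hP g g' ν hw hνle hνlow hg hg' f hGam hkp q M M' y y' θ hq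
  have hPP1 : P1 ≤ P := (le_max_left _ _).trans ((le_max_left _ _).trans hP)
  have hPone : 1 ≤ P := (le_max_right _ _).trans ((le_max_left _ _).trans hP)
  have hP0 : 0 < P := by linarith
  have hPe : 192 ≤ P ^ ε := by
    have h1 : (192 : ℝ) ^ (1 / ε) ≤ P := (le_max_right _ _).trans hP
    have h2 := Real.rpow_le_rpow (by positivity) h1 hε.le
    rw [← Real.rpow_mul (by norm_num), one_div, inv_mul_cancel₀ hε.ne', Real.rpow_one] at h2
    exact h2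
  obtain ⟨n1, n2, n3, n4, n5⟩ := form5_num hε hPone hPe
  obtain ⟨k1, -, kta, ktb, kz1, kz2, kper, kz, -⟩ := hP1 P hPP1 ν hw hνle hνlow f hGam hkp
  set V : Finset ℕ := Vn ε P q with hV
  have hVW : V ⊆ W5 ε P := filter_subset _ _
  have hprime : ∀ p ∈ V, p.Prime := fun p hp => (mem_filter.1 (hVW hp)).2
  have hwV : Wts V ν := form5_wts hw hVW
  have hgV : ∀ n, g n ≠ 0 → ∀ p ∈ V, ν p n ≠ 0 := fun n hn p hp => hg n hn p (hVW hp)
  have hgV' : ∀ n, g' n ≠ 0 → ∀ p ∈ V, ν p n ≠ 0 := fun n hn p hp => hg' n hn p (hVW hp)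
  have hcc : ∀ p ∈ W5 ε P, |cc ν f p| ≤ 1 / 192 := fun p hp =>
    (k1 p hp).trans (n1 190 (by norm_num))
  have hcc1 : ∀ p ∈ W5 ε P, 1 / 2 ≤ 1 + cc ν f p := fun p hp => by
    have := (abs_le.1 (hcc p hp)).1
    linarith
  have hb : b5 ε P / 4 ≤ 1 / 4 := by
    have := n1 96 (by norm_num)
    unfold b5
    linarith
  have hta : ∀ p ∈ W5 ε P, ∀ n, |ta ν f p n| ≤ 1 / 4 := fun p hp n => (kta.le p hp n).trans hb
  have htb : ∀ p ∈ W5 ε P, ∀ n, |tb ν f p n| ≤ 1 / 4 := fun p hp n => (ktb.le p hp n).trans hb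
  -- the kernel
  set Z : ℕ → ℤ → ℤ → ℝ := fun p n m =>
    ze ν f p n m / ((1 + cc ν f p) * (1 + ta ν f p n) * (1 + tb ν f p m)) with hZ
  have hZper : ∀ p ∈ V, ∀ n m : ℤ, Z p (n + p) m = Z p n m ∧ Z p n (m + p) = Z p n m := by
    intro p hp n m
    have hp' := hVW hp
    simp only [hZ]
    rw [(kper p hp' n m).2.1, (kper p hp' n m).2.2, kta.per p hp', ktb.per p hp']
    exact ⟨rfl, rfl⟩
  -- the product space data
  let ζ : ∀ p : ↥V, Fin (p : ℕ) → Fin (p : ℕ) → ℝ := fun p x x' =>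
    ze ν f p ((x : ℕ) : ℤ) ((x' : ℕ) : ℤ) / (1 + cc ν f p)
  let m : ∀ p : ↥V, Fin (p : ℕ) → ℝ := fun p x => (1 + ta ν f p ((x : ℕ) : ℤ))⁻¹
  let m' : ∀ p : ↥V, Fin (p : ℕ) → ℝ := fun p x => (1 + tb ν f p ((x : ℕ) : ℤ))⁻¹
  let lam : ↥V → ℝ := fun p => 2 * lam5 ε P p
  let σ : ↥V → ℝ := fun p => 8 * ((∑ z ∈ range (p : ℕ), (ta ν f p z) ^ 2) / ((p : ℕ) : ℝ)) +
    8 * ((∑ z ∈ range (p : ℕ), (tb ν f p z) ^ 2) / ((p : ℕ) : ℝ))
  have hlam0 : ∀ i, 0 ≤ lam i := fun i => by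
    have : 0 ≤ lam5 ε P i := mul_nonneg (Real.rpow_nonneg hP0.le _)
      (Real.rpow_nonneg (Nat.cast_nonneg _) _)
    simp only [lam]
    linarith
  have hsq0 : ∀ (a : ℕ → ℤ → ℝ) (p : ℕ), 0 ≤ (∑ z ∈ range p, (a p z) ^ 2) / (p : ℝ) := fun a p =>
    div_nonneg (sum_nonneg fun _ _ => sq_nonneg _) (Nat.cast_nonneg _)
  have hσ0 : ∀ i, 0 ≤ σ i := fun i => by
    have h1 := hsq0 (ta ν f) i
    have h2 := hsq0 (tb ν f) i
    simp only [σ]
    linarith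
  -- the multipliers
  have hmul : ∀ (a : ℕ → ℤ → ℝ), (∀ p ∈ W5 ε P, ∀ n, |a p n| ≤ 1 / 4) → ∀ p : ↥V,
      ∑ x : Fin (p : ℕ), piV ν V p x * ((1 + a p ((x : ℕ) : ℤ))⁻¹ - 1) ^ 2 ≤
        8 * ((∑ z ∈ range (p : ℕ), (a p z) ^ 2) / ((p : ℕ) : ℝ)) := by
    intro a ha p
    have hp' := hVW p.2
    have hp0 : (0 : ℝ) < ((p : ℕ) : ℝ) := by exact_mod_cast (hprime p p.2).pos
    rw [Finset.sum_range, sum_div, mul_sum]
    refine sum_le_sum fun x _ => ?_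
    have h1 : piV ν V p x ≤ 2 / ((p : ℕ) : ℝ) := by
      unfold piV
      refine div_le_div_of_nonneg_right ?_ hp0.le
      exact (hνle p hp' _).trans n2
    have h2 := (form5_mul (ha p hp' ((x : ℕ) : ℤ)) (div_nonneg (hw.nn _ _) hp0.le) h1).2
    refine h2.trans (le_of_eq ?_)
    ring
  have htilt := tilt5_holds ↥V (fun p => Fin (p : ℕ)) (piV ν V) ζ m m'
    (fV ν V g y M 1 0 θ) (fV ν V g' y' M' 1 0 θ) lam σ (u5 ε P) (P ^ (-(80 * ε)))
    (ews (t6 ε P) (u5 ε P) V ν g y M 1 0 θ - ‖Fw g y M θ‖ ^ 2)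
    (ews (t6 ε P) (u5 ε P) V ν g' y' M' 1 0 θ - ‖Fw g' y' M' θ‖ ^ 2)
    (piV_isPr hprime hwV) ?_ ?_ ?_ hσ0 ?_ ?_ ?_ ?_ ?_ ?_ ?_
    (form5_energy hprime hwV g y M θ hgV (t6 ε P) lam hlam0 (fun i => n4 i) (u5 ε P))
    (form5_energy hprime hwV g' y' M' θ hgV' (t6 ε P) lam hlam0 (fun i => n4 i) (u5 ε P))
  · -- conclusion
    rw [form5_Ev hprime hwV g y M θ hgV, form5_Ev hprime hwV g' y' M' θ hgV'] at htilt
    have hE : ∀ A B : ℝ, A - B + P ^ (-(80 * ε)) * B = A - (1 - P ^ (-(80 * ε))) * B := by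
      intro A B; ring
    rw [hE, hE] at htilt
    refine le_trans (le_of_eq ?_) htilt
    congr 2
    have hKG : ∀ n m'' : ℤ, KG ε P ν f q n m'' =
        ∑ S ∈ (univ : Finset (Finset ↥V)).filter (fun S => S.card ≤ u5 ε P),
          ∏ p ∈ S, Z (p : ℕ) n m'' := by
      intro n m''
      unfold KG
      rw [form5_conv (Vn ε P q) (u5 ε P)]
      refine sum_congr rfl fun S _ => ?_
      rw [prod_map]
      rfl
    have h1 : ∀ n m'' : ℤ, ((g n * g' m'' * KG ε P ν f q n m'' : ℝ) : ℂ) *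
        e (-(((n : ℝ) - (m'' : ℝ)) * θ)) =
        ∑ S ∈ (univ : Finset (Finset ↥V)).filter (fun S => S.card ≤ u5 ε P),
          ((g n * g' m'' * ∏ p ∈ S, Z (p : ℕ) n m'' : ℝ) : ℂ) *
            e (-(((n : ℝ) - (m'' : ℝ)) * θ)) := by
      intro n m''
      rw [hKG, mul_sum, Complex.ofReal_sum, sum_mul]
    simp only [h1]
    have h2 : ∑ n ∈ Ioc y (y + M), ∑ m'' ∈ Ioc y' (y' + M'),
        ∑ S ∈ (univ : Finset (Finset ↥V)).filter (fun S => S.card ≤ u5 ε P),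
          ((g n * g' m'' * ∏ p ∈ S, Z (p : ℕ) n m'' : ℝ) : ℂ) *
            e (-(((n : ℝ) - (m'' : ℝ)) * θ)) =
        ∑ S ∈ (univ : Finset (Finset ↥V)).filter (fun S => S.card ≤ u5 ε P),
          ∑ n ∈ Ioc y (y + M), ∑ m'' ∈ Ioc y' (y' + M'),
          ((g n * g' m'' * ∏ p ∈ S, Z (p : ℕ) n m'' : ℝ) : ℂ) *
            e (-(((n : ℝ) - (m'' : ℝ)) * θ)) := by
      rw [sum_comm]
      refine (sum_congr rfl fun n _ => sum_comm).trans ?_
      rw [sum_comm]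
      refine sum_congr rfl fun S _ => ?_
      rw [sum_comm]
    rw [h2]
    refine sum_congr rfl fun S _ => ?_
    rw [nps5_holds V S ν g g' y y' M M' θ Z hprime hwV hgV hgV' hZper]
    refine sum_congr rfl fun x _ => sum_congr rfl fun x' _ => ?_
    congr 3
    refine prod_congr rfl fun p _ => ?_
    simp only [hZ, ζ, m, m']
    rw [div_eq_mul_inv, div_eq_mul_inv, mul_inv, mul_inv]
    ring
  · intro p x'
    have h1 := kz1 p (hVW p.2) ((x' : ℕ) : ℤ)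
    rw [Finset.sum_range] at h1
    have h2 : ∑ x : Fin (p : ℕ), piV ν V p x * ζ p x x' =
        (∑ x : Fin (p : ℕ), ν p ((x : ℕ) : ℤ) * ze ν f p ((x : ℕ) : ℤ) ((x' : ℕ) : ℤ)) *
          (((p : ℕ) : ℝ)⁻¹ * (1 + cc ν f p)⁻¹) := by
      rw [sum_mul]
      refine sum_congr rfl fun x _ => ?_
      simp only [piV, ζ, div_eq_mul_inv]
      ring
    rw [h2, h1, zero_mul]
  · intro p x'
    have h1 := kz2 p (hVW p.2) ((x' : ℕ) : ℤ)
    rw [Finset.sum_range] at h1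
    have h2 : ∑ x : Fin (p : ℕ), piV ν V p x * ζ p x' x =
        (∑ x : Fin (p : ℕ), ν p ((x : ℕ) : ℤ) * ze ν f p ((x' : ℕ) : ℤ) ((x : ℕ) : ℤ)) *
          (((p : ℕ) : ℝ)⁻¹ * (1 + cc ν f p)⁻¹) := by
      rw [sum_mul]
      refine sum_congr rfl fun x _ => ?_
      simp only [piV, ζ, div_eq_mul_inv]
      ring
    rw [h2, h1, zero_mul]
  · exact fun p => ⟨hlam0 p, n3 p (hVW p.2)⟩
  · intro p φ ψ
    have h1 := form5_lift (fun x : ℕ => ν p x) (ze ν f p) (kz p (hVW p.2)) φ ψ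
    have h2 : ∑ x : Fin (p : ℕ), ∑ x' : Fin (p : ℕ), piV ν V p x * piV ν V p x' *
        (φ x * ζ p x x' * ψ x') =
        (1 + cc ν f p)⁻¹ * ∑ x : Fin (p : ℕ), ∑ x' : Fin (p : ℕ),
          (ν p ((x : ℕ) : ℤ) / ((p : ℕ) : ℝ)) * (ν p ((x' : ℕ) : ℤ) / ((p : ℕ) : ℝ)) *
            (φ x * ze ν f p ((x : ℕ) : ℤ) ((x' : ℕ) : ℤ) * ψ x') := by
      rw [mul_sum]
      refine sum_congr rfl fun x _ => ?_
      rw [mul_sum]
      refine sum_congr rfl fun x' _ => ?_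
      simp only [piV, ζ, div_eq_mul_inv]
      ring
    have hc := hcc1 p (hVW p.2)
    have hc0 : 0 < 1 + cc ν f p := by linarith
    have hc2 : (1 + cc ν f p)⁻¹ ≤ 2 := by
      rw [inv_le_comm₀ hc0 (by norm_num)]
      linarith
    rw [h2, abs_mul, abs_of_pos (inv_pos.2 hc0)]
    refine (mul_le_mul hc2 h1 (abs_nonneg _) (by norm_num)).trans (le_of_eq ?_)
    simp only [piV, lam]
    ring
  · exact fun p x => (form5_mul (hta p (hVW p.2) _) le_rfl le_rfl).1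
  · exact fun p x => (form5_mul (htb p (hVW p.2) _) le_rfl le_rfl).1
  · intro p
    refine (hmul _ hta p).trans ?_
    have := hsq0 (tb ν f) p
    simp only [σ]
    linarith
  · intro p
    refine (hmul _ htb p).trans ?_
    have := hsq0 (ta ν f) p
    simp only [σ]
    linarith
  · have h1 : ∑ i, lam i * σ i ≤ ∑ i, σ i := sum_le_sum fun i _ => by
      have := n3 i (hVW i.2)
      exact mul_le_of_le_one_left (hσ0 i) this
    have h2 : ∀ a : ℕ → ℤ → ℝ, TiltOK ε P ν a →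
        ∑ i : ↥V, (∑ z ∈ range (i : ℕ), (a i z) ^ 2) / ((i : ℕ) : ℝ) ≤ P ^ (-(95 * ε)) := by
      intro a ha
      refine le_trans ?_ ha.sq
      rw [Finset.sum_coe_sort V (fun p : ℕ => (∑ z ∈ range p, (a p z) ^ 2) / (p : ℝ))]
      exact sum_le_sum_of_subset_of_nonneg hVW fun p _ _ => hsq0 a p
    have h3 : ∑ i, σ i ≤ 16 * P ^ (-(95 * ε)) := by
      simp only [σ]
      rw [sum_add_distrib, ← mul_sum, ← mul_sum]
      have h4 := h2 _ kta
      have h5 := h2 _ ktb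
      linarith
    linarith
  · exact (n1 80 (by norm_num)).trans (by norm_num)

end Vale.Agent.P042.UU
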