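import Vale.Agent.P042.UU.Good5C

set_option autoImplicit false

/-!
Theorem S5, block GOOD5: the main part is large.
-/

namespace Vale.Agent.P042.UU

open Polynomial Finset Vale.Agent.P042.SS Vale.Agent.P042.TT Filter

/-- final numerical inequality -/
theorem g5_final {C η θ μ N S M R1 R2 : ℝ} (hC : 0 ≤ C) (hN : 0 ≤ N) (hS : 0 ≤ S)
    (hη : η ≤ θ) (hθ : θ ≤ 1 / 1000) (hμ : C * μ ≤ 1 / 1700)
    (hM : 9 / 20 * (N * S ^ 2) ≤ M) (h1 : R1 ≤ 17 * μ * (N * S)) (h2 : R2 ≤ 17 * μ * (N * S)) :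
    1 / 8 * N * S ^ 2 ≤ M - 4 * N * (20 * η * S ^ 2 + 5 * θ * S ^ 2) - 5 * C * S * (R1 + R2) := by
  have e1 : C * S * (R1 + R2) ≤ C * S * (34 * μ * (N * S)) := by
    apply mul_le_mul_of_nonneg_left _ (by positivity)
    linarith
  have e2 : C * S * (34 * μ * (N * S)) = (C * μ) * (34 * (N * S ^ 2)) := by ring
  have e3 : (C * μ) * (34 * (N * S ^ 2)) ≤ 1 / 1700 * (34 * (N * S ^ 2)) :=
    mul_le_mul_of_nonneg_right hμ (by positivity)
  have e4 : N * (20 * η * S ^ 2 + 5 * θ * S ^ 2) ≤ 1 / 40 * (N * S ^ 2) := by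
    have : 20 * η + 5 * θ ≤ 1 / 40 := by linarith
    have := mul_le_mul_of_nonneg_right this (by positivity : 0 ≤ N * S ^ 2)
    linarith
  have e5 : 0 ≤ N * S ^ 2 := by positivity
  nlinarith

theorem g5_swap (ε P : ℝ) (ν : ℕ → ℤ → ℝ) (f : ℤ[X]) (G1 G2 : ℤ → ℝ) (N' H : ℕ) :
    (∑ q ∈ EV5 ε P (Q5 ε P), ((∏ p ∈ Yn ε P q, (1 + cc ν f p)⁻¹ : ℝ) : ℂ) *
      Cor (fun n => G1 n * YA ε P (ta ν f) q n) (fun m => G2 m * YA ε P (tb ν f) q m) N' H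
        (KQ f q (KG ε P ν f q))) =
    ∑ y ∈ Icc (-(N' : ℤ)) (2 * N'), ∑ q ∈ EV5 ε P (Q5 ε P),
      ((∏ p ∈ Yn ε P q, (1 + cc ν f p)⁻¹ : ℝ) : ℂ) *
      ∑ b ∈ (range q).filter (Nat.Coprime q), Gam f b q * g5B ε P ν f G1 G2 H y q b := by
  rw [Finset.sum_comm]
  refine Finset.sum_congr rfl fun q _ => ?_
  rw [g5_cor, Finset.mul_sum]
  rfl

theorem good5_of (hF : FORM5Stmt) (hO : ONE5Stmt) (hR : REST5Stmt) (hM : MIX5Stmt)
    (hK : KB5Stmt) : GOOD5Stmt := by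
  intro k E K p0 kap ε hk hE hkap hε hε1
  obtain ⟨PF, hF'⟩ := hF k E K p0 kap ε hk hE hkap hε hε1
  obtain ⟨PO, hO'⟩ := hO k ε hk hε hε1
  obtain ⟨C, PR, hC, hR'⟩ := hR k E K p0 kap ε hk hE hkap hε hε1
  obtain ⟨PK, hK'⟩ := hK k E K p0 kap ε hk hE hkap hε hε1
  obtain ⟨P0, hP0⟩ := eventually_atTop.1 ((g5_num ε hε).and ((g5_mass k ε hε hε1).and
    ((g5_abs k ε hε hε1).and ((g5_main k ε hε hε1).and
    ((Good.ev_small 1 (ε / 10) (1 / 1000) (by linarith) (by norm_num)).and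
    (Good.ev_small C (0.3 * ε) (1 / 1700) (by linarith) (by norm_num)))))))
  refine ⟨max P0 (max (max PF PO) (max PR PK)), fun P hP N' H Φ G1 G2 ν hSt1 hSt2 hH1 hH2 f
    hGam hkp hG01 => ?_⟩
  have hPF : PF ≤ P := (((le_max_left _ _).trans (le_max_left _ _)).trans (le_max_right _ _)).trans hP
  have hPO : PO ≤ P := (((le_max_right _ _).trans (le_max_left _ _)).trans (le_max_right _ _)).trans hP
  have hPR : PR ≤ P := (((le_max_left _ _).trans (le_max_right _ _)).trans (le_max_right _ _)).trans hP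
  have hPK : PK ≤ P := (((le_max_right _ _).trans (le_max_right _ _)).trans (le_max_right _ _)).trans hP
  obtain ⟨hnum, hmass, habs, hmain, hs1, hs2⟩ := hP0 P ((le_max_left _ _).trans hP)
  have hP1 := hnum.one
  have hPp : 0 < P := by linarith
  have hΦ : 0 < Φ := (Real.exp_pos _).trans_le hSt1.Φlo
  have hb1 : Sb5 ε P k N' Φ G1 ν := hSt1.toSb5
  have hb2 : Sb5 ε P k N' Φ G2 ν := hSt2.toSb5
  obtain ⟨hc, -, hta, htb, -⟩ := hK' P hPK ν hSt1.wts hSt1.νle hSt1.low f hGam hkp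
  have hform : G5F ε P ν f := fun g g' hg hg' q M M' y y' θ hq =>
    hF' P hPF g g' ν hSt1.wts hSt1.νle hSt1.low hg hg' f hGam hkp q M M' y y' θ hq
  have hHN : H ≤ N' := by omega
  have hHN2 : N' ≤ 32 * H := by omega
  have hH1i : (8 * H : ℤ) ≤ N' := by exact_mod_cast hH1
  have hN1 : (1 : ℝ) ≤ N' := (Real.one_le_exp (by positivity)).trans hSt1.N'lo
  set S : ℝ := H * Φ with hS
  have hS0 : 0 ≤ S := by positivity
  set θ : ℝ := P ^ (-(ε / 10)) with hθ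
  have hθ0 : 0 ≤ θ := (Real.rpow_pos_of_pos hPp _).le
  have hη0 : 0 ≤ P ^ (-ε) := (Real.rpow_pos_of_pos hPp _).le
  -- one window
  have hy : ∀ y : ℤ, mass G1 (y + H) H 1 0 * mass G2 (y - 2 * H - 1) H 1 0 -
      (20 * P ^ (-ε) * S ^ 2 + 5 * θ * S ^ 2) -
      5 * C * S * (|Φ * cnt N' (y + H) H - mass G1 (y + H) H 1 0| +
        |Φ * cnt N' (y - 2 * H - 1) H - mass G2 (y - 2 * H - 1) H 1 0|) ≤
      (∑ q ∈ EV5 ε P (Q5 ε P), ((∏ p ∈ Yn ε P q, (1 + cc ν f p)⁻¹ : ℝ) : ℂ) *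
      ∑ b ∈ (range q).filter (Nat.Coprime q), Gam f b q * g5B ε P ν f G1 G2 H y q b).re := by
    intro y
    have m1 := (hmass N' H Φ G1 ν hb1 hH1 hH2 (y + H)).1
    have m2 := (hmass N' H Φ G2 ν hb2 hH1 hH2 (y - 2 * H - 1)).1
    have o1 := hO' P hPO N' Φ G1 ν hSt1 (Vn ε P 1) H (y + H) g5_Vn_sub hHN hHN2
    have o2 := hO' P hPO N' Φ G2 ν hSt2 (Vn ε P 1) H (y - 2 * H - 1) g5_Vn_sub hHN hHN2
    have r1 := hR' P hPR N' Φ G1 ν hSt1 H (y + H) hHN hHN2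
    have r2 := hR' P hPR N' Φ G2 ν hSt2 H (y - 2 * H - 1) hHN hHN2
    have hyy := g5_y hM hε hnum hkap.nn hb1 hb2 hGam hG01 hta htb hc hform y m1 m2 o1 o2
    refine le_trans ?_ hyy
    change ∑ q ∈ (EV5 ε P (Q5 ε P)).erase 1, (q : ℝ) ^ (P ^ (-(95.5 * ε))) * kapProd kap q *
      g5E ε P ν G1 (y + H) H q ≤ _ at r1
    change ∑ q ∈ (EV5 ε P (Q5 ε P)).erase 1, (q : ℝ) ^ (P ^ (-(95.5 * ε))) * kapProd kap q *
      g5E ε P ν G2 (y - 2 * H - 1) H q ≤ _ at r2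
    generalize ∑ q ∈ (EV5 ε P (Q5 ε P)).erase 1, (q : ℝ) ^ (P ^ (-(95.5 * ε))) * kapProd kap q *
      g5E ε P ν G1 (y + H) H q = R1 at r1 ⊢
    generalize ∑ q ∈ (EV5 ε P (Q5 ε P)).erase 1, (q : ℝ) ^ (P ^ (-(95.5 * ε))) * kapProd kap q *
      g5E ε P ν G2 (y - 2 * H - 1) H q = R2 at r2 ⊢
    have n1 := Good.mass_nonneg G1 hSt1.G0 (y + H) H 1 0
    have n2 := Good.mass_nonneg G2 hSt2.G0 (y - 2 * H - 1) H 1 0
    rw [← hS] at m1 m2 r1 r2 ⊢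
    rw [← hθ] at r1 r2
    generalize mass G1 (y + H) H 1 0 = a1 at n1 m1 r1 ⊢
    generalize mass G2 (y - 2 * H - 1) H 1 0 = a2 at n2 m2 r2 ⊢
    have k1 : a1 * |Φ * cnt N' (y + H) H - a1| ≤ 2 * S * |Φ * cnt N' (y + H) H - a1| :=
      mul_le_mul_of_nonneg_right m1 (abs_nonneg _)
    have k2 : a2 * |Φ * cnt N' (y - 2 * H - 1) H - a2| ≤
        2 * S * |Φ * cnt N' (y - 2 * H - 1) H - a2| :=
      mul_le_mul_of_nonneg_right m2 (abs_nonneg _)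
    have k3 := mul_le_mul_of_nonneg_left k1 hC.le
    have k4 := mul_le_mul_of_nonneg_left k2 hC.le
    linarith
  -- sum over the windows
  rw [g5_swap, Complex.re_sum]
  refine le_trans ?_ (Finset.sum_le_sum fun y _ => hy y)
  have hA := habs N' H Φ G1 ν hb1 hH1 hH2 (H : ℤ) (by linarith) (by linarith)
  have hB := habs N' H Φ G2 ν hb2 hH1 hH2 (-2 * H - 1 : ℤ) (by linarith) (by linarith)
  have hB' : ∑ y ∈ Icc (-(N' : ℤ)) (2 * N'),
      |Φ * cnt N' (y - 2 * H - 1) H - mass G2 (y - 2 * H - 1) H 1 0| ≤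
        17 * P ^ (-(0.3 * ε)) * (N' * (H * Φ)) := by
    refine le_trans (le_of_eq ?_) hB
    refine Finset.sum_congr rfl fun y _ => ?_
    have : y + (-2 * H - 1) = y - 2 * (H : ℤ) - 1 := by ring
    rw [this]
  have hmain' := hmain N' H Φ G1 G2 ν hb1 hb2 hH1 hH2
  rw [← hS] at hA hB' hmain'
  rw [Finset.sum_sub_distrib, Finset.sum_sub_distrib, Finset.sum_const, nsmul_eq_mul,
    ← Finset.mul_sum, Finset.sum_add_distrib]
  have hfin := g5_final (C := C) (η := P ^ (-ε)) (θ := θ) (μ := P ^ (-(0.3 * ε))) hC.le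
    (by linarith : (0 : ℝ) ≤ N') hS0
    (Real.rpow_le_rpow_of_exponent_le hP1 (by linarith)) (by simpa using hs1) hs2 hmain'
    hA hB'
  refine hfin.trans ?_
  apply sub_le_sub_right
  apply sub_le_sub_left
  apply mul_le_mul_of_nonneg_right _ (by positivity)
  rw [Int.card_Icc]
  have : (2 * (N' : ℤ) + 1 - -(N' : ℤ)).toNat = 3 * N' + 1 := by omega
  rw [this]
  push_cast
  linarith

end Vale.Agent.P042.UU
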