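import Vale.Agent.P042.UU.SpecC
import Vale.Agent.P042.UU.SpecD
import Vale.Agent.P042.TT.GoodC

set_option autoImplicit false

/-!
Theorem S5, block GOOD5, part A: the masses of the windows.
-/

namespace Vale.Agent.P042.UU

open Polynomial Finset Vale.Agent.P042.SS Vale.Agent.P042.TT Filter

theorem g5_win {a : ℝ} (ha1 : a ≤ 1 / 2) : ∀ᶠ P : ℝ in atTop, ∀ (N' H : ℕ),
    Real.exp (7 / 8 * P) ≤ N' → N' ≤ 16 * H → 2 * ((N' : ℝ) / P + 1) ≤ P ^ (-a) * H := by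
  filter_upwards [Good.ev_ge (1 / 2) 64 (by norm_num), eventually_ge_atTop (256 : ℝ)] with P h1 hP
  intro N' H hN hH
  have hP0 : (0 : ℝ) < P := by linarith
  have hHr : (N' : ℝ) ≤ 16 * H := by exact_mod_cast hH
  have hexp : P ^ 2 / 4 ≤ Real.exp (7 / 8 * P) := by
    have := Real.quadratic_le_exp_of_nonneg (x := 7 / 8 * P) (by positivity)
    nlinarith [sq_nonneg P]
  have hHlow : P ^ 2 / 64 ≤ H := by linarith
  have e1 : P ^ (-(1 / 2) : ℝ) ≤ P ^ (-a) :=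
    Real.rpow_le_rpow_of_exponent_le (by linarith) (by linarith)
  have hH0 : (0 : ℝ) ≤ H := Nat.cast_nonneg _
  refine le_trans ?_ (mul_le_mul_of_nonneg_right e1 hH0)
  set s : ℝ := P ^ (1 / 2 : ℝ) with hs
  have hs2 : s * s = P := by
    rw [hs, ← Real.rpow_add hP0]
    norm_num
  have hs3 : P ^ (-(1 / 2) : ℝ) = s / P := by
    rw [hs, eq_div_iff hP0.ne']
    nth_rw 2 [← Real.rpow_one P]
    rw [← Real.rpow_add hP0]
    norm_num
  rw [hs3]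
  have h2 : 2 * ((N' : ℝ) / P + 1) = (2 * N' + 2 * P) / P := by
    field_simp
  rw [h2, div_mul_eq_mul_div, div_le_div_iff_of_pos_right hP0]
  nlinarith

/-- upper bounds for the masses of windows -/
theorem g5_mass (k : ℕ) (ε : ℝ) (hε : 0 < ε) (hε1 : ε ≤ 1 / 1000) : ∀ᶠ P : ℝ in atTop,
    ∀ (N' H : ℕ) (Φ : ℝ) (G : ℤ → ℝ) (ν : ℕ → ℤ → ℝ), Sb5 ε P k N' Φ G ν →
    8 * H ≤ N' → N' ≤ 16 * H → ∀ y : ℤ,
      mass G y H 1 0 ≤ 2 * (H * Φ) ∧
      mass G y H 1 0 ≤ Φ * cnt N' y H + 2 * P ^ (-(0.3 * ε)) * (H * Φ) := by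
  filter_upwards [g5_win (a := 0.3 * ε) (by linarith), eventually_ge_atTop (16 : ℝ),
    Good.ev_small 1 (0.3 * ε) 1 (by linarith) one_pos,
    Good.ev_small 2 (89.7 * ε) 1 (by linarith) one_pos] with P h1 h3 h4 h5
  intro N' H Φ G ν hSt hH1 hH2 y
  have hP : (0 : ℝ) < P := by linarith
  have hw := h1 N' H hSt.N'lo hH2
  have hΦ : 0 < Φ := (Real.exp_pos _).trans_le hSt.Φlo
  have e0 : (0 : ℝ) < P ^ (-(0.3 * ε)) := Real.rpow_pos_of_pos hP _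
  have e1 : P ^ (-(0.3 * ε)) ≤ 1 := by simpa using h4
  have hH0 : (0 : ℝ) ≤ H := Nat.cast_nonneg _
  have hHr2 : (N' : ℝ) ≤ 16 * H := by exact_mod_cast hH2
  have hexp : Real.exp (P ^ (-(90 * ε))) ≤ 1 + P ^ (-(0.3 * ε)) := by
    have hx0 : 0 < P ^ (-(90 * ε)) := Real.rpow_pos_of_pos hP _
    have hx1 : P ^ (-(90 * ε)) = P ^ (-(89.7 * ε)) * P ^ (-(0.3 * ε)) := by
      rw [← Real.rpow_add hP]
      congr 1
      ring
    have hx2 : 2 * P ^ (-(90 * ε)) ≤ P ^ (-(0.3 * ε)) := by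
      rw [hx1]
      nlinarith
    have hx3 : P ^ (-(90 * ε)) ≤ 1 := by linarith
    have := Real.abs_exp_sub_one_le (x := P ^ (-(90 * ε))) (by rw [abs_of_pos hx0]; exact hx3)
    rw [abs_of_pos hx0] at this
    have := (abs_le.1 this).2
    linarith
  have hDen : ∀ (M : ℕ) (y : ℤ), M ≤ N' → (N' : ℝ) ≤ P * M →
      mass G y M 1 0 ≤ (1 + P ^ (-(0.3 * ε))) * Φ * M := by
    intro M y hM hNM
    have := hSt.sup 1 M y 0 le_rfl (by simp; positivity) hM hNM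
    refine this.trans ?_
    have h6 : (M * Φ / ((1 : ℕ) : ℝ)) * Real.exp (P ^ (-(90 * ε)) +
        b5 ε P * Real.log ((1 : ℕ) : ℝ)) = Φ * M * Real.exp (P ^ (-(90 * ε))) := by
      simp
      ring
    rw [h6]
    have h7 : 0 ≤ Φ * M := by positivity
    nlinarith
  have hHN : H ≤ N' := by omega
  constructor
  · have := hDen H y hHN (by nlinarith)
    refine this.trans ?_
    have : 0 ≤ H * Φ := by positivity
    nlinarith
  · set M1 : ℕ := ⌈(N' : ℝ) / P⌉₊ with hM1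
    have hM1lo : (N' : ℝ) / P ≤ M1 := Nat.le_ceil _
    have hM1hi : (M1 : ℝ) ≤ (N' : ℝ) / P + 1 := (Nat.ceil_lt_add_one (by positivity)).le
    have hM1N : M1 ≤ N' := by
      apply Nat.ceil_le.2
      apply div_le_self (Nat.cast_nonneg _) (by linarith)
    have hcnt : cnt N' y H ≤ H := Good.cnt_le N' H y
    have hsub := Good.mass_sub G N' H M1 y hSt.G0 hSt.Gsupp
    have := hDen (max (cnt N' y H) M1) (max y 0)
      (max_le (hcnt.trans hHN) hM1N) (by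
        have : (M1 : ℝ) ≤ ((max (cnt N' y H) M1 : ℕ) : ℝ) := by exact_mod_cast le_max_right _ _
        rw [div_le_iff₀ hP] at hM1lo
        nlinarith)
    refine hsub.trans (this.trans ?_)
    have hmax : ((max (cnt N' y H) M1 : ℕ) : ℝ) ≤ cnt N' y H + M1 := by
      rw [Nat.cast_max]
      apply max_le
      · have : (0 : ℝ) ≤ M1 := Nat.cast_nonneg _
        linarith
      · have : (0 : ℝ) ≤ cnt N' y H := Nat.cast_nonneg _
        linarith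
    have hcr : (cnt N' y H : ℝ) ≤ H := by exact_mod_cast hcnt
    have h7 : (1 + P ^ (-(0.3 * ε))) * ((max (cnt N' y H) M1 : ℕ) : ℝ) ≤
        cnt N' y H + 2 * P ^ (-(0.3 * ε)) * H := by
      have h8 : (1 + P ^ (-(0.3 * ε))) * ((max (cnt N' y H) M1 : ℕ) : ℝ) ≤
          (1 + P ^ (-(0.3 * ε))) * (cnt N' y H + M1) :=
        mul_le_mul_of_nonneg_left hmax (by linarith)
      have h9 : (1 + P ^ (-(0.3 * ε))) * (cnt N' y H + M1 : ℝ) =
          cnt N' y H + P ^ (-(0.3 * ε)) * cnt N' y H + (1 + P ^ (-(0.3 * ε))) * M1 := by ring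
      have h10 : (1 + P ^ (-(0.3 * ε))) * (M1 : ℝ) ≤ 2 * M1 :=
        mul_le_mul_of_nonneg_right (by linarith) (Nat.cast_nonneg _)
      have h11 : P ^ (-(0.3 * ε)) * (cnt N' y H : ℝ) ≤ P ^ (-(0.3 * ε)) * H :=
        mul_le_mul_of_nonneg_left hcr e0.le
      linarith
    calc (1 + P ^ (-(0.3 * ε))) * Φ * ((max (cnt N' y H) M1 : ℕ) : ℝ)
        = Φ * ((1 + P ^ (-(0.3 * ε))) * ((max (cnt N' y H) M1 : ℕ) : ℝ)) := by ring
      _ ≤ Φ * (cnt N' y H + 2 * P ^ (-(0.3 * ε)) * H) := mul_le_mul_of_nonneg_left h7 hΦ.le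
      _ = _ := by ring

/-- from a one sided bound and a bound of the sum to an `L^1` bound -/
theorem g5_sum_abs_le {ι : Type*} (s : Finset ι) (u : ι → ℝ) (A B : ℝ) (hsum : ∑ i ∈ s, u i ≤ A)
    (h : ∀ i ∈ s, -B ≤ u i) (hB : 0 ≤ B) : ∑ i ∈ s, |u i| ≤ A + 2 * (s.card * B) := by
  have h1 : ∀ i ∈ s, |u i| ≤ u i + 2 * B := by
    intro i hi
    have := h i hi
    rw [abs_le]; constructor <;> linarith
  calc ∑ i ∈ s, |u i| ≤ ∑ i ∈ s, (u i + 2 * B) := Finset.sum_le_sum h1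
    _ = (∑ i ∈ s, u i) + 2 * (s.card * B) := by
      rw [Finset.sum_add_distrib, Finset.sum_const, nsmul_eq_mul]; ring
    _ ≤ A + 2 * (s.card * B) := by linarith

theorem g5_sum_mass (G : ℤ → ℝ) (N' H : ℕ) (y0 : ℤ)
    (hg : ∀ n, G n ≠ 0 → 1 ≤ n ∧ n ≤ (N' : ℤ))
    (h1 : y0 + H ≤ N' + 1) (h2 : -y0 - 1 ≤ N') :
    ∑ y ∈ Icc (-(N' : ℤ)) (2 * N'), mass G (y + y0) H 1 0 = H * ∑ n ∈ Icc (1 : ℤ) N', G n := by
  rw [← Good.sum_windows G N' H y0 hg h1 h2]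
  exact Finset.sum_congr rfl fun y _ => Good.mass_one _ _ _

/-- the `L^1` distance of the masses from `Φ cnt` -/
theorem g5_abs (k : ℕ) (ε : ℝ) (hε : 0 < ε) (hε1 : ε ≤ 1 / 1000) : ∀ᶠ P : ℝ in atTop,
    ∀ (N' H : ℕ) (Φ : ℝ) (G : ℤ → ℝ) (ν : ℕ → ℤ → ℝ), Sb5 ε P k N' Φ G ν →
    8 * H ≤ N' → N' ≤ 16 * H → ∀ y0 : ℤ, y0 + H ≤ N' + 1 → -y0 - 1 ≤ N' →
      ∑ y ∈ Icc (-(N' : ℤ)) (2 * N'), |Φ * cnt N' (y + y0) H - mass G (y + y0) H 1 0| ≤
        17 * P ^ (-(0.3 * ε)) * (N' * (H * Φ)) := by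
  filter_upwards [g5_mass k ε hε hε1, eventually_ge_atTop (1 : ℝ)] with P h1 hP1
  intro N' H Φ G ν hSt hH1 hH2 y0 hy1 hy2
  have hP : 0 < P := by linarith
  have hΦ : 0 < Φ := (Real.exp_pos _).trans_le hSt.Φlo
  have e0 : (0 : ℝ) < P ^ (-(0.3 * ε)) := Real.rpow_pos_of_pos hP _
  have e4 : P ^ (-(0.4 * ε)) ≤ P ^ (-(0.3 * ε)) :=
    Real.rpow_le_rpow_of_exponent_le hP1 (by linarith)
  have hN1 : (1 : ℝ) ≤ N' := (Real.one_le_exp (by positivity)).trans hSt.N'lo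
  have hH0 : (0 : ℝ) ≤ H := Nat.cast_nonneg _
  have hsum : ∑ y ∈ Icc (-(N' : ℤ)) (2 * N'),
      (Φ * cnt N' (y + y0) H - mass G (y + y0) H 1 0) ≤ P ^ (-(0.3 * ε)) * (N' * (H * Φ)) := by
    rw [Finset.sum_sub_distrib, ← Finset.mul_sum, Good.sum_cnt N' H y0 hy1 hy2,
      g5_sum_mass G N' H y0 hSt.Gsupp hy1 hy2]
    have h5 := mul_le_mul_of_nonneg_left hSt.Gsum hH0
    have h6 : P ^ (-(0.4 * ε)) * (N' * (H * Φ)) ≤ P ^ (-(0.3 * ε)) * (N' * (H * Φ)) :=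
      mul_le_mul_of_nonneg_right e4 (by positivity)
    nlinarith
  refine (g5_sum_abs_le _ _ _ (2 * P ^ (-(0.3 * ε)) * (H * Φ)) hsum (fun y _ => ?_)
    (by positivity)).trans ?_
  · have := (h1 N' H Φ G ν hSt hH1 hH2 (y + y0)).2
    linarith
  · rw [Int.card_Icc]
    have : (2 * (N' : ℤ) + 1 - -(N' : ℤ)).toNat = 3 * N' + 1 := by omega
    rw [this]; push_cast
    have h5 : (3 * (N' : ℝ) + 1) ≤ 4 * N' := by linarith
    have h6 : 0 ≤ 2 * P ^ (-(0.3 * ε)) * (H * Φ) := by positivity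
    nlinarith

/-- the main term -/
theorem g5_main (k : ℕ) (ε : ℝ) (hε : 0 < ε) (hε1 : ε ≤ 1 / 1000) : ∀ᶠ P : ℝ in atTop,
    ∀ (N' H : ℕ) (Φ : ℝ) (G1 G2 : ℤ → ℝ) (ν : ℕ → ℤ → ℝ), Sb5 ε P k N' Φ G1 ν →
    Sb5 ε P k N' Φ G2 ν → 8 * H ≤ N' → N' ≤ 16 * H →
      9 / 20 * (N' * (H * Φ) ^ 2) ≤ ∑ y ∈ Icc (-(N' : ℤ)) (2 * N'),
        mass G1 (y + H) H 1 0 * mass G2 (y - 2 * H - 1) H 1 0 := by
  filter_upwards [g5_mass k ε hε hε1, g5_abs k ε hε hε1, eventually_gt_atTop (0 : ℝ),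
    Good.ev_small 1 (0.3 * ε) (1 / 2000) (by linarith) (by norm_num)] with P h1 h2 hP h3
  intro N' H Φ G1 G2 ν hSt1 hSt2 hH1 hH2
  have hΦ : 0 < Φ := (Real.exp_pos _).trans_le hSt1.Φlo
  have e0 : (0 : ℝ) < P ^ (-(0.3 * ε)) := Real.rpow_pos_of_pos hP _
  have e1 : P ^ (-(0.3 * ε)) ≤ 1 / 2000 := by simpa using h3
  have hH1i : (8 * H : ℤ) ≤ N' := by exact_mod_cast hH1
  have hH1r : (8 * H : ℝ) ≤ N' := by exact_mod_cast hH1
  have hA := h2 N' H Φ G1 ν hSt1 hH1 hH2 (H : ℤ) (by linarith) (by linarith)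
  have hB := h2 N' H Φ G2 ν hSt2 hH1 hH2 (-2 * H - 1 : ℤ) (by linarith) (by linarith)
  have hM1 := h1 N' H Φ G1 ν hSt1 hH1 hH2
  have hM2 := h1 N' H Φ G2 ν hSt2 hH1 hH2
  have hB' : ∑ y ∈ Icc (-(N' : ℤ)) (2 * N'),
      |Φ * cnt N' (y - 2 * H - 1) H - mass G2 (y - 2 * H - 1) H 1 0| ≤
        17 * P ^ (-(0.3 * ε)) * (N' * (H * Φ)) := by
    refine le_trans (le_of_eq ?_) hB
    refine Finset.sum_congr rfl fun y _ => ?_
    have : y + (-2 * H - 1) = y - 2 * (H : ℤ) - 1 := by ring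
    rw [this]
  set a : ℝ := H * Φ with ha
  have ha0 : 0 ≤ a := by positivity
  set I := Icc (-(N' : ℤ)) (2 * N')
  set C := Icc (2 * (H : ℤ) + 1) ((N' : ℤ) - 2 * H)
  have hCI : C ⊆ I := by
    intro y hy
    rw [Finset.mem_Icc] at hy ⊢
    constructor <;> linarith [hy.1, hy.2, Int.natCast_nonneg H, Int.natCast_nonneg N']
  have hnn : ∀ y ∈ I, 0 ≤ mass G1 (y + H) H 1 0 * mass G2 (y - 2 * H - 1) H 1 0 := fun y _ =>
    mul_nonneg (Good.mass_nonneg G1 hSt1.G0 _ _ _ _) (Good.mass_nonneg G2 hSt2.G0 _ _ _ _)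
  have s1 : ∑ y ∈ C, mass G1 (y + H) H 1 0 * mass G2 (y - 2 * H - 1) H 1 0 ≤
      ∑ y ∈ I, mass G1 (y + H) H 1 0 * mass G2 (y - 2 * H - 1) H 1 0 :=
    Finset.sum_le_sum_of_subset_of_nonneg hCI fun y hy _ => hnn y hy
  have s2 : ∑ y ∈ C, (a ^ 2 - (2 * a * |Φ * cnt N' (y + H) H - mass G1 (y + H) H 1 0| +
      a * |Φ * cnt N' (y - 2 * H - 1) H - mass G2 (y - 2 * H - 1) H 1 0|)) ≤
      ∑ y ∈ C, mass G1 (y + H) H 1 0 * mass G2 (y - 2 * H - 1) H 1 0 := by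
    refine Finset.sum_le_sum fun y hy => ?_
    rw [Finset.mem_Icc] at hy
    have c1 : cnt N' (y + H) H = H := Good.cnt_full _ _ _ (by linarith [hy.1, Int.natCast_nonneg H])
      (by linarith [hy.2])
    have c2 : cnt N' (y - 2 * H - 1) H = H := Good.cnt_full _ _ _ (by linarith [hy.1])
      (by linarith [hy.2, Int.natCast_nonneg H])
    rw [c1, c2]
    have m1 := Good.mass_nonneg G1 hSt1.G0 (y + H) H 1 0
    have m2 := Good.mass_nonneg G2 hSt2.G0 (y - 2 * H - 1) H 1 0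
    have m3 := (hM1 (y + H)).1
    have m4 := (hM2 (y - 2 * H - 1)).1
    set m := mass G1 (y + H) H 1 0
    set m' := mass G2 (y - 2 * H - 1) H 1 0
    have hΦH : Φ * (H : ℝ) = a := by rw [ha]; ring
    rw [hΦH]
    have k1 : a - m ≤ |a - m| := le_abs_self _
    have k2 : a - m' ≤ |a - m'| := le_abs_self _
    have k3 : 0 ≤ |a - m| := abs_nonneg _
    have k4 : 0 ≤ |a - m'| := abs_nonneg _
    have k5 : (a - m) * m' ≤ |a - m| * (2 * a) :=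
      (mul_le_mul_of_nonneg_right k1 m2).trans (mul_le_mul_of_nonneg_left m4 k3)
    have k6 : a * (a - m') ≤ a * |a - m'| := mul_le_mul_of_nonneg_left k2 ha0
    nlinarith
  have s3 : ∑ y ∈ C, (2 * a * |Φ * cnt N' (y + H) H - mass G1 (y + H) H 1 0| +
      a * |Φ * cnt N' (y - 2 * H - 1) H - mass G2 (y - 2 * H - 1) H 1 0|) ≤
      ∑ y ∈ I, (2 * a * |Φ * cnt N' (y + H) H - mass G1 (y + H) H 1 0| +
      a * |Φ * cnt N' (y - 2 * H - 1) H - mass G2 (y - 2 * H - 1) H 1 0|) :=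
    Finset.sum_le_sum_of_subset_of_nonneg hCI fun y _ _ => by positivity
  rw [Finset.sum_add_distrib (s := I), ← Finset.mul_sum, ← Finset.mul_sum] at s3
  rw [Finset.sum_sub_distrib, Finset.sum_const, nsmul_eq_mul] at s2
  have hcard : (N' : ℝ) / 2 ≤ (C.card : ℝ) := by
    have : (C.card : ℤ) = N' - 4 * H := by
      rw [Int.card_Icc]
      omega
    have h' : (C.card : ℝ) = N' - 4 * H := by exact_mod_cast this
    rw [h']; linarith
  have hcard2 : (N' : ℝ) / 2 * a ^ 2 ≤ (C.card : ℝ) * a ^ 2 :=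
    mul_le_mul_of_nonneg_right hcard (by positivity)
  have t1 : 2 * a * ∑ y ∈ I, |Φ * cnt N' (y + H) H - mass G1 (y + H) H 1 0| ≤
      2 * a * (17 * (1 / 2000) * (N' * a)) := by
    apply mul_le_mul_of_nonneg_left _ (by positivity)
    refine hA.trans ?_
    apply mul_le_mul_of_nonneg_right _ (by positivity)
    linarith
  have t2 : a * ∑ y ∈ I, |Φ * cnt N' (y - 2 * H - 1) H - mass G2 (y - 2 * H - 1) H 1 0| ≤
      a * (17 * (1 / 2000) * (N' * a)) := by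
    apply mul_le_mul_of_nonneg_left _ (by positivity)
    refine hB'.trans ?_
    apply mul_le_mul_of_nonneg_right _ (by positivity)
    linarith
  have hNa : 0 ≤ (N' : ℝ) * a ^ 2 := by positivity
  nlinarith

end Vale.Agent.P042.UU
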