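import Vale.Agent.P042.UU.SpecC
import Vale.Agent.P042.TT.Ew

set_option autoImplicit false

/-!
Theorem S5, block ONE5: the modulus `q = 1`.
-/

namespace Vale.Agent.P042.UU

open Polynomial Finset Vale.Agent.P042.SS Vale.Agent.P042.TT

lemma one5_sum_sqrt (N : ℕ) :
    ∑ n ∈ Icc 1 N, (n : ℝ) ^ (-(1 / 2) : ℝ) ≤ 2 * Real.sqrt N := by
  induction N with
  | zero => simp
  | succ N ih =>
    rw [sum_Icc_succ_top (by omega)]
    have h1 : ((N + 1 : ℕ) : ℝ) ^ (-(1 / 2) : ℝ) = 1 / Real.sqrt ((N + 1 : ℕ) : ℝ) := by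
      rw [Real.rpow_neg (by positivity), Real.sqrt_eq_rpow, one_div, one_div]
    rw [h1]
    have h2 : (0 : ℝ) ≤ (N : ℝ) := Nat.cast_nonneg _
    have h3 : (0 : ℝ) < Real.sqrt ((N + 1 : ℕ) : ℝ) := Real.sqrt_pos.2 (by positivity)
    have h4 : Real.sqrt ((N + 1 : ℕ) : ℝ) ^ 2 = N + 1 := by
      rw [Real.sq_sqrt (by positivity)]
      push_cast
      ring
    have h5 : Real.sqrt (N : ℝ) ^ 2 = N := Real.sq_sqrt h2
    have h6 : Real.sqrt (N : ℝ) ≤ Real.sqrt ((N + 1 : ℕ) : ℝ) :=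
      Real.sqrt_le_sqrt (by push_cast; linarith)
    have h7 : 1 / Real.sqrt ((N + 1 : ℕ) : ℝ) ≤
        2 * Real.sqrt ((N + 1 : ℕ) : ℝ) - 2 * Real.sqrt (N : ℝ) := by
      rw [div_le_iff₀ h3]
      nlinarith [Real.sqrt_nonneg (N : ℝ), sq_nonneg (Real.sqrt ((N + 1 : ℕ) : ℝ) - Real.sqrt N)]
    linarith

lemma one5_W5 {ε P : ℝ} {p : ℕ} (hp : p ∈ W5 ε P) :
    p.Prime ∧ P ^ (190 * ε) < p ∧ p ≤ ⌊P ^ (2 - 190 * ε)⌋₊ := by
  unfold W5 Wp at hp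
  rw [mem_filter, mem_Ioc] at hp
  exact ⟨hp.2, (Nat.lt_floor_add_one _).trans_le (by exact_mod_cast hp.1.1), hp.1.2⟩

lemma one5_sum_window {ε P : ℝ} (hP : 1 ≤ P) {V : Finset ℕ} (hV : V ⊆ W5 ε P) :
    ∑ p ∈ V, (p : ℝ) ^ (-(1 / 2) : ℝ) ≤ 2 * P ^ (1 - 95 * ε) := by
  have hsub : V ⊆ Icc 1 ⌊P ^ (2 - 190 * ε)⌋₊ := by
    intro p hp
    obtain ⟨h1, _, h3⟩ := one5_W5 (hV hp)
    exact mem_Icc.2 ⟨h1.one_le, h3⟩
  have h0 : (0 : ℝ) ≤ P ^ (2 - 190 * ε) := by positivity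
  calc ∑ p ∈ V, (p : ℝ) ^ (-(1 / 2) : ℝ)
      ≤ ∑ p ∈ Icc 1 ⌊P ^ (2 - 190 * ε)⌋₊, (p : ℝ) ^ (-(1 / 2) : ℝ) :=
        sum_le_sum_of_subset_of_nonneg hsub fun p _ _ => by positivity
    _ ≤ 2 * Real.sqrt (⌊P ^ (2 - 190 * ε)⌋₊ : ℝ) := one5_sum_sqrt _
    _ ≤ 2 * Real.sqrt (P ^ (2 - 190 * ε)) := by
        gcongr
        exact Nat.floor_le h0
    _ = 2 * P ^ (1 - 95 * ε) := by
        rw [Real.sqrt_eq_rpow, ← Real.rpow_mul (by linarith)]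
        congr 2
        ring

lemma one5_inv_sqrt_le {ε P : ℝ} (hP : 1 ≤ P) {p : ℕ} (hp : p ∈ W5 ε P) :
    (p : ℝ) ^ (-(1 / 2) : ℝ) ≤ P ^ (-(95 * ε)) := by
  obtain ⟨h1, h2, _⟩ := one5_W5 hp
  have hP0 : 0 < P := by linarith
  have h3 : (0 : ℝ) < P ^ (190 * ε) := by positivity
  have h4 := Real.rpow_le_rpow_of_nonpos h3 h2.le (by norm_num : (-(1 / 2) : ℝ) ≤ 0)
  refine h4.trans (le_of_eq ?_)
  rw [← Real.rpow_mul hP0.le]
  congr 1
  ring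

lemma one5_t5_nonneg {ε P : ℝ} (hP : 1 ≤ P) (p : ℕ) : 0 ≤ t5 ε P p := by
  unfold t5
  positivity

lemma one5_t5_le {ε P : ℝ} (hε : 0 < ε) (hP : 1 ≤ P) {p : ℕ} (hp : p ∈ W5 ε P) :
    t5 ε P p ≤ 1 := by
  unfold t5
  have hP0 : 0 < P := by linarith
  calc P ^ (38 * ε) * (p : ℝ) ^ (-(1 / 2) : ℝ) ≤ P ^ (38 * ε) * P ^ (-(95 * ε)) := by
        gcongr
        exact one5_inv_sqrt_le hP hp
    _ = P ^ (-(57 * ε)) := by
        rw [← Real.rpow_add hP0]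
        congr 1
        ring
    _ ≤ 1 := Real.rpow_le_one_of_one_le_of_nonpos hP (by linarith)

lemma one5_t6 {ε P : ℝ} (hP : 1 ≤ P) (p : ℕ) : t6 ε P p = P ^ (-(8 * ε)) * t5 ε P p := by
  unfold t6 t5
  have hP0 : 0 < P := by linarith
  rw [← mul_assoc, ← Real.rpow_add hP0]
  congr 2
  ring

lemma one5_wts {W V : Finset ℕ} {ν : ℕ → ℤ → ℝ} (h : Wts W ν) (hV : V ⊆ W) : Wts V ν :=
  ⟨h.nn, fun p hp => h.per p (hV hp), fun p hp => h.mean p (hV hp)⟩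

lemma one5_enT_nonneg {ν : ℕ → ℤ → ℝ} (hν : ∀ p n, 0 ≤ ν p n) (G : ℤ → ℝ) (y : ℤ) (M R : ℕ) (r : ℤ)
    (θ : ℝ) (T : Finset ℕ) : 0 ≤ enT ν G y M R r θ T := by
  unfold enT
  refine sum_nonneg fun x _ => mul_nonneg ?_ (by positivity)
  unfold dn
  exact prod_nonneg fun p _ => mul_nonneg (Nat.cast_nonneg _) (inv_nonneg.2 (hν _ _))

lemma one5_totd_nonneg {t : ℕ → ℝ} {V : Finset ℕ} (ht : ∀ p ∈ V, 0 ≤ t p ∧ t p ≤ 1)
    {ν : ℕ → ℤ → ℝ} (hν : ∀ p n, 0 ≤ ν p n) (d : ℕ) (G : ℤ → ℝ) (y : ℤ) (M R : ℕ) (r : ℤ)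
    (θ : ℝ) : 0 ≤ totd t d V ν G y M R r θ := by
  unfold totd
  refine sum_nonneg fun T hT => mul_nonneg ?_ (one5_enT_nonneg hν _ _ _ _ _ _ _)
  exact wtR_nonneg _ _ _ (mem_powerset.1 (mem_filter.1 hT).1) (fun p hp => (ht p hp).1)
    fun p hp => (ht p hp).2

lemma one5_zR5_nonneg {ε P : ℝ} (hP : 1 ≤ P) (q : ℕ) : 0 ≤ zR5 ε P q := by
  unfold zR5
  refine prod_nonneg fun p _ => ?_
  unfold zr5
  split_ifs <;> positivity

theorem one5_of (hS : SUM5Stmt) (hE : EWS5Stmt) : ONE5Stmt := by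
  intro k ε hk hε hε1
  obtain ⟨C, P1, hC, hsum⟩ := hS k 1 ε hk le_rfl hε hε1
  have hev : ∀ᶠ P : ℝ in Filter.atTop, 6 ≤ P ^ (4 * ε) ∧ 2 * C ≤ P ^ (7 * ε) :=
    ((tendsto_rpow_atTop (by linarith : 0 < 4 * ε)).eventually_ge_atTop 6).and
      ((tendsto_rpow_atTop (by linarith : 0 < 7 * ε)).eventually_ge_atTop (2 * C))
  obtain ⟨P2, hP2⟩ := Filter.eventually_atTop.1 hev
  refine ⟨max (max P1 P2) 1, fun P hP N' Φ G ν hst V M y hV hM hN => ?_⟩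
  have hP1 : P1 ≤ P := ((le_max_left _ _).trans (le_max_left _ _)).trans hP
  obtain ⟨h6, h2C⟩ := hP2 P (((le_max_right _ _).trans (le_max_left _ _)).trans hP)
  have hP1' : 1 ≤ P := (le_max_right _ _).trans hP
  have hP0 : 0 < P := by linarith
  have ht : ∀ p ∈ V, 0 ≤ t5 ε P p ∧ t5 ε P p ≤ 1 := fun p hp =>
    ⟨one5_t5_nonneg hP1' p, one5_t5_le hε hP1' (hV hp)⟩
  have hνnn := hst.wts.nn
  have hprime : ∀ p ∈ V, p.Prime := fun p hp => (one5_W5 (hV hp)).1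
  have hwts : Wts V ν := one5_wts hst.wts hV
  have hGν : ∀ n, G n ≠ 0 → ∀ p ∈ V, ν p n ≠ 0 := fun n hn p hp => hst.Gν n hn p (hV hp)
  -- the bound of `totd` at the frequency `0`
  have h1 := hsum P hP1 N' Φ G ν hst V 1 M y hV hM hN le_rfl (by simp; positivity)
    (fun p _ => Nat.coprime_one_right p)
  rw [Nat.divisors_one, sum_singleton] at h1
  have h2 : totd (t5 ε P) (dT5 ε P) V ν G y M 1 0 0 ≤ C * (M * Φ) ^ 2 := by
    have h3 : totd (t5 ε P) (dT5 ε P) V ν G y M 1 0 0 ≤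
        ∑ q ∈ (QZ5 ε P 1 (Q5 ε P)).filter (fun q => Nat.Coprime q 1),
          zR5 ε P q * ∑ a ∈ (range (1 * q)).filter (Nat.Coprime (1 * q)),
            totd (t5 ε P) (dT5 ε P) V ν G y M 1 0 ((a : ℝ) / ((1 * q : ℕ) : ℝ)) := by
      have h4 : (1 : ℕ) ∈ (QZ5 ε P 1 (Q5 ε P)).filter (fun q => Nat.Coprime q 1) := by
        rw [mem_filter]
        refine ⟨?_, Nat.coprime_one_right 1⟩
        unfold QZ5
        rw [mem_filter, mem_Icc]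
        refine ⟨⟨le_rfl, ?_⟩, ?_⟩
        · unfold Q5
          exact Nat.le_floor (by
            push_cast
            exact Real.one_le_exp (by positivity))
        · intro p hp
          simp at hp
      refine le_trans ?_ (single_le_sum (f := fun q : ℕ => zR5 ε P q *
        ∑ a ∈ (range (1 * q)).filter (Nat.Coprime (1 * q)),
            totd (t5 ε P) (dT5 ε P) V ν G y M 1 0 ((a : ℝ) / ((1 * q : ℕ) : ℝ)))
        (fun q _ => mul_nonneg (one5_zR5_nonneg hP1' q)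
          (sum_nonneg fun a _ => one5_totd_nonneg ht hνnn _ _ _ _ _ _ _)) h4)
      have h5 : (range (1 * 1)).filter (Nat.Coprime (1 * 1)) = {0} := by decide
      have h6 : zR5 ε P 1 = 1 := by simp [zR5]
      simp only [h5, h6, sum_singleton]
      simp
    refine h3.trans (h1.trans (le_of_eq ?_))
    simp
  -- component energies
  have hd : 2 * ∑ p ∈ V, t5 ε P p + (u5 ε P : ℝ) ≤ (dT5 ε P : ℝ) := by
    have h3 : ∑ p ∈ V, t5 ε P p ≤ 2 * P ^ (1 - 57 * ε) := by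
      calc ∑ p ∈ V, t5 ε P p = P ^ (38 * ε) * ∑ p ∈ V, (p : ℝ) ^ (-(1 / 2) : ℝ) := by
            rw [mul_sum]
            rfl
        _ ≤ P ^ (38 * ε) * (2 * P ^ (1 - 95 * ε)) := by
            gcongr
            exact one5_sum_window hP1' hV
        _ = 2 * (P ^ (38 * ε) * P ^ (1 - 95 * ε)) := by ring
        _ = 2 * P ^ (1 - 57 * ε) := by
            rw [← Real.rpow_add hP0]
            congr 2
            ring
    have h4 : (u5 ε P : ℝ) ≤ P ^ (1 - 57 * ε) := by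
      unfold u5
      refine (Nat.floor_le (by positivity)).trans ?_
      exact Real.rpow_le_rpow_of_exponent_le hP1' (by linarith)
    have h5 : 1 ≤ P ^ (1 - 57 * ε) := Real.one_le_rpow hP1' (by linarith)
    have h7 : P ^ (1 - 53 * ε) - 1 < (dT5 ε P : ℝ) := by
      unfold dT5
      linarith [Nat.lt_floor_add_one (P ^ (1 - 53 * ε))]
    have h8 : P ^ (1 - 53 * ε) = P ^ (4 * ε) * P ^ (1 - 57 * ε) := by
      rw [← Real.rpow_add hP0]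
      congr 1
      ring
    nlinarith
  obtain ⟨_, h3⟩ := hE V ν G y M 1 0 0 (t5 ε P) (dT5 ε P) (u5 ε P) hprime hwts hGν ht
  have h4 := h3 hd
  obtain ⟨hnn, hempty, _⟩ := ew_holds V ν G y M 1 0 0 hprime hwts hGν
  have hmass : ew ν G y M 1 0 0 ∅ = (mass G y M 1 0) ^ 2 := by
    rw [hempty]
    have h5 : Fc G y M 1 0 0 = ((mass G y M 1 0 : ℝ) : ℂ) := by
      unfold Fc mass
      push_cast
      refine sum_congr rfl fun n _ => ?_
      rw [mul_zero, neg_zero]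
      simp [e]
    rw [h5, Complex.norm_real, Real.norm_eq_abs, sq_abs]
  set F := V.powerset.filter (fun U => U.card ≤ u5 ε P) with hF
  have hem : ∅ ∈ F := by
    rw [hF, mem_filter]
    exact ⟨empty_mem_powerset _, by simp⟩
  have hsplit : ∀ t : ℕ → ℝ, ews t (u5 ε P) V ν G y M 1 0 0 =
      (mass G y M 1 0) ^ 2 + ∑ U ∈ F.erase ∅, (∏ p ∈ U, t p) * ew ν G y M 1 0 0 U := by
    intro t
    unfold ews
    rw [← add_sum_erase F _ hem, prod_empty, one_mul, hmass]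
  have h5 : ∑ U ∈ F.erase ∅, (∏ p ∈ U, t6 ε P p) * ew ν G y M 1 0 0 U ≤
      P ^ (-(8 * ε)) * ∑ U ∈ F.erase ∅, (∏ p ∈ U, t5 ε P p) * ew ν G y M 1 0 0 U := by
    rw [mul_sum]
    refine sum_le_sum fun U hU => ?_
    rw [mem_erase, hF, mem_filter, mem_powerset] at hU
    obtain ⟨hne, hUV, _⟩ := hU
    have h6 : ∏ p ∈ U, t6 ε P p = (P ^ (-(8 * ε))) ^ U.card * ∏ p ∈ U, t5 ε P p := by
      rw [← prod_const, ← prod_mul_distrib]
      exact prod_congr rfl fun p _ => one5_t6 hP1' p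
    have h7 : (P ^ (-(8 * ε))) ^ U.card ≤ P ^ (-(8 * ε)) := by
      have h8 : P ^ (-(8 * ε)) ≤ 1 := Real.rpow_le_one_of_one_le_of_nonpos hP1' (by linarith)
      have h9 : U.card ≠ 0 := by
        rw [Ne, card_eq_zero]
        exact hne
      exact pow_le_of_le_one (by positivity) h8 h9
    rw [h6, mul_assoc]
    refine mul_le_mul_of_nonneg_right h7 (mul_nonneg (prod_nonneg fun p hp => ?_) (hnn U hUV))
    exact (ht p (hUV hp)).1
  have h6 : ∑ U ∈ F.erase ∅, (∏ p ∈ U, t5 ε P p) * ew ν G y M 1 0 0 U ≤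
      2 * (C * (M * Φ) ^ 2) := by
    have h7 := hsplit (t5 ε P)
    have h8 : 0 ≤ (mass G y M 1 0) ^ 2 := sq_nonneg _
    linarith
  rw [hsplit (t6 ε P)]
  have h7 : P ^ (-(8 * ε)) * (2 * C) ≤ P ^ (-ε) := by
    calc P ^ (-(8 * ε)) * (2 * C) ≤ P ^ (-(8 * ε)) * P ^ (7 * ε) := by gcongr
      _ = P ^ (-ε) := by
          rw [← Real.rpow_add hP0]
          congr 1
          ring
  have h8 : (0 : ℝ) ≤ (M * Φ) ^ 2 := sq_nonneg _
  calc (mass G y M 1 0) ^ 2 + ∑ U ∈ F.erase ∅, (∏ p ∈ U, t6 ε P p) * ew ν G y M 1 0 0 U -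
        (mass G y M 1 0) ^ 2
      = ∑ U ∈ F.erase ∅, (∏ p ∈ U, t6 ε P p) * ew ν G y M 1 0 0 U := by ring
    _ ≤ P ^ (-(8 * ε)) * (2 * (C * (M * Φ) ^ 2)) := h5.trans (by gcongr)
    _ = (P ^ (-(8 * ε)) * (2 * C)) * (M * Φ) ^ 2 := by ring
    _ ≤ P ^ (-ε) * (M * Φ) ^ 2 := by gcongr

end Vale.Agent.P042.UU
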