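import Vale.Agent.P042.UU.Good5A
import Vale.Agent.P042.UU.One5
import Vale.Agent.P042.UU.SpecA

set_option autoImplicit false

/-!
Theorem S5, block GOOD5, part B: the moduli.
-/

namespace Vale.Agent.P042.UU

open Polynomial Finset Vale.Agent.P042.SS Vale.Agent.P042.TT Filter

theorem g5_Fw_Fc (G : ℤ → ℝ) (y : ℤ) (M : ℕ) (θ : ℝ) : Fc G y M 1 0 θ = Fw G y M θ := by
  unfold Fc Fw
  congr 1
  apply Finset.filter_true_of_mem
  intro n _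
  simp [Int.modEq_one]

theorem g5_mem_Yn {ε P : ℝ} {q p : ℕ} (h : p ∈ Yn ε P q) : p ∈ W5 ε P ∧ p ∣ q := by
  unfold Yn at h
  exact Finset.mem_filter.1 h

theorem g5_Vn_sub {ε P : ℝ} {q : ℕ} : Vn ε P q ⊆ W5 ε P := by
  unfold Vn
  exact Finset.filter_subset _ _

theorem g5_Y0_dvd {ε P : ℝ} {q : ℕ} : ∏ p ∈ Yn ε P q, p ∣ q := by
  refine Finset.prod_primes_dvd q (fun p hp => ?_) fun p hp => (g5_mem_Yn hp).2
  exact (one5_W5 (g5_mem_Yn hp).1).1.prime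

/-- the number of primes of the window dividing `q` -/
theorem g5_card_Yn {ε P : ℝ} (hP : 3 ≤ P ^ (190 * ε)) {q : ℕ} (hq : 1 ≤ q) :
    ((Yn ε P q).card : ℝ) ≤ Real.log q := by
  have h1 : ∏ p ∈ Yn ε P q, p ≤ q := Nat.le_of_dvd hq g5_Y0_dvd
  have h2 : ∀ p ∈ Yn ε P q, (1 : ℝ) ≤ Real.log p := by
    intro p hp
    have h3 := (one5_W5 (g5_mem_Yn hp).1).2.1
    have h4 : (3 : ℝ) ≤ p := hP.trans h3.le
    rw [Real.le_log_iff_exp_le (by linarith)]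
    linarith [Real.exp_one_lt_d9]
  have h5 : ∀ p ∈ Yn ε P q, (0 : ℝ) < p := by
    intro p hp
    have := (one5_W5 (g5_mem_Yn hp).1).1.pos
    exact_mod_cast this
  calc ((Yn ε P q).card : ℝ) = ∑ p ∈ Yn ε P q, (1 : ℝ) := by simp
    _ ≤ ∑ p ∈ Yn ε P q, Real.log p := Finset.sum_le_sum h2
    _ = Real.log (∏ p ∈ Yn ε P q, (p : ℝ)) := by
        rw [Real.log_prod fun p hp => (h5 p hp).ne']
    _ ≤ Real.log q := by
        apply Real.log_le_log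
        · exact Finset.prod_pos h5
        · rw [← Nat.cast_prod]
          exact_mod_cast h1

theorem g5_Y0_sq_dvd {ε P : ℝ} {Q q : ℕ} (hq : q ∈ EV5 ε P Q) :
    (∏ p ∈ Yn ε P q, p) ^ 2 ∣ q := by
  unfold EV5 at hq
  rw [Finset.mem_filter, Finset.mem_Icc] at hq
  have hq0 : q ≠ 0 := by omega
  rw [← Finset.prod_pow]
  refine Finset.prod_dvd_of_isRelPrime ?_ ?_
  · intro p hp p' hp' hne
    rw [Finset.mem_coe] at hp hp'
    have h1 := (one5_W5 (g5_mem_Yn hp).1).1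
    have h2 := (one5_W5 (g5_mem_Yn hp').1).1
    show IsRelPrime (p ^ 2) (p' ^ 2)
    rw [← Nat.coprime_iff_isRelPrime]
    exact Nat.Coprime.pow 2 2 ((Nat.coprime_primes h1 h2).2 hne)
  · intro p hp
    have h1 := (one5_W5 (g5_mem_Yn hp).1).1
    have h2 := hq.2 p (g5_mem_Yn hp).1
    have h3 : q.factorization p ≠ 0 := by
      have := (h1.dvd_iff_one_le_factorization hq0).1 (g5_mem_Yn hp).2
      omega
    exact (h1.pow_dvd_iff_le_factorization hq0).2 (by omega)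

/-- the multiplier of the classes mod the primes dividing `q` -/
theorem g5_YA_le {ε P : ℝ} {ν a : ℕ → ℤ → ℝ} (ha : TiltOK ε P ν a) (hP : 3 ≤ P ^ (190 * ε))
    (hb : b5 ε P ≤ 1) (hb0 : 0 ≤ b5 ε P) {q : ℕ} (hq : 1 ≤ q) (n : ℤ) :
    |YA ε P a q n| ≤ (q : ℝ) ^ (b5 ε P / 2) := by
  unfold YA
  rw [Finset.abs_prod]
  have h1 : ∀ p ∈ Yn ε P q, |(1 + a p n)⁻¹| ≤ Real.exp (b5 ε P / 2) := by
    intro p hp
    have h2 := ha.le p (g5_mem_Yn hp).1 n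
    have h3 := (abs_le.1 h2).1
    rw [abs_of_nonneg (inv_nonneg.2 (by linarith))]
    rw [inv_le_iff_one_le_mul₀ (by linarith)]
    have h4 := Real.add_one_le_exp (b5 ε P / 2)
    have h5 : 1 ≤ (b5 ε P / 2 + 1) * (1 - b5 ε P / 4) := by nlinarith
    calc (1 : ℝ) ≤ (b5 ε P / 2 + 1) * (1 - b5 ε P / 4) := h5
      _ ≤ Real.exp (b5 ε P / 2) * (1 + a p n) := by
          apply mul_le_mul h4 (by linarith) (by linarith) (Real.exp_pos _).le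
  have hq0 : (0 : ℝ) < q := by exact_mod_cast hq
  calc ∏ p ∈ Yn ε P q, |(1 + a p n)⁻¹| ≤ ∏ p ∈ Yn ε P q, Real.exp (b5 ε P / 2) :=
        Finset.prod_le_prod (fun p _ => abs_nonneg _) h1
    _ = Real.exp ((Yn ε P q).card * (b5 ε P / 2)) := by
        rw [Finset.prod_const, ← Real.exp_nat_mul]
    _ ≤ Real.exp (Real.log q * (b5 ε P / 2)) := by
        apply Real.exp_le_exp.2
        exact mul_le_mul_of_nonneg_right (g5_card_Yn hP hq) (by linarith)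
    _ = (q : ℝ) ^ (b5 ε P / 2) := by rw [Real.rpow_def_of_pos hq0]

theorem g5_YA_per {ε P : ℝ} {ν a : ℕ → ℤ → ℝ} (ha : TiltOK ε P ν a) (q : ℕ) (n : ℤ) :
    YA ε P a q (n + ((∏ p ∈ Yn ε P q, p : ℕ) : ℤ)) = YA ε P a q n := by
  unfold YA
  refine Finset.prod_congr rfl fun p hp => ?_
  have h1 : ∀ (j : ℕ) (n : ℤ), a p (n + j * p) = a p n := by
    intro j
    induction j with
    | zero => intro n; simp
    | succ j ih =>
      intro n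
      have : n + ((j + 1 : ℕ) : ℤ) * p = (n + j * p) + p := by push_cast; ring
      rw [this, ha.per p (g5_mem_Yn hp).1, ih]
  obtain ⟨j, hj⟩ := Finset.dvd_prod_of_mem (fun p : ℕ => p) hp
  have h2 : n + ((∏ p ∈ Yn ε P q, p : ℕ) : ℤ) = n + (j : ℤ) * p := by
    rw [hj]
    push_cast
    ring
  rw [h2, h1]

/-- the weight of the modulus -/
theorem g5_w_le {ε P : ℝ} {c : ℕ → ℝ} {x : ℝ} (hc : ∀ p ∈ W5 ε P, |c p| ≤ x)
    (hP : 3 ≤ P ^ (190 * ε)) (hx : x ≤ 1 / 2) (hx0 : 0 ≤ x) {q : ℕ} (hq : 1 ≤ q) :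
    |∏ p ∈ Yn ε P q, (1 + c p)⁻¹| ≤ (q : ℝ) ^ (2 * x) := by
  rw [Finset.abs_prod]
  have h1 : ∀ p ∈ Yn ε P q, |(1 + c p)⁻¹| ≤ Real.exp (2 * x) := by
    intro p hp
    have h2 := hc p (g5_mem_Yn hp).1
    have h3 := (abs_le.1 h2).1
    rw [abs_of_nonneg (inv_nonneg.2 (by linarith))]
    rw [inv_le_iff_one_le_mul₀ (by linarith)]
    have h4 := Real.add_one_le_exp (2 * x)
    have h5 : 1 ≤ (2 * x + 1) * (1 - x) := by nlinarith
    calc (1 : ℝ) ≤ (2 * x + 1) * (1 - x) := h5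
      _ ≤ Real.exp (2 * x) * (1 + c p) := by
          apply mul_le_mul h4 (by linarith) (by linarith) (Real.exp_pos _).le
  have hq0 : (0 : ℝ) < q := by exact_mod_cast hq
  calc ∏ p ∈ Yn ε P q, |(1 + c p)⁻¹| ≤ ∏ p ∈ Yn ε P q, Real.exp (2 * x) :=
        Finset.prod_le_prod (fun p _ => abs_nonneg _) h1
    _ = Real.exp ((Yn ε P q).card * (2 * x)) := by
        rw [Finset.prod_const, ← Real.exp_nat_mul]
    _ ≤ Real.exp (Real.log q * (2 * x)) := by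
        apply Real.exp_le_exp.2
        exact mul_le_mul_of_nonneg_right (g5_card_Yn hP hq) (by linarith)
    _ = (q : ℝ) ^ (2 * x) := by rw [Real.rpow_def_of_pos hq0]

/-- from FORM5 to a crude bound -/
theorem g5_form_le {F1 F2 B : ℂ} {E1 E2 δ : ℝ}
    (h : ‖B - F1 * (starRingEnd ℂ) F2‖ ≤ 4 * (Real.sqrt (E1 - (1 - δ) * ‖F1‖ ^ 2) *
      Real.sqrt (E2 - (1 - δ) * ‖F2‖ ^ 2))) (h1 : ‖F1‖ ^ 2 ≤ E1) (h2 : ‖F2‖ ^ 2 ≤ E2)
    (hδ : δ ≤ 1) : ‖B‖ ≤ 5 / 2 * (E1 + E2) := by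
  have hE1 : 0 ≤ E1 := (sq_nonneg _).trans h1
  have hE2 : 0 ≤ E2 := (sq_nonneg _).trans h2
  have a1 : Real.sqrt (E1 - (1 - δ) * ‖F1‖ ^ 2) ≤ Real.sqrt E1 :=
    Real.sqrt_le_sqrt (by nlinarith [sq_nonneg ‖F1‖])
  have a2 : Real.sqrt (E2 - (1 - δ) * ‖F2‖ ^ 2) ≤ Real.sqrt E2 :=
    Real.sqrt_le_sqrt (by nlinarith [sq_nonneg ‖F2‖])
  have a3 : ‖F1‖ ≤ Real.sqrt E1 := Real.le_sqrt_of_sq_le h1
  have a4 : ‖F2‖ ≤ Real.sqrt E2 := Real.le_sqrt_of_sq_le h2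
  have b1 : ‖B‖ ≤ ‖B - F1 * (starRingEnd ℂ) F2‖ + ‖F1 * (starRingEnd ℂ) F2‖ := by
    have := norm_add_le (B - F1 * (starRingEnd ℂ) F2) (F1 * (starRingEnd ℂ) F2)
    rwa [sub_add_cancel] at this
  have b2 : ‖F1 * (starRingEnd ℂ) F2‖ ≤ Real.sqrt E1 * Real.sqrt E2 := by
    rw [norm_mul, RCLike.norm_conj]
    exact mul_le_mul a3 a4 (norm_nonneg _) (Real.sqrt_nonneg _)
  have b3 : Real.sqrt (E1 - (1 - δ) * ‖F1‖ ^ 2) * Real.sqrt (E2 - (1 - δ) * ‖F2‖ ^ 2) ≤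
      Real.sqrt E1 * Real.sqrt E2 := mul_le_mul a1 a2 (Real.sqrt_nonneg _) (Real.sqrt_nonneg _)
  have b4 : Real.sqrt E1 * Real.sqrt E2 ≤ (E1 + E2) / 2 := by
    nlinarith [sq_nonneg (Real.sqrt E1 - Real.sqrt E2), Real.sq_sqrt hE1, Real.sq_sqrt hE2]
  linarith

theorem g5_ews_ge {t : ℕ → ℝ} {u : ℕ} {V : Finset ℕ} {ν : ℕ → ℤ → ℝ} {G : ℤ → ℝ}
    (ht : ∀ p ∈ V, 0 ≤ t p) (hp : ∀ p ∈ V, p.Prime) (hW : Wts V ν)
    (hne : ∀ n, G n ≠ 0 → ∀ p ∈ V, ν p n ≠ 0) (y : ℤ) (M : ℕ) (θ : ℝ) :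
    ‖Fw G y M θ‖ ^ 2 ≤ ews t u V ν G y M 1 0 θ := by
  obtain ⟨w1, w2, _, _, _⟩ := ew_holds V ν G y M 1 0 θ hp hW hne
  rw [g5_Fw_Fc] at w2
  unfold ews
  have h1 : ∅ ∈ V.powerset.filter (fun U => U.card ≤ u) := by
    rw [Finset.mem_filter]
    exact ⟨Finset.empty_mem_powerset _, by simp⟩
  have h2 := Finset.single_le_sum (f := fun U : Finset ℕ => (∏ p ∈ U, t p) * ew ν G y M 1 0 θ U)
    (s := V.powerset.filter (fun U => U.card ≤ u)) (fun U hU => by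
      have hU' := Finset.mem_powerset.1 (Finset.mem_filter.1 hU).1
      exact mul_nonneg (Finset.prod_nonneg fun p hp' => ht p (hU' hp')) (w1 U hU')) h1
  simpa [w2] using h2

theorem g5_ews_mix (hM : MIX5Stmt) {t : ℕ → ℝ} {u : ℕ} {V : Finset ℕ} {ν : ℕ → ℤ → ℝ}
    {G h : ℤ → ℝ} (ht : ∀ p ∈ V, 0 ≤ t p) (hp : ∀ p ∈ V, p.Prime) (hW : Wts V ν)
    (hne : ∀ n, G n ≠ 0 → ∀ p ∈ V, ν p n ≠ 0) (y : ℤ) (M : ℕ) {q Y0 : ℕ} {B : ℝ} (hq : 1 ≤ q)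
    (hY : 1 ≤ Y0) (hY2 : Y0 ^ 2 ∣ q) (hper : ∀ n : ℤ, h (n + Y0) = h n) (hB : ∀ n, |h n| ≤ B) :
    ∑ b ∈ (range q).filter (Nat.Coprime q), ews t u V ν (fun n => G n * h n) y M 1 0 ((b : ℝ) / q) ≤
      B ^ 2 * ∑ b ∈ (range q).filter (Nat.Coprime q), ews t u V ν G y M 1 0 ((b : ℝ) / q) := by
  have hs : ∀ G' : ℤ → ℝ, ∑ b ∈ (range q).filter (Nat.Coprime q),
      ews t u V ν G' y M 1 0 ((b : ℝ) / q) =
      ∑ U ∈ V.powerset.filter (fun U => U.card ≤ u), (∏ p ∈ U, t p) *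
        ∑ b ∈ (range q).filter (Nat.Coprime q), ew ν G' y M 1 0 ((b : ℝ) / q) U := by
    intro G'
    unfold ews
    rw [Finset.sum_comm]
    refine Finset.sum_congr rfl fun U _ => ?_
    rw [Finset.mul_sum]
  rw [hs, hs, Finset.mul_sum]
  refine Finset.sum_le_sum fun U hU => ?_
  have hU' := Finset.mem_powerset.1 (Finset.mem_filter.1 hU).1
  have h1 := hM V U ν G h y M q Y0 B hp hW hU' hne hq hY hY2 hper hB
  have h2 : 0 ≤ ∏ p ∈ U, t p := Finset.prod_nonneg fun p hp' => ht p (hU' hp')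
  calc (∏ p ∈ U, t p) * ∑ b ∈ (range q).filter (Nat.Coprime q),
        ew ν (fun n => G n * h n) y M 1 0 ((b : ℝ) / q) U
      ≤ (∏ p ∈ U, t p) * (B ^ 2 * ∑ b ∈ (range q).filter (Nat.Coprime q),
        ew ν G y M 1 0 ((b : ℝ) / q) U) := mul_le_mul_of_nonneg_left h1 h2
    _ = _ := by ring

/-- the sum over the moduli for one `y`, abstractly -/
theorem g5_sum_q (S : Finset ℕ) (h1 : 1 ∈ S) (w kp : ℕ → ℝ) (Γ B : ℕ → ℕ → ℂ)
    (u : ℕ → ℝ) (T : ℕ → ℕ → ℝ) (L : ℝ) (hwu : ∀ q ∈ S, |w q| ≤ u q)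
    (hkp : ∀ q ∈ S, ∀ a ∈ (range q).filter (Nat.Coprime q), ‖Γ q a‖ ≤ kp q)
    (hB : ∀ q ∈ S, ∀ a ∈ (range q).filter (Nat.Coprime q), ‖B q a‖ ≤ T q a)
    (hL : L ≤ ((w 1 : ℂ) * ∑ a ∈ (range 1).filter (Nat.Coprime 1), Γ 1 a * B 1 a).re) :
    L - ∑ q ∈ S.erase 1, u q * (kp q * ∑ a ∈ (range q).filter (Nat.Coprime q), T q a) ≤
      (∑ q ∈ S, (w q : ℂ) * ∑ a ∈ (range q).filter (Nat.Coprime q), Γ q a * B q a).re := by
  rw [← Finset.add_sum_erase S _ h1, Complex.add_re]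
  have h3 : ‖∑ q ∈ S.erase 1, (w q : ℂ) *
      ∑ a ∈ (range q).filter (Nat.Coprime q), Γ q a * B q a‖ ≤
      ∑ q ∈ S.erase 1, u q * (kp q * ∑ a ∈ (range q).filter (Nat.Coprime q), T q a) := by
    refine (norm_sum_le _ _).trans ?_
    refine Finset.sum_le_sum fun q hq => ?_
    have hq' := Finset.mem_of_mem_erase hq
    rw [norm_mul, Complex.norm_real, Real.norm_eq_abs]
    have h4 : ‖∑ a ∈ (range q).filter (Nat.Coprime q), Γ q a * B q a‖ ≤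
        kp q * ∑ a ∈ (range q).filter (Nat.Coprime q), T q a := by
      rw [Finset.mul_sum]
      refine (norm_sum_le _ _).trans (Finset.sum_le_sum fun a ha => ?_)
      rw [norm_mul]
      exact mul_le_mul (hkp q hq' a ha) (hB q hq' a ha) (norm_nonneg _)
        ((norm_nonneg _).trans (hkp q hq' a ha))
    exact mul_le_mul (hwu q hq') h4 (norm_nonneg _) ((abs_nonneg _).trans (hwu q hq'))
  have h6 := Complex.abs_re_le_norm (∑ q ∈ S.erase 1, (w q : ℂ) *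
      ∑ a ∈ (range q).filter (Nat.Coprime q), Γ q a * B q a)
  have h7 := (abs_le.1 h6).1
  linarith

/-- the correlation with the kernel of the modulus `q` -/
theorem g5_cor (g1 g2 : ℤ → ℝ) (N' H : ℕ) (f : ℤ[X]) (q : ℕ) (K0 : ℤ → ℤ → ℝ) :
    Cor g1 g2 N' H (KQ f q K0) = ∑ y ∈ Icc (-(N' : ℤ)) (2 * N'),
      ∑ b ∈ (range q).filter (Nat.Coprime q), Gam f b q *
        ∑ n ∈ Ioc (y + H) (y + H + H), ∑ m ∈ Ioc (y - 2 * H - 1) (y - 2 * H - 1 + H),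
          ((g1 n * g2 m * K0 n m : ℝ) : ℂ) * e (-(((n : ℝ) - (m : ℝ)) * ((b : ℝ) / q))) := by
  unfold Cor KQ
  refine Finset.sum_congr rfl fun y _ => ?_
  have h1 : ∀ n ∈ Ioc (y + H) (y + H + H), ∀ m ∈ Ioc (y - 2 * H - 1) (y - 2 * H - 1 + H),
      ((g1 n * g2 m : ℝ) : ℂ) * ((∑ b ∈ (range q).filter (Nat.Coprime q), Gam f b q *
        e (-(((n : ℝ) - (m : ℝ)) * ((b : ℝ) / q)))) * ((K0 n m : ℝ) : ℂ)) =
      ∑ b ∈ (range q).filter (Nat.Coprime q), Gam f b q *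
        (((g1 n * g2 m * K0 n m : ℝ) : ℂ) * e (-(((n : ℝ) - (m : ℝ)) * ((b : ℝ) / q)))) := by
    intro n _ m _
    rw [Finset.sum_mul, Finset.mul_sum]
    refine Finset.sum_congr rfl fun b _ => ?_
    push_cast
    ring
  rw [Finset.sum_congr rfl fun n hn => Finset.sum_congr rfl fun m hm => h1 n hn m hm]
  rw [Finset.sum_congr rfl fun n _ => Finset.sum_comm, Finset.sum_comm]
  refine Finset.sum_congr rfl fun b _ => ?_
  rw [Finset.mul_sum]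
  refine Finset.sum_congr rfl fun n _ => ?_
  rw [Finset.mul_sum]

end Vale.Agent.P042.UU
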