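import Vale.Agent.P042.UU.Good5B

set_option autoImplicit false

/-!
Theorem S5, block GOOD5, part C: one window.
-/

namespace Vale.Agent.P042.UU

open Polynomial Finset Vale.Agent.P042.SS Vale.Agent.P042.TT Filter

theorem g5_sqrt_le {X Y Z : ℝ} (hX : X ≤ Z) (hY : Y ≤ Z) (hZ : 0 ≤ Z) :
    Real.sqrt X * Real.sqrt Y ≤ Z := by
  calc Real.sqrt X * Real.sqrt Y ≤ Real.sqrt Z * Real.sqrt Z :=
        mul_le_mul (Real.sqrt_le_sqrt hX) (Real.sqrt_le_sqrt hY) (Real.sqrt_nonneg _)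
          (Real.sqrt_nonneg _)
    _ = Z := Real.mul_self_sqrt hZ

/-- the modulus one -/
theorem g5_q1 {S m1 m2 E1 E2 δ η : ℝ} {F1 F2 B : ℂ} (h1 : F1 = (m1 : ℂ)) (h2 : F2 = (m2 : ℂ))
    (hm1 : 0 ≤ m1) (hm1' : m1 ≤ 2 * S) (hm2 : 0 ≤ m2) (hm2' : m2 ≤ 2 * S)
    (o1 : E1 - m1 ^ 2 ≤ η * S ^ 2) (o2 : E2 - m2 ^ 2 ≤ η * S ^ 2) (hδ : 0 ≤ δ) (hδη : δ ≤ η)
    (h : ‖B - F1 * (starRingEnd ℂ) F2‖ ≤ 4 * (Real.sqrt (E1 - (1 - δ) * ‖F1‖ ^ 2) *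
      Real.sqrt (E2 - (1 - δ) * ‖F2‖ ^ 2))) :
    m1 * m2 - 20 * η * S ^ 2 ≤ B.re := by
  subst h1 h2
  rw [Complex.conj_ofReal, Complex.norm_real, Complex.norm_real, Real.norm_of_nonneg hm1,
    Real.norm_of_nonneg hm2] at h
  have a1 : E1 - (1 - δ) * m1 ^ 2 ≤ 5 * η * S ^ 2 := by
    have b1 : m1 ^ 2 ≤ 4 * S ^ 2 := by nlinarith
    have b2 : δ * m1 ^ 2 ≤ η * (4 * S ^ 2) :=
      mul_le_mul hδη b1 (sq_nonneg _) (hδ.trans hδη)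
    linarith
  have a2 : E2 - (1 - δ) * m2 ^ 2 ≤ 5 * η * S ^ 2 := by
    have b1 : m2 ^ 2 ≤ 4 * S ^ 2 := by nlinarith
    have b2 : δ * m2 ^ 2 ≤ η * (4 * S ^ 2) :=
      mul_le_mul hδη b1 (sq_nonneg _) (hδ.trans hδη)
    linarith
  have a3 : 0 ≤ 5 * η * S ^ 2 := by
    have := hδ.trans hδη
    positivity
  have a4 := g5_sqrt_le a1 a2 a3
  have a5 := Complex.abs_re_le_norm (B - (m1 : ℂ) * (m2 : ℂ))
  have a6 := (abs_le.1 a5).1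
  rw [Complex.sub_re, ← Complex.ofReal_mul, Complex.ofReal_re] at a6
  rw [← Complex.ofReal_mul] at h
  linarith

/-- the bilinear form of the modulus `q` at one frequency and one window -/
noncomputable def g5B (ε P : ℝ) (ν : ℕ → ℤ → ℝ) (f : ℤ[X]) (G1 G2 : ℤ → ℝ) (H : ℕ) (y : ℤ)
    (q b : ℕ) : ℂ :=
  ∑ n ∈ Ioc (y + H) (y + H + H), ∑ m ∈ Ioc (y - 2 * H - 1) (y - 2 * H - 1 + H),
    ((G1 n * YA ε P (ta ν f) q n * (G2 m * YA ε P (tb ν f) q m) * KG ε P ν f q n m : ℝ) : ℂ) *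
      e (-(((n : ℝ) - (m : ℝ)) * ((b : ℝ) / q)))

/-- numerical conditions -/
structure G5N (ε P : ℝ) : Prop where
  one : 1 ≤ P
  three : 3 ≤ P ^ (190 * ε)
  half : P ^ (-(190 * ε)) ≤ 1 / 2
  b1 : b5 ε P ≤ 1
  rate : 2 * P ^ (-(190 * ε)) + b5 ε P ≤ P ^ (-(95.5 * ε))

theorem g5_num (ε : ℝ) (hε : 0 < ε) : ∀ᶠ P : ℝ in atTop, G5N ε P := by
  filter_upwards [eventually_ge_atTop (1 : ℝ), Good.ev_ge (190 * ε) 3 (by linarith),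
    Good.ev_small 1 (190 * ε) (1 / 2) (by linarith) (by norm_num),
    Good.ev_small 1 (94.5 * ε) (1 / 4) (by linarith) (by norm_num),
    Good.ev_small 1 (0.5 * ε) (1 / 4) (by linarith) (by norm_num)] with P h1 h2 h3 h4 h5
  have hP : 0 < P := by linarith
  refine ⟨h1, h2, by simpa using h3, ?_, ?_⟩
  · unfold b5
    exact Real.rpow_le_one_of_one_le_of_nonpos h1 (by linarith)
  · unfold b5
    have e1 : P ^ (-(190 * ε)) = P ^ (-(94.5 * ε)) * P ^ (-(95.5 * ε)) := by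
      rw [← Real.rpow_add hP]; congr 1; ring
    have e2 : P ^ (-(96 * ε)) = P ^ (-(0.5 * ε)) * P ^ (-(95.5 * ε)) := by
      rw [← Real.rpow_add hP]; congr 1; ring
    have e3 : 0 < P ^ (-(95.5 * ε)) := Real.rpow_pos_of_pos hP _
    rw [e1, e2]
    rw [one_mul] at h4 h5
    nlinarith

/-- the form at all frequencies (FORM5 at `P`) -/
def G5F (ε P : ℝ) (ν : ℕ → ℤ → ℝ) (f : ℤ[X]) : Prop :=
  ∀ (g g' : ℤ → ℝ), (∀ n, g n ≠ 0 → ∀ p ∈ W5 ε P, ν p n ≠ 0) →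
      (∀ n, g' n ≠ 0 → ∀ p ∈ W5 ε P, ν p n ≠ 0) →
      ∀ (q M M' : ℕ) (y y' : ℤ) (θ : ℝ), 1 ≤ q →
    ‖∑ n ∈ Ioc y (y + M), ∑ m ∈ Ioc y' (y' + M'),
        ((g n * g' m * KG ε P ν f q n m : ℝ) : ℂ) * e (-(((n : ℝ) - (m : ℝ)) * θ)) -
      Fw g y M θ * (starRingEnd ℂ) (Fw g' y' M' θ)‖ ≤
      4 * (Real.sqrt (ews (t6 ε P) (u5 ε P) (Vn ε P q) ν g y M 1 0 θ -
          (1 - P ^ (-(80 * ε))) * ‖Fw g y M θ‖ ^ 2) *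
        Real.sqrt (ews (t6 ε P) (u5 ε P) (Vn ε P q) ν g' y' M' 1 0 θ -
          (1 - P ^ (-(80 * ε))) * ‖Fw g' y' M' θ‖ ^ 2))

/-- sum of the energies at the modulus `q` -/
noncomputable def g5E (ε P : ℝ) (ν : ℕ → ℤ → ℝ) (G : ℤ → ℝ) (y : ℤ) (H q : ℕ) : ℝ :=
  ∑ a ∈ (range q).filter (Nat.Coprime q),
    ews (t6 ε P) (u5 ε P) (Vn ε P q) ν G y H 1 0 ((a : ℝ) / q)

theorem g5_t6_nonneg {ε P : ℝ} (hP : 0 < P) (p : ℕ) : 0 ≤ t6 ε P p := by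
  unfold t6
  positivity

theorem g5_Yn_one {ε P : ℝ} : Yn ε P 1 = ∅ := by
  rw [Finset.eq_empty_iff_forall_notMem]
  intro p hp
  obtain ⟨h1, h2⟩ := g5_mem_Yn hp
  have := (one5_W5 h1).1.one_lt
  have := Nat.le_of_dvd one_pos h2
  omega

/-- the modulus one at one window -/
theorem g5_yL {k : ℕ} {ε P Φ : ℝ} (hε : 0 < ε) (hP1 : 1 ≤ P)
    {N' H : ℕ} {G1 G2 : ℤ → ℝ} {ν : ℕ → ℤ → ℝ} (hSt1 : Sb5 ε P k N' Φ G1 ν)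
    (hSt2 : Sb5 ε P k N' Φ G2 ν) {f : ℤ[X]} (hG01 : Gam f 0 1 = 1)
    (hform : G5F ε P ν f) (y : ℤ)
    (hm1 : mass G1 (y + H) H 1 0 ≤ 2 * (H * Φ))
    (hm2 : mass G2 (y - 2 * H - 1) H 1 0 ≤ 2 * (H * Φ))
    (ho1 : ews (t6 ε P) (u5 ε P) (Vn ε P 1) ν G1 (y + H) H 1 0 0 -
      (mass G1 (y + H) H 1 0) ^ 2 ≤ P ^ (-ε) * (H * Φ) ^ 2)
    (ho2 : ews (t6 ε P) (u5 ε P) (Vn ε P 1) ν G2 (y - 2 * H - 1) H 1 0 0 -
      (mass G2 (y - 2 * H - 1) H 1 0) ^ 2 ≤ P ^ (-ε) * (H * Φ) ^ 2) :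
    mass G1 (y + H) H 1 0 * mass G2 (y - 2 * H - 1) H 1 0 -
      20 * P ^ (-ε) * (H * Φ) ^ 2 ≤
      (((∏ p ∈ Yn ε P 1, (1 + cc ν f p)⁻¹ : ℝ) : ℂ) *
        ∑ b ∈ (range 1).filter (Nat.Coprime 1), Gam f b 1 * g5B ε P ν f G1 G2 H y 1 b).re := by
  have hP : 0 < P := by linarith
  have h5 : (range 1).filter (Nat.Coprime 1) = {0} := by decide
  rw [h5, sum_singleton, g5_Yn_one, prod_empty, Complex.ofReal_one, one_mul, Nat.cast_zero, hG01,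
    one_mul]
  have hYA : ∀ (a : ℕ → ℤ → ℝ) (n : ℤ), YA ε P a 1 n = 1 := by
    intro a n
    unfold YA
    rw [g5_Yn_one, prod_empty]
  have h6 := hform G1 G2 hSt1.Gν hSt2.Gν 1 H H (y + H) (y - 2 * H - 1) 0 le_rfl
  have h7 : g5B ε P ν f G1 G2 H y 1 0 = ∑ n ∈ Ioc (y + H) (y + H + H),
      ∑ m ∈ Ioc (y - 2 * H - 1) (y - 2 * H - 1 + H),
      ((G1 n * G2 m * KG ε P ν f 1 n m : ℝ) : ℂ) * e (-(((n : ℝ) - (m : ℝ)) * 0)) := by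
    unfold g5B
    refine sum_congr rfl fun n _ => sum_congr rfl fun m _ => ?_
    rw [hYA, hYA, mul_one, mul_one, Nat.cast_zero, zero_div]
  rw [h7]
  exact g5_q1 (by rw [← g5_Fw_Fc, Good.Fc_zero]) (by rw [← g5_Fw_Fc, Good.Fc_zero])
    (Good.mass_nonneg G1 hSt1.G0 _ _ _ _) hm1 (Good.mass_nonneg G2 hSt2.G0 _ _ _ _) hm2
    ho1 ho2 (Real.rpow_pos_of_pos hP _).le
    (Real.rpow_le_rpow_of_exponent_le hP1 (by linarith)) h6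

theorem g5_EV5_one {ε P : ℝ} {q : ℕ} (hq : q ∈ EV5 ε P (Q5 ε P)) : 1 ≤ q := by
  unfold EV5 at hq
  exact (mem_Icc.1 (mem_filter.1 hq).1).1

theorem g5_E_nonneg {k : ℕ} {ε P Φ : ℝ} (hP : 0 < P) {N' H : ℕ} {G : ℤ → ℝ} {ν : ℕ → ℤ → ℝ}
    (hSt : Sb5 ε P k N' Φ G ν) (y : ℤ) (q : ℕ) : 0 ≤ g5E ε P ν G y H q :=
  sum_nonneg fun _ _ => (sq_nonneg _).trans
    (g5_ews_ge (fun p _ => g5_t6_nonneg hP p) (fun _ hp => (one5_W5 (g5_Vn_sub hp)).1)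
      (one5_wts hSt.wts g5_Vn_sub)
      (fun n hn p hp => hSt.Gν n hn p (g5_Vn_sub hp)) _ _ _)

theorem g5_E_mix (hM : MIX5Stmt) {k : ℕ} {ε P Φ : ℝ} (hnum : G5N ε P) {N' H : ℕ} {G : ℤ → ℝ}
    {ν a : ℕ → ℤ → ℝ} (hSt : Sb5 ε P k N' Φ G ν) (hta : TiltOK ε P ν a) (y : ℤ) {q : ℕ}
    (hq : q ∈ EV5 ε P (Q5 ε P)) :
    g5E ε P ν (fun n => G n * YA ε P a q n) y H q ≤ (q : ℝ) ^ (b5 ε P) * g5E ε P ν G y H q := by
  have hP : 0 < P := by linarith [hnum.one]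
  have hb0 : 0 ≤ b5 ε P := (Real.rpow_pos_of_pos hP _).le
  have hq1 := g5_EV5_one hq
  have hq0 : (0 : ℝ) < q := by exact_mod_cast hq1
  have hYpos : 1 ≤ ∏ p ∈ Yn ε P q, p :=
    Nat.one_le_iff_ne_zero.2 (prod_ne_zero_iff.2 fun p hp => (one5_W5 (g5_mem_Yn hp).1).1.ne_zero)
  have c1 := g5_ews_mix hM (t := t6 ε P) (u := u5 ε P) (V := Vn ε P q) (G := G)
    (h := YA ε P a q) (fun p _ => g5_t6_nonneg hP p) (fun _ hp => (one5_W5 (g5_Vn_sub hp)).1)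
    (one5_wts hSt.wts g5_Vn_sub)
    (fun n hn p hp => hSt.Gν n hn p (g5_Vn_sub hp)) y H hq1 hYpos
    (g5_Y0_sq_dvd hq) (g5_YA_per hta q)
    (g5_YA_le hta hnum.three hnum.b1 hb0 hq1)
  have hsq : ((q : ℝ) ^ (b5 ε P / 2)) ^ 2 = (q : ℝ) ^ (b5 ε P) := by
    rw [sq, ← Real.rpow_add hq0]
    congr 1
    ring
  rw [hsq] at c1
  exact c1

theorem g5_yq (hM : MIX5Stmt) {k : ℕ} {kap : ℕ → ℕ → ℝ} {ε P Φ : ℝ}
    (hnum : G5N ε P) (hkap : ∀ p j, 0 ≤ kap p j)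
    {N' H : ℕ} {G1 G2 : ℤ → ℝ} {ν : ℕ → ℤ → ℝ} (hSt1 : Sb5 ε P k N' Φ G1 ν)
    (hSt2 : Sb5 ε P k N' Φ G2 ν) {f : ℤ[X]}
    (hta : TiltOK ε P ν (ta ν f)) (htb : TiltOK ε P ν (tb ν f)) (y y' : ℤ) {q : ℕ}
    (hq : q ∈ EV5 ε P (Q5 ε P)) :
    (q : ℝ) ^ (2 * P ^ (-(190 * ε))) * (kapProd kap q *
      ∑ b ∈ (range q).filter (Nat.Coprime q),
        5 / 2 * (ews (t6 ε P) (u5 ε P) (Vn ε P q) ν
        (fun n => G1 n * YA ε P (ta ν f) q n) y H 1 0 ((b : ℝ) / q) +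
      ews (t6 ε P) (u5 ε P) (Vn ε P q) ν
        (fun n => G2 n * YA ε P (tb ν f) q n) y' H 1 0 ((b : ℝ) / q))) ≤
    5 / 2 * ((q : ℝ) ^ (P ^ (-(95.5 * ε))) * kapProd kap q * g5E ε P ν G1 y H q +
      (q : ℝ) ^ (P ^ (-(95.5 * ε))) * kapProd kap q * g5E ε P ν G2 y' H q) := by
  have hP : 0 < P := by linarith [hnum.one]
  have hqr : (1 : ℝ) ≤ q := by exact_mod_cast g5_EV5_one hq
  have hq0 : (0 : ℝ) < q := by linarith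
  have hk0 : 0 ≤ kapProd kap q := kapProd_nonneg hkap q
  have c1 := g5_E_mix hM (H := H) hnum hSt1 hta y hq
  have c2 := g5_E_mix hM (H := H) hnum hSt2 htb y' hq
  have d1 := g5_E_nonneg (H := H) hP hSt1 y q
  have d2 := g5_E_nonneg (H := H) hP hSt2 y' q
  rw [← mul_sum, sum_add_distrib]
  change (q : ℝ) ^ (2 * P ^ (-(190 * ε))) * (kapProd kap q *
    (5 / 2 * (g5E ε P ν (fun n => G1 n * YA ε P (ta ν f) q n) y H q +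
      g5E ε P ν (fun n => G2 n * YA ε P (tb ν f) q n) y' H q))) ≤ _
  generalize g5E ε P ν (fun n => G1 n * YA ε P (ta ν f) q n) y H q = A1 at c1 ⊢
  generalize g5E ε P ν (fun n => G2 n * YA ε P (tb ν f) q n) y' H q = A2 at c2 ⊢
  generalize g5E ε P ν G1 y H q = B1 at c1 d1 ⊢
  generalize g5E ε P ν G2 y' H q = B2 at c2 d2 ⊢
  have hfac : (q : ℝ) ^ (2 * P ^ (-(190 * ε))) * (q : ℝ) ^ (b5 ε P) ≤
      (q : ℝ) ^ (P ^ (-(95.5 * ε))) := by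
    rw [← Real.rpow_add hq0]
    exact Real.rpow_le_rpow_of_exponent_le hqr hnum.rate
  have hu0 : 0 ≤ (q : ℝ) ^ (2 * P ^ (-(190 * ε))) := (Real.rpow_pos_of_pos hq0 _).le
  generalize (q : ℝ) ^ (2 * P ^ (-(190 * ε))) = u at hfac hu0 ⊢
  generalize (q : ℝ) ^ (b5 ε P) = v at hfac c1 c2 ⊢
  generalize (q : ℝ) ^ (P ^ (-(95.5 * ε))) = w at hfac ⊢
  calc u * (kapProd kap q * (5 / 2 * (A1 + A2)))
      ≤ u * (kapProd kap q * (5 / 2 * (v * (B1 + B2)))) := by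
        apply mul_le_mul_of_nonneg_left _ hu0
        apply mul_le_mul_of_nonneg_left _ hk0
        linarith
    _ = (u * v) * (kapProd kap q * (5 / 2 * (B1 + B2))) := by
        ring
    _ ≤ w * (kapProd kap q * (5 / 2 * (B1 + B2))) :=
        mul_le_mul_of_nonneg_right hfac (by positivity)
    _ = _ := by ring

/-- the moduli of one window -/
theorem g5_y (hM : MIX5Stmt) {k : ℕ} {kap : ℕ → ℕ → ℝ} {ε P Φ : ℝ} (hε : 0 < ε)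
    (hnum : G5N ε P) (hkap : ∀ p j, 0 ≤ kap p j)
    {N' H : ℕ} {G1 G2 : ℤ → ℝ} {ν : ℕ → ℤ → ℝ} (hSt1 : Sb5 ε P k N' Φ G1 ν)
    (hSt2 : Sb5 ε P k N' Φ G2 ν) {f : ℤ[X]}
    (hGam : ∀ (q : ℕ) (a : ℤ), 1 ≤ q → IsCoprime a (q : ℤ) → ‖Gam f a q‖ ≤ kapProd kap q)
    (hG01 : Gam f 0 1 = 1)
    (hta : TiltOK ε P ν (ta ν f)) (htb : TiltOK ε P ν (tb ν f))
    (hc : ∀ p ∈ W5 ε P, |cc ν f p| ≤ P ^ (-(190 * ε)))
    (hform : G5F ε P ν f) (y : ℤ)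
    (hm1 : mass G1 (y + H) H 1 0 ≤ 2 * (H * Φ))
    (hm2 : mass G2 (y - 2 * H - 1) H 1 0 ≤ 2 * (H * Φ))
    (ho1 : ews (t6 ε P) (u5 ε P) (Vn ε P 1) ν G1 (y + H) H 1 0 0 -
      (mass G1 (y + H) H 1 0) ^ 2 ≤ P ^ (-ε) * (H * Φ) ^ 2)
    (ho2 : ews (t6 ε P) (u5 ε P) (Vn ε P 1) ν G2 (y - 2 * H - 1) H 1 0 0 -
      (mass G2 (y - 2 * H - 1) H 1 0) ^ 2 ≤ P ^ (-ε) * (H * Φ) ^ 2) :
    mass G1 (y + H) H 1 0 * mass G2 (y - 2 * H - 1) H 1 0 - 20 * P ^ (-ε) * (H * Φ) ^ 2 -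
      5 / 2 * ((∑ q ∈ (EV5 ε P (Q5 ε P)).erase 1,
        (q : ℝ) ^ (P ^ (-(95.5 * ε))) * kapProd kap q * g5E ε P ν G1 (y + H) H q) +
        ∑ q ∈ (EV5 ε P (Q5 ε P)).erase 1,
        (q : ℝ) ^ (P ^ (-(95.5 * ε))) * kapProd kap q *
          g5E ε P ν G2 (y - 2 * H - 1) H q) ≤
    (∑ q ∈ EV5 ε P (Q5 ε P), ((∏ p ∈ Yn ε P q, (1 + cc ν f p)⁻¹ : ℝ) : ℂ) *
      ∑ b ∈ (range q).filter (Nat.Coprime q), Gam f b q * g5B ε P ν f G1 G2 H y q b).re := by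
  have hP1 := hnum.one
  have hP : 0 < P := by linarith
  have hx0 : 0 ≤ P ^ (-(190 * ε)) := (Real.rpow_pos_of_pos hP _).le
  have hδ1 : P ^ (-(80 * ε)) ≤ 1 := Real.rpow_le_one_of_one_le_of_nonpos hP1 (by linarith)
  have hprime : ∀ q, ∀ p ∈ Vn ε P q, p.Prime := fun q p hp => (one5_W5 (g5_Vn_sub hp)).1
  have hW : ∀ q, Wts (Vn ε P q) ν := fun q => one5_wts hSt1.wts g5_Vn_sub
  -- the functions
  have hg1 : ∀ q, ∀ n, G1 n * YA ε P (ta ν f) q n ≠ 0 → ∀ p ∈ W5 ε P, ν p n ≠ 0 :=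
    fun q n hn => hSt1.Gν n (left_ne_zero_of_mul hn)
  have hg2 : ∀ q, ∀ n, G2 n * YA ε P (tb ν f) q n ≠ 0 → ∀ p ∈ W5 ε P, ν p n ≠ 0 :=
    fun q n hn => hSt2.Gν n (left_ne_zero_of_mul hn)
  have hS1 : (1 : ℕ) ∈ EV5 ε P (Q5 ε P) := by
    unfold EV5 Q5
    rw [mem_filter, mem_Icc]
    refine ⟨⟨le_rfl, Nat.le_floor (by push_cast; exact Real.one_le_exp (by positivity))⟩, ?_⟩
    intro p _
    simp
  have hL := g5_yL hε hP1 hSt1 hSt2 hG01 hform y hm1 hm2 ho1 ho2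
  -- the sum over the moduli
  have hmain := g5_sum_q (EV5 ε P (Q5 ε P)) hS1 (fun q => ∏ p ∈ Yn ε P q, (1 + cc ν f p)⁻¹)
    (kapProd kap) (fun q b => Gam f b q) (g5B ε P ν f G1 G2 H y)
    (fun q => (q : ℝ) ^ (2 * P ^ (-(190 * ε))))
    (fun q b => 5 / 2 * (ews (t6 ε P) (u5 ε P) (Vn ε P q) ν
        (fun n => G1 n * YA ε P (ta ν f) q n) (y + H) H 1 0 ((b : ℝ) / q) +
      ews (t6 ε P) (u5 ε P) (Vn ε P q) ν
        (fun n => G2 n * YA ε P (tb ν f) q n) (y - 2 * H - 1) H 1 0 ((b : ℝ) / q)))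
    _ (fun q hq => g5_w_le hc hnum.three hnum.half hx0 (g5_EV5_one hq))
    (fun q hq a ha => hGam q a (g5_EV5_one hq) (by
      have := (mem_filter.1 ha).2
      exact (Nat.isCoprime_iff_coprime.2 this).symm))
    (fun q hq a _ => g5_form_le (hform _ _ (hg1 q) (hg2 q) q H H (y + H) (y - 2 * H - 1)
      ((a : ℝ) / q) (g5_EV5_one hq))
      (g5_ews_ge (fun p _ => g5_t6_nonneg hP p) (hprime q) (hW q)
        (fun n hn p hp => hg1 q n hn p (g5_Vn_sub hp)) _ _ _)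
      (g5_ews_ge (fun p _ => g5_t6_nonneg hP p) (hprime q) (hW q)
        (fun n hn p hp => hg2 q n hn p (g5_Vn_sub hp)) _ _ _) hδ1) hL
  refine le_trans ?_ hmain
  apply sub_le_sub_left
  rw [← sum_add_distrib, mul_sum]
  exact sum_le_sum fun q hq => g5_yq hM hnum hkap hSt1 hSt2 hta htb (y + H) (y - 2 * H - 1)
    (mem_of_mem_erase hq)

end Vale.Agent.P042.UU
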