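import Vale.Agent.P042.UU.Kb5C
import Vale.Agent.P042.SS.Euler

set_option autoImplicit false

/-!
Theorem S5, block KB5 (helper323), part D: the statement.
-/

namespace Vale.Agent.P042.UU

open Polynomial Finset Vale.Agent.P042.SS Vale.Agent.P042.TT

theorem be_eq (ν : ℕ → ℤ → ℝ) (f : ℤ[X]) (p : ℕ) (m : ℤ) :
    be ν f p m = av p (ν p) (fun t => kp f p (-t)) m := by
  unfold be av
  congr 1
  refine Finset.sum_congr rfl fun x _ => ?_
  show ν p x * kp f p (x - m) = ν p x * kp f p (-(m - (x : ℤ)))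
  rw [show -(m - (x : ℤ)) = (x : ℤ) - m by ring]

theorem cc_eq (ν : ℕ → ℤ → ℝ) (f : ℤ[X]) (p : ℕ) : cc ν f p = cA p (ν p) (kp f p) := rfl

theorem ta_eq (ν : ℕ → ℤ → ℝ) (f : ℤ[X]) (p : ℕ) (n : ℤ) :
    ta ν f p n = tA p (ν p) (kp f p) n := rfl

theorem tb_eq (ν : ℕ → ℤ → ℝ) (f : ℤ[X]) (p : ℕ) (m : ℤ) :
    tb ν f p m = tA p (ν p) (fun t => kp f p (-t)) m := by
  unfold tb tA
  rw [cA_rev, be_eq, cc_eq]

theorem ze_eq (ν : ℕ → ℤ → ℝ) (f : ℤ[X]) (p : ℕ) (n m : ℤ) :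
    ze ν f p n m = kp f p (n - m) - ((1 + cA p (ν p) (kp f p)) * (1 + tA p (ν p) (kp f p) n) *
      (1 + tA p (ν p) (fun t => kp f p (-t)) m) - 1) := by
  unfold ze
  rw [tb_eq, ta_eq, cc_eq]

theorem sum_isqrt (X : ℕ) : ∑ n ∈ Ioc 0 X, 1 / Real.sqrt n ≤ 2 * Real.sqrt X := by
  induction X with
  | zero => simp
  | succ X ih =>
    rw [Finset.sum_Ioc_succ_top (Nat.zero_le X)]
    have h1 : 0 < Real.sqrt ((X + 1 : ℕ) : ℝ) := Real.sqrt_pos.2 (by positivity)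
    have h2 : 0 ≤ Real.sqrt (X : ℝ) := Real.sqrt_nonneg _
    have h3 : Real.sqrt ((X + 1 : ℕ) : ℝ) * Real.sqrt ((X + 1 : ℕ) : ℝ) = X + 1 := by
      rw [Real.mul_self_sqrt (by positivity)]; push_cast; ring
    have h4 : Real.sqrt (X : ℝ) * Real.sqrt (X : ℝ) = X := Real.mul_self_sqrt (by positivity)
    have h5 : 1 / Real.sqrt ((X + 1 : ℕ) : ℝ) ≤
        2 * Real.sqrt ((X + 1 : ℕ) : ℝ) - 2 * Real.sqrt (X : ℝ) := by
      rw [div_le_iff₀ h1]
      nlinarith [sq_nonneg (Real.sqrt ((X + 1 : ℕ) : ℝ) - Real.sqrt (X : ℝ))]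
    linarith

theorem sum_inv_le (X : ℕ) : ∑ n ∈ Ioc 0 X, 1 / (n : ℝ) ≤ 1 + Real.log X := by
  have h1 := harmonic_le_one_add_log X
  rw [harmonic_eq_sum_Icc] at h1
  push_cast at h1
  have h2 : ∑ n ∈ Ioc 0 X, 1 / (n : ℝ) = ∑ i ∈ Icc 1 X, ((i : ℝ))⁻¹ := by
    apply Finset.sum_congr
    · ext n; simp [Finset.mem_Ioc, Finset.mem_Icc]; omega
    · intro n _; rw [one_div]
  rw [h2]
  exact h1

theorem kb5_ev (k p0 : ℕ) (ε : ℝ) (hε : 0 < ε) : ∀ᶠ P : ℝ in Filter.atTop,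
    3 ≤ P ∧ (p0 : ℝ) ≤ P ^ (190 * ε) ∧ 2 ≤ P ^ (97 * ε) ∧ 48 * (k : ℝ) ≤ P ^ ε ∧
    48 * (k : ℝ) ^ 2 * (1 + 2 * Real.log P) ≤ P ^ (2 * ε) ∧ 54 * (k : ℝ) ^ 2 ≤ P ^ (ε / 10) := by
  have t1 := (tendsto_rpow_atTop (show (0 : ℝ) < 190 * ε by positivity)).eventually_ge_atTop
    (p0 : ℝ)
  have t2 := (tendsto_rpow_atTop (show (0 : ℝ) < 97 * ε by positivity)).eventually_ge_atTop
    (2 : ℝ)
  have t3 := (tendsto_rpow_atTop hε).eventually_ge_atTop (48 * (k : ℝ))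
  have t4 := (tendsto_rpow_atTop hε).eventually_ge_atTop (3 * 48 * (k : ℝ) ^ 2)
  have t5 := (isLittleO_log_rpow_atTop hε).bound (c := 1) one_pos
  have t6 := (tendsto_rpow_atTop (show (0 : ℝ) < ε / 10 by positivity)).eventually_ge_atTop
    (54 * (k : ℝ) ^ 2)
  filter_upwards [t1, t2, t3, t4, t5, t6, Filter.eventually_ge_atTop (3 : ℝ)] with P h1 h2 h3 h4
    h5 h6 h7
  refine ⟨h7, h1, h2, h3, ?_, h6⟩
  have hP : 0 < P := by linarith
  have hlog : 1 ≤ Real.log P := by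
    rw [Real.le_log_iff_exp_le hP]
    linarith [Real.exp_one_lt_d9]
  rw [Real.norm_of_nonneg (by linarith), Real.norm_of_nonneg (by positivity), one_mul] at h5
  have e1 : P ^ (2 * ε) = P ^ ε * P ^ ε := by rw [← Real.rpow_add hP]; ring_nf
  rw [e1]
  calc 48 * (k : ℝ) ^ 2 * (1 + 2 * Real.log P) ≤ 48 * (k : ℝ) ^ 2 * (3 * Real.log P) := by
        refine mul_le_mul_of_nonneg_left ?_ (by positivity)
        linarith
    _ = (3 * 48 * (k : ℝ) ^ 2) * Real.log P := by ring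
    _ ≤ P ^ ε * P ^ ε := mul_le_mul h4 h5 (by linarith) (by positivity)

/-- block KB5 -/
theorem kb5_holds : KB5Stmt := by
  intro k E K p0 kap ε hk hE hkap hε hε1
  obtain ⟨P0, hP0⟩ := Filter.eventually_atTop.1 (kb5_ev k p0 ε hε)
  refine ⟨P0, ?_⟩
  intro P hP ν hW hνle _ f hGam hkp
  obtain ⟨hP3, hp0, hb2, hk48, hlog, h54⟩ := hP0 P hP
  have hPpos : 0 < P := by linarith
  have hP1 : 1 ≤ P := by linarith
  have hk1 : (1 : ℝ) ≤ k := by exact_mod_cast hk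
  set β : ℝ := bn5 ε P with hβ
  have hβ0 : 0 ≤ β := by rw [hβ]; unfold bn5; positivity
  have hβinv : β = (P ^ (97 * ε))⁻¹ := by
    rw [hβ]; unfold bn5; rw [Real.rpow_neg hPpos.le]
  have hβ1 : β ≤ 1 / 2 := by
    rw [hβinv, one_div]
    exact inv_anti₀ (by norm_num) hb2
  have hβ1' : β ≤ 1 := by linarith
  have hexp : Real.exp β ≤ 1 + 2 * β := by
    have h1 := Real.abs_exp_sub_one_sub_id_le (x := β) (by rw [abs_of_nonneg hβ0]; exact hβ1')
    have h2 := (abs_le.1 h1).2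
    nlinarith
  -- facts on the primes
  have hpr : ∀ p ∈ W5 ε P, p.Prime ∧ P ^ (190 * ε) ≤ p ∧ p0 < p ∧ p ≤ ⌊P ^ (2 - 190 * ε)⌋₊ := by
    intro p hp
    unfold W5 Wp at hp
    rw [Finset.mem_filter, Finset.mem_Ioc] at hp
    have h1 : P ^ (190 * ε) < p := Nat.lt_of_floor_lt hp.1.1
    refine ⟨hp.2, h1.le, ?_, hp.1.2⟩
    have : (p0 : ℝ) < p := lt_of_le_of_lt hp0 h1
    exact_mod_cast this
  have hκdef : ∀ p ∈ W5 ε P, 0 ≤ (k : ℝ) / Real.sqrt p ∧ (k : ℝ) / Real.sqrt p ≤ k ∧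
      ((k : ℝ) / Real.sqrt p) ^ 2 * p = (k : ℝ) ^ 2 ∧
      (k : ℝ) / Real.sqrt p ≤ k * P ^ (-(95 * ε)) := by
    intro p hp
    obtain ⟨hpp, hpge, -, -⟩ := hpr p hp
    have hp1 : (1 : ℝ) ≤ p := by exact_mod_cast hpp.one_lt.le
    have hs1 : 1 ≤ Real.sqrt p := by rw [Real.one_le_sqrt]; exact hp1
    refine ⟨by positivity, div_le_self (by positivity) hs1, ?_, ?_⟩
    · rw [div_pow, Real.sq_sqrt (by positivity)]
      field_simp
    · have h2 : P ^ (95 * ε) ≤ Real.sqrt p := by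
        apply Real.le_sqrt_of_sq_le
        rw [← Real.rpow_natCast, ← Real.rpow_mul hPpos.le]
        have e0 : (95 * ε) * ((2 : ℕ) : ℝ) = 190 * ε := by push_cast; ring
        rw [e0]
        exact hpge
      rw [Real.rpow_neg hPpos.le, div_eq_mul_inv]
      exact mul_le_mul_of_nonneg_left (inv_anti₀ (by positivity) h2) (by positivity)
  have hwt : ∀ p ∈ W5 ε P, Wt1 p β (ν p) := fun p hp =>
    ⟨hW.nn p, hW.per p hp, hW.mean p hp, fun n => (hνle p hp n).trans hexp⟩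
  have hKr : ∀ p ∈ W5 ε P, Kr p k ((k : ℝ) / Real.sqrt p) (kp f p) := by
    intro p hp
    obtain ⟨hpp, -, hp0p, -⟩ := hpr p hp
    refine kp_Kr f p hpp.pos k _ (hκdef p hp).1 ?_ (hkp p hp)
    intro b hb
    rw [Finset.mem_Ico] at hb
    have hco : IsCoprime ((b : ℕ) : ℤ) ((p : ℕ) : ℤ) := by
      rw [Nat.isCoprime_iff_coprime]
      exact Nat.Coprime.symm ((Nat.Prime.coprime_iff_not_dvd hpp).2 fun h =>
        absurd (Nat.le_of_dvd (by omega) h) (by omega))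
    have h1 := hGam p b hpp.one_lt.le hco
    rw [SS.kapProd_prime kap hpp] at h1
    exact h1.trans (hkap.one _ hpp hp0p)
  have hcc : ∀ p ∈ W5 ε P, |cc ν f p| ≤ 2 * β * ((k : ℝ) / Real.sqrt p) := fun p hp =>
    cA_le (hpr p hp).1.pos (hκdef p hp).1 (hKr p hp) (hwt p hp)
  have e190 : 2 * β * (k * P ^ (-(95 * ε))) ≤ P ^ (-(190 * ε)) := by
    have e1 : 2 * β * (k * P ^ (-(95 * ε))) = (2 * k) * P ^ (-(192 * ε)) := by
      rw [hβ]; unfold bn5
      have : P ^ (-(192 * ε)) = P ^ (-(97 * ε)) * P ^ (-(95 * ε)) := by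
        rw [← Real.rpow_add hPpos]; congr 1; ring
      rw [this]; ring
    have e2 : P ^ (-(190 * ε)) = P ^ (2 * ε) * P ^ (-(192 * ε)) := by
      rw [← Real.rpow_add hPpos]; congr 1; ring
    rw [e1, e2]
    refine mul_le_mul_of_nonneg_right ?_ (by positivity)
    have e3 : P ^ (2 * ε) = P ^ ε * P ^ ε := by rw [← Real.rpow_add hPpos]; ring_nf
    have e4 : 1 ≤ P ^ ε := Real.one_le_rpow hP1 hε.le
    rw [e3]
    nlinarith
  have hcc190 : ∀ p ∈ W5 ε P, |cc ν f p| ≤ P ^ (-(190 * ε)) := by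
    intro p hp
    refine (hcc p hp).trans (le_trans ?_ e190)
    exact mul_le_mul_of_nonneg_left (hκdef p hp).2.2.2 (by positivity)
  have hhalf : P ^ (-(190 * ε)) ≤ 1 / 2 := by
    rw [Real.rpow_neg hPpos.le, one_div]
    refine inv_anti₀ (by norm_num) (hb2.trans ?_)
    exact Real.rpow_le_rpow_of_exponent_le hP1 (by linarith)
  have hcc2 : ∀ p ∈ W5 ε P, |cA p (ν p) (kp f p)| ≤ 1 / 2 := fun p hp =>
    (hcc190 p hp).trans hhalf
  have hcc2' : ∀ p ∈ W5 ε P, |cA p (ν p) (fun t => kp f p (-t))| ≤ 1 / 2 := fun p hp => by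
    rw [cA_rev]; exact hcc2 p hp
  -- tilts
  have hsub : W5 ε P ⊆ Ioc 0 ⌊P ^ (2 - 190 * ε)⌋₊ := by
    intro p hp
    rw [Finset.mem_Ioc]
    exact ⟨(hpr p hp).1.pos, (hpr p hp).2.2.2⟩
  have hinvsum : ∑ p ∈ W5 ε P, 1 / (p : ℝ) ≤ 1 + 2 * Real.log P := by
    have hlogP : 0 ≤ Real.log P := Real.log_nonneg hP1
    refine (Finset.sum_le_sum_of_subset_of_nonneg hsub fun _ _ _ => by positivity).trans
      ((sum_inv_le _).trans ?_)
    rcases Nat.eq_zero_or_pos ⌊P ^ (2 - 190 * ε)⌋₊ with h | h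
    · rw [h]
      simp only [Nat.cast_zero, Real.log_zero]
      linarith
    · have h1 : ((⌊P ^ (2 - 190 * ε)⌋₊ : ℕ) : ℝ) ≤ P ^ (2 - 190 * ε) :=
        Nat.floor_le (by positivity)
      have h2 : Real.log ((⌊P ^ (2 - 190 * ε)⌋₊ : ℕ) : ℝ) ≤ Real.log (P ^ (2 - 190 * ε)) :=
        Real.log_le_log (by exact_mod_cast h) h1
      rw [Real.log_rpow hPpos] at h2
      nlinarith
  have tilt : ∀ (K : ℕ → ℤ → ℝ) (a : ℕ → ℤ → ℝ),
      (∀ p ∈ W5 ε P, Kr p k ((k : ℝ) / Real.sqrt p) (K p)) →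
      (∀ p ∈ W5 ε P, |cA p (ν p) (K p)| ≤ 1 / 2) →
      (∀ p ∈ W5 ε P, ∀ n, a p n = tA p (ν p) (K p) n) → TiltOK ε P ν a := by
    intro K' a hK' hc' ha
    refine ⟨?_, ?_, ?_, ?_⟩
    · intro p hp n
      rw [ha p hp, ha p hp, tA_per (hK' p hp)]
    · intro p hp n
      rw [ha p hp]
      obtain ⟨g1, g2, -, -⟩ := hκdef p hp
      refine (tA_le (hpr p hp).1.pos g1 g2 hβ0 (hK' p hp) (hwt p hp) (hc' p hp) n).trans ?_
      have e1 : b5 ε P = P ^ ε * β := by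
        rw [hβ]; unfold b5 bn5; rw [← Real.rpow_add hPpos]; congr 1; ring
      rw [e1]
      have : 12 * (k : ℝ) ≤ P ^ ε / 4 := by linarith
      calc 12 * (k : ℝ) * β ≤ P ^ ε / 4 * β := mul_le_mul_of_nonneg_right this hβ0
        _ = _ := by ring
    · intro p hp
      have h1 : ∀ z ∈ range p, ν p z * a p z = ν p z * tA p (ν p) (K' p) z := fun z _ => by
        rw [ha p hp]
      rw [Finset.sum_congr rfl h1]
      exact tA_cen (hpr p hp).1.pos (hwt p hp)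
    · have h1 : ∀ p ∈ W5 ε P, (∑ z ∈ range p, (a p z) ^ 2) / (p : ℝ) ≤
          48 * (k : ℝ) ^ 2 * β * (1 / (p : ℝ)) := by
        intro p hp
        obtain ⟨g1, g2, g3, -⟩ := hκdef p hp
        have hp' : (0 : ℝ) < p := by exact_mod_cast (hpr p hp).1.pos
        have h2 := tA_sq (hpr p hp).1.pos g1 hβ0 hβ1' (hK' p hp) (hwt p hp) (hc' p hp)
        have h3 : ∑ z ∈ range p, (a p z) ^ 2 = ∑ z ∈ range p, (tA p (ν p) (K' p) z) ^ 2 :=
          Finset.sum_congr rfl fun z _ => by rw [ha p hp]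
        rw [h3, mul_one_div]
        refine div_le_div_of_nonneg_right (h2.trans (le_of_eq ?_)) hp'.le
        rw [← g3]; ring
      refine (Finset.sum_le_sum h1).trans ?_
      rw [← Finset.mul_sum]
      have e1 : P ^ (-(95 * ε)) = P ^ (2 * ε) * β := by
        rw [hβ]; unfold bn5; rw [← Real.rpow_add hPpos]; congr 1; ring
      rw [e1]
      calc 48 * (k : ℝ) ^ 2 * β * ∑ p ∈ W5 ε P, 1 / (p : ℝ)
          ≤ 48 * (k : ℝ) ^ 2 * β * (1 + 2 * Real.log P) :=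
            mul_le_mul_of_nonneg_left hinvsum (by positivity)
        _ = 48 * (k : ℝ) ^ 2 * (1 + 2 * Real.log P) * β := by ring
        _ ≤ _ := mul_le_mul_of_nonneg_right hlog hβ0
  have hlam : ∀ p ∈ W5 ε P, ∀ C : ℝ, C * k ≤ 54 * (k : ℝ) ^ 2 →
      C * ((k : ℝ) / Real.sqrt p) ≤ lam5 ε P p := by
    intro p hp C hC
    have hp' : (0 : ℝ) < p := by exact_mod_cast (hpr p hp).1.pos
    unfold lam5
    have e1 : (p : ℝ) ^ (-(1 / 2) : ℝ) = 1 / Real.sqrt p := by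
      rw [Real.rpow_neg hp'.le, Real.sqrt_eq_rpow, one_div (_ ^ _)]
    rw [e1]
    calc C * ((k : ℝ) / Real.sqrt p) = (C * k) * (1 / Real.sqrt p) := by ring
      _ ≤ P ^ (ε / 10) * (1 / Real.sqrt p) :=
        mul_le_mul_of_nonneg_right (hC.trans h54) (by positivity)
  refine ⟨hcc190, ?_, ?_, ?_, ?_, ?_, ?_, ?_, ?_⟩
  · -- sum of |cc|
    refine (Finset.sum_le_sum hcc).trans ?_
    have h1 : ∑ p ∈ W5 ε P, 2 * β * ((k : ℝ) / Real.sqrt p) =
        2 * β * k * ∑ p ∈ W5 ε P, 1 / Real.sqrt p := by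
      rw [Finset.mul_sum]
      exact Finset.sum_congr rfl fun p _ => by ring
    have h2 : ∑ p ∈ W5 ε P, 1 / Real.sqrt p ≤ 2 * P ^ (1 - 95 * ε) := by
      refine (Finset.sum_le_sum_of_subset_of_nonneg hsub fun _ _ _ => by positivity).trans
        ((sum_isqrt _).trans ?_)
      refine mul_le_mul_of_nonneg_left ?_ (by norm_num)
      apply Real.sqrt_le_iff.2
      refine ⟨by positivity, ?_⟩
      rw [← Real.rpow_natCast, ← Real.rpow_mul hPpos.le]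
      have e0 : (1 - 95 * ε) * ((2 : ℕ) : ℝ) = 2 - 190 * ε := by push_cast; ring
      rw [e0]
      exact Nat.floor_le (by positivity)
    rw [h1]
    calc 2 * β * k * ∑ p ∈ W5 ε P, 1 / Real.sqrt p ≤ 2 * β * k * (2 * P ^ (1 - 95 * ε)) :=
          mul_le_mul_of_nonneg_left h2 (by positivity)
      _ = 4 * k * (β * P ^ (1 - 95 * ε)) := by ring
      _ ≤ P ^ ε * (β * P ^ (1 - 95 * ε)) := by
          refine mul_le_mul_of_nonneg_right ?_ (by positivity)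
          linarith
      _ = P ^ (1 - 191 * ε) := by
          rw [hβ]; unfold bn5
          rw [← Real.rpow_add hPpos, ← Real.rpow_add hPpos]; congr 1; ring
  · exact tilt (fun p => kp f p) (ta ν f) hKr hcc2 fun p _ n => ta_eq ν f p n
  · exact tilt (fun p t => kp f p (-t)) (tb ν f) (fun p hp => (hKr p hp).rev) hcc2'
      fun p _ n => tb_eq ν f p n
  · intro p hp m
    have h1 := Z_cen1 (hpr p hp).1.pos (hwt p hp) (hcc2 p hp) m
    have h2 : ∀ x ∈ range p, ν p x * ze ν f p x m = ν p x * (kp f p ((x : ℤ) - m) -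
      ((1 + cA p (ν p) (kp f p)) * (1 + tA p (ν p) (kp f p) x) *
        (1 + tA p (ν p) (fun t => kp f p (-t)) m) - 1)) := fun x _ => by rw [ze_eq]
    rw [Finset.sum_congr rfl h2]
    exact h1
  · intro p hp n
    have h1 := Z_cen2 (hpr p hp).1.pos (hwt p hp) (hcc2 p hp) n
    have h2 : ∀ y ∈ range p, ν p y * ze ν f p n y = ν p y * (kp f p (n - (y : ℤ)) -
      ((1 + cA p (ν p) (kp f p)) * (1 + tA p (ν p) (kp f p) n) *
        (1 + tA p (ν p) (fun t => kp f p (-t)) y) - 1)) := fun x _ => by rw [ze_eq]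
    rw [Finset.sum_congr rfl h2]
    exact h1
  · intro p hp n m
    have hK := hKr p hp
    refine ⟨hK.per n, ?_, ?_⟩
    · rw [ze_eq, ze_eq, tA_per hK, show n + (p : ℤ) - m = n - m + p by ring, hK.per]
    · rw [ze_eq, ze_eq, tA_per hK.rev]
      have h1 : kp f p (n - (m + (p : ℤ))) = kp f p (n - m) := by
        have := hK.per (n - (m + (p : ℤ)))
        rw [← this]
        congr 1
        ring
      rw [h1]
  · intro p hp φ ψ
    obtain ⟨g1, g2, g3, -⟩ := hκdef p hp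
    have h1 := Z_norm (hpr p hp).1.pos g1 g2 hk1 hβ0 hβ1' (hKr p hp) (hwt p hp) (hcc2 p hp) φ ψ
    have h2 : ∑ x ∈ range p, ∑ y ∈ range p, (ν p x / p) * (ν p y / p) *
        (φ x * ze ν f p x y * ψ y) =
        ∑ x ∈ range p, ∑ y ∈ range p, (ν p x / p) * (ν p y / p) * (φ x * (kp f p ((x : ℤ) - y) -
      ((1 + cA p (ν p) (kp f p)) * (1 + tA p (ν p) (kp f p) x) *
        (1 + tA p (ν p) (fun t => kp f p (-t)) y) - 1)) * ψ y) :=
      Finset.sum_congr rfl fun x _ => Finset.sum_congr rfl fun y _ => by rw [ze_eq]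
    rw [h2]
    refine h1.trans ?_
    have h3 := hlam p hp (54 * k) (le_of_eq (by ring))
    exact mul_le_mul_of_nonneg_right h3 (mul_nonneg (nrm_nonneg _ _ _) (nrm_nonneg _ _ _))
  · intro p hp φ ψ
    obtain ⟨g1, g2, g3, -⟩ := hκdef p hp
    have h1 := op_w (hpr p hp).1.pos g1 (hKr p hp) (hwt p hp) hβ0 φ ψ
    refine h1.trans ?_
    have h3 := hlam p hp (1 + 2 * β) (by nlinarith)
    refine mul_le_mul_of_nonneg_right ?_ (mul_nonneg (nrm_nonneg _ _ _) (nrm_nonneg _ _ _))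
    linarith

end Vale.Agent.P042.UU
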