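import Vale.Agent.P042.UU.Root
import Vale.Agent.P042.SS.Pihat

set_option autoImplicit false

/-!
Theorem S5, block KB5 (helper323), part A: one prime, abstract kernel.
-/

namespace Vale.Agent.P042.UU

open Polynomial Finset Vale.Agent.P042.SS Vale.Agent.P042.TT

/-- the properties of the kernel of one prime -/
structure Kr (p : ℕ) (k κ : ℝ) (K : ℤ → ℝ) : Prop where
  per : ∀ t, K (t + p) = K t
  z1 : ∀ n : ℤ, ∑ y ∈ range p, K (n - y) = 0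
  z2 : ∀ m : ℤ, ∑ x ∈ range p, K (x - m) = 0
  le : ∀ t, |K t| ≤ k
  op : ∀ (φ ψ : ℕ → ℝ) (a b : ℝ), |∑ x ∈ range p, ∑ y ∈ range p, φ x * K ((x : ℤ) - y) * ψ y| ≤
    κ * p * (Real.sqrt (∑ x ∈ range p, (φ x - a) ^ 2) * Real.sqrt (∑ y ∈ range p, (ψ y - b) ^ 2))

theorem Kr.rev {p : ℕ} {k κ : ℝ} {K : ℤ → ℝ} (h : Kr p k κ K) : Kr p k κ (fun t => K (-t)) := by
  refine ⟨?_, ?_, ?_, fun t => h.le _, ?_⟩
  · intro t
    have := h.per (-(t + p))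
    rw [← this]
    congr 1
    ring
  · intro n
    have h1 : ∀ y ∈ range p, K (-(n - (y : ℤ))) = K ((y : ℤ) - n) := fun y _ => by
      congr 1; ring
    rw [Finset.sum_congr rfl h1]
    exact h.z2 n
  · intro n
    have h1 : ∀ y ∈ range p, K (-((y : ℤ) - n)) = K (n - (y : ℤ)) := fun y _ => by
      congr 1; ring
    rw [Finset.sum_congr rfl h1]
    exact h.z1 n
  · intro φ ψ a b
    have h1 := h.op ψ φ b a
    rw [Finset.sum_comm] at h1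
    have h2 : ∑ x ∈ range p, ∑ y ∈ range p, φ x * K (-((x : ℤ) - y)) * ψ y =
        ∑ y ∈ range p, ∑ x ∈ range p, ψ x * K ((x : ℤ) - y) * φ y := by
      refine Finset.sum_congr rfl fun x _ => Finset.sum_congr rfl fun y _ => ?_
      rw [show -((x : ℤ) - y) = (y : ℤ) - x by ring]
      ring
    rw [h2]
    refine h1.trans (le_of_eq ?_)
    ring

/-- discrete Fourier transform -/
noncomputable def ht (p : ℕ) (φ : ℕ → ℝ) (c : ℕ) : ℂ :=
  ∑ x ∈ range p, (φ x : ℂ) * e (-((c : ℝ) * (x : ℝ) / (p : ℝ)))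

theorem ht_sub (p : ℕ) (hp : 0 < p) (φ : ℕ → ℝ) (a : ℝ) (c : ℕ) (hc : c ∈ Ico 1 p) :
    ht p (fun x => φ x - a) c = ht p φ c := by
  unfold ht
  have h1 : ∀ x ∈ range p, (((φ x - a : ℝ)) : ℂ) * e (-((c : ℝ) * (x : ℝ) / (p : ℝ))) =
      (φ x : ℂ) * e (-((c : ℝ) * (x : ℝ) / (p : ℝ))) -
        (a : ℂ) * e ((((-(c : ℤ) : ℤ)) : ℝ) * ((x : ℝ) / (p : ℝ))) := by
    intro x _
    have : (((-(c : ℤ) : ℤ)) : ℝ) * ((x : ℝ) / (p : ℝ)) = -((c : ℝ) * (x : ℝ) / (p : ℝ)) := by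
      push_cast; ring
    rw [this]
    push_cast
    ring
  rw [Finset.sum_congr rfl h1, Finset.sum_sub_distrib, ← Finset.mul_sum,
    Vale.Agent.P042.SS.AN.orth p hp]
  rw [if_neg, mul_zero, sub_zero]
  rw [Finset.mem_Ico] at hc
  intro h2
  rw [Int.dvd_neg] at h2
  have h3 : p ∣ c := by exact_mod_cast h2
  have := Nat.le_of_dvd (by omega) h3
  omega

theorem ht_energy (p : ℕ) (hp : 0 < p) (φ : ℕ → ℝ) (a : ℝ) :
    ∑ c ∈ Ico 1 p, ‖ht p φ c‖ ^ 2 ≤ p * ∑ x ∈ range p, (φ x - a) ^ 2 := by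
  have hp' : (0 : ℝ) < p := by exact_mod_cast hp
  have h1 : ∑ c ∈ Ico 1 p, ‖ht p φ c‖ ^ 2 = ∑ c ∈ Ico 1 p, ‖ht p (fun x => φ x - a) c‖ ^ 2 :=
    Finset.sum_congr rfl fun c hc => by rw [ht_sub p hp φ a c hc]
  have h2 : ∑ c ∈ Ico 1 p, ‖ht p (fun x => φ x - a) c‖ ^ 2 ≤
      ∑ c ∈ range p, ‖ht p (fun x => φ x - a) c‖ ^ 2 := by
    apply Finset.sum_le_sum_of_subset_of_nonneg
    · intro c hc
      rw [Finset.mem_Ico] at hc
      exact Finset.mem_range.2 hc.2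
    · intro c _ _
      positivity
  have h3 := ph_parseval (fun z => φ z.toNat - a) p hp
  have h4 : ∀ c ∈ range p, ‖ph (fun z => φ z.toNat - a) p ((c : ℝ) / p)‖ ^ 2 =
      ‖ht p (fun x => φ x - a) c‖ ^ 2 / (p : ℝ) ^ 2 := by
    intro c _
    unfold ph ht
    rw [norm_div, div_pow, Complex.norm_natCast]
    congr 3
    refine Finset.sum_congr rfl fun x _ => ?_
    simp only [Int.toNat_natCast]
    congr 2
    ring
  rw [Finset.sum_congr rfl h4, ← Finset.sum_div] at h3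
  simp only [Int.toNat_natCast] at h3
  rw [h1]
  refine h2.trans (le_of_eq ?_)
  field_simp at h3
  linarith

theorem kp_form (f : ℤ[X]) (p : ℕ) (φ ψ : ℕ → ℝ) :
    ∑ x ∈ range p, ∑ y ∈ range p, φ x * kp f p ((x : ℤ) - y) * ψ y =
      ∑ c ∈ Ico 1 p, (Gam f c p * (ht p φ c * (starRingEnd ℂ) (ht p ψ c))).re := by
  have h1 : ∀ c ∈ Ico 1 p, (Gam f c p * (ht p φ c * (starRingEnd ℂ) (ht p ψ c))).re =
      ∑ x ∈ range p, ∑ y ∈ range p,
        φ x * (Gam f c p * e (-((c : ℝ) * (((x : ℤ) - (y : ℤ) : ℤ) : ℝ) / (p : ℝ)))).re * ψ y := by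
    intro c _
    unfold ht
    rw [map_sum, Finset.sum_mul_sum, Finset.mul_sum, Complex.re_sum]
    refine Finset.sum_congr rfl fun x _ => ?_
    rw [Finset.mul_sum, Complex.re_sum]
    refine Finset.sum_congr rfl fun y _ => ?_
    rw [map_mul, Complex.conj_ofReal, conj_e]
    have h3 : -((c : ℝ) * (((x : ℤ) - (y : ℤ) : ℤ) : ℝ) / (p : ℝ)) =
        -((c : ℝ) * (x : ℝ) / (p : ℝ)) + -(-((c : ℝ) * (y : ℝ) / (p : ℝ))) := by
      push_cast; ring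
    rw [h3, e_add]
    have h4 : Gam f c p * ((φ x : ℂ) * e (-((c : ℝ) * (x : ℝ) / (p : ℝ))) *
        ((ψ y : ℂ) * e (-(-((c : ℝ) * (y : ℝ) / (p : ℝ)))))) =
        ((φ x * ψ y : ℝ) : ℂ) * (Gam f c p * (e (-((c : ℝ) * (x : ℝ) / (p : ℝ))) *
          e (-(-((c : ℝ) * (y : ℝ) / (p : ℝ)))))) := by
      push_cast; ring
    rw [h4, Complex.re_ofReal_mul]
    ring
  rw [Finset.sum_congr rfl h1]
  symm
  rw [Finset.sum_comm]
  refine Finset.sum_congr rfl fun x _ => ?_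
  rw [Finset.sum_comm]
  refine Finset.sum_congr rfl fun y _ => ?_
  rw [← Finset.sum_mul, ← Finset.mul_sum]
  rfl

theorem kp_op (f : ℤ[X]) (p : ℕ) (hp : 0 < p) (κ : ℝ) (hκ : 0 ≤ κ)
    (hG : ∀ c ∈ Ico 1 p, ‖Gam f c p‖ ≤ κ) (φ ψ : ℕ → ℝ) (a b : ℝ) :
    |∑ x ∈ range p, ∑ y ∈ range p, φ x * kp f p ((x : ℤ) - y) * ψ y| ≤
    κ * p * (Real.sqrt (∑ x ∈ range p, (φ x - a) ^ 2) *
      Real.sqrt (∑ y ∈ range p, (ψ y - b) ^ 2)) := by
  rw [kp_form]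
  have hp' : (0 : ℝ) ≤ p := by positivity
  calc |∑ c ∈ Ico 1 p, (Gam f c p * (ht p φ c * (starRingEnd ℂ) (ht p ψ c))).re|
      ≤ ∑ c ∈ Ico 1 p, |(Gam f c p * (ht p φ c * (starRingEnd ℂ) (ht p ψ c))).re| :=
        Finset.abs_sum_le_sum_abs _ _
    _ ≤ ∑ c ∈ Ico 1 p, κ * (‖ht p φ c‖ * ‖ht p ψ c‖) := by
        refine Finset.sum_le_sum fun c hc => (Complex.abs_re_le_norm _).trans ?_
        rw [norm_mul, norm_mul, RCLike.norm_conj]
        exact mul_le_mul_of_nonneg_right (hG c hc) (by positivity)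
    _ = κ * ∑ c ∈ Ico 1 p, ‖ht p φ c‖ * ‖ht p ψ c‖ := by rw [Finset.mul_sum]
    _ ≤ κ * (Real.sqrt (∑ c ∈ Ico 1 p, ‖ht p φ c‖ ^ 2) *
          Real.sqrt (∑ c ∈ Ico 1 p, ‖ht p ψ c‖ ^ 2)) :=
        mul_le_mul_of_nonneg_left (Real.sum_mul_le_sqrt_mul_sqrt _ _ _) hκ
    _ ≤ κ * (Real.sqrt (p * ∑ x ∈ range p, (φ x - a) ^ 2) *
          Real.sqrt (p * ∑ x ∈ range p, (ψ x - b) ^ 2)) := by
        gcongr
        · exact ht_energy p hp φ a
        · exact ht_energy p hp ψ b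
    _ = _ := by
        rw [Real.sqrt_mul hp', Real.sqrt_mul hp']
        have := Real.mul_self_sqrt hp'
        calc κ * (Real.sqrt p * Real.sqrt (∑ x ∈ range p, (φ x - a) ^ 2) *
              (Real.sqrt p * Real.sqrt (∑ x ∈ range p, (ψ x - b) ^ 2)))
            = κ * (Real.sqrt p * Real.sqrt p) * (Real.sqrt (∑ x ∈ range p, (φ x - a) ^ 2) *
              Real.sqrt (∑ x ∈ range p, (ψ x - b) ^ 2)) := by ring
          _ = _ := by rw [this]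

theorem kp_per (f : ℤ[X]) (p : ℕ) (hp : 0 < p) (t : ℤ) : kp f p (t + p) = kp f p t := by
  have hp' : (p : ℝ) ≠ 0 := by positivity
  unfold kp
  refine Finset.sum_congr rfl fun c _ => ?_
  congr 2
  have : -((c : ℝ) * ((t + (p : ℤ) : ℤ) : ℝ) / (p : ℝ)) =
      -((c : ℝ) * (t : ℝ) / (p : ℝ)) + ((-(c : ℤ) : ℤ) : ℝ) := by
    push_cast
    field_simp
    ring
  rw [this, e_add_int]

theorem kp_z1 (f : ℤ[X]) (p : ℕ) (hp : 0 < p) (n : ℤ) : ∑ y ∈ range p, kp f p (n - y) = 0 := by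
  unfold kp
  rw [Finset.sum_comm]
  apply Finset.sum_eq_zero
  intro c hc
  rw [← Complex.re_sum]
  have h1 : ∀ y ∈ range p, Gam f c p * e (-((c : ℝ) * ((n - (y : ℤ) : ℤ) : ℝ) / (p : ℝ))) =
      Gam f c p * e (-((c : ℝ) * (n : ℝ) / (p : ℝ))) *
        e (((c : ℤ) : ℝ) * ((y : ℝ) / (p : ℝ))) := by
    intro y _
    rw [mul_assoc, ← e_add]
    congr 2
    push_cast
    ring
  rw [Finset.sum_congr rfl h1, ← Finset.mul_sum, Vale.Agent.P042.SS.AN.orth p hp, if_neg, mul_zero]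
  · simp
  · rw [Finset.mem_Ico] at hc
    intro h2
    have h3 : p ∣ c := by exact_mod_cast h2
    have := Nat.le_of_dvd (by omega) h3
    omega

theorem kp_z2 (f : ℤ[X]) (p : ℕ) (hp : 0 < p) (m : ℤ) : ∑ x ∈ range p, kp f p (x - m) = 0 := by
  unfold kp
  rw [Finset.sum_comm]
  apply Finset.sum_eq_zero
  intro c hc
  rw [← Complex.re_sum]
  have h1 : ∀ x ∈ range p, Gam f c p * e (-((c : ℝ) * (((x : ℤ) - m : ℤ) : ℝ) / (p : ℝ))) =
      Gam f c p * e ((c : ℝ) * (m : ℝ) / (p : ℝ)) *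
        e (((-(c : ℤ) : ℤ) : ℝ) * ((x : ℝ) / (p : ℝ))) := by
    intro y _
    rw [mul_assoc, ← e_add]
    congr 2
    push_cast
    ring
  rw [Finset.sum_congr rfl h1, ← Finset.mul_sum, Vale.Agent.P042.SS.AN.orth p hp, if_neg, mul_zero]
  · simp
  · rw [Finset.mem_Ico] at hc
    intro h2
    rw [Int.dvd_neg] at h2
    have h3 : p ∣ c := by exact_mod_cast h2
    have := Nat.le_of_dvd (by omega) h3
    omega

theorem kp_Kr (f : ℤ[X]) (p : ℕ) (hp : 0 < p) (k κ : ℝ) (hκ : 0 ≤ κ)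
    (hG : ∀ c ∈ Ico 1 p, ‖Gam f c p‖ ≤ κ) (hk : ∀ t, |kp f p t| ≤ k) : Kr p k κ (kp f p) :=
  ⟨kp_per f p hp, kp_z1 f p hp, kp_z2 f p hp, hk, kp_op f p hp κ hκ hG⟩

end Vale.Agent.P042.UU
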