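import Vale.Agent.P042.UU.Kb5A

set_option autoImplicit false

/-!
Theorem S5, block KB5 (helper323), part B: averages of the kernel against the weight.
-/

namespace Vale.Agent.P042.UU

open Polynomial Finset Vale.Agent.P042.SS Vale.Agent.P042.TT

/-- the weight of one prime -/
structure Wt1 (p : ℕ) (β : ℝ) (w : ℤ → ℝ) : Prop where
  nn : ∀ n, 0 ≤ w n
  per : ∀ n, w (n + p) = w n
  mean : ∑ x ∈ range p, w x = p
  le : ∀ n, w n ≤ 1 + 2 * β

/-- average of the kernel -/
noncomputable def av (p : ℕ) (w K : ℤ → ℝ) (n : ℤ) : ℝ := (∑ y ∈ range p, w y * K (n - y)) / p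

theorem Wt1.sq {p : ℕ} {β : ℝ} {w : ℤ → ℝ} (h : Wt1 p β w) :
    ∑ x ∈ range p, (w x - 1) ^ 2 ≤ 2 * β * p := by
  have h1 : ∀ x ∈ range p, (w x - 1) ^ 2 ≤ (1 + 2 * β) * w x - 2 * w x + 1 := by
    intro x _
    nlinarith [h.nn x, h.le x]
  refine (Finset.sum_le_sum h1).trans (le_of_eq ?_)
  rw [Finset.sum_add_distrib, Finset.sum_sub_distrib, ← Finset.mul_sum, ← Finset.mul_sum, h.mean]
  simp
  ring

theorem Wt1.l1 {p : ℕ} {β : ℝ} {w : ℤ → ℝ} (h : Wt1 p β w) (hβ : 0 ≤ β) :
    ∑ x ∈ range p, |w x - 1| ≤ 4 * β * p := by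
  have h1 : ∀ x ∈ range p, |w x - 1| ≤ 4 * β - (w x - 1) := by
    intro x _
    have := h.le x
    rw [abs_le]
    constructor <;> linarith
  refine (Finset.sum_le_sum h1).trans (le_of_eq ?_)
  rw [Finset.sum_sub_distrib, Finset.sum_sub_distrib, h.mean]
  simp
  ring

section
variable {p : ℕ} {k κ β : ℝ} {K w : ℤ → ℝ}

theorem av_per (hK : Kr p k κ K) (n : ℤ) : av p w K (n + p) = av p w K n := by
  unfold av
  congr 1
  refine Finset.sum_congr rfl fun y _ => ?_
  rw [show n + (p : ℤ) - y = n - y + p by ring, hK.per]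

theorem av_le (hp : 0 < p) (hK : Kr p k κ K) (hw : Wt1 p β w) (hβ : 0 ≤ β) (n : ℤ) :
    |av p w K n| ≤ 4 * k * β := by
  have hp' : (0 : ℝ) < p := by exact_mod_cast hp
  have h1 : av p w K n = (∑ y ∈ range p, (w y - 1) * K (n - y)) / p := by
    unfold av
    congr 1
    have : ∀ y ∈ range p, (w y - 1) * K (n - y) = w y * K (n - y) - K (n - y) := fun y _ => by
      ring
    rw [Finset.sum_congr rfl this, Finset.sum_sub_distrib, hK.z1, sub_zero]
  rw [h1, abs_div, abs_of_pos hp', div_le_iff₀ hp']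
  have hk : 0 ≤ k := (abs_nonneg _).trans (hK.le 0)
  calc |∑ y ∈ range p, (w y - 1) * K (n - y)|
      ≤ ∑ y ∈ range p, |(w y - 1) * K (n - y)| := Finset.abs_sum_le_sum_abs _ _
    _ ≤ ∑ y ∈ range p, |w y - 1| * k := by
        refine Finset.sum_le_sum fun y _ => ?_
        rw [abs_mul]
        exact mul_le_mul_of_nonneg_left (hK.le _) (abs_nonneg _)
    _ = (∑ y ∈ range p, |w y - 1|) * k := by rw [Finset.sum_mul]
    _ ≤ (4 * β * p) * k := mul_le_mul_of_nonneg_right (hw.l1 hβ) hk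
    _ = _ := by ring

theorem av_sq (hp : 0 < p) (hκ : 0 ≤ κ) (hK : Kr p k κ K) (hw : Wt1 p β w) :
    ∑ n ∈ range p, (av p w K n) ^ 2 ≤ κ ^ 2 * (2 * β * p) := by
  have hp' : (0 : ℝ) < p := by exact_mod_cast hp
  set S : ℝ := ∑ n ∈ range p, (av p w K n) ^ 2 with hS
  set D : ℝ := ∑ x ∈ range p, (w x - 1) ^ 2 with hD
  have hS0 : 0 ≤ S := Finset.sum_nonneg fun _ _ => by positivity
  have hD0 : 0 ≤ D := Finset.sum_nonneg fun _ _ => by positivity
  have h1 : S * p = ∑ x ∈ range p, ∑ y ∈ range p, av p w K x * K ((x : ℤ) - y) * w y := by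
    rw [hS, Finset.sum_mul]
    refine Finset.sum_congr rfl fun x _ => ?_
    have h2 : ∀ y ∈ range p, av p w K x * K ((x : ℤ) - y) * w y =
        av p w K x * (w y * K ((x : ℤ) - y)) := fun y _ => by ring
    rw [Finset.sum_congr rfl h2, ← Finset.mul_sum]
    have h3 : ∑ y ∈ range p, w y * K ((x : ℤ) - y) = av p w K x * p := by
      unfold av
      field_simp
    rw [h3]
    ring
  have h2 := hK.op (fun x => av p w K x) (fun y => w y) 0 1
  simp only [sub_zero] at h2
  rw [← h1, ← hS, ← hD, abs_of_nonneg (by positivity)] at h2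
  have h3 : Real.sqrt S * Real.sqrt S = S := Real.mul_self_sqrt hS0
  have h4 : Real.sqrt D * Real.sqrt D = D := Real.mul_self_sqrt hD0
  have h5 : S ≤ κ * (Real.sqrt S * Real.sqrt D) := by
    have : S * p ≤ (κ * (Real.sqrt S * Real.sqrt D)) * p := by
      refine h2.trans (le_of_eq ?_)
      ring
    exact le_of_mul_le_mul_right this hp'
  have h6 : S ≤ κ ^ 2 * D := by
    rcases hS0.eq_or_lt with h | h
    · rw [← h]; positivity
    · have h7 : 0 < Real.sqrt S := Real.sqrt_pos.2 h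
      have h8 : Real.sqrt S ≤ κ * Real.sqrt D := by
        have : Real.sqrt S * Real.sqrt S ≤ (κ * Real.sqrt D) * Real.sqrt S := by
          rw [h3]
          refine h5.trans (le_of_eq ?_)
          ring
        exact le_of_mul_le_mul_right this h7
      calc S = Real.sqrt S * Real.sqrt S := h3.symm
        _ ≤ (κ * Real.sqrt D) * (κ * Real.sqrt D) :=
          mul_le_mul h8 h8 (Real.sqrt_nonneg _) (by positivity)
        _ = κ ^ 2 * (Real.sqrt D * Real.sqrt D) := by ring
        _ = _ := by rw [h4]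
  exact h6.trans (mul_le_mul_of_nonneg_left hw.sq (by positivity))

theorem av_c (hp : 0 < p) (hκ : 0 ≤ κ) (hK : Kr p k κ K) (hw : Wt1 p β w) :
    |(∑ x ∈ range p, w x * av p w K x) / p| ≤ 2 * β * κ := by
  have hp' : (0 : ℝ) < p := by exact_mod_cast hp
  set D : ℝ := ∑ x ∈ range p, (w x - 1) ^ 2 with hD
  have hD0 : 0 ≤ D := Finset.sum_nonneg fun _ _ => by positivity
  have h1 : (∑ x ∈ range p, w x * av p w K x) / p =
      (∑ x ∈ range p, ∑ y ∈ range p, w x * K ((x : ℤ) - y) * w y) / (p * p) := by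
    unfold av
    rw [← div_div]
    congr 1
    rw [Finset.sum_div]
    refine Finset.sum_congr rfl fun x _ => ?_
    rw [← mul_div_assoc, Finset.mul_sum]
    congr 1
    refine Finset.sum_congr rfl fun y _ => ?_
    ring
  have h2 := hK.op (fun x => w x) (fun y => w y) 1 1
  rw [← hD, Real.mul_self_sqrt hD0] at h2
  rw [h1, abs_div, abs_of_pos (by positivity : (0 : ℝ) < p * p), div_le_iff₀ (by positivity)]
  calc |∑ x ∈ range p, ∑ y ∈ range p, w x * K ((x : ℤ) - y) * w y| ≤ κ * p * D := h2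
    _ ≤ κ * p * (2 * β * p) := mul_le_mul_of_nonneg_left hw.sq (by positivity)
    _ = _ := by ring

/-- the other average has the same mean -/
theorem av_rev_mean : ∑ x ∈ range p, w x * av p w (fun t => K (-t)) x =
    ∑ x ∈ range p, w x * av p w K x := by
  unfold av
  have h1 : ∀ K' : ℤ → ℝ, ∑ x ∈ range p, w x * ((∑ y ∈ range p, w y * K' ((x : ℤ) - y)) / p) =
      (∑ x ∈ range p, ∑ y ∈ range p, w x * (w y * K' ((x : ℤ) - y))) / p := by
    intro K'
    rw [Finset.sum_div]
    refine Finset.sum_congr rfl fun x _ => ?_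
    rw [← mul_div_assoc, Finset.mul_sum]
  rw [h1, h1 (fun t => K (-t)), Finset.sum_comm]
  congr 1
  refine Finset.sum_congr rfl fun x _ => Finset.sum_congr rfl fun y _ => ?_
  rw [show -((y : ℤ) - x) = (x : ℤ) - y by ring]
  ring

end

end Vale.Agent.P042.UU
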