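import Vale.Agent.P042.UU.Kb5B

set_option autoImplicit false

/-!
Theorem S5, block KB5 (helper323), part C: the doubly centred part of the kernel.
-/

namespace Vale.Agent.P042.UU

open Polynomial Finset Vale.Agent.P042.SS Vale.Agent.P042.TT

/-- weighted `L^2` norm -/
noncomputable def nrm (p : ℕ) (w : ℤ → ℝ) (φ : ℕ → ℝ) : ℝ :=
  Real.sqrt (∑ x ∈ range p, w x / p * φ x ^ 2)

/-- mean of the kernel -/
noncomputable def cA (p : ℕ) (w K : ℤ → ℝ) : ℝ := (∑ x ∈ range p, w x * av p w K x) / p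

/-- centred average -/
noncomputable def tA (p : ℕ) (w K : ℤ → ℝ) (n : ℤ) : ℝ := (av p w K n - cA p w K) / (1 + cA p w K)

theorem nrm_nonneg (p : ℕ) (w : ℤ → ℝ) (φ : ℕ → ℝ) : 0 ≤ nrm p w φ := Real.sqrt_nonneg _

section
variable {p : ℕ} {k κ β : ℝ} {K w : ℤ → ℝ}

theorem rank_one (hp : 0 < p) (hw : Wt1 p β w) (a b φ ψ : ℕ → ℝ) :
    |∑ x ∈ range p, ∑ y ∈ range p, (w x / p) * (w y / p) * (φ x * (a x * b y) * ψ y)| ≤
      (nrm p w a * nrm p w b) * (nrm p w φ * nrm p w ψ) := by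
  have hp' : (0 : ℝ) < p := by exact_mod_cast hp
  have cs : ∀ u v : ℕ → ℝ, |∑ x ∈ range p, (w x / p) * (u x * v x)| ≤ nrm p w u * nrm p w v := by
    intro u v
    have h1 : ∑ x ∈ range p, (w x / p) * (u x * v x) =
        ∑ x ∈ range p, (Real.sqrt (w x / p) * u x) * (Real.sqrt (w x / p) * v x) := by
      refine Finset.sum_congr rfl fun x _ => ?_
      have : Real.sqrt (w x / p) * Real.sqrt (w x / p) = w x / p :=
        Real.mul_self_sqrt (div_nonneg (hw.nn x) hp'.le)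
      calc w x / p * (u x * v x) = (Real.sqrt (w x / p) * Real.sqrt (w x / p)) * (u x * v x) := by
            rw [this]
        _ = _ := by ring
    have h2 : ∀ u : ℕ → ℝ, ∑ x ∈ range p, (Real.sqrt (w x / p) * u x) ^ 2 =
        ∑ x ∈ range p, w x / p * u x ^ 2 := by
      intro u
      refine Finset.sum_congr rfl fun x _ => ?_
      rw [mul_pow, Real.sq_sqrt (div_nonneg (hw.nn x) hp'.le)]
    rw [h1, abs_le]
    have h3 := Real.sum_mul_le_sqrt_mul_sqrt (range p) (fun x : ℕ => Real.sqrt (w x / p) * u x)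
      (fun x : ℕ => Real.sqrt (w x / p) * v x)
    have h4 := Real.sum_mul_le_sqrt_mul_sqrt (range p)
      (fun x : ℕ => -(Real.sqrt (w x / p) * u x)) (fun x : ℕ => Real.sqrt (w x / p) * v x)
    simp only [neg_sq] at h4
    rw [h2, h2] at h3 h4
    have h5 : ∑ i ∈ range p, -(Real.sqrt (w i / p) * u i) * (Real.sqrt (w i / p) * v i) =
        - ∑ i ∈ range p, (Real.sqrt (w i / p) * u i) * (Real.sqrt (w i / p) * v i) := by
      rw [← Finset.sum_neg_distrib]
      exact Finset.sum_congr rfl fun x _ => by ring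
    rw [h5] at h4
    unfold nrm
    constructor
    · linarith
    · exact h3
  have h1 : ∑ x ∈ range p, ∑ y ∈ range p, (w x / p) * (w y / p) * (φ x * (a x * b y) * ψ y) =
      (∑ x ∈ range p, (w x / p) * (a x * φ x)) * (∑ y ∈ range p, (w y / p) * (b y * ψ y)) := by
    rw [Finset.sum_mul_sum]
    exact Finset.sum_congr rfl fun x _ => Finset.sum_congr rfl fun y _ => by ring
  rw [h1, abs_mul]
  calc |∑ x ∈ range p, (w x / p) * (a x * φ x)| * |∑ y ∈ range p, (w y / p) * (b y * ψ y)|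
      ≤ (nrm p w a * nrm p w φ) * (nrm p w b * nrm p w ψ) :=
        mul_le_mul (cs a φ) (cs b ψ) (abs_nonneg _)
          (mul_nonneg (nrm_nonneg _ _ _) (nrm_nonneg _ _ _))
    _ = _ := by ring

theorem nrm_one (hp : 0 < p) (hw : Wt1 p β w) : nrm p w (fun _ => 1) = 1 := by
  have hp' : (p : ℝ) ≠ 0 := by positivity
  unfold nrm
  have : ∑ x ∈ range p, w x / p * (1 : ℝ) ^ 2 = 1 := by
    simp only [one_pow, mul_one]
    rw [← Finset.sum_div, hw.mean, div_self hp']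
  rw [this, Real.sqrt_one]

theorem nrm_le (hp : 0 < p) (hw : Wt1 p β w) (hβ1 : β ≤ 1) (φ : ℕ → ℝ) (C : ℝ)
    (hC : 0 ≤ C) (h : 3 * ∑ x ∈ range p, φ x ^ 2 ≤ C ^ 2 * p) : nrm p w φ ≤ C := by
  have hp' : (0 : ℝ) < p := by exact_mod_cast hp
  unfold nrm
  rw [Real.sqrt_le_left hC]
  calc ∑ x ∈ range p, w x / p * φ x ^ 2 ≤ ∑ x ∈ range p, 3 / p * φ x ^ 2 := by
        refine Finset.sum_le_sum fun x _ => ?_
        refine mul_le_mul_of_nonneg_right ?_ (sq_nonneg _)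
        rw [div_le_div_iff_of_pos_right hp']
        linarith [hw.le x]
    _ = (3 * ∑ x ∈ range p, φ x ^ 2) / p := by
        rw [← Finset.mul_sum]
        ring
    _ ≤ C ^ 2 := by
        rw [div_le_iff₀ hp']
        exact h

theorem op_w (hp : 0 < p) (hκ : 0 ≤ κ) (hK : Kr p k κ K) (hw : Wt1 p β w) (hβ0 : 0 ≤ β)
    (φ ψ : ℕ → ℝ) :
    |∑ x ∈ range p, ∑ y ∈ range p, (w x / p) * (w y / p) * (φ x * K ((x : ℤ) - y) * ψ y)| ≤
      κ * (1 + 2 * β) * (nrm p w φ * nrm p w ψ) := by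
  have hp' : (0 : ℝ) < p := by exact_mod_cast hp
  have h1 := hK.op (fun x => w x / p * φ x) (fun y => w y / p * ψ y) 0 0
  simp only [sub_zero] at h1
  have h2 : ∑ x ∈ range p, ∑ y ∈ range p, (w x / p) * (w y / p) * (φ x * K ((x : ℤ) - y) * ψ y) =
      ∑ x ∈ range p, ∑ y ∈ range p, w x / p * φ x * K ((x : ℤ) - y) * (w y / p * ψ y) :=
    Finset.sum_congr rfl fun x _ => Finset.sum_congr rfl fun y _ => by ring
  rw [h2]
  have h3 : ∀ u : ℕ → ℝ, Real.sqrt (∑ x ∈ range p, (w x / p * u x) ^ 2) ≤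
      Real.sqrt ((1 + 2 * β) / p) * nrm p w u := by
    intro u
    unfold nrm
    rw [← Real.sqrt_mul (by positivity)]
    apply Real.sqrt_le_sqrt
    rw [Finset.mul_sum]
    refine Finset.sum_le_sum fun x _ => ?_
    have : w x / p ≤ (1 + 2 * β) / p := by
      rw [div_le_div_iff_of_pos_right hp']
      exact hw.le x
    have h0 : 0 ≤ w x / p := div_nonneg (hw.nn x) hp'.le
    calc (w x / p * u x) ^ 2 = (w x / p) * (w x / p * u x ^ 2) := by ring
      _ ≤ _ := mul_le_mul_of_nonneg_right this (mul_nonneg h0 (sq_nonneg _))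
  refine h1.trans ?_
  have h4 : Real.sqrt ((1 + 2 * β) / p) * Real.sqrt ((1 + 2 * β) / p) = (1 + 2 * β) / p :=
    Real.mul_self_sqrt (by positivity)
  calc κ * p * (Real.sqrt (∑ x ∈ range p, (w x / p * φ x) ^ 2) *
        Real.sqrt (∑ y ∈ range p, (w y / p * ψ y) ^ 2))
      ≤ κ * p * ((Real.sqrt ((1 + 2 * β) / p) * nrm p w φ) *
        (Real.sqrt ((1 + 2 * β) / p) * nrm p w ψ)) := by
        refine mul_le_mul_of_nonneg_left ?_ (by positivity)
        exact mul_le_mul (h3 φ) (h3 ψ) (Real.sqrt_nonneg _)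
          (mul_nonneg (Real.sqrt_nonneg _) (nrm_nonneg _ _ _))
    _ = κ * p * (Real.sqrt ((1 + 2 * β) / p) * Real.sqrt ((1 + 2 * β) / p)) *
        (nrm p w φ * nrm p w ψ) := by ring
    _ = _ := by
        rw [h4]
        field_simp

theorem cA_rev : cA p w (fun t => K (-t)) = cA p w K := by
  unfold cA
  rw [av_rev_mean]

theorem cA_le (hp : 0 < p) (hκ : 0 ≤ κ) (hK : Kr p k κ K) (hw : Wt1 p β w) :
    |cA p w K| ≤ 2 * β * κ := av_c hp hκ hK hw

theorem tA_per (hK : Kr p k κ K) (n : ℤ) : tA p w K (n + p) = tA p w K n := by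
  unfold tA
  rw [av_per hK]

theorem tA_mul (h : |cA p w K| ≤ 1 / 2) (n : ℤ) :
    (1 + cA p w K) * (1 + tA p w K n) = 1 + av p w K n := by
  unfold tA
  have : 1 + cA p w K ≠ 0 := by
    have := (abs_le.1 h).1
    linarith
  field_simp
  ring

theorem tA_cen (hp : 0 < p) (hw : Wt1 p β w) : ∑ z ∈ range p, w z * tA p w K z = 0 := by
  have hp' : (p : ℝ) ≠ 0 := by positivity
  unfold tA
  have h1 : ∀ z ∈ range p, w z * ((av p w K z - cA p w K) / (1 + cA p w K)) =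
      (w z * av p w K z - w z * cA p w K) / (1 + cA p w K) := fun z _ => by ring
  rw [Finset.sum_congr rfl h1, ← Finset.sum_div, Finset.sum_sub_distrib, ← Finset.sum_mul, hw.mean]
  have h2 : ∑ z ∈ range p, w z * av p w K z = p * cA p w K := by
    unfold cA
    field_simp
  rw [h2, sub_self, zero_div]

theorem tA_abs (h : |cA p w K| ≤ 1 / 2) (n : ℤ) :
    |tA p w K n| ≤ 2 * (|av p w K n| + |cA p w K|) := by
  unfold tA
  have h1 : (1 : ℝ) / 2 ≤ 1 + cA p w K := by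
    have := (abs_le.1 h).1
    linarith
  rw [abs_div, abs_of_pos (by linarith : 0 < 1 + cA p w K), div_le_iff₀ (by linarith)]
  have h2 : |av p w K n - cA p w K| ≤ |av p w K n| + |cA p w K| := abs_sub _ _
  have h3 : 0 ≤ |av p w K n| + |cA p w K| := by positivity
  nlinarith

theorem tA_le (hp : 0 < p) (hκ : 0 ≤ κ) (hκk : κ ≤ k) (hβ0 : 0 ≤ β) (hK : Kr p k κ K)
    (hw : Wt1 p β w) (h : |cA p w K| ≤ 1 / 2) (n : ℤ) : |tA p w K n| ≤ 12 * k * β := by
  have h1 := tA_abs h n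
  have h2 := av_le hp hK hw hβ0 n
  have h3 := cA_le hp hκ hK hw
  have h4 : 2 * β * κ ≤ 2 * β * k := mul_le_mul_of_nonneg_left hκk (by positivity)
  linarith

theorem tA_sq (hp : 0 < p) (hκ : 0 ≤ κ) (hβ0 : 0 ≤ β) (hβ1 : β ≤ 1)
    (hK : Kr p k κ K) (hw : Wt1 p β w) (h : |cA p w K| ≤ 1 / 2) :
    ∑ z ∈ range p, (tA p w K z) ^ 2 ≤ 48 * κ ^ 2 * β * p := by
  have hp' : (0 : ℝ) < p := by exact_mod_cast hp
  have h1 : ∀ z ∈ range p, (tA p w K z) ^ 2 ≤ 8 * (av p w K z) ^ 2 + 8 * (cA p w K) ^ 2 := by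
    intro z _
    have h2 := tA_abs h z
    have h3 : (tA p w K z) ^ 2 ≤ (2 * (|av p w K z| + |cA p w K|)) ^ 2 := by
      rw [← sq_abs (tA p w K z)]
      exact pow_le_pow_left₀ (abs_nonneg _) h2 2
    have h4 := sq_abs (av p w K z)
    have h5 := sq_abs (cA p w K)
    nlinarith [sq_nonneg (|av p w K z| - |cA p w K|)]
  refine (Finset.sum_le_sum h1).trans ?_
  rw [Finset.sum_add_distrib, ← Finset.mul_sum]
  simp only [Finset.sum_const, Finset.card_range, nsmul_eq_mul]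
  have h2 := av_sq hp hκ hK hw
  have h3 : (cA p w K) ^ 2 ≤ (2 * β * κ) ^ 2 := by
    rw [← sq_abs (cA p w K)]
    exact pow_le_pow_left₀ (abs_nonneg _) (cA_le hp hκ hK hw) 2
  have h4 : (2 * β * κ) ^ 2 ≤ 4 * κ ^ 2 * β := by
    have : β ^ 2 ≤ β := by nlinarith
    nlinarith [sq_nonneg κ, mul_nonneg (sq_nonneg κ) hβ0]
  have h5 : (p : ℝ) * (8 * (cA p w K) ^ 2) ≤ p * (8 * (4 * κ ^ 2 * β)) := by
    refine mul_le_mul_of_nonneg_left ?_ hp'.le
    linarith
  nlinarith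

/-- the doubly centred part -/
theorem Z_norm (hp : 0 < p) (hκ : 0 ≤ κ) (hκk : κ ≤ k) (hk1 : 1 ≤ k) (hβ0 : 0 ≤ β) (hβ1 : β ≤ 1)
    (hK : Kr p k κ K) (hw : Wt1 p β w) (h : |cA p w K| ≤ 1 / 2) (φ ψ : ℕ → ℝ) :
    |∑ x ∈ range p, ∑ y ∈ range p, (w x / p) * (w y / p) * (φ x * (K ((x : ℤ) - y) -
      ((1 + cA p w K) * (1 + tA p w K x) * (1 + tA p w (fun t => K (-t)) y) - 1)) * ψ y)| ≤
      54 * k * κ * (nrm p w φ * nrm p w ψ) := by
  have hp' : (0 : ℝ) < p := by exact_mod_cast hp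
  have h' : |cA p w (fun t => K (-t))| ≤ 1 / 2 := by rw [cA_rev]; exact h
  set A : ℕ → ℝ := fun x => av p w K x with hA
  set B : ℕ → ℝ := fun y => tA p w (fun t => K (-t)) y with hB
  have h1 : ∑ x ∈ range p, ∑ y ∈ range p, (w x / p) * (w y / p) * (φ x * (K ((x : ℤ) - y) -
      ((1 + cA p w K) * (1 + tA p w K x) * (1 + tA p w (fun t => K (-t)) y) - 1)) * ψ y) =
      ∑ x ∈ range p, ∑ y ∈ range p, (w x / p) * (w y / p) * (φ x * K ((x : ℤ) - y) * ψ y) -
      ∑ x ∈ range p, ∑ y ∈ range p, (w x / p) * (w y / p) * (φ x * (A x * 1) * ψ y) -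
      ∑ x ∈ range p, ∑ y ∈ range p, (w x / p) * (w y / p) * (φ x * (1 * B y) * ψ y) -
      ∑ x ∈ range p, ∑ y ∈ range p, (w x / p) * (w y / p) * (φ x * (A x * B y) * ψ y) := by
    rw [← Finset.sum_sub_distrib, ← Finset.sum_sub_distrib, ← Finset.sum_sub_distrib]
    refine Finset.sum_congr rfl fun x _ => ?_
    rw [← Finset.sum_sub_distrib, ← Finset.sum_sub_distrib, ← Finset.sum_sub_distrib]
    refine Finset.sum_congr rfl fun y _ => ?_
    rw [tA_mul h]
    simp only [hA, hB]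
    ring
  have n0 : 0 ≤ nrm p w φ * nrm p w ψ := mul_nonneg (nrm_nonneg _ _ _) (nrm_nonneg _ _ _)
  have g1 := op_w hp hκ hK hw hβ0 φ ψ
  have g2 := rank_one hp hw A (fun _ => 1) φ ψ
  have g3 := rank_one hp hw (fun _ => 1) B φ ψ
  have g4 := rank_one hp hw A B φ ψ
  rw [nrm_one hp hw] at g2 g3
  have nA : nrm p w A ≤ 3 * κ := by
    apply nrm_le hp hw hβ1 A _ (by positivity)
    have := av_sq hp hκ hK hw
    have h2 : κ ^ 2 * (2 * β * p) ≤ κ ^ 2 * (2 * 1 * p) := by gcongr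
    calc 3 * ∑ x ∈ range p, A x ^ 2 ≤ 3 * (κ ^ 2 * (2 * 1 * p)) := by
          have h3 : ∑ x ∈ range p, A x ^ 2 = ∑ n ∈ range p, (av p w K n) ^ 2 := rfl
          rw [h3]; linarith
      _ ≤ (3 * κ) ^ 2 * p := by nlinarith [mul_nonneg (sq_nonneg κ) hp'.le]
  have nB : nrm p w B ≤ 12 * κ := by
    apply nrm_le hp hw hβ1 B _ (by positivity)
    have := tA_sq hp hκ hβ0 hβ1 hK.rev hw h'
    have h2 : 48 * κ ^ 2 * β * p ≤ 48 * κ ^ 2 * 1 * p := by gcongr
    calc 3 * ∑ x ∈ range p, B x ^ 2 ≤ 3 * (48 * κ ^ 2 * 1 * p) := by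
          have h3 : ∑ x ∈ range p, B x ^ 2 =
            ∑ n ∈ range p, (tA p w (fun t => K (-t)) n) ^ 2 := rfl
          rw [h3]; linarith
      _ = (12 * κ) ^ 2 * p := by ring
  have nA0 := nrm_nonneg p w A
  have nB0 := nrm_nonneg p w B
  rw [h1]
  set N : ℝ := nrm p w φ * nrm p w ψ with hN
  have e1 : κ * (1 + 2 * β) * N ≤ κ * 3 * N := by
    have : 1 + 2 * β ≤ 3 := by linarith
    gcongr
  have e2 : nrm p w A * 1 * N ≤ 3 * κ * N := by
    rw [mul_one]; exact mul_le_mul_of_nonneg_right nA n0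
  have e3 : 1 * nrm p w B * N ≤ 12 * κ * N := by
    rw [one_mul]; exact mul_le_mul_of_nonneg_right nB n0
  have e4 : nrm p w A * nrm p w B * N ≤ (3 * κ) * (12 * κ) * N :=
    mul_le_mul_of_nonneg_right (mul_le_mul nA nB nB0 (by positivity)) n0
  have e5 : (3 * κ) * (12 * κ) * N ≤ 36 * k * κ * N := by
    have : (3 * κ) * (12 * κ) ≤ 36 * k * κ := by nlinarith
    exact mul_le_mul_of_nonneg_right this n0
  have e6 : 18 * κ * N ≤ 18 * k * κ * N := by
    have : 18 * κ ≤ 18 * k * κ := by nlinarith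
    exact mul_le_mul_of_nonneg_right this n0
  have g1' := abs_le.1 (g1.trans e1)
  have g2' := abs_le.1 (g2.trans e2)
  have g3' := abs_le.1 (g3.trans e3)
  have g4' := abs_le.1 ((g4.trans e4).trans e5)
  rw [abs_le]
  constructor
  · linarith [g1'.1, g2'.2, g3'.2, g4'.2]
  · linarith [g1'.2, g2'.1, g3'.1, g4'.1]

theorem Z_cen1 (hp : 0 < p) (hw : Wt1 p β w) (h : |cA p w K| ≤ 1 / 2)
    (m : ℤ) : ∑ x ∈ range p, w x * (K ((x : ℤ) - m) -
      ((1 + cA p w K) * (1 + tA p w K x) * (1 + tA p w (fun t => K (-t)) m) - 1)) = 0 := by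
  have hp' : (p : ℝ) ≠ 0 := by positivity
  have h' : |cA p w (fun t => K (-t))| ≤ 1 / 2 := by rw [cA_rev]; exact h
  set B : ℝ := tA p w (fun t => K (-t)) m with hB
  have h1 : ∀ x ∈ range p, w x * (K ((x : ℤ) - m) -
      ((1 + cA p w K) * (1 + tA p w K x) * (1 + B) - 1)) =
      w x * K ((x : ℤ) - m) - ((1 + B) * w x + (1 + B) * (w x * av p w K x) - w x) := by
    intro x _
    rw [tA_mul h]
    ring
  rw [Finset.sum_congr rfl h1, Finset.sum_sub_distrib, Finset.sum_sub_distrib,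
    Finset.sum_add_distrib, ← Finset.mul_sum, ← Finset.mul_sum, hw.mean]
  have h2 : ∑ x ∈ range p, w x * K ((x : ℤ) - m) = p * av p w (fun t => K (-t)) m := by
    unfold av
    field_simp
    refine Finset.sum_congr rfl fun x _ => ?_
    rw [show -(m - (x : ℤ)) = (x : ℤ) - m by ring]
  have h3 : ∑ x ∈ range p, w x * av p w K x = p * cA p w K := by
    unfold cA
    field_simp
  have h4 := tA_mul h' m
  rw [cA_rev, ← hB] at h4
  rw [h2, h3]
  linear_combination (-(p : ℝ)) * h4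

theorem Z_cen2 (hp : 0 < p) (hw : Wt1 p β w) (h : |cA p w K| ≤ 1 / 2)
    (n : ℤ) : ∑ y ∈ range p, w y * (K (n - (y : ℤ)) -
      ((1 + cA p w K) * (1 + tA p w K n) * (1 + tA p w (fun t => K (-t)) y) - 1)) = 0 := by
  have hp' : (p : ℝ) ≠ 0 := by positivity
  have h1 : ∀ y ∈ range p, w y * (K (n - (y : ℤ)) -
      ((1 + cA p w K) * (1 + tA p w K n) * (1 + tA p w (fun t => K (-t)) y) - 1)) =
      w y * K (n - (y : ℤ)) - ((1 + av p w K n) * w y +
        (1 + av p w K n) * (w y * tA p w (fun t => K (-t)) y) - w y) := by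
    intro y _
    rw [tA_mul h]
    ring
  rw [Finset.sum_congr rfl h1, Finset.sum_sub_distrib, Finset.sum_sub_distrib,
    Finset.sum_add_distrib, ← Finset.mul_sum, ← Finset.mul_sum, hw.mean, tA_cen hp hw]
  have h2 : ∑ y ∈ range p, w y * K (n - (y : ℤ)) = p * av p w K n := by
    unfold av
    field_simp
  rw [h2]
  ring

end

end Vale.Agent.P042.UU
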