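import Vale.Agent.P042.TT.Loc

set_option autoImplicit false
set_option linter.unusedSectionVars false

/-!
Truncated global hypercontractivity, part A: components and degree truncation.
-/

namespace Vale.Agent.P042.UU.Loc

open Finset Vale.Agent.P042.TT.Loc

variable {ι : Type} [Fintype ι] [DecidableEq ι]
variable {X : ι → Type} [∀ i, Fintype (X i)] [∀ i, DecidableEq (X i)]

/-- kernel of the component on `W` -/
noncomputable def kW (π : ∀ i, X i → ℝ) (W : Finset ι) (i : ι) (z x : X i) : ℝ :=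
  if i ∈ W then dl π i z x else π i x

/-- component on `W` -/
noncomputable def cW (π : ∀ i, X i → ℝ) (W : Finset ι) (F : (∀ i, X i) → ℝ) : (∀ i, X i) → ℝ :=
  ten (kW π W) F

/-- truncation at degree `k` -/
noncomputable def tr (π : ∀ i, X i → ℝ) (k : ℕ) (F : (∀ i, X i) → ℝ) (x : ∀ i, X i) : ℝ :=
  ∑ W ∈ univ.filter (fun W : Finset ι => W.card ≤ k), cW π W F x

theorem ten_sum {Y : ι → Type} (k : ∀ i, Y i → X i → ℝ) {α : Type} (s : Finset α)
    (F : α → (∀ i, X i) → ℝ) (y : ∀ i, Y i) :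
    ten k (fun x => ∑ j ∈ s, F j x) y = ∑ j ∈ s, ten k (F j) y := by
  unfold ten
  simp only [mul_sum]
  rw [sum_comm]

theorem ten_zero' {Y : ι → Type} (k : ∀ i, Y i → X i → ℝ) (F : (∀ i, X i) → ℝ) (y : ∀ i, Y i)
    (i : ι) (h : ∀ x, k i (y i) x = 0) : ten k F y = 0 := by
  unfold ten
  refine sum_eq_zero fun x _ => ?_
  rw [prod_eq_zero (mem_univ i) (h (x i)), zero_mul]

theorem ten_congr' {Y : ι → Type} (k k' : ∀ i, Y i → X i → ℝ) (F : (∀ i, X i) → ℝ)
    (y : ∀ i, Y i) (h : ∀ i x, k i (y i) x = k' i (y i) x) : ten k F y = ten k' F y := by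
  unfold ten
  refine sum_congr rfl fun x _ => ?_
  congr 1
  exact prod_congr rfl fun i _ => h i (x i)

section
variable (π : ∀ i, X i → ℝ) (hπ1 : ∀ i, ∑ x, π i x = 1)

include hπ1 in
theorem sum_dl_row (i : ι) (z : X i) : ∑ x, dl π i z x = 0 := by
  unfold dl
  rw [sum_sub_distrib, hπ1]
  simp

include hπ1 in
theorem kW_kW (W W' : Finset ι) (i : ι) (z u : X i) :
    ∑ x, kW π W i z x * kW π W' i x u =
      if i ∈ W then (if i ∈ W' then dl π i z u else 0) else (if i ∈ W' then 0 else π i u) := by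
  by_cases h : i ∈ W <;> by_cases h' : i ∈ W'
  · simp only [kW, h, h', if_true]
    have e := sum_dl_mul (π i) (fun x => dl π i x u) z
    have e2 : ∑ x, dl π i z x * dl π i x u = ∑ y', ((if z = y' then 1 else 0) - π i y') *
      (fun x => dl π i x u) y' := rfl
    rw [e2, e, sum_dl π hπ1]
    ring
  · simp only [kW, h, h', if_true, if_false]
    rw [← sum_mul, sum_dl_row π hπ1]
    ring
  · simp only [kW, h, h', if_true, if_false]
    exact sum_dl π hπ1 i u
  · simp only [kW, h, h', if_false]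
    rw [← sum_mul, hπ1]
    ring

include hπ1 in
theorem cW_cW (W W' : Finset ι) (F : (∀ i, X i) → ℝ) (y : ∀ i, X i) :
    cW π W (cW π W' F) y = if W = W' then cW π W F y else 0 := by
  unfold cW
  rw [ten_ten]
  by_cases h : W = W'
  · subst h
    rw [if_pos rfl]
    apply ten_congr'
    intro i x
    rw [kW_kW π hπ1]
    unfold kW
    by_cases h : i ∈ W <;> simp [h]
  · rw [if_neg h]
    have : ∃ i, ¬ (i ∈ W ↔ i ∈ W') := by
      by_contra hc
      push Not at hc
      exact h (Finset.ext hc)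
    obtain ⟨i, hi⟩ := this
    apply ten_zero' _ _ _ i
    intro x
    rw [kW_kW π hπ1]
    by_cases h1 : i ∈ W
    · have h2 : i ∉ W' := fun h2 => hi ⟨fun _ => h2, fun _ => h1⟩
      simp [h1, h2]
    · have h2 : i ∈ W' := by
        by_contra h2
        exact hi ⟨fun h => absurd h h1, fun h => absurd h h2⟩
      simp [h1, h2]

include hπ1 in
theorem cW_tr (W : Finset ι) (k : ℕ) (F : (∀ i, X i) → ℝ) (y : ∀ i, X i) :
    cW π W (tr π k F) y = if W.card ≤ k then cW π W F y else 0 := by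
  have h1 : cW π W (tr π k F) y =
      ∑ W' ∈ univ.filter (fun W : Finset ι => W.card ≤ k), cW π W (cW π W' F) y := by
    unfold cW
    exact ten_sum (kW π W) _ (fun W' => ten (kW π W') F) y
  rw [h1]
  simp only [cW_cW π hπ1]
  rw [sum_ite_eq]
  simp

include hπ1 in
theorem nW_eq (W : Finset ι) (F : (∀ i, X i) → ℝ) :
    nW π W F = ex π (fun y => cW π W F y * cW π W F y) := by
  unfold cW
  rw [ex_ten_mul]
  unfold nW
  congr 1
  funext i x x'
  by_cases hi : i ∈ W
  · simp only [hi, if_true, kW]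
    exact (sum_vk π hπ1 i x x').symm
  · simp only [hi, if_false, kW]
    rw [← sum_mul, hπ1, one_mul]

theorem cW_congr_nW (hπ1 : ∀ i, ∑ x, π i x = 1) (W : Finset ι) (F G : (∀ i, X i) → ℝ)
    (h : ∀ y, cW π W F y = cW π W G y) : nW π W F = nW π W G := by
  rw [nW_eq π hπ1, nW_eq π hπ1]
  simp only [h]

include hπ1 in
theorem nW_zero (W : Finset ι) (F : (∀ i, X i) → ℝ) (h : ∀ y, cW π W F y = 0) :
    nW π W F = 0 := by
  rw [nW_eq π hπ1]
  simp only [h]
  unfold ex
  simp

include hπ1 in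
theorem nW_tr (W : Finset ι) (k : ℕ) (F : (∀ i, X i) → ℝ) :
    nW π W (tr π k F) = if W.card ≤ k then nW π W F else 0 := by
  by_cases h : W.card ≤ k
  · rw [if_pos h]
    apply cW_congr_nW π hπ1
    intro y
    rw [cW_tr π hπ1, if_pos h]
  · rw [if_neg h]
    apply nW_zero π hπ1
    intro y
    rw [cW_tr π hπ1, if_neg h]

include hπ1 in
theorem en_tr (r : ι → ℝ) (k : ℕ) (F : (∀ i, X i) → ℝ) :
    TT.Loc.en π r (tr π k F) = ∑ W ∈ univ.filter (fun W : Finset ι => W.card ≤ k),
      (∏ i ∈ W, r i) * nW π W F := by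
  rw [en_expand, sum_filter]
  refine sum_congr rfl fun W _ => ?_
  rw [nW_tr π hπ1]
  by_cases h : W.card ≤ k <;> simp [h]

theorem en_tr_mono (hπ : ∀ i x, 0 ≤ π i x) (hπ1 : ∀ i, ∑ x, π i x = 1) (r : ι → ℝ)
    (hr : ∀ i, 0 ≤ r i) (k k' : ℕ) (hk : k ≤ k') (F : (∀ i, X i) → ℝ) :
    TT.Loc.en π r (tr π k F) ≤ TT.Loc.en π r (tr π k' F) := by
  rw [en_tr π hπ1, en_tr π hπ1]
  apply sum_le_sum_of_subset_of_nonneg
  · intro W hW
    simp only [mem_filter, mem_univ, true_and] at hW ⊢
    omega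
  · intro W _ _
    exact mul_nonneg (prod_nonneg fun i _ => hr i) (nW_nonneg π hπ hπ1 W F)

/-- the noisy function at a masked point in terms of the components -/
theorem uo_mask (q : ι → ℝ) (F : (∀ i, X i) → ℝ) (T : Finset ι) (x : ∀ i, X i) :
    uo q π F (mask T x) = ∑ W ∈ T.powerset, (∏ i ∈ W, q i) * cW π W F x := by
  have h1 : uo q π F (mask T x) =
      ∑ W : Finset ι, (∏ i ∈ W, (if i ∈ T then q i else 0)) * cW π W F x := by
    unfold uo ten cW ten
    have h2 : ∀ z : (∀ i, X i), ∏ i, uk q π i (mask T x i) (z i) =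
        ∑ W : Finset ι, (∏ i ∈ W, (if i ∈ T then q i else 0)) * ∏ i, kW π W i (x i) (z i) := by
      intro z
      have e1 : ∀ i, uk q π i (mask T x i) (z i) =
          (if i ∈ T then q i else 0) * dl π i (x i) (z i) + π i (z i) := by
        intro i
        unfold mask
        by_cases hi : i ∈ T
        · simp only [hi, if_true, uk]; ring
        · simp only [hi, if_false, uk]; ring
      simp only [e1]
      rw [Finset.prod_add, powerset_univ]
      refine sum_congr rfl fun W _ => ?_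
      have e2 : ∏ i, kW π W i (x i) (z i) =
          (∏ i ∈ W, dl π i (x i) (z i)) * ∏ i ∈ univ \ W, π i (z i) := by
        unfold kW
        rw [Finset.prod_ite]
        congr 1
        · congr 1; ext i; simp
        · congr 1; ext i; simp
      rw [e2, prod_mul_distrib]
      ring
    simp only [h2, sum_mul, mul_sum]
    rw [sum_comm]
    refine sum_congr rfl fun W _ => sum_congr rfl fun z _ => ?_
    ring
  rw [h1]
  symm
  apply sum_subset_zero_on_sdiff (subset_univ _)
  · intro W hW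
    simp only [mem_sdiff, mem_univ, true_and, mem_powerset] at hW
    obtain ⟨i, hi, hi2⟩ := not_subset.mp hW
    rw [prod_eq_zero hi (by simp [hi2]), zero_mul]
  · intro W hW
    have hW' := mem_powerset.1 hW
    congr 1
    apply prod_congr rfl
    intro i hi
    rw [if_pos (hW' hi)]

include hπ1 in
theorem uo_tr_mask (q : ι → ℝ) (k : ℕ) (F : (∀ i, X i) → ℝ) (T : Finset ι) (x : ∀ i, X i) :
    uo q π (tr π k F) (mask T x) =
      ∑ W ∈ T.powerset.filter (fun W => W.card ≤ k), (∏ i ∈ W, q i) * cW π W F x := by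
  rw [uo_mask, sum_filter]
  refine sum_congr rfl fun W _ => ?_
  rw [cW_tr π hπ1]
  by_cases h : W.card ≤ k <;> simp [h]

include hπ1 in
theorem uo_tr_mask_small (q : ι → ℝ) (k : ℕ) (F : (∀ i, X i) → ℝ) (T : Finset ι)
    (hT : T.card ≤ k) (x : ∀ i, X i) :
    uo q π (tr π k F) (mask T x) = uo q π F (mask T x) := by
  rw [uo_tr_mask π hπ1, uo_mask]
  apply sum_congr _ (fun _ _ => rfl)
  apply filter_true_of_mem
  intro W hW
  exact (card_le_card (mem_powerset.1 hW)).trans hT

include hπ1 in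
theorem orth (W W' : Finset ι) (F G : (∀ i, X i) → ℝ) (h : W ≠ W') :
    (ex π fun y => cW π W F y * cW π W' G y) = 0 := by
  unfold cW
  rw [ex_ten_mul]
  have : ∃ i, ¬ (i ∈ W ↔ i ∈ W') := by
    by_contra hc
    push Not at hc
    exact h (Finset.ext hc)
  obtain ⟨i, hi⟩ := this
  unfold bf
  refine sum_eq_zero fun x _ => sum_eq_zero fun x' _ => ?_
  have h0 : ∑ y, π i y * (kW π W i y (x i) * kW π W' i y (x' i)) = 0 := by
    by_cases h1 : i ∈ W
    · have h2 : i ∉ W' := fun h2 => hi ⟨fun _ => h2, fun _ => h1⟩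
      simp only [kW, h1, h2, if_true, if_false]
      have : ∀ y, π i y * (dl π i y (x i) * π i (x' i)) = (π i y * dl π i y (x i)) * π i (x' i) :=
        fun y => by ring
      rw [sum_congr rfl fun y _ => this y, ← sum_mul, sum_dl π hπ1]
      ring
    · have h2 : i ∈ W' := by
        by_contra h2
        exact hi ⟨fun h => absurd h h1, fun h => absurd h h2⟩
      simp only [kW, h1, h2, if_true, if_false]
      have : ∀ y, π i y * (π i (x i) * dl π i y (x' i)) = (π i y * dl π i y (x' i)) * π i (x i) :=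
        fun y => by ring
      rw [sum_congr rfl fun y _ => this y, ← sum_mul, sum_dl π hπ1]
      ring
  rw [prod_eq_zero (mem_univ i) h0, zero_mul]

include hπ1 in
/-- components of a derivative -/
theorem cW_Hk (S W : Finset ι) (a : ∀ i, X i) (F : (∀ i, X i) → ℝ) (y : ∀ i, X i) :
    cW π W (ten (Hk π S ∅ a) F) y =
      if Disjoint W S then cW π (S ∪ W) F (S.piecewise a y) else 0 := by
  unfold cW
  rw [ten_ten]
  have hk : ∀ i (z u : X i), ∑ x, kW π W i z x * Hk π S ∅ a i x u =
      if i ∈ S then (if i ∈ W then 0 else dl π i (a i) u) else kW π W i z u := by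
    intro i z u
    by_cases hS : i ∈ S
    · simp only [Hk, hS, if_true]
      rw [← sum_mul]
      by_cases hW : i ∈ W
      · simp only [kW, hW, if_true]
        rw [sum_dl_row π hπ1]; ring
      · simp only [kW, hW, if_false]
        rw [hπ1]; ring
    · simp only [Hk, hS, if_false, notMem_empty]
      simp
  by_cases hd : Disjoint W S
  · rw [if_pos hd]
    unfold ten
    refine sum_congr rfl fun u _ => ?_
    congr 1
    refine prod_congr rfl fun i _ => ?_
    beta_reduce
    rw [hk]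
    by_cases hS : i ∈ S
    · have hW : i ∉ W := fun hW => (disjoint_left.1 hd) hW hS
      simp [kW, hS, hW, Finset.piecewise]
    · by_cases hW : i ∈ W <;> simp [kW, hS, hW, Finset.piecewise]
  · rw [if_neg hd]
    rw [not_disjoint_iff] at hd
    obtain ⟨i, hW, hS⟩ := hd
    apply ten_zero' _ _ _ i
    intro u
    rw [hk]
    simp [hS, hW]

include hπ1 in
theorem nW_Hk_tr (S W : Finset ι) (a : ∀ i, X i) (k : ℕ) (F : (∀ i, X i) → ℝ) :
    nW π W (ten (Hk π S ∅ a) (tr π k F)) =
      if Disjoint W S ∧ S.card + W.card ≤ k then nW π W (ten (Hk π S ∅ a) F) else 0 := by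
  by_cases hd : Disjoint W S
  · have hc : (S ∪ W).card = S.card + W.card := card_union_of_disjoint hd.symm
    by_cases h : S.card + W.card ≤ k
    · rw [if_pos ⟨hd, h⟩]
      apply cW_congr_nW π hπ1
      intro y
      rw [cW_Hk π hπ1, cW_Hk π hπ1, if_pos hd, if_pos hd, cW_tr π hπ1, if_pos (by omega)]
    · rw [if_neg (fun h' => h h'.2)]
      apply nW_zero π hπ1
      intro y
      rw [cW_Hk π hπ1, if_pos hd, cW_tr π hπ1, if_neg (by omega)]
  · rw [if_neg (fun h' => hd h'.1)]
    apply nW_zero π hπ1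
    intro y
    rw [cW_Hk π hπ1, if_neg hd]

/-- energies of derivatives of the truncation -/
theorem en_Hk_tr (hπ : ∀ i x, 0 ≤ π i x) (hπ1 : ∀ i, ∑ x, π i x = 1) (r : ι → ℝ)
    (hr : ∀ i, 0 ≤ r i) (S : Finset ι) (a : ∀ i, X i) (k : ℕ) (F : (∀ i, X i) → ℝ) :
    TT.Loc.en π r (ten (Hk π S ∅ a) (tr π k F)) ≤
      if S.card ≤ k then TT.Loc.en π r (tr π (k - S.card) (ten (Hk π S ∅ a) F)) else 0 := by
  rw [en_expand]
  simp only [nW_Hk_tr π hπ1]
  by_cases h : S.card ≤ k
  · rw [if_pos h, en_tr π hπ1, sum_filter]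
    refine sum_le_sum fun W _ => ?_
    have h0 : 0 ≤ (∏ i ∈ W, r i) * nW π W (ten (Hk π S ∅ a) F) :=
      mul_nonneg (prod_nonneg fun i _ => hr i) (nW_nonneg π hπ hπ1 W _)
    by_cases h1 : Disjoint W S ∧ S.card + W.card ≤ k
    · rw [if_pos h1, if_pos (by omega)]
    · rw [if_neg h1, mul_zero]
      split_ifs
      · exact h0
      · exact le_refl _
  · rw [if_neg h]
    apply le_of_eq
    refine sum_eq_zero fun W _ => ?_
    rw [if_neg (by omega), mul_zero]

/-- averaging one coordinate -/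
theorem cW_avg (hπ1 : ∀ i, ∑ x, π i x = 1) (W S T : Finset ι) (a : ∀ i, X i)
    (F : (∀ i, X i) → ℝ) (n : ι) (hS : n ∉ S) (hT : n ∉ T) (y : ∀ i, X i) :
    cW π W (ten (fun i x z => if i = n then π i z else Hk π S T a i x z) F) y =
      if n ∈ W then 0 else cW π W (ten (Hk π S T a) F) y := by
  unfold cW
  rw [ten_ten, ten_ten]
  by_cases hn : n ∈ W
  · rw [if_pos hn]
    apply ten_zero' _ _ _ n
    intro u
    simp only [if_true]
    rw [← sum_mul]
    simp only [kW, hn, if_true]
    rw [sum_dl_row π hπ1]; ring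
  · rw [if_neg hn]
    apply ten_congr'
    intro i u
    by_cases hi : i = n
    · subst hi
      simp only [if_true, kW, hn, if_false, Hk, hS, hT]
      rw [← sum_mul, hπ1]
      simp
    · simp only [hi, if_false]

theorem en_avg_tr (hπ : ∀ i x, 0 ≤ π i x) (hπ1 : ∀ i, ∑ x, π i x = 1)
    (r : ι → ℝ) (hr : ∀ i, 0 ≤ r i) (k : ℕ) (S T : Finset ι) (a : ∀ i, X i)
    (F : (∀ i, X i) → ℝ) (n : ι) (hS : n ∉ S) (hT : n ∉ T) :
    TT.Loc.en π r (tr π k (ten (fun i x z => if i = n then π i z else Hk π S T a i x z) F)) ≤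
      TT.Loc.en π r (tr π k (ten (Hk π S T a) F)) := by
  rw [en_tr π hπ1, en_tr π hπ1]
  refine sum_le_sum fun W _ => ?_
  apply mul_le_mul_of_nonneg_left _ (prod_nonneg fun i _ => hr i)
  by_cases hn : n ∈ W
  · rw [nW_zero π hπ1 W _ (fun y => by rw [cW_avg π hπ1 W S T a F n hS hT, if_pos hn])]
    exact nW_nonneg π hπ hπ1 W _
  · apply le_of_eq
    apply cW_congr_nW π hπ1
    intro y
    rw [cW_avg π hπ1 W S T a F n hS hT, if_neg hn]

theorem tr_sub (k : ℕ) (F G : (∀ i, X i) → ℝ) (x : ∀ i, X i) :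
    tr π k (fun x => F x - G x) x = tr π k F x - tr π k G x := by
  unfold tr
  rw [← sum_sub_distrib]
  refine sum_congr rfl fun W _ => ?_
  unfold cW
  rw [ten_sub]

/-- sup bound for the truncated energies of derivatives -/
theorem sqrt_en_Hk_tr (hπ : ∀ i x, 0 ≤ π i x) (hπ1 : ∀ i, ∑ x, π i x = 1)
    (r : ι → ℝ) (hr : ∀ i, 0 ≤ r i) (hr1 : ∀ i, r i ≤ 1) (F : (∀ i, X i) → ℝ) (c : ι → ℝ)
    (hc : ∀ i, 0 ≤ c i) (E : ℝ) (D k : ℕ)
    (hE : ∀ (T : Finset ι) (a : ∀ i, X i), T.card + k ≤ D → (∀ i ∈ T, π i (a i) ≠ 0) →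
      TT.Loc.en π r (tr π k (restr T a F)) ≤ (∏ i ∈ T, c i) ^ 2 * E) (S : Finset ι) :
    ∀ (T : Finset ι) (a : ∀ i, X i), Disjoint S T → S.card + T.card + k ≤ D →
      (∀ i ∈ S ∪ T, π i (a i) ≠ 0) →
      Real.sqrt (TT.Loc.en π r (tr π k (ten (Hk π S T a) F))) ≤
        (∏ i ∈ S, (1 + c i)) * (∏ i ∈ T, c i) * Real.sqrt E := by
  induction S using Finset.induction_on with
  | empty =>
    intro T a _ hcard ha
    rw [ten_Hk_empty, prod_empty, one_mul]
    have hTc : 0 ≤ ∏ i ∈ T, c i := prod_nonneg fun i _ => hc i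
    refine (Real.sqrt_le_sqrt (hE T a (by simpa using hcard)
      fun i hi => ha i (mem_union_right _ hi))).trans ?_
    rw [Real.sqrt_mul (sq_nonneg _), Real.sqrt_sq hTc]
  | insert n S hn ih =>
    intro T a hd hcard ha
    have hnT : n ∉ T := fun h => (disjoint_left.1 hd) (mem_insert_self n S) h
    have hd' : Disjoint S T := disjoint_of_subset_left (subset_insert n S) hd
    rw [card_insert_of_notMem hn] at hcard
    rw [ten_Hk_insert π S T a F n hn]
    have htr : tr π k (fun x => ten (Hk π S (insert n T) a) F x -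
      ten (fun i x z => if i = n then π i z else Hk π S T a i x z) F x) =
      fun x => tr π k (ten (Hk π S (insert n T) a) F) x -
        tr π k (ten (fun i x z => if i = n then π i z else Hk π S T a i x z) F) x := by
      funext x
      exact tr_sub π k _ _ x
    rw [htr]
    refine (sqrt_en_sub π hπ hπ1 r hr hr1 _ _).trans ?_
    have h1 := ih (insert n T) a (by
      rw [disjoint_insert_right]
      exact ⟨hn, hd'⟩) (by rw [card_insert_of_notMem hnT]; omega) (by
      intro i hi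
      apply ha
      simp only [mem_union, mem_insert] at hi ⊢
      tauto)
    have h2 := ih T a hd' (by omega) (by
      intro i hi
      apply ha
      simp only [mem_union, mem_insert] at hi ⊢
      tauto)
    have h3 := Real.sqrt_le_sqrt (en_avg_tr π hπ hπ1 r hr k S T a F n hn hnT)
    rw [prod_insert hnT] at h1
    rw [prod_insert hn]
    calc _ ≤ (∏ i ∈ S, (1 + c i)) * (c n * ∏ i ∈ T, c i) * Real.sqrt E +
        (∏ i ∈ S, (1 + c i)) * (∏ i ∈ T, c i) * Real.sqrt E := add_le_add h1 (h3.trans h2)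
      _ = _ := by ring

end

end Vale.Agent.P042.UU.Loc
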