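import Vale.Agent.P042.UU.LocC

set_option autoImplicit false
set_option linter.unusedSectionVars false

/-!
Truncated global hypercontractivity, part B: the moment bound and random sets.
-/

namespace Vale.Agent.P042.UU.Loc

open Finset Vale.Agent.P042.TT.Loc

variable {ι : Type} [Fintype ι] [DecidableEq ι]
variable {X : ι → Type} [∀ i, Fintype (X i)] [∀ i, DecidableEq (X i)]

theorem Br_le_tr (C1 : ℝ) (hC1 : 0 ≤ C1) (s q r0 c : ι → ℝ) (hs : ∀ i, 0 ≤ s i)
    (hq : ∀ i, 0 ≤ q i) (hr1 : ∀ i, r0 i ≤ 1) (hc : ∀ i, 0 ≤ c i)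
    (hC : ∀ i, C1 * (s i * (q i * q i)) ≤ r0 i) (π : ∀ i, X i → ℝ) (hπ : ∀ i x, 0 ≤ π i x)
    (hπ1 : ∀ i, ∑ x, π i x = 1) (F : (∀ i, X i) → ℝ) (k : ℕ) (E : ℝ) (hE0 : 0 ≤ E)
    (hE : ∀ (T : Finset ι) (a : ∀ i, X i), T.card ≤ k → (∀ i ∈ T, π i (a i) ≠ 0) →
      TT.Loc.en π r0 (tr π (k - T.card) (restr T a F)) ≤ (∏ i ∈ T, c i) ^ 2 * E)
    (S : Finset ι) (y : ∀ i, Option (X i)) (hy : wt (ew s π) y ≠ 0) :
    Br (Real.sqrt C1) (ew s π) (uo q π (tr π k F)) univ S y ≤
      (∏ i ∈ S, (q i * (1 + c i)) ^ 2) * E := by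
  have hr0 : ∀ i, 0 ≤ r0 i := fun i =>
    le_trans (mul_nonneg hC1 (mul_nonneg (hs i) (mul_nonneg (hq i) (hq i)))) (hC i)
  have hsup : ∀ i, ew s π i (y i) ≠ 0 := fun i h =>
    hy (Finset.prod_eq_zero (mem_univ i) h)
  rw [Br_uo _ s q π hπ1, Real.sq_sqrt hC1]
  have hRHS : 0 ≤ (∏ i ∈ S, (q i * (1 + c i)) ^ 2) * E :=
    mul_nonneg (prod_nonneg fun i _ => sq_nonneg _) hE0
  by_cases hnone : ∃ i ∈ S, y i = none
  · obtain ⟨i, hi, hyi⟩ := hnone
    have : bf (fun i x x' => if i ∈ S then (uk q π i (y i) x - π i x) *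
        (uk q π i (y i) x' - π i x')
        else (C1 * (s i * (q i * q i))) * vk π i x x' + π i x * π i x') (tr π k F)
          (tr π k F) = 0 := by
      unfold bf
      refine sum_eq_zero fun x _ => sum_eq_zero fun x' _ => ?_
      have h0 : (∏ i, if i ∈ S then (uk q π i (y i) (x i) - π i (x i)) *
        (uk q π i (y i) (x' i) - π i (x' i))
        else (C1 * (s i * (q i * q i))) * vk π i (x i) (x' i) + π i (x i) * π i (x' i)) = 0 := by
        apply Finset.prod_eq_zero (mem_univ i)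
        simp only [hi, if_true, hyi, uk]
        ring
      rw [h0, zero_mul]
    rw [this]
    exact hRHS
  · push Not at hnone
    have hne : ∀ i, Nonempty (X i) := by
      intro i
      by_contra h
      rw [not_nonempty_iff] at h
      have := hπ1 i
      simp at this
    have hex : ∀ i, ∃ a : X i, i ∈ S → y i = some a := by
      intro i
      by_cases hi : i ∈ S
      · obtain ⟨a, ha⟩ := Option.ne_none_iff_exists'.1 (hnone i hi)
        exact ⟨a, fun _ => ha⟩
      · exact ⟨(hne i).some, fun h => absurd h hi⟩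
    choose a ha using hex
    have hsa : ∀ i ∈ S ∪ ∅, π i (a i) ≠ 0 := by
      intro i hi
      rw [union_empty] at hi
      have := hsup i
      rw [ha i hi] at this
      exact right_ne_zero_of_mul this
    have e1 : bf (fun i x x' => if i ∈ S then (uk q π i (y i) x - π i x) *
        (uk q π i (y i) x' - π i x')
        else (C1 * (s i * (q i * q i))) * vk π i x x' + π i x * π i x') (tr π k F)
          (tr π k F) =
        (∏ i ∈ S, (q i) ^ 2) * TT.Loc.en π (fun i => C1 * (s i * (q i * q i)))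
          (ten (Hk π S ∅ a) (tr π k F)) := by
      rw [en_Hk π hπ1, ← bf_scale_ite]
      congr 1
      funext i x x'
      by_cases hi : i ∈ S
      · simp only [hi, if_true, ha i hi, uk]
        ring
      · simp only [hi, if_false, notMem_empty]
    rw [e1]
    have h2 := en_mono π hπ hπ1 (fun i => C1 * (s i * (q i * q i))) r0
      (fun i => mul_nonneg hC1 (mul_nonneg (hs i) (mul_nonneg (hq i) (hq i)))) hC
      (ten (Hk π S ∅ a) (tr π k F))
    have h2' := en_Hk_tr π hπ hπ1 r0 hr0 S a k F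
    have h3 : TT.Loc.en π r0 (ten (Hk π S ∅ a) (tr π k F)) ≤ (∏ i ∈ S, (1 + c i)) ^ 2 * E := by
      by_cases hSk : S.card ≤ k
      · rw [if_pos hSk] at h2'
        have h1 := sqrt_en_Hk_tr π hπ hπ1 r0 hr0 hr1 F c hc E k (k - S.card) (by
          intro T b hTk hb
          have hT1 : T.card ≤ k := by omega
          refine (en_tr_mono π hπ hπ1 r0 hr0 (k - S.card) (k - T.card) (by omega) _).trans
            (hE T b hT1 hb)) S ∅ a (disjoint_empty_right S) (by simp; omega) hsa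
        rw [prod_empty, mul_one] at h1
        have h4 := TT.Loc.en_nonneg π hπ hπ1 r0 hr0 (tr π (k - S.card) (ten (Hk π S ∅ a) F))
        have h5 := pow_le_pow_left₀ (Real.sqrt_nonneg _) h1 2
        rw [Real.sq_sqrt h4, mul_pow, Real.sq_sqrt hE0] at h5
        exact h2'.trans h5
      · rw [if_neg hSk] at h2'
        exact h2'.trans (mul_nonneg (sq_nonneg _) hE0)
    calc _ ≤ (∏ i ∈ S, (q i) ^ 2) * ((∏ i ∈ S, (1 + c i)) ^ 2 * E) :=
          mul_le_mul_of_nonneg_left (h2.trans h3) (prod_nonneg fun i _ => sq_nonneg _)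
      _ = (∏ i ∈ S, (q i * (1 + c i)) ^ 2) * E := by
        rw [← mul_assoc, ← prod_pow, ← prod_mul_distrib]
        congr 1
        refine prod_congr rfl fun i _ => ?_
        ring

/-- the moment bound for the truncation -/
theorem genU_tr (m : ℕ) (C1 C2 : ℝ) (hm : 1 ≤ m) (hC1 : 0 ≤ C1) (hC2 : 0 ≤ C2)
    (hone : OneC m C1 C2) (s q r0 c : ι → ℝ) (hs : ∀ i, 0 ≤ s i) (hs1 : ∀ i, s i ≤ 1)
    (hq : ∀ i, 0 ≤ q i) (hr1 : ∀ i, r0 i ≤ 1) (hc : ∀ i, 0 ≤ c i)
    (hC : ∀ i, s i * (q i * q i) * (C1 + C2 * ((q i * (1 + c i)) ^ 2) ^ (m - 1)) ≤ r0 i)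
    (π : ∀ i, X i → ℝ) (hπ : ∀ i x, 0 ≤ π i x)
    (hπ1 : ∀ i, ∑ x, π i x = 1) (F : (∀ i, X i) → ℝ) (k : ℕ) (E : ℝ) (hE0 : 0 ≤ E)
    (hE : ∀ (T : Finset ι) (a : ∀ i, X i), T.card ≤ k → (∀ i ∈ T, π i (a i) ≠ 0) →
      TT.Loc.en π r0 (tr π (k - T.card) (restr T a F)) ≤ (∏ i ∈ T, c i) ^ 2 * E) :
    (ex (ew s π) fun y => uo q π (tr π k F) y ^ (2 * m)) ≤ E ^ m := by
  have hsq : ∀ i, 0 ≤ s i * (q i * q i) := fun i => mul_nonneg (hs i) (mul_nonneg (hq i) (hq i))
  have hqc : ∀ i, 0 ≤ ((q i * (1 + c i)) ^ 2) ^ (m - 1) := fun i => pow_nonneg (sq_nonneg _) _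
  have hC' : ∀ i, C1 * (s i * (q i * q i)) ≤ r0 i := by
    intro i
    refine le_trans ?_ (hC i)
    have := mul_nonneg (hsq i) (mul_nonneg hC2 (hqc i))
    nlinarith
  have hr0 : ∀ i, 0 ≤ r0 i := fun i => le_trans (mul_nonneg hC1 (hsq i)) (hC' i)
  have hw := ew_nonneg s hs hs1 π hπ
  have hw1 := sum_ew s π hπ1
  refine (gen m C1 C2 hC1 hC2 hone (ew s π) hw hw1 (uo q π (tr π k F))).trans ?_
  have hBr0 : ∀ S y, 0 ≤ Br (Real.sqrt C1) (ew s π) (uo q π (tr π k F)) univ S y := fun S y =>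
    ex_nonneg (ew s π) hw _ fun z => sq_nonneg _
  have h1 : ∀ S : Finset ι, (ex (ew s π) fun y =>
      Br (Real.sqrt C1) (ew s π) (uo q π (tr π k F)) univ S y ^ m) ≤
      ((∏ i ∈ S, (q i * (1 + c i)) ^ 2) * E) ^ (m - 1) *
        ex (ew s π) fun y => Br (Real.sqrt C1) (ew s π) (uo q π (tr π k F)) univ S y := by
    intro S
    rw [← ex_const_mul]
    unfold ex
    refine sum_le_sum fun y _ => ?_
    by_cases hy : wt (ew s π) y = 0
    · rw [hy]; simp
    · refine mul_le_mul_of_nonneg_left ?_ (wt_nonneg _ hw y)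
      have hb := Br_le_tr C1 hC1 s q r0 c hs hq hr1 hc hC' π hπ hπ1 F k E hE0 hE S y hy
      have e : Br (Real.sqrt C1) (ew s π) (uo q π (tr π k F)) univ S y ^ m =
          Br (Real.sqrt C1) (ew s π) (uo q π (tr π k F)) univ S y ^ (m - 1) *
          Br (Real.sqrt C1) (ew s π) (uo q π (tr π k F)) univ S y := by
        rw [← pow_succ]
        congr 1
        omega
      beta_reduce
      rw [e]
      exact mul_le_mul_of_nonneg_right (pow_le_pow_left₀ (hBr0 S y) hb _) (hBr0 S y)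
  have h2 : ∑ S : Finset ι, C2 ^ S.card * (ex (ew s π) fun y =>
      Br (Real.sqrt C1) (ew s π) (uo q π (tr π k F)) univ S y ^ m) ≤
      E ^ (m - 1) * TT.Loc.en π (fun i => s i * (q i * q i) *
        (C1 + C2 * ((q i * (1 + c i)) ^ 2) ^ (m - 1))) (tr π k F) := by
    refine (sum_le_sum fun S _ => mul_le_mul_of_nonneg_left (h1 S)
      (pow_nonneg hC2 S.card)).trans (le_of_eq ?_)
    have e1 : TT.Loc.en π (fun i => s i * (q i * q i) *
        (C1 + C2 * ((q i * (1 + c i)) ^ 2) ^ (m - 1))) (tr π k F) =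
        bf (fun i x x' => (C2 * ((q i * (1 + c i)) ^ 2) ^ (m - 1)) *
          ((s i * (q i * q i)) * vk π i x x') +
          ((C1 * (s i * (q i * q i))) * vk π i x x' + π i x * π i x')) (tr π k F)
          (tr π k F) := by
      unfold TT.Loc.en
      congr 1
      funext i x x'
      ring
    rw [e1, bf_expand, mul_sum]
    refine sum_congr rfl fun S _ => ?_
    rw [bf_scale_ite (fun i => C2 * ((q i * (1 + c i)) ^ 2) ^ (m - 1))
      (fun i x x' => (s i * (q i * q i)) * vk π i x x')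
      (fun i x x' => (C1 * (s i * (q i * q i))) * vk π i x x' + π i x * π i x'),
      ex_Br_uo _ s q π hπ1, Real.sq_sqrt hC1, prod_mul_distrib, prod_const,
      Finset.prod_pow S (m - 1) (fun i => (q i * (1 + c i)) ^ 2), mul_pow]
    generalize bf (fun i x x' => if i ∈ S then (s i * (q i * q i)) * vk π i x x'
        else (C1 * (s i * (q i * q i))) * vk π i x x' + π i x * π i x') (tr π k F)
          (tr π k F) = Z
    generalize (∏ i ∈ S, (q i * (1 + c i)) ^ 2) ^ (m - 1) = Z'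
    ring
  refine h2.trans ?_
  have h3 := en_mono π hπ hπ1 (fun i => s i * (q i * q i) *
        (C1 + C2 * ((q i * (1 + c i)) ^ 2) ^ (m - 1))) r0 (fun i => mul_nonneg (hsq i)
        (add_nonneg hC1 (mul_nonneg hC2 (hqc i)))) hC (tr π k F)
  have h4 : TT.Loc.en π r0 (tr π k F) ≤ E := by
    have hne : ∀ i, Nonempty (X i) := by
      intro i
      by_contra h
      rw [not_nonempty_iff] at h
      have := hπ1 i
      simp at this
    have := hE ∅ (fun i => (hne i).some) (by simp) (fun i hi => absurd hi (notMem_empty i))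
    rw [prod_empty, one_pow, one_mul, card_empty, Nat.sub_zero] at this
    have e : restr ∅ (fun i => (hne i).some) F = F := by
      funext x
      simp [restr]
    rwa [e] at this
  calc _ ≤ E ^ (m - 1) * E := mul_le_mul_of_nonneg_left (h3.trans h4) (pow_nonneg hE0 _)
    _ = E ^ m := by
      rw [← pow_succ]
      congr 1
      omega

/-! ### random sets -/

/-- probability of the random set `T` -/
noncomputable def Wp (s : ι → ℝ) (T : Finset ι) : ℝ :=
  (∏ i ∈ T, s i) * (∏ i ∈ univ \ T, (1 - s i))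

theorem Wp_nonneg (s : ι → ℝ) (hs : ∀ i, 0 ≤ s i) (hs1 : ∀ i, s i ≤ 1) (T : Finset ι) :
    0 ≤ Wp s T :=
  mul_nonneg (prod_nonneg fun i _ => hs i) (prod_nonneg fun i _ => by linarith [hs1 i])

theorem sum_Wp_sup (s : ι → ℝ) (W : Finset ι) :
    ∑ T ∈ univ.filter (fun T : Finset ι => W ⊆ T), Wp s T = ∏ i ∈ W, s i := by
  have h := Finset.prod_add s (fun i => if i ∈ W then 0 else 1 - s i) (univ : Finset ι)
  have h1 : ∏ i : ι, (s i + (if i ∈ W then 0 else 1 - s i)) = ∏ i ∈ W, s i := by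
    have : ∀ i, s i + (if i ∈ W then 0 else 1 - s i) = if i ∈ W then s i else 1 := by
      intro i
      by_cases hi : i ∈ W <;> simp [hi]
    simp only [this]
    rw [Finset.prod_ite_mem, univ_inter]
  rw [h1, powerset_univ] at h
  rw [h, sum_filter]
  refine sum_congr rfl fun T _ => ?_
  by_cases hW : W ⊆ T
  · rw [if_pos hW]
    unfold Wp
    congr 1
    refine prod_congr rfl fun i hi => ?_
    have : i ∉ W := fun h' => (mem_sdiff.1 hi).2 (hW h')
    rw [if_neg this]
  · rw [if_neg hW]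
    obtain ⟨i, hi, hi2⟩ := not_subset.mp hW
    have h0 : (∏ i ∈ univ \ T, (if i ∈ W then (0:ℝ) else 1 - s i)) = 0 := by
      apply prod_eq_zero (i := i)
      · simp [hi2]
      · simp [hi]
    rw [h0, mul_zero]

/-- the random set is not much larger than expected -/
theorem half_le (s : ι → ℝ) (hs : ∀ i, 0 ≤ s i) (hs1 : ∀ i, s i ≤ 1) (W : Finset ι) (N : ℕ)
    (hN : (W.card : ℝ) + 2 * ∑ i, s i ≤ N) :
    1 / 2 * ∏ i ∈ W, s i ≤
      ∑ T ∈ univ.filter (fun T : Finset ι => W ⊆ T ∧ T.card ≤ N), Wp s T := by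
  have hA0 := sum_Wp_sup s W
  have hWn := Wp_nonneg s hs hs1
  have hPn : 0 ≤ ∏ i ∈ W, s i := prod_nonneg fun i _ => hs i
  have hS0 : 0 ≤ ∑ i, s i := sum_nonneg fun i _ => hs i
  have hA1 : ∑ T ∈ univ.filter (fun T : Finset ι => W ⊆ T), Wp s T * ((T \ W).card : ℝ) ≤
      (∏ i ∈ W, s i) * ∑ i, s i := by
    have e1 : ∀ T : Finset ι, ((T \ W).card : ℝ) = ∑ i ∈ univ \ W, (if i ∈ T then (1:ℝ) else 0) := by
      intro T
      rw [← sum_filter, sum_const, nsmul_eq_mul, mul_one]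
      congr 2
      ext i
      simp only [mem_sdiff, mem_filter, mem_univ, true_and]
      tauto
    simp only [e1, mul_sum]
    rw [sum_comm]
    have e2 : ∀ i ∈ (univ : Finset ι) \ W,
        ∑ T ∈ univ.filter (fun T : Finset ι => W ⊆ T), Wp s T * (if i ∈ T then (1:ℝ) else 0) =
        (∏ i ∈ W, s i) * s i := by
      intro i hi
      have hiW : i ∉ W := (mem_sdiff.1 hi).2
      have h := sum_Wp_sup s (insert i W)
      rw [prod_insert hiW] at h
      rw [mul_comm, ← h, sum_filter, sum_filter]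
      refine sum_congr rfl fun T _ => ?_
      by_cases h1 : W ⊆ T <;> by_cases h2 : i ∈ T <;> simp [h1, h2, insert_subset_iff]
    rw [sum_congr rfl e2]
    apply sum_le_sum_of_subset_of_nonneg (sdiff_subset)
    intro i _ _
    exact mul_nonneg hPn (hs i)
  have hsplit : ∑ T ∈ univ.filter (fun T : Finset ι => W ⊆ T), Wp s T =
      ∑ T ∈ univ.filter (fun T : Finset ι => W ⊆ T ∧ T.card ≤ N), Wp s T +
      ∑ T ∈ univ.filter (fun T : Finset ι => W ⊆ T ∧ ¬ T.card ≤ N), Wp s T := by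
    rw [← filter_filter, ← filter_filter, sum_filter_add_sum_filter_not]
  have hNW : (0:ℝ) < (N : ℝ) + 1 - W.card := by linarith
  have hbad : ((N : ℝ) + 1 - W.card) *
      ∑ T ∈ univ.filter (fun T : Finset ι => W ⊆ T ∧ ¬ T.card ≤ N), Wp s T ≤
      (∏ i ∈ W, s i) * ∑ i, s i := by
    refine le_trans ?_ hA1
    rw [mul_sum, ← filter_filter]
    refine le_trans (sum_le_sum (g := fun T => Wp s T * ((T \ W).card : ℝ)) fun T hT => ?_) ?_
    · simp only [mem_filter, mem_univ, true_and] at hT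
      rw [mul_comm]
      apply mul_le_mul_of_nonneg_left _ (hWn T)
      rw [card_sdiff_of_subset hT.1, Nat.cast_sub (card_le_card hT.1)]
      have h3 : N + 1 ≤ T.card := by omega
      have : ((N : ℝ) + 1) ≤ T.card := by exact_mod_cast h3
      linarith
    · apply sum_le_sum_of_subset_of_nonneg (filter_subset _ _)
      intro T _ _
      exact mul_nonneg (hWn T) (Nat.cast_nonneg _)
  have hX : (∏ i ∈ W, s i) * ∑ i, s i ≤
      ((N : ℝ) + 1 - W.card) * (1 / 2 * ∏ i ∈ W, s i) := by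
    nlinarith
  have hb2 : ∑ T ∈ univ.filter (fun T : Finset ι => W ⊆ T ∧ ¬ T.card ≤ N), Wp s T ≤
      1 / 2 * ∏ i ∈ W, s i := le_of_mul_le_mul_left (hbad.trans hX) hNW
  rw [hsplit] at hA0
  linarith

end Vale.Agent.P042.UU.Loc
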