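import Vale.Agent.P042.UU.LocD

set_option autoImplicit false
set_option linter.unusedSectionVars false

/-!
Truncated global hypercontractivity, part C: from local norms to local energies and moments.
-/

namespace Vale.Agent.P042.UU.Loc

open Finset Vale.Agent.P042.TT.Loc

variable {ι : Type} [Fintype ι] [DecidableEq ι]
variable {X : ι → Type} [∀ i, Fintype (X i)] [∀ i, DecidableEq (X i)]

theorem nW_restr_zero (π : ∀ i, X i → ℝ) (hπ1 : ∀ i, ∑ x, π i x = 1) (W S : Finset ι)
    (a : ∀ i, X i) (F : (∀ i, X i) → ℝ) (h : ¬ Disjoint W S) :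
    nW π W (restr S a F) = 0 := by
  apply nW_zero π hπ1
  intro y
  rw [← ten_Hk_empty π S a F]
  unfold cW
  rw [ten_ten]
  rw [not_disjoint_iff] at h
  obtain ⟨i, hW, hS⟩ := h
  apply ten_zero' _ _ _ i
  intro u
  simp only [kW, Hk, hW, hS, if_true, notMem_empty, if_false]
  rw [← sum_mul, sum_dl_row π hπ1]
  ring

/-- correlation of the density and of the noisy truncation -/
theorem corr (π : ∀ i, X i → ℝ) (hπ1 : ∀ i, ∑ x, π i x = 1) (q : ι → ℝ) (k : ℕ)
    (F : (∀ i, X i) → ℝ) (T : Finset ι) :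
    (ex π fun x => uo (fun _ => 1) π F (mask T x) * uo q π (tr π k F) (mask T x)) =
      ∑ W ∈ T.powerset.filter (fun W => W.card ≤ k), (∏ i ∈ W, q i) * nW π W F := by
  have h1 : ∀ x, uo (fun _ => 1) π F (mask T x) * uo q π (tr π k F) (mask T x) =
      ∑ W' ∈ T.powerset.filter (fun W => W.card ≤ k), (∏ i ∈ W', q i) *
        ∑ W ∈ T.powerset, cW π W F x * cW π W' F x := by
    intro x
    rw [uo_mask, uo_tr_mask π hπ1, mul_sum]
    refine sum_congr rfl fun W' _ => ?_
    simp only [prod_const_one, one_mul]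
    rw [← sum_mul]
    ring
  simp only [h1]
  rw [ex_sum]
  refine sum_congr rfl fun W' hW' => ?_
  rw [ex_const_mul, ex_sum]
  congr 1
  have hW'T : W' ∈ T.powerset := (mem_filter.1 hW').1
  rw [Finset.sum_eq_single_of_mem W' hW'T]
  · exact (nW_eq π hπ1 W' F).symm
  · intro W _ hne
    exact orth π hπ1 W W' F F hne

/-- number of coordinates that are not erased -/
def sz {Y : ι → Type} (y : ∀ i, Option (Y i)) : ℕ := (univ.filter (fun i => (y i).isSome)).card

theorem sz_mask (T : Finset ι) (x : ∀ i, X i) : sz (mask T x) = T.card := by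
  unfold sz mask
  congr 1
  ext i
  by_cases hi : i ∈ T <;> simp [hi]

/-- lower bound for the truncated correlation -/
theorem corr_ge (π : ∀ i, X i → ℝ) (hπ : ∀ i x, 0 ≤ π i x) (hπ1 : ∀ i, ∑ x, π i x = 1)
    (s q : ι → ℝ) (hs : ∀ i, 0 ≤ s i) (hs1 : ∀ i, s i ≤ 1) (hq : ∀ i, 0 ≤ q i) (k N : ℕ)
    (S : Finset ι) (a : ∀ i, X i) (F : (∀ i, X i) → ℝ)
    (hN : (k : ℝ) + 2 * ∑ i, s i ≤ N) :
    1 / 2 * TT.Loc.en π (fun i => s i * q i) (tr π k (restr S a F)) ≤
      ex (ew (fun i => if i ∈ S then 0 else s i) π) (fun y =>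
        (if sz y ≤ N then uo (fun _ => 1) π (restr S a F) y else 0) *
          uo q π (tr π k (restr S a F)) y) := by
  set s' : ι → ℝ := fun i => if i ∈ S then 0 else s i with hs'
  have hs'0 : ∀ i, 0 ≤ s' i := by
    intro i; simp only [hs']; split_ifs
    · exact le_refl _
    · exact hs i
  have hs'1 : ∀ i, s' i ≤ s i := by
    intro i; simp only [hs']; split_ifs
    · exact hs i
    · exact le_refl _
  rw [ex_mask s' π hπ1]
  have h1 : ∀ T : Finset ι, (ex π fun x => (if sz (mask T x) ≤ N then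
      uo (fun _ => 1) π (restr S a F) (mask T x) else 0) *
          uo q π (tr π k (restr S a F)) (mask T x)) =
      if T.card ≤ N then ∑ W ∈ T.powerset.filter (fun W => W.card ≤ k),
        (∏ i ∈ W, q i) * nW π W (restr S a F) else 0 := by
    intro T
    simp only [sz_mask]
    by_cases h : T.card ≤ N
    · simp only [h, if_true]
      exact corr π hπ1 q k (restr S a F) T
    · simp only [h, if_false, zero_mul]
      unfold ex
      simp
  simp only [h1]
  have h2 : ∑ T : Finset ι, (∏ i ∈ T, s' i) * (∏ i ∈ univ \ T, (1 - s' i)) *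
      (if T.card ≤ N then ∑ W ∈ T.powerset.filter (fun W => W.card ≤ k),
        (∏ i ∈ W, q i) * nW π W (restr S a F) else 0) =
      ∑ W ∈ univ.filter (fun W : Finset ι => W.card ≤ k),
        ((∏ i ∈ W, q i) * nW π W (restr S a F)) *
        ∑ T ∈ univ.filter (fun T : Finset ι => W ⊆ T ∧ T.card ≤ N), Wp s' T := by
    have e1 : ∀ T : Finset ι, (∏ i ∈ T, s' i) * (∏ i ∈ univ \ T, (1 - s' i)) *
      (if T.card ≤ N then ∑ W ∈ T.powerset.filter (fun W => W.card ≤ k),
        (∏ i ∈ W, q i) * nW π W (restr S a F) else 0) =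
        ∑ W ∈ univ.filter (fun W : Finset ι => W.card ≤ k),
          if W ⊆ T ∧ T.card ≤ N then
            ((∏ i ∈ W, q i) * nW π W (restr S a F)) * Wp s' T else 0 := by
      intro T
      by_cases h : T.card ≤ N
      · rw [if_pos h]
        simp only [h, and_true]
        rw [← sum_filter, filter_filter, mul_sum]
        have : T.powerset.filter (fun W => W.card ≤ k) =
            univ.filter (fun W : Finset ι => W.card ≤ k ∧ W ⊆ T) := by
          ext W
          simp only [mem_filter, mem_powerset, mem_univ, true_and]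
          tauto
        rw [this]
        refine sum_congr rfl fun W _ => ?_
        unfold Wp
        ring
      · rw [if_neg h]
        simp [h]
    simp only [e1]
    rw [sum_comm]
    refine sum_congr rfl fun W _ => ?_
    rw [← sum_filter, mul_sum]
  rw [h2, en_tr π hπ1, mul_sum]
  refine sum_le_sum fun W hW => ?_
  have hWk : W.card ≤ k := (mem_filter.1 hW).2
  have hnW := nW_nonneg π hπ hπ1 W (restr S a F)
  by_cases hd : Disjoint W S
  · have hp : ∏ i ∈ W, s' i = ∏ i ∈ W, s i := by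
      refine prod_congr rfl fun i hi => ?_
      simp only [hs']
      rw [if_neg ((disjoint_left.1 hd) hi)]
    have hh := half_le s' hs'0 (fun i => (hs'1 i).trans (hs1 i)) W N (by
      have e1 : ∑ i, s' i ≤ ∑ i, s i := sum_le_sum fun i _ => hs'1 i
      have e2 : (W.card : ℝ) ≤ k := by exact_mod_cast hWk
      linarith)
    rw [hp] at hh
    have h0 : 0 ≤ (∏ i ∈ W, q i) * nW π W (restr S a F) :=
      mul_nonneg (prod_nonneg fun i _ => hq i) hnW
    have h3 := mul_le_mul_of_nonneg_left hh h0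
    refine le_trans (le_of_eq ?_) h3
    rw [prod_mul_distrib]
    ring
  · rw [nW_restr_zero π hπ1 W S a F hd]
    simp

/-- truncated version: from local norms to local energies -/
theorem locA_tr (m : ℕ) (C1 C2 : ℝ) (hm : 1 ≤ m) (hC1 : 0 ≤ C1) (hC2 : 0 ≤ C2)
    (hone : OneC m C1 C2) (s q c : ι → ℝ) (hs : ∀ i, 0 ≤ s i) (hs1 : ∀ i, s i ≤ 1)
    (hq : ∀ i, 0 ≤ q i) (hq1 : ∀ i, q i ≤ 1) (hc : ∀ i, 1 ≤ c i)
    (hC : ∀ i, q i * (C1 + C2 * ((q i * (1 + c i)) ^ 2) ^ (m - 1)) ≤ 1)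
    (π : ∀ i, X i → ℝ) (hπ : ∀ i x, 0 ≤ π i x)
    (hπ1 : ∀ i, ∑ x, π i x = 1) (F : (∀ i, X i) → ℝ) (B : ℝ) (hB : 0 ≤ B) (d : ℕ)
    (hd4 : 4 * ∑ i, s i ≤ d)
    (hF : ∀ (S : Finset ι) (a : ∀ i, X i), S.card ≤ d → (∀ i ∈ S, π i (a i) ≠ 0) →
      (ex (ew (fun i => if i ∈ S then 0 else s i) π) (fun y => if S.card + sz y ≤ 2 * d then
        |uo (fun _ => 1) π (restr S a F) y| ^ ((2 * m : ℝ) / (2 * m - 1)) else 0)) ≤
        (B * ∏ i ∈ S, c i) ^ ((2 * m : ℝ) / (2 * m - 1))) :
    ∀ (S : Finset ι) (a : ∀ i, X i), S.card ≤ d → (∀ i ∈ S, π i (a i) ≠ 0) →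
      TT.Loc.en π (fun i => s i * q i) (tr π (d - S.card) (restr S a F)) ≤
        (2 * B * ∏ i ∈ S, c i) ^ 2 := by
  classical
  set r0 : ι → ℝ := fun i => s i * q i with hr0
  have hr00 : ∀ i, 0 ≤ r0 i := fun i => mul_nonneg (hs i) (hq i)
  have hr01 : ∀ i, r0 i ≤ 1 := fun i => mul_le_one₀ (hs1 i) (hq i) (hq1 i)
  have hcp : ∀ S : Finset ι, 0 < ∏ i ∈ S, c i := fun S =>
    prod_pos fun i _ => lt_of_lt_of_le one_pos (hc i)
  have hne : ∀ i, Nonempty (X i) := by
    intro i
    by_contra h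
    rw [not_nonempty_iff] at h
    have := hπ1 i
    simp at this
  set Z : Finset (Finset ι × (∀ i, X i)) :=
    univ.filter (fun p => p.1.card ≤ d ∧ ∀ i ∈ p.1, π i (p.2 i) ≠ 0) with hZ
  have hZne : Z.Nonempty := ⟨(∅, fun i => (hne i).some), by simp [hZ]⟩
  obtain ⟨⟨S, a⟩, hSa, hmax⟩ := Finset.exists_max_image Z
    (fun p => TT.Loc.en π r0 (tr π (d - p.1.card) (restr p.1 p.2 F)) / (∏ i ∈ p.1, c i) ^ 2) hZne
  have hScard : S.card ≤ d := (mem_filter.1 hSa).2.1
  have hsup : ∀ i ∈ S, π i (a i) ≠ 0 := (mem_filter.1 hSa).2.2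
  set k : ℕ := d - S.card with hk
  set E := TT.Loc.en π r0 (tr π k (restr S a F)) with hEdef
  have hE0 : 0 ≤ E := TT.Loc.en_nonneg π hπ hπ1 r0 hr00 _
  -- it suffices to bound the maximal quotient
  have hred : E ≤ (2 * B * ∏ i ∈ S, c i) ^ 2 → ∀ (S : Finset ι) (a : ∀ i, X i), S.card ≤ d →
      (∀ i ∈ S, π i (a i) ≠ 0) →
      TT.Loc.en π r0 (tr π (d - S.card) (restr S a F)) ≤ (2 * B * ∏ i ∈ S, c i) ^ 2 := by
    intro hEB S' a' hc' hs'
    have h1 := hmax (S', a') (by
      simp only [hZ, mem_filter, mem_univ, true_and]; exact ⟨hc', hs'⟩)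
    simp only at h1
    have h2 : E / (∏ i ∈ S, c i) ^ 2 ≤ (2 * B) ^ 2 := by
      rw [div_le_iff₀ (pow_pos (hcp S) 2), ← mul_pow]
      exact hEB
    have h3 := h1.trans h2
    rw [div_le_iff₀ (pow_pos (hcp S') 2), ← mul_pow] at h3
    exact h3
  apply hred
  -- local energies of `restr S a F`
  have hloc : ∀ (T : Finset ι) (b : ∀ i, X i), T.card ≤ k → (∀ i ∈ T, π i (b i) ≠ 0) →
      TT.Loc.en π r0 (tr π (k - T.card) (restr T b (restr S a F))) ≤
        (∏ i ∈ T, c i) ^ 2 * E := by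
    intro T b hTk hb
    rw [restr_restr]
    have hcu : (S ∪ T).card ≤ S.card + T.card := card_union_le S T
    have h1 := hmax (S ∪ T, S.piecewise a b) (by
      simp only [hZ, mem_filter, mem_univ, true_and]
      refine ⟨by omega, ?_⟩
      intro i hi
      by_cases hiS : i ∈ S
      · rw [Finset.piecewise_eq_of_mem _ _ _ hiS]
        exact hsup i hiS
      · rw [Finset.piecewise_eq_of_notMem _ _ _ hiS]
        exact hb i ((mem_union.1 hi).resolve_left hiS))
    simp only at h1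
    rw [div_le_iff₀ (pow_pos (hcp _) 2)] at h1
    refine (en_tr_mono π hπ hπ1 r0 hr00 (k - T.card) (d - (S ∪ T).card) (by omega) _).trans
      (h1.trans ?_)
    have h2 : (∏ i ∈ S ∪ T, c i) ≤ (∏ i ∈ S, c i) * ∏ i ∈ T, c i := by
      rw [← Finset.prod_union_inter]
      have h1' : 1 ≤ ∏ i ∈ S ∩ T, c i := by
        have := Finset.prod_le_prod (s := S ∩ T) (f := fun _ => (1:ℝ)) (g := c)
          (fun _ _ => zero_le_one) (fun i _ => hc i)
        simpa using this
      exact le_mul_of_one_le_right (hcp _).le h1'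
    have h3 : (∏ i ∈ S ∪ T, c i) ^ 2 ≤ (∏ i ∈ S, c i) ^ 2 * (∏ i ∈ T, c i) ^ 2 := by
      rw [← mul_pow]
      exact pow_le_pow_left₀ (hcp _).le h2 2
    calc E / (∏ i ∈ S, c i) ^ 2 * (∏ i ∈ S ∪ T, c i) ^ 2
        ≤ E / (∏ i ∈ S, c i) ^ 2 * ((∏ i ∈ S, c i) ^ 2 * (∏ i ∈ T, c i) ^ 2) :=
          mul_le_mul_of_nonneg_left h3 (div_nonneg hE0 (sq_nonneg _))
      _ = (∏ i ∈ T, c i) ^ 2 * E := by
        have := (hcp S).ne'
        field_simp
  -- the moment bound
  set s' : ι → ℝ := fun i => if i ∈ S then 0 else s i with hs'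
  have hs'0 : ∀ i, 0 ≤ s' i := by
    intro i; simp only [hs']; split_ifs
    · exact le_refl _
    · exact hs i
  have hs'1 : ∀ i, s' i ≤ s i := by
    intro i; simp only [hs']; split_ifs
    · exact hs i
    · exact le_refl _
  have hs'11 : ∀ i, s' i ≤ 1 := fun i => (hs'1 i).trans (hs1 i)
  have hmom := genU_tr m C1 C2 hm hC1 hC2 hone s' q r0 c hs'0 hs'11 hq hr01
    (fun i => zero_le_one.trans (hc i)) (by
      intro i
      have h1 := mul_le_mul_of_nonneg_left (hC i) (hr00 i)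
      have hqq : 0 ≤ q i * q i * (C1 + C2 * ((q i * (1 + c i)) ^ 2) ^ (m - 1)) := by
        have := hq i
        have h2 : 0 ≤ ((q i * (1 + c i)) ^ 2) ^ (m - 1) := pow_nonneg (sq_nonneg _) _
        positivity
      have h3 := mul_le_mul_of_nonneg_right (hs'1 i) hqq
      simp only [hr0] at h1 ⊢
      calc _ = s' i * (q i * q i * (C1 + C2 * ((q i * (1 + c i)) ^ 2) ^ (m - 1))) := by ring
        _ ≤ s i * (q i * q i * (C1 + C2 * ((q i * (1 + c i)) ^ 2) ^ (m - 1))) := h3
        _ = s i * q i * (q i * (C1 + C2 * ((q i * (1 + c i)) ^ 2) ^ (m - 1))) := by ring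
        _ ≤ _ := h1
        _ = _ := mul_one _) π hπ hπ1 (restr S a F) k E hE0 hloc
  have hid : 1 / 2 * E ≤ ex (ew s' π) (fun y =>
        (if sz y ≤ 2 * d - S.card then uo (fun _ => 1) π (restr S a F) y else 0) *
          uo q π (tr π k (restr S a F)) y) := by
    apply corr_ge π hπ hπ1 s q hs hs1 hq k (2 * d - S.card) S a F
    have e1 : ((2 * d - S.card : ℕ) : ℝ) = 2 * d - S.card := by
      rw [Nat.cast_sub (by omega)]; push_cast; ring
    have e2 : (k : ℝ) = d - S.card := by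
      rw [hk, Nat.cast_sub hScard]
    rw [e1, e2]
    have : 0 ≤ ∑ i, s i := sum_nonneg fun i _ => hs i
    linarith
  have hmr : (1 : ℝ) ≤ m := by exact_mod_cast hm
  have hpq : ((2 * m : ℝ) / (2 * m - 1)).HolderConjugate (2 * m) := by
    rw [Real.holderConjugate_iff]
    constructor
    · rw [one_lt_div (by linarith)]
      linarith
    · field_simp
      ring
  have hw := ew_nonneg s' hs'0 hs'11 π hπ
  have hhol := ex_holder (ew s' π) hw
    (fun y => if sz y ≤ 2 * d - S.card then uo (fun _ => 1) π (restr S a F) y else 0)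
    (uo q π (tr π k (restr S a F))) _ _ hpq
  have hBc : 0 ≤ B * ∏ i ∈ S, c i := mul_nonneg hB (hcp S).le
  have hp0 : 0 < (2 * m : ℝ) / (2 * m - 1) := div_pos (by linarith) (by linarith)
  have h1 : (ex (ew s' π) fun y => |(fun y => if sz y ≤ 2 * d - S.card then
      uo (fun _ => 1) π (restr S a F) y else 0) y| ^
      ((2 * m : ℝ) / (2 * m - 1))) ^ (1 / ((2 * m : ℝ) / (2 * m - 1))) ≤ B * ∏ i ∈ S, c i := by
    have hFS := hF S a hScard hsup
    have e3 : (ex (ew s' π) fun y => |(fun y => if sz y ≤ 2 * d - S.card then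
      uo (fun _ => 1) π (restr S a F) y else 0) y| ^ ((2 * m : ℝ) / (2 * m - 1))) =
      (ex (ew s' π) (fun y => if S.card + sz y ≤ 2 * d then
        |uo (fun _ => 1) π (restr S a F) y| ^ ((2 * m : ℝ) / (2 * m - 1)) else 0)) := by
      congr 1
      funext y
      by_cases h : sz y ≤ 2 * d - S.card
      · have h' : S.card + sz y ≤ 2 * d := by omega
        simp only [h, h', if_true]
      · have h' : ¬ (S.card + sz y ≤ 2 * d) := by omega
        simp only [h, h', if_false, abs_zero]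
        exact Real.zero_rpow hp0.ne'
    rw [e3]
    refine (Real.rpow_le_rpow (ex_nonneg _ hw _ fun y => ?_) hFS
      (by positivity)).trans (le_of_eq ?_)
    · split_ifs
      · exact Real.rpow_nonneg (abs_nonneg _) _
      · exact le_refl _
    · rw [← Real.rpow_mul hBc, mul_one_div_cancel hp0.ne', Real.rpow_one]
  have h2 : (ex (ew s' π) fun y => |uo q π (tr π k (restr S a F)) y| ^ ((2 * m : ℝ))) ^
      (1 / (2 * m : ℝ)) ≤ Real.sqrt E := by
    have e : ∀ y, |uo q π (tr π k (restr S a F)) y| ^ ((2 * m : ℝ)) =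
        uo q π (tr π k (restr S a F)) y ^ (2 * m) := by
      intro y
      have : (2 * m : ℝ) = ((2 * m : ℕ) : ℝ) := by push_cast; ring
      rw [this, Real.rpow_natCast, Even.pow_abs (even_two_mul m)]
    simp only [e]
    refine (Real.rpow_le_rpow (ex_nonneg _ hw _ fun y => (even_two_mul m).pow_nonneg _) hmom
      (by positivity)).trans (le_of_eq ?_)
    rw [← Real.rpow_natCast, ← Real.rpow_mul hE0, Real.sqrt_eq_rpow]
    congr 1
    field_simp
  have h3 : 1 / 2 * E ≤ (B * ∏ i ∈ S, c i) * Real.sqrt E :=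
    hid.trans (hhol.trans (mul_le_mul h1 h2 (Real.rpow_nonneg (ex_nonneg _ hw _ fun y =>
      Real.rpow_nonneg (abs_nonneg _) _) _) hBc))
  by_cases hE : E = 0
  · rw [hE]
    exact sq_nonneg _
  · have hEp : 0 < E := lt_of_le_of_ne hE0 (Ne.symm hE)
    have hsE : 0 < Real.sqrt E := Real.sqrt_pos.2 hEp
    have h4 : Real.sqrt E ≤ 2 * B * ∏ i ∈ S, c i := by
      have : Real.sqrt E * Real.sqrt E ≤ (2 * B * ∏ i ∈ S, c i) * Real.sqrt E := by
        rw [Real.mul_self_sqrt hE0]
        linarith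
      exact le_of_mul_le_mul_right this hsE
    calc E = Real.sqrt E ^ 2 := (Real.sq_sqrt hE0).symm
      _ ≤ _ := pow_le_pow_left₀ hsE.le h4 2

end Vale.Agent.P042.UU.Loc
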