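import Vale.Agent.P042.UU.LocE
import Vale.Agent.P042.UU.SpecA

set_option autoImplicit false
set_option linter.unusedSectionVars false

/-!
Truncated global hypercontractivity, part D: the statement of the Spec.
-/

namespace Vale.Agent.P042.UU

open Finset Vale.Agent.P042.SS Vale.Agent.P042.TT

namespace Loc

open Vale.Agent.P042.TT.Loc

variable {ι : Type} [Fintype ι] [DecidableEq ι]
variable {X : ι → Type} [∀ i, Fintype (X i)] [∀ i, DecidableEq (X i)]

theorem local_eq_tr (s : ι → ℝ) (π : ∀ i, X i → ℝ) (hπ : ∀ i x, 0 ≤ π i x)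
    (hπ1 : ∀ i, ∑ x, π i x = 1) (f : (∀ i, X i) → ℝ) (hf : ∀ x, 0 ≤ f x)
    (S : Finset ι) (a : ∀ i, X i) (N : ℕ) (p : ℝ) :
    (ex (ew (fun i => if i ∈ S then 0 else s i) π) (fun y => if S.card + sz y ≤ N then
        |uo (fun _ => 1) π (restr S a f) y| ^ p else 0)) =
      ∑ T ∈ Sᶜ.powerset.filter (fun T => S.card + T.card ≤ N), wtR s Sᶜ T *
        Ex π T (fun z => (rho π f (S ∪ T) z) ^ p) a := by
  rw [ex_mask _ π hπ1]
  simp only [sz_mask, uo_one_mask π hπ1]
  symm
  refine sum_subset_zero_on_sdiff (subset_univ _) ?_ ?_ |>.trans rfl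
  · intro T hT
    simp only [mem_sdiff, mem_univ, true_and, mem_filter, mem_powerset, not_and_or] at hT
    by_cases hd : T ⊆ Sᶜ
    · have hcc : ¬ (S.card + T.card ≤ N) := by
        rcases hT with h | h
        · exact absurd hd h
        · exact h
      simp only [hcc, if_false]
      unfold ex
      simp
    · obtain ⟨i, hi, hi2⟩ := not_subset.mp hd
      have hi3 : i ∈ S := by simpa using hi2
      have h0 : (∏ i ∈ T, if i ∈ S then 0 else s i) = 0 := prod_eq_zero hi (by simp [hi3])
      rw [h0]; ring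
  · intro T hT
    rw [mem_filter, mem_powerset] at hT
    have hd : ∀ i ∈ T, i ∉ S := by
      intro i hi; have := hT.1 hi; simpa using this
    have hTc := hT.2
    have h1 : wtR s Sᶜ T = (∏ i ∈ T, if i ∈ S then 0 else s i) *
        (∏ i ∈ univ \ T, (1 - if i ∈ S then 0 else s i)) := by
      unfold wtR
      congr 1
      · apply prod_congr rfl
        intro i hi
        simp [hd i hi]
      · apply prod_subset_one_on_sdiff
        · exact sdiff_subset_sdiff (subset_univ _) (le_refl _)
        · intro i hi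
          simp only [mem_sdiff, mem_univ, true_and, mem_compl, not_and, not_not] at hi
          have : i ∈ S := by
            by_contra hcon
            exact hi.1 (hi.2 hcon)
          simp [this]
        · intro i hi
          have : i ∉ S := by
            have := (mem_sdiff.mp hi).1; simpa using this
          simp [this]
    rw [← h1]
    congr 1
    simp only [hTc, if_true]
    unfold Ex
    rw [Ev_eq_ex]
    congr 1
    funext x
    beta_reduce
    have hce : cexp π T (restr S a f) x = rho π f (S ∪ T) (T.piecewise x a) := by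
      rw [rho_eq_cexp]
      unfold cexp restr
      refine sum_congr rfl fun y _ => ?_
      congr 2
      funext i
      by_cases hS : i ∈ S
      · have hT' : i ∉ T := fun h' => hd i h' hS
        simp [Finset.piecewise, hS, hT']
      · by_cases hT' : i ∈ T <;> simp [Finset.piecewise, hS, hT']
    rw [← hce, abs_of_nonneg]
    unfold cexp
    exact sum_nonneg fun y _ => mul_nonneg (wt_nonneg π hπ y) (hf _)

end Loc

open Vale.Agent.P042.TT.Loc in
theorem loc5_holds : LOC5Stmt := by
  intro m c hm hc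
  set K1 : ℝ := 8 ^ m with hK1
  have hK1p : 1 ≤ K1 := one_le_pow₀ (by norm_num)
  set q0 : ℝ := 1 / (2 * K1 * (1 + c)) with hq0
  have hq0p : 0 < q0 := by positivity
  have hq04 : q0 ≤ 1 / 4 := by
    rw [hq0]
    apply one_div_le_one_div_of_le (by norm_num)
    nlinarith
  have hq01 : q0 ≤ 1 := by linarith
  have hqc : q0 * (1 + c) ≤ 1 := by
    rw [hq0]
    have : 1 / (2 * K1 * (1 + c)) * (1 + c) = 1 / (2 * K1) := by
      field_simp
    rw [this, div_le_one (by positivity)]
    linarith
  have hqc0 : 0 ≤ q0 * (1 + c) := by positivity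
  have hcond : q0 * (K1 + K1 * ((q0 * (1 + c)) ^ 2) ^ (m - 1)) ≤ 1 := by
    have h1 : ((q0 * (1 + c)) ^ 2) ^ (m - 1) ≤ 1 := by
      apply pow_le_one₀ (sq_nonneg _)
      exact pow_le_one₀ hqc0 hqc
    have h2 : K1 + K1 * ((q0 * (1 + c)) ^ 2) ^ (m - 1) ≤ 2 * K1 := by nlinarith
    have h3 := mul_le_mul_of_nonneg_left h2 hq0p.le
    refine h3.trans ?_
    rw [hq0]
    have : 1 / (2 * K1 * (1 + c)) * (2 * K1) = 1 / (1 + c) := by
      field_simp
    rw [this, div_le_one (by positivity)]
    linarith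
  set K2 : ℝ := K1 + K1 * ((1 + c) ^ 2) ^ (m - 1) with hK2
  have hK2p : 1 ≤ K2 := by
    have : 0 ≤ K1 * ((1 + c) ^ 2) ^ (m - 1) := by positivity
    linarith
  have hCge : 4 ≤ K2 / q0 := by
    rw [le_div_iff₀ hq0p]
    nlinarith
  refine ⟨K2 / q0, by linarith, ?_⟩
  intro ι _ _ Ω _ π f s t B d hπ hf hB hst hd4 hF
  classical
  have ht : ∀ i, 0 ≤ t i := fun i => (hst i).1
  have hs0 : ∀ i, 0 ≤ s i := fun i =>
    le_trans (mul_nonneg (by linarith) (ht i)) (hst i).2.1
  have hs1 : ∀ i, s i ≤ 1 := fun i => (hst i).2.2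
  have ht1 : ∀ i, t i ≤ 1 := by
    intro i
    have h1 := (hst i).2.1
    have h2 := ht i
    nlinarith [hs1 i]
  have hone := oneC_crude m (by omega)
  have hloc : ∀ (S : Finset ι) (a : ∀ i, Ω i), S.card ≤ d → (∀ i ∈ S, π i (a i) ≠ 0) →
      TT.Loc.en π (fun i => s i * q0) (Loc.tr π (d - S.card) (restr S a f)) ≤
        (2 * B * ∏ i ∈ S, c) ^ 2 := by
    apply Loc.locA_tr m K1 K1 (by omega) (by positivity) (by positivity) hone s
      (fun _ => q0) (fun _ => c) hs0 hs1 (fun _ => hq0p.le)
      (fun _ => hq01) (fun _ => hc) (fun _ => hcond) π hπ.nn hπ.one f B hB.le d hd4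
    intro S a hSc hSa
    rw [Loc.local_eq_tr s π hπ.nn hπ.one f hf S a (2 * d), prod_const, mul_comm B]
    exact hF S a hSc hSa
  have hlocB := Loc.genU_tr m K1 K1 (by omega) (by positivity) (by positivity) hone t
    (fun _ => 1) (fun i => s i * q0) (fun _ => c) ht ht1 (fun _ => zero_le_one)
    (fun i => mul_le_one₀ (hs1 i) hq0p.le hq01) (fun _ => by linarith) (fun i => by
      simp only [one_mul, mul_one]
      have h1 : t i * (K2 / q0) ≤ s i := by linarith [(hst i).2.1]
      have h2 := mul_le_mul_of_nonneg_right h1 hq0p.le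
      have h3 : t i * (K2 / q0) * q0 = t i * K2 := by field_simp
      linarith) π hπ.nn hπ.one f d ((2 * B) ^ 2) (sq_nonneg _) (by
      intro T a hTc ha
      have h := hloc T a hTc ha
      rw [mul_pow] at h
      linarith)
  have hCB : (2 * B) ^ (2 * m) ≤ (K2 / q0 * B) ^ (2 * m) :=
    pow_le_pow_left₀ (by linarith) (mul_le_mul_of_nonneg_right (by linarith) hB.le) _
  refine le_trans ?_ hCB
  rw [← pow_mul, ex_mask t π hπ.one] at hlocB
  refine le_trans ?_ hlocB
  have hE0 : ∀ T : Finset ι, 0 ≤ (∏ i ∈ T, t i) * (∏ i ∈ univ \ T, (1 - t i)) *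
      ex π (fun x => uo (fun _ => 1) π (Loc.tr π d f) (mask T x) ^ (2 * m)) := fun T =>
    mul_nonneg (Loc.Wp_nonneg t ht ht1 T) (ex_nonneg π hπ.nn _ fun x =>
      (even_two_mul m).pow_nonneg _)
  refine le_trans (le_of_eq ?_) (sum_le_sum_of_subset_of_nonneg (filter_subset (fun T : Finset ι =>
    T.card ≤ d) univ) (fun T _ _ => hE0 T))
  refine sum_congr rfl fun T hT => ?_
  have hTd : T.card ≤ d := (mem_filter.1 hT).2
  rw [Ev_eq_ex]
  unfold wtR
  congr 2
  funext x
  rw [Loc.uo_tr_mask_small π hπ.one _ d f T hTd x, uo_one_mask π hπ.one, rho_eq_cexp]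

end Vale.Agent.P042.UU
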