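import Vale.Agent.P042.UU.SpecB
import Vale.Agent.P042.UU.SpecD

set_option autoImplicit false

/-!
Block LOWER5: assembly of the lower bound.
-/

namespace Vale.Agent.P042.UU

open Polynomial Finset Vale.Agent.P042.SS Vale.Agent.P042.TT

theorem lower5_ev_const (c b : ℝ) (hb : 0 < b) : ∀ᶠ P : ℝ in Filter.atTop, c ≤ P ^ b :=
  (tendsto_rpow_atTop hb).eventually_ge_atTop c

theorem lower5_ev_pow (c a b : ℝ) (hab : a < b) :
    ∀ᶠ P : ℝ in Filter.atTop, c * P ^ a ≤ P ^ b := by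
  filter_upwards [lower5_ev_const c (b - a) (by linarith), Filter.eventually_gt_atTop 0] with
    P h1 h2
  have h3 : P ^ b = P ^ (b - a) * P ^ a := by
    rw [← Real.rpow_add h2]
    congr 1
    ring
  rw [h3]
  exact mul_le_mul_of_nonneg_right h1 (Real.rpow_nonneg h2.le _)

/-- `Cor` is additive in the kernel -/
theorem lower5_cor_sub (g1 g2 : ℤ → ℝ) (N' H : ℕ) (K1 K2 : ℤ → ℤ → ℂ) :
    Cor g1 g2 N' H (fun n m => K1 n m - K2 n m) = Cor g1 g2 N' H K1 - Cor g1 g2 N' H K2 := by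
  unfold Cor
  simp only [mul_sub, Finset.sum_sub_distrib]

theorem lower5_KQ_sub (f : ℤ[X]) (q : ℕ) (K1 K2 : ℤ → ℤ → ℝ) :
    KQ f q (fun n m => K1 n m - K2 n m) = fun n m => KQ f q K1 n m - KQ f q K2 n m := by
  funext n m
  unfold KQ
  push_cast
  ring

theorem lower5_exp_le (c : ℝ) (hc : |c| ≤ 1 / 2) : Real.exp (-(2 * |c|)) ≤ 1 + c := by
  have h0 := abs_nonneg c
  have h1 : -|c| ≤ c := neg_abs_le c
  have h2 : Real.exp (-(2 * |c|)) ≤ 1 - |c| := by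
    have h3 := Real.add_one_le_exp (2 * |c|)
    rw [Real.exp_neg, inv_le_comm₀ (Real.exp_pos _) (by linarith)]
    refine le_trans ?_ h3
    rw [inv_le_comm₀ (by linarith) (by linarith)]
    rw [inv_le_iff_one_le_mul₀ (by linarith)]
    nlinarith
  linarith

theorem lower5_prod_ge (W : Finset ℕ) (c : ℕ → ℝ) (hc : ∀ p ∈ W, |c p| ≤ 1 / 2) :
    Real.exp (-(2 * ∑ p ∈ W, |c p|)) ≤ ∏ p ∈ W, (1 + c p) := by
  rw [Finset.mul_sum, ← Finset.sum_neg_distrib, Real.exp_sum]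
  exact Finset.prod_le_prod (fun p _ => (Real.exp_pos _).le)
    (fun p hp => lower5_exp_le _ (hc p hp))

/-- the pointwise factorisation of the main part -/
theorem lower5_point (ε P : ℝ) (ν : ℕ → ℤ → ℝ) (f : ℤ[X]) (q : ℕ) (n m : ℤ) (g g' : ℝ)
    (hc : ∀ p ∈ W5 ε P, 1 + cc ν f p ≠ 0) (ha : ∀ p ∈ W5 ε P, 1 + ta ν f p n ≠ 0)
    (hb : ∀ p ∈ W5 ε P, 1 + tb ν f p m ≠ 0) :
    g * g' * KS ε P ν f q n m =
      (∏ p ∈ W5 ε P, (1 + cc ν f p)) * ((∏ p ∈ Yn ε P q, (1 + cc ν f p)⁻¹) *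
        ((g * ∏ p ∈ W5 ε P, (1 + ta ν f p n)) * YA ε P (ta ν f) q n *
          ((g' * ∏ p ∈ W5 ε P, (1 + tb ν f p m)) * YA ε P (tb ν f) q m) *
          KG ε P ν f q n m)) := by
  classical
  have hV : Vn ε P q ⊆ W5 ε P := Finset.filter_subset _ _
  have hsplit : ∀ F : ℕ → ℝ, (∀ p ∈ W5 ε P, F p ≠ 0) →
      (∏ p ∈ W5 ε P, F p) * ∏ p ∈ Yn ε P q, (F p)⁻¹ = ∏ p ∈ Vn ε P q, F p := by
    intro F hF
    have h1 : ∏ p ∈ W5 ε P, F p = (∏ p ∈ Yn ε P q, F p) * ∏ p ∈ Vn ε P q, F p := by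
      unfold Yn Vn
      exact (Finset.prod_filter_mul_prod_filter_not _ _ _).symm
    have h2 : (∏ p ∈ Yn ε P q, F p) ≠ 0 :=
      Finset.prod_ne_zero_iff.2 fun p hp => hF p (Finset.filter_subset _ _ hp)
    rw [h1, Finset.prod_inv_distrib]
    field_simp
  have h1 := hsplit _ hc
  have h2 := hsplit _ ha
  have h3 := hsplit _ hb
  have hKS : KS ε P ν f q n m = (∏ p ∈ Vn ε P q, ((1 + cc ν f p) * (1 + ta ν f p n) *
      (1 + tb ν f p m))) * KG ε P ν f q n m := by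
    unfold KS KG
    rw [Finset.mul_sum]
    refine Finset.sum_congr rfl fun S hS => ?_
    have hSV : S ⊆ Vn ε P q := Finset.mem_powerset.1 (Finset.mem_filter.1 hS).1
    rw [← Finset.prod_sdiff hSV, mul_assoc, ← Finset.prod_mul_distrib, mul_comm]
    congr 1
    refine Finset.prod_congr rfl fun p hp => ?_
    have h4 := hc p (hV (hSV hp))
    have h5 := ha p (hV (hSV hp))
    have h6 := hb p (hV (hSV hp))
    field_simp
  rw [hKS, Finset.prod_mul_distrib, Finset.prod_mul_distrib, ← h1, ← h2, ← h3]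
  unfold YA
  ring

end Vale.Agent.P042.UU
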