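import Vale.Agent.P042.UU.Lower

set_option autoImplicit false

/-!
Block LOWER5: the theorem.
-/

namespace Vale.Agent.P042.UU

open Polynomial Finset Vale.Agent.P042.SS Vale.Agent.P042.TT

theorem lower5_ev (ε : ℝ) (hε : 0 < ε) (hε1 : ε ≤ 1 / 1000) :
    ∀ᶠ P : ℝ in Filter.atTop, 1 ≤ P ∧ P ^ (-(190 * ε)) ≤ 1 / 2 ∧ b5 ε P / 4 ≤ 1 / 2 ∧
      P ^ (1 - 98 * ε) ≤ P ^ (1 - 97.9 * ε) ∧ 2 * P ^ (1 - 191 * ε) ≤ P ^ (1 - 190 * ε) ∧
      P ^ (1 - 190 * ε) + 6 * P ^ (1 - 100 * ε) + 4 ≤ P ^ (1 - 95.5 * ε) := by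
  have hsm : ∀ a : ℝ, 0 < a → ∀ᶠ P : ℝ in Filter.atTop, P ^ (-a) ≤ 1 / 2 := by
    intro a ha
    filter_upwards [lower5_ev_const 2 a ha, Filter.eventually_gt_atTop 0] with P h1 h2
    rw [Real.rpow_neg h2.le, inv_le_comm₀ (by linarith) (by norm_num)]
    norm_num
    linarith
  filter_upwards [Filter.eventually_ge_atTop 1, hsm (190 * ε) (by positivity),
    hsm (96 * ε) (by positivity), lower5_ev_pow 2 (1 - 191 * ε) (1 - 190 * ε) (by linarith),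
    lower5_ev_pow 3 (1 - 190 * ε) (1 - 95.5 * ε) (by linarith),
    lower5_ev_pow 18 (1 - 100 * ε) (1 - 95.5 * ε) (by linarith),
    lower5_ev_const 12 (1 - 95.5 * ε) (by linarith)] with P h1 h2 h3 h4 h5 h6 h7
  refine ⟨h1, h2, ?_, ?_, h4, by linarith⟩
  · unfold b5
    linarith
  · exact Real.rpow_le_rpow_of_exponent_le h1 (by linarith)

theorem lower5_of (hTR : TRUNC5Stmt) (hDEC : DEC5Stmt) (hGOOD : GOOD5Stmt) (hKB : KB5Stmt)
    (hTSB : TSB5Stmt) (hTSK : TSK5Stmt) : LOWER5Stmt := by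
  classical
  intro k E K p0 kap ε hk hE hkap hε hε1
  obtain ⟨P1, hTR⟩ := hTR k E K p0 kap ε hk hE hkap hε hε1
  obtain ⟨P2, hDEC⟩ := hDEC k E K p0 kap ε hk hE hkap hε hε1
  obtain ⟨P3, hGOOD⟩ := hGOOD k E K p0 kap ε hk hE hkap hε hε1
  obtain ⟨P4, hKB⟩ := hKB k E K p0 kap ε hk hE hkap hε hε1
  obtain ⟨P5, hTSB⟩ := hTSB k hk ε hε hε1
  obtain ⟨P6, hTSK⟩ := hTSK k hk ε hε hε1
  obtain ⟨P7, hev⟩ := Filter.eventually_atTop.1 (lower5_ev ε hε hε1)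
  refine ⟨max P1 (max P2 (max P3 (max P4 (max P5 (max P6 P7))))), ?_⟩
  intro P hP N' H Φ G ν hpin hH1 hH2 f hf hroot hf1
  simp only [max_le_iff] at hP
  obtain ⟨q1, q2, q3, q4, q5, q6, q7⟩ := hP
  obtain ⟨hP1, e1, e2, e3, e4, e5⟩ := hev P q7
  obtain ⟨hcc, hccs, hta, htb, -⟩ := hKB P q4 ν hpin.wts hpin.νle hpin.low f hf hroot
  set ta' := ta ν f with hta'
  set tb' := tb ν f with htb'
  set Ga : ℤ → ℝ := Gg ε P ν ta' tb' G with hGa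
  have hGa0 : ∀ n, 0 ≤ Ga n := by
    intro n
    rw [hGa]
    unfold Gg
    split_ifs
    · exact hpin.G0 n
    · exact le_rfl
  have hGane : ∀ n, Ga n ≠ 0 → goodA ε P ν ta' tb' n ∧ Ga n = G n := by
    intro n hn
    rw [hGa] at hn ⊢
    unfold Gg at hn ⊢
    split_ifs at hn ⊢ with h
    · exact ⟨h, rfl⟩
    · exact absurd rfl hn
  have hGaG : ∀ n, Ga n ≠ 0 → G n ≠ 0 := fun n hn => by
    rw [← (hGane n hn).2]
    exact hn
  have hGasupp : ∀ n, Ga n ≠ 0 → 1 ≤ n ∧ n ≤ N' := fun n hn => hpin.Gsupp n (hGaG n hn)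
  have hGaν : ∀ n, Ga n ≠ 0 → ∀ p ∈ W5 ε P, ν p n ≠ 0 := fun n hn => hpin.Gν n (hGaG n hn)
  have hGale : ∀ n, Ga n ≤ Real.exp (P ^ (1 - 97.9 * ε)) := by
    intro n
    by_cases hn : Ga n = 0
    · rw [hn]
      exact (Real.exp_pos _).le
    · obtain ⟨hg, he⟩ := hGane n hn
      rw [he]
      refine (hpin.Gle n).trans (Real.exp_le_exp.2 ?_)
      exact hg.1.trans e3
  -- the two estimates
  have hA := hTR P q1 N' H Ga hpin.N'lo hpin.N'hi hH1 hH2 hGa0 hGasupp hGale f hf hf1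
  have hB := hDEC P q2 N' H Ga ν hpin.N'lo hpin.N'hi hH1 hH2 hpin.wts hpin.νle hpin.low hGa0
    hGasupp hGale hGaν f hf hroot (fun n hn => (hGane n hn).1)
  -- the tilted functions
  have hS1b := hTSB P q5 N' Φ G ν ta' tb' ta' hpin hta htb (Or.inl rfl)
  have hS2b := hTSB P q5 N' Φ G ν ta' tb' tb' hpin hta htb (Or.inr rfl)
  have hS1 := hTSK P q6 N' Φ G ν ta' tb' ta' hpin hta htb (Or.inl rfl) hS1b
  have hS2 := hTSK P q6 N' Φ G ν ta' tb' tb' hpin hta htb (Or.inr rfl) hS2b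
  have hC := hGOOD P q3 N' H Φ _ _ ν hS1 hS2 hH1 hH2 f hf hroot hf1
  -- nonvanishing
  have hcc2 : ∀ p ∈ W5 ε P, |cc ν f p| ≤ 1 / 2 := fun p hp => (hcc p hp).trans e1
  have hc0 : ∀ p ∈ W5 ε P, 1 + cc ν f p ≠ 0 := by
    intro p hp
    have := abs_le.1 (hcc2 p hp)
    linarith [this.1]
  have ha0 : ∀ n, ∀ p ∈ W5 ε P, 1 + ta ν f p n ≠ 0 := by
    intro n p hp
    have := abs_le.1 ((hta.le p hp n).trans e2)
    have h := this.1
    rw [hta'] at h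
    linarith
  have hb0 : ∀ n, ∀ p ∈ W5 ε P, 1 + tb ν f p n ≠ 0 := by
    intro n p hp
    have := abs_le.1 ((htb.le p hp n).trans e2)
    have h := this.1
    rw [htb'] at h
    linarith
  set 𝔪 : ℝ := ∏ p ∈ W5 ε P, (1 + cc ν f p) with h𝔪
  have h𝔪lo : Real.exp (-(P ^ (1 - 190 * ε))) ≤ 𝔪 := by
    refine le_trans ?_ (lower5_prod_ge _ _ hcc2)
    rw [Real.exp_le_exp]
    linarith
  have h𝔪0 : 0 < 𝔪 := lt_of_lt_of_le (Real.exp_pos _) h𝔪lo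
  -- the factorisation
  set Sg : ℂ := ∑ q ∈ EV5 ε P (Q5 ε P), ((∏ p ∈ Yn ε P q, (1 + cc ν f p)⁻¹ : ℝ) : ℂ) *
      Cor (fun n => Gt ε P ν ta' tb' ta' G n * YA ε P (ta ν f) q n)
        (fun m => Gt ε P ν ta' tb' tb' G m * YA ε P (tb ν f) q m) N' H
        (KQ f q (KG ε P ν f q)) with hSg
  have hfac : ∑ q ∈ EV5 ε P (Q5 ε P), Cor Ga Ga N' H (KQ f q (KS ε P ν f q)) = (𝔪 : ℂ) * Sg := by
    rw [hSg, Finset.mul_sum]
    refine Finset.sum_congr rfl fun q _ => ?_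
    unfold Cor
    rw [Finset.mul_sum, Finset.mul_sum]
    refine Finset.sum_congr rfl fun y _ => ?_
    rw [Finset.mul_sum, Finset.mul_sum]
    refine Finset.sum_congr rfl fun n _ => ?_
    rw [Finset.mul_sum, Finset.mul_sum]
    refine Finset.sum_congr rfl fun m _ => ?_
    have h1 := lower5_point ε P ν f q n m (Ga n) (Ga m) hc0 (ha0 n) (hb0 m)
    have h2 : ((Ga n * Ga m * KS ε P ν f q n m : ℝ) : ℂ) = _ := congrArg (fun x : ℝ => (x : ℂ)) h1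
    have h𝔪c : (𝔪 : ℂ) = ∏ p ∈ W5 ε P, (1 + (cc ν f p : ℂ)) := by
      rw [h𝔪]
      push_cast
      rfl
    unfold KQ
    unfold Gt
    rw [← hGa, h𝔪c]
    push_cast at h2 ⊢
    linear_combination (∑ b ∈ (range q).filter (Nat.Coprime q), Gam f b q *
      e (-(((n : ℝ) - (m : ℝ)) * ((b : ℝ) / q)))) * h2
  -- combine
  set S0 : ℂ := ∑ q ∈ Icc 1 (Q5 ε P), ∑ a ∈ (range q).filter (Nat.Coprime q),
        Gam f a q * Bil Ga N' H ((a : ℝ) / q) with hS0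
  set S1 : ℂ := ∑ q ∈ EV5 ε P (Q5 ε P), Cor Ga Ga N' H (KQ f q (KU ε P f q)) with hS1'
  have hdiff : ∑ q ∈ EV5 ε P (Q5 ε P), Cor Ga Ga N' H
        (KQ f q (fun n m => KU ε P f q n m - KS ε P ν f q n m)) = S1 - (𝔪 : ℂ) * Sg := by
    rw [← hfac, hS1', ← Finset.sum_sub_distrib]
    refine Finset.sum_congr rfl fun q _ => ?_
    rw [lower5_KQ_sub, lower5_cor_sub]
  rw [hdiff] at hB
  set δ1 : ℝ := Real.exp (-(P ^ (1 - 95.5 * ε))) * N' * (H : ℝ) ^ 2 with hδ1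
  have h5 : 𝔪 * (1 / 8 * N' * (H * Φ) ^ 2) ≤ ‖(𝔪 : ℂ) * Sg‖ := by
    rw [norm_mul, Complex.norm_real, Real.norm_of_nonneg h𝔪0.le]
    refine mul_le_mul_of_nonneg_left ?_ h𝔪0.le
    exact hC.trans (Complex.re_le_norm _)
  have h6 : ‖(𝔪 : ℂ) * Sg‖ ≤ ‖S0‖ + 2 * δ1 := by
    have e6 : (𝔪 : ℂ) * Sg = S0 - (S0 - S1) - (S1 - (𝔪 : ℂ) * Sg) := by ring
    calc ‖(𝔪 : ℂ) * Sg‖ = ‖S0 - (S0 - S1) - (S1 - (𝔪 : ℂ) * Sg)‖ := by rw [← e6]
      _ ≤ ‖S0 - (S0 - S1)‖ + ‖S1 - (𝔪 : ℂ) * Sg‖ := norm_sub_le _ _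
      _ ≤ (‖S0‖ + ‖S0 - S1‖) + ‖S1 - (𝔪 : ℂ) * Sg‖ := by
          gcongr
          exact norm_sub_le _ _
      _ ≤ _ := by linarith
  -- numbers
  have hN0 : (0 : ℝ) ≤ N' := Nat.cast_nonneg _
  have hΦ0 : 0 < Φ := lt_of_lt_of_le (Real.exp_pos _) hpin.Φlo
  set X : ℝ := N' * (H : ℝ) ^ 2 with hX
  have hX0 : 0 ≤ X := by positivity
  have h7 : 2 * Real.exp (-(P ^ (1 - 95.5 * ε))) ≤
      (1 / 8 - 1 / 20) * (Real.exp (-(P ^ (1 - 190 * ε))) * Φ ^ 2) := by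
    have h8 : Real.exp (-(6 * P ^ (1 - 100 * ε))) ≤ Φ ^ 2 := by
      have h9 := pow_le_pow_left₀ (Real.exp_pos _).le hpin.Φlo 2
      rw [← Real.exp_nat_mul] at h9
      refine le_trans (le_of_eq ?_) h9
      congr 1
      push_cast
      ring
    have h10 : Real.exp (-(P ^ (1 - 95.5 * ε))) ≤ Real.exp (-4) *
        (Real.exp (-(P ^ (1 - 190 * ε))) * Real.exp (-(6 * P ^ (1 - 100 * ε)))) := by
      rw [← Real.exp_add, ← Real.exp_add, Real.exp_le_exp]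
      linarith
    have h11 : Real.exp (-4) ≤ 1 / 32 := by
      rw [Real.exp_neg, inv_le_comm₀ (Real.exp_pos _) (by norm_num)]
      have := Real.add_one_le_exp (1 : ℝ)
      have h12 : Real.exp 4 = Real.exp 1 ^ 4 := by
        rw [← Real.exp_nat_mul]
        norm_num
      rw [h12]
      have h13 := Real.exp_one_gt_d9
      have h14 : (2.7 : ℝ) ^ 4 ≤ Real.exp 1 ^ 4 := pow_le_pow_left₀ (by norm_num) (by linarith) 4
      norm_num at h14 ⊢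
      linarith
    have h15 : Real.exp (-(P ^ (1 - 190 * ε))) * Real.exp (-(6 * P ^ (1 - 100 * ε))) ≤
        Real.exp (-(P ^ (1 - 190 * ε))) * Φ ^ 2 :=
      mul_le_mul_of_nonneg_left h8 (Real.exp_pos _).le
    have h16 : 0 ≤ Real.exp (-(P ^ (1 - 190 * ε))) * Real.exp (-(6 * P ^ (1 - 100 * ε))) := by
      positivity
    nlinarith
  have h8 : 2 * δ1 ≤ (1 / 8 - 1 / 20) * (Real.exp (-(P ^ (1 - 190 * ε))) * Φ ^ 2) * X := by
    have := mul_le_mul_of_nonneg_right h7 hX0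
    refine le_trans (le_of_eq ?_) this
    rw [hδ1, hX]
    ring
  have h9 : Real.exp (-(P ^ (1 - 190 * ε))) * (1 / 8 * N' * (H * Φ) ^ 2) ≤
      𝔪 * (1 / 8 * N' * (H * Φ) ^ 2) :=
    mul_le_mul_of_nonneg_right h𝔪lo (by positivity)
  have h10 : 1 / 20 * Real.exp (-(P ^ (1 - 190 * ε))) * N' * (H * Φ) ^ 2 =
      Real.exp (-(P ^ (1 - 190 * ε))) * (1 / 8 * N' * (H * Φ) ^ 2) -
      (1 / 8 - 1 / 20) * (Real.exp (-(P ^ (1 - 190 * ε))) * Φ ^ 2) * X := by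
    rw [hX]
    ring
  rw [h10]
  linarith

end Vale.Agent.P042.UU
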