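import Vale.Agent.P042.UU.Defs
import Vale.Agent.P042.TT.CoreAsm

set_option autoImplicit false

/-!
# P042, Theorem S5, block MGF5, part A: the Taylor polynomial of the exponential, limited
independence
-/

namespace Vale.Agent.P042.UU

open Polynomial Finset Vale.Agent.P042.SS Vale.Agent.P042.TT

/-! ### Taylor polynomials -/

lemma mgf_TD_zero (x : ℝ) : TD 0 x = 1 := by simp [TD]

lemma mgf_TD_succ (D : ℕ) (x : ℝ) :
    TD (D + 1) x = TD D x + x ^ (D + 1) / ((D + 1).factorial : ℝ) := by
  unfold TD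
  rw [Finset.sum_range_succ]

lemma mgf_TD_at_zero (D : ℕ) : TD D 0 = 1 := by
  induction D with
  | zero => exact mgf_TD_zero 0
  | succ D ih => rw [mgf_TD_succ, ih]; simp

lemma mgf_TD_deriv (D : ℕ) (x : ℝ) : HasDerivAt (TD (D + 1)) (TD D x) x := by
  induction D with
  | zero =>
    have h : TD (0 + 1) = fun x : ℝ => 1 + x := by
      funext z
      rw [mgf_TD_succ, mgf_TD_zero]
      simp
    rw [h, mgf_TD_zero]
    simpa using (hasDerivAt_id x).const_add 1
  | succ D ih =>
    have h : TD (D + 1 + 1) = fun x : ℝ =>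
        TD (D + 1) x + x ^ (D + 1 + 1) / ((D + 1 + 1).factorial : ℝ) := by
      funext z
      rw [mgf_TD_succ]
    rw [h]
    have h1 := (hasDerivAt_pow (D + 1 + 1) x).div_const ((D + 1 + 1).factorial : ℝ)
    have h2 := ih.add h1
    have h3 : ((D + 1 + 1 : ℕ) : ℝ) * x ^ (D + 1 + 1 - 1) / ((D + 1 + 1).factorial : ℝ) =
        x ^ (D + 1) / ((D + 1).factorial : ℝ) := by
      rw [Nat.factorial_succ (D + 1)]
      have h4 : ((D + 1 + 1 : ℕ) : ℝ) ≠ 0 := by positivity
      have h5 : ((D + 1).factorial : ℝ) ≠ 0 := by positivity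
      simp only [Nat.add_sub_cancel]
      push_cast at h4 ⊢
      field_simp
    rw [h3] at h2
    rw [mgf_TD_succ]
    exact h2

lemma mgf_TD_cont (D : ℕ) : Continuous (TD D) := by
  unfold TD
  fun_prop

lemma mgf_exp2_deriv (z : ℝ) : HasDerivAt (fun z : ℝ => Real.exp (2 * z))
    (Real.exp (2 * z) * 2) z := by
  simpa using ((hasDerivAt_id z).const_mul 2).exp

/-- the sign of the remainder at negative arguments -/
lemma mgf_sign (D : ℕ) : ∀ y : ℝ, 0 ≤ y → 0 ≤ (-1) ^ D * (TD D (-y) - Real.exp (-y)) := by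
  induction D with
  | zero =>
    intro y hy
    rw [mgf_TD_zero]
    have := Real.exp_le_one_iff.2 (by linarith : -y ≤ 0)
    simp only [pow_zero, one_mul]
    linarith
  | succ D ih =>
    intro y hy
    set F : ℝ → ℝ := fun y => (-1) ^ (D + 1) * (TD (D + 1) (-y) - Real.exp (-y)) with hF
    have hd : ∀ z : ℝ, HasDerivAt F ((-1) ^ D * (TD D (-z) - Real.exp (-z))) z := by
      intro z
      have h1 : HasDerivAt (fun z : ℝ => TD (D + 1) (-z)) (TD D (-z) * (-1)) z :=
        (mgf_TD_deriv D (-z)).comp z (hasDerivAt_neg z)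
      have h2 : HasDerivAt (fun z : ℝ => Real.exp (-z)) (Real.exp (-z) * (-1)) z :=
        (Real.hasDerivAt_exp (-z)).comp z (hasDerivAt_neg z)
      have h3 := (h1.sub h2).const_mul ((-1 : ℝ) ^ (D + 1))
      refine HasDerivAt.congr_deriv (f := F) h3 ?_
      rw [pow_succ]
      ring
    have hmono : MonotoneOn F (Set.Ici 0) := by
      refine monotoneOn_of_deriv_nonneg (convex_Ici 0) ?_ ?_ ?_
      · exact fun z _ => (hd z).continuousAt.continuousWithinAt
      · exact fun z _ => (hd z).differentiableAt.differentiableWithinAt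
      · intro z hz
        rw [interior_Ici] at hz
        rw [(hd z).deriv]
        exact ih z (le_of_lt hz)
    have h0 : F 0 = 0 := by
      rw [hF]
      simp [mgf_TD_at_zero]
    have := hmono (Set.mem_Ici.2 le_rfl) (Set.mem_Ici.2 hy) hy
    rw [h0] at this
    exact this

lemma mgf_exp_le_neg {D : ℕ} (hD : Even D) {x : ℝ} (hx : x ≤ 0) : Real.exp x ≤ TD D x := by
  have h := mgf_sign D (-x) (by linarith)
  rw [hD.neg_one_pow, one_mul, neg_neg] at h
  linarith

lemma mgf_le_exp (D : ℕ) {x : ℝ} (hx : 0 ≤ x) : TD D x ≤ Real.exp x := by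
  unfold TD
  exact Real.sum_le_exp_of_nonneg hx (D + 1)

/-- the remainder for positive arguments -/
lemma mgf_rem_pos (D : ℕ) : ∀ x : ℝ, 0 ≤ x →
    Real.exp x - TD D x ≤ (1 / 2) ^ (D + 1) * Real.exp (2 * x) := by
  induction D with
  | zero =>
    intro x hx
    rw [mgf_TD_zero]
    have h1 : Real.exp (2 * x) = Real.exp x * Real.exp x := by rw [← Real.exp_add]; ring_nf
    rw [h1]
    have h2 := Real.one_le_exp hx
    nlinarith [sq_nonneg (Real.exp x - 1)]
  | succ D ih =>
    intro x hx
    set F : ℝ → ℝ := fun x => (1 / 2) ^ (D + 1 + 1) * Real.exp (2 * x) - Real.exp x +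
      TD (D + 1) x with hF
    have hd : ∀ z : ℝ, HasDerivAt F ((1 / 2) ^ (D + 1) * Real.exp (2 * z) - Real.exp z +
        TD D z) z := by
      intro z
      have h1 := mgf_exp2_deriv z
      have h2 := ((h1.const_mul ((1 / 2 : ℝ) ^ (D + 1 + 1))).sub (Real.hasDerivAt_exp z)).add
        (mgf_TD_deriv D z)
      refine HasDerivAt.congr_deriv (f := F) h2 ?_
      rw [pow_succ ((1 / 2 : ℝ)) (D + 1)]
      ring
    have hmono : MonotoneOn F (Set.Ici 0) := by
      refine monotoneOn_of_deriv_nonneg (convex_Ici 0) ?_ ?_ ?_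
      · exact fun z _ => (hd z).continuousAt.continuousWithinAt
      · exact fun z _ => (hd z).differentiableAt.differentiableWithinAt
      · intro z hz
        rw [interior_Ici] at hz
        rw [(hd z).deriv]
        have := ih z (le_of_lt hz)
        linarith
    have h0 : 0 ≤ F 0 := by
      rw [hF]
      simp only [mgf_TD_at_zero, mul_zero, Real.exp_zero]
      have : (0 : ℝ) ≤ (1 / 2) ^ (D + 1 + 1) := by positivity
      linarith
    have := hmono (Set.mem_Ici.2 le_rfl) (Set.mem_Ici.2 hx) hx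
    have h3 := h0.trans this
    rw [hF] at h3
    simp only at h3
    linarith

/-- the remainder for negative arguments -/
lemma mgf_rem_neg (D : ℕ) : ∀ y : ℝ, 0 ≤ y →
    (-1) ^ D * (TD D (-y) - Real.exp (-y)) ≤ (1 / 2) ^ (D + 1) * Real.exp (2 * y) := by
  induction D with
  | zero =>
    intro y hy
    rw [mgf_TD_zero]
    have h1 : Real.exp (2 * y) = Real.exp y * Real.exp y := by rw [← Real.exp_add]; ring_nf
    have h2 := Real.one_le_exp hy
    have h3 : Real.exp (-y) * Real.exp y = 1 := by rw [← Real.exp_add]; simp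
    have h4 := Real.exp_pos (-y)
    rw [h1]
    simp only [pow_zero, one_mul, zero_add, pow_one]
    have h5 : 2 * y ≤ Real.exp y * Real.exp y := by
      rw [← h1]
      have := Real.add_one_le_exp (2 * y)
      linarith
    have h6 : 1 - Real.exp (-y) ≤ y := by
      have := Real.add_one_le_exp (-y)
      linarith
    linarith
  | succ D ih =>
    intro y hy
    set F : ℝ → ℝ := fun y => (1 / 2) ^ (D + 1 + 1) * Real.exp (2 * y) -
      (-1) ^ (D + 1) * (TD (D + 1) (-y) - Real.exp (-y)) with hF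
    have hd : ∀ z : ℝ, HasDerivAt F ((1 / 2) ^ (D + 1) * Real.exp (2 * z) -
        (-1) ^ D * (TD D (-z) - Real.exp (-z))) z := by
      intro z
      have h0 := mgf_exp2_deriv z
      have h1 : HasDerivAt (fun z : ℝ => TD (D + 1) (-z)) (TD D (-z) * (-1)) z :=
        (mgf_TD_deriv D (-z)).comp z (hasDerivAt_neg z)
      have h2 : HasDerivAt (fun z : ℝ => Real.exp (-z)) (Real.exp (-z) * (-1)) z :=
        (Real.hasDerivAt_exp (-z)).comp z (hasDerivAt_neg z)
      have h3 := (h0.const_mul ((1 / 2 : ℝ) ^ (D + 1 + 1))).sub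
        ((h1.sub h2).const_mul ((-1 : ℝ) ^ (D + 1)))
      refine HasDerivAt.congr_deriv (f := F) h3 ?_
      rw [pow_succ ((1 / 2 : ℝ)) (D + 1), pow_succ (-1 : ℝ) D]
      ring
    have hmono : MonotoneOn F (Set.Ici 0) := by
      refine monotoneOn_of_deriv_nonneg (convex_Ici 0) ?_ ?_ ?_
      · exact fun z _ => (hd z).continuousAt.continuousWithinAt
      · exact fun z _ => (hd z).differentiableAt.differentiableWithinAt
      · intro z hz
        rw [interior_Ici] at hz
        rw [(hd z).deriv]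
        have := ih z (le_of_lt hz)
        linarith
    have h0 : 0 ≤ F 0 := by
      rw [hF]
      simp only [mgf_TD_at_zero, mul_zero, Real.exp_zero, neg_zero, sub_self, sub_zero]
      positivity
    have := hmono (Set.mem_Ici.2 le_rfl) (Set.mem_Ici.2 hy) hy
    have h3 := h0.trans this
    rw [hF] at h3
    simp only at h3
    linarith

lemma mgf_upper {D : ℕ} (hD : Even D) (x : ℝ) :
    TD D x ≤ Real.exp x + (1 / 2) ^ (D + 1) * Real.exp (-2 * x) := by
  rcases le_total 0 x with hx | hx
  · have h1 := mgf_le_exp D hx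
    have h2 : (0 : ℝ) ≤ (1 / 2) ^ (D + 1) * Real.exp (-2 * x) := by positivity
    linarith
  · have h1 := mgf_rem_neg D (-x) (by linarith)
    rw [hD.neg_one_pow, one_mul, neg_neg] at h1
    have h2 : 2 * -x = -2 * x := by ring
    rw [h2] at h1
    linarith

lemma mgf_TD_pos {D : ℕ} (hD : Even D) (x : ℝ) : 0 < TD D x := by
  rcases le_total 0 x with hx | hx
  · unfold TD
    have h1 : ∀ j ∈ range (D + 1), 0 ≤ x ^ j / (j.factorial : ℝ) := fun j _ => by positivity
    have h2 := Finset.single_le_sum h1 (mem_range.2 (Nat.succ_pos D))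
    simp only [pow_zero, Nat.factorial_zero, Nat.cast_one, div_one] at h2
    linarith
  · exact (Real.exp_pos x).trans_le (mgf_exp_le_neg hD hx)

lemma mgf_TD_mono (D : ℕ) {x y : ℝ} (hx : 0 ≤ x) (hxy : x ≤ y) : TD D x ≤ TD D y := by
  unfold TD
  refine Finset.sum_le_sum fun j _ => ?_
  gcongr

/-- `exp x ≤ 2 T(x)` for `x ≤ (D+1)/10` -/
lemma mgf_exp_le {D : ℕ} (hD : Even D) (hD2 : 2 ≤ D) {x : ℝ} (hx : x ≤ (D + 1 : ℝ) / 10) :
    Real.exp x ≤ 2 * TD D x := by
  rcases le_total x 0 with h | h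
  · have h1 := mgf_exp_le_neg hD h
    have h2 := mgf_TD_pos hD x
    linarith
  · have h1 := mgf_rem_pos D x h
    have h2 : (1 / 2 : ℝ) ^ (D + 1) * Real.exp (2 * x) ≤ 1 / 2 * Real.exp x := by
      have h3 : Real.exp (2 * x) = Real.exp x * Real.exp x := by rw [← Real.exp_add]; ring_nf
      have h4 : (1 / 2 : ℝ) ^ (D + 1) = Real.exp (-((D + 1 : ℝ) * Real.log 2)) := by
        rw [show (-((D + 1 : ℝ) * Real.log 2)) = ((D + 1 : ℕ) : ℝ) * Real.log (1 / 2) by
          rw [one_div, Real.log_inv]; push_cast; ring]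
        rw [mul_comm, ← Real.rpow_def_of_pos (by norm_num), Real.rpow_natCast]
      have h5 : (1 / 2 : ℝ) = Real.exp (-Real.log 2) := by
        rw [Real.exp_neg, Real.exp_log (by norm_num)]; norm_num
      have h6 : Real.exp (-((D + 1 : ℝ) * Real.log 2)) * Real.exp x ≤ 1 / 2 := by
        rw [h5, ← Real.exp_add]
        refine Real.exp_le_exp.2 ?_
        have h7 := Real.log_two_gt_d9
        have h8 : (2 : ℝ) ≤ D := by exact_mod_cast hD2
        nlinarith
      rw [h3, h4, ← mul_assoc]
      exact mul_le_mul_of_nonneg_right h6 (Real.exp_pos x).le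
    linarith

end Vale.Agent.P042.UU
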