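import Vale.Agent.P042.UU.MgfA
import Vale.Agent.P042.SS.ExtA0

set_option autoImplicit false

/-!
# P042, Theorem S5, block MGF5, part B: limited independence in a cell
-/

namespace Vale.Agent.P042.UU

open Polynomial Finset Vale.Agent.P042.SS Vale.Agent.P042.TT

lemma mgf_Ioc_range (f : ℤ → ℝ) (y : ℤ) (M : ℕ) :
    ∑ n ∈ Ioc y (y + M), f n = ∑ i ∈ range M, f (y + 1 + i) := by
  induction M with
  | zero => simp
  | succ M ih =>
    rw [Finset.sum_range_succ, ← ih]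
    have h1 : Ioc y (y + ((M + 1 : ℕ) : ℤ)) = insert (y + 1 + (M : ℤ)) (Ioc y (y + M)) := by
      ext n
      simp only [mem_Ioc, mem_insert]
      push_cast
      omega
    rw [h1, Finset.sum_insert (by simp only [mem_Ioc]; omega), add_comm]

lemma mgf_period0 (g : ℤ → ℝ) (K : ℕ) (hK : 0 < K) (hg : ∀ n, g (n + K) = g n) (b : ℤ) (m : ℕ) :
    ∑ i ∈ range (K * m), g (b + i) = m * ∑ z ∈ range K, g z := by
  induction m with
  | zero => simp
  | succ m ih =>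
    have h2 := sum_affine hg hK (b + (K * m : ℕ)) 1 (Nat.coprime_one_left K)
    rw [Nat.mul_succ, Finset.sum_range_add, ih]
    have h1 : ∑ i ∈ range K, g (b + ((K * m + i : ℕ) : ℤ)) =
        ∑ i ∈ range K, g (b + ((K * m : ℕ) : ℤ) + ((1 : ℕ) : ℤ) * (i : ℤ)) := by
      refine Finset.sum_congr rfl fun i _ => ?_
      congr 1
      push_cast
      ring
    rw [h1, h2]
    push_cast
    ring

lemma mgf_perK (g : ℤ → ℝ) (K : ℕ) (hg : ∀ n, g (n + K) = g n) (m : ℕ) (n : ℤ) :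
    g (n + ((K * m : ℕ) : ℤ)) = g n := by
  have hper : Function.Periodic g (K : ℤ) := hg
  have h := (hper.int_mul (m : ℤ)) n
  rw [← h]
  congr 1
  push_cast
  ring

lemma mgf_period (g : ℤ → ℝ) (K : ℕ) (hK : 0 < K) (hg : ∀ n, g (n + K) = g n) (b : ℤ)
    (m r : ℕ) :
    ∑ i ∈ range (K * m + r), g (b + i) = m * ∑ z ∈ range K, g z + ∑ i ∈ range r, g (b + i) := by
  rw [Finset.sum_range_add, mgf_period0 g K hK hg b m]
  congr 1
  refine Finset.sum_congr rfl fun i _ => ?_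
  have h := mgf_perK g K hg m (b + i)
  rw [← h]
  congr 1
  push_cast
  ring

lemma mgf_one_class (D : ℕ) (hD : 1 ≤ D) (x : ℤ) :
    ∑ z ∈ range D, (if ((z : ℕ) : ℤ) ≡ x [ZMOD (D : ℕ)] then (1 : ℝ) else 0) = 1 := by
  have hD' : (0 : ℤ) < D := by exact_mod_cast hD
  have h0 : 0 ≤ x % (D : ℤ) := Int.emod_nonneg _ hD'.ne'
  have h1 : x % (D : ℤ) < D := Int.emod_lt_of_pos _ hD'
  rw [Finset.sum_eq_single_of_mem ((x % (D : ℤ)).toNat) (by rw [mem_range]; omega)]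
  · rw [if_pos]
    rw [Int.toNat_of_nonneg h0]
    exact Int.mod_modEq x D
  · intro z hz hne
    rw [if_neg]
    intro h
    refine hne ?_
    rw [mem_range] at hz
    have h2 : ((z : ℕ) : ℤ) % (D : ℤ) = x % (D : ℤ) := h
    rw [Int.emod_eq_of_lt (by positivity) (by exact_mod_cast hz)] at h2
    rw [← h2]
    simp

/-- sum of a periodic function over a cell -/
theorem mgf_cell (f : ℤ → ℝ) (d D M : ℕ) (y x : ℤ) (β : ℝ) (hd : 1 ≤ d) (hD : 1 ≤ D)
    (hco : Nat.Coprime D d) (hf : ∀ n, f (n + d) = f n) (hβ : ∀ n, |f n| ≤ β) :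
    |∑ n ∈ cel y M D x, f n - (M : ℝ) / D * ((∑ z ∈ range d, f z) / d)| ≤ 2 * β * d := by
  classical
  set χ : ℤ → ℝ := fun n => if n ≡ x [ZMOD (D : ℕ)] then 1 else 0 with hχ
  have hχper : ∀ n, χ (n + D) = χ n := by
    intro n
    rw [hχ]
    simp only
    have : (n + (D : ℤ) ≡ x [ZMOD (D : ℕ)]) ↔ (n ≡ x [ZMOD (D : ℕ)]) := by
      unfold Int.ModEq
      rw [Int.add_emod_right]
    simp only [this]
  have hχ0 : ∀ n, 0 ≤ χ n := fun n => by rw [hχ]; simp only; split_ifs <;> norm_num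
  have hK : 0 < D * d := Nat.mul_pos hD hd
  set g : ℤ → ℝ := fun n => χ n * f n with hg
  have hgper : ∀ n, g (n + (D * d : ℕ)) = g n := by
    intro n
    rw [hg]
    simp only
    rw [mgf_perK χ D hχper d n]
    have := mgf_perK f d hf D n
    rw [mul_comm d D] at this
    rw [this]
  have hsum : ∑ n ∈ cel y M D x, f n = ∑ n ∈ Ioc y (y + M), g n := by
    unfold cel
    rw [Finset.sum_filter]
    refine Finset.sum_congr rfl fun n _ => ?_
    rw [hg, hχ]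
    simp only
    split_ifs <;> simp
  have hS : ∑ z ∈ range (D * d), g z = ∑ z ∈ range d, f z := by
    rw [hg]
    simp only
    rw [sum_crt D d hco hD hd χ f hχper hf, hχ]
    simp only
    rw [mgf_one_class D hD x, one_mul]
  have hSa : ∑ z ∈ range (D * d), χ z * |f z| = ∑ z ∈ range d, |f z| := by
    rw [sum_crt D d hco hD hd χ (fun n => |f n|) hχper (fun n => by rw [hf]), hχ]
    simp only
    rw [mgf_one_class D hD x, one_mul]
  have hSβ : ∑ z ∈ range d, |f z| ≤ d * β := by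
    calc ∑ z ∈ range d, |f z| ≤ ∑ _z ∈ range d, β := Finset.sum_le_sum fun z _ => hβ z
      _ = d * β := by rw [Finset.sum_const, card_range, nsmul_eq_mul]
  have hSf : |∑ z ∈ range d, f z| ≤ d * β := (Finset.abs_sum_le_sum_abs _ _).trans hSβ
  have hβ0 : 0 ≤ β := (abs_nonneg _).trans (hβ 0)
  set m := M / (D * d) with hm
  set r := M % (D * d) with hr
  have hMr : D * d * m + r = M := Nat.div_add_mod M (D * d)
  have hrK : r < D * d := Nat.mod_lt _ hK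
  have h1 : ∑ n ∈ Ioc y (y + M), g n = m * ∑ z ∈ range d, f z +
      ∑ i ∈ range r, g (y + 1 + i) := by
    rw [mgf_Ioc_range, ← hMr, mgf_period g (D * d) hK hgper (y + 1) m r, hS]
  have h2 : |∑ i ∈ range r, g (y + 1 + i)| ≤ d * β := by
    have hga : ∀ n, |g n| = χ n * |f n| := fun n => by
      rw [hg]
      simp only
      rw [abs_mul, abs_of_nonneg (hχ0 n)]
    have h3 : ∑ i ∈ range r, |g (y + 1 + i)| ≤ ∑ i ∈ range (D * d), |g (y + 1 + i)| :=
      Finset.sum_le_sum_of_subset_of_nonneg (Finset.range_subset_range.2 hrK.le)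
        fun _ _ _ => abs_nonneg _
    have h4 := mgf_period (fun n => |g n|) (D * d) hK (fun n => by rw [hgper]) (y + 1) 1 0
    simp only [mul_one, add_zero, Nat.cast_one, one_mul, range_zero, sum_empty] at h4
    rw [h4] at h3
    simp only [hga] at h3
    rw [hSa] at h3
    refine (Finset.abs_sum_le_sum_abs _ _).trans ?_
    simp only [hga]
    exact h3.trans hSβ
  have hKr : (0 : ℝ) < (D * d : ℕ) := by exact_mod_cast hK
  have hMreal : (M : ℝ) = (D * d : ℕ) * m + r := by exact_mod_cast hMr.symm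
  have hD0 : (0 : ℝ) < D := by exact_mod_cast hD
  have hd0 : (0 : ℝ) < d := by exact_mod_cast hd
  have h5 : (M : ℝ) / D * ((∑ z ∈ range d, f z) / d) =
      m * ∑ z ∈ range d, f z + (r : ℝ) / (D * d : ℕ) * ∑ z ∈ range d, f z := by
    rw [hMreal]
    push_cast
    field_simp
  rw [hsum, h1, h5]
  have h6 : |(r : ℝ) / (D * d : ℕ) * ∑ z ∈ range d, f z| ≤ d * β := by
    rw [abs_mul]
    have h7 : |(r : ℝ) / (D * d : ℕ)| ≤ 1 := by
      rw [abs_of_nonneg (by positivity), div_le_one hKr]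
      exact_mod_cast hrK.le
    calc |(r : ℝ) / (D * d : ℕ)| * |∑ z ∈ range d, f z| ≤ 1 * (d * β) :=
          mul_le_mul h7 hSf (abs_nonneg _) zero_le_one
      _ = d * β := one_mul _
  calc |m * ∑ z ∈ range d, f z + ∑ i ∈ range r, g (y + 1 + i) -
        (m * ∑ z ∈ range d, f z + (r : ℝ) / (D * d : ℕ) * ∑ z ∈ range d, f z)|
      = |∑ i ∈ range r, g (y + 1 + i) - (r : ℝ) / (D * d : ℕ) * ∑ z ∈ range d, f z| := by
        congr 1
        ring
    _ ≤ |∑ i ∈ range r, g (y + 1 + i)| + |(r : ℝ) / (D * d : ℕ) * ∑ z ∈ range d, f z| :=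
        abs_sub _ _
    _ ≤ d * β + d * β := add_le_add h2 h6
    _ = 2 * β * d := by ring

/-- limited independence: powers of additive functions -/
theorem mgf_li (W : Finset ℕ) (hW : ∀ p ∈ W, p.Prime) (φ : ℕ → ℤ → ℝ)
    (hφ : ∀ p ∈ W, ∀ n, φ p (n + p) = φ p n) (h8 : ∀ p ∈ W, ∀ n, |φ p n| ≤ 8)
    (D M : ℕ) (y x : ℤ) (hD : 1 ≤ D) (hco : ∀ p ∈ W, Nat.Coprime D p) (K Y : ℝ)
    (hY : ∀ p ∈ W, (p : ℝ) ≤ Y) (hY1 : 1 ≤ Y) (hK : 8 * Y * W.card ≤ K) (j : ℕ) :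
    ∀ (S : Finset ℕ) (h : ℤ → ℝ) (β : ℝ), S ⊆ W →
      (∀ n, h (n + (∏ p ∈ S, p : ℕ)) = h n) → (∀ n, |h n| ≤ β) →
      |∑ n ∈ cel y M D x, h n * (∑ p ∈ W, φ p n) ^ j -
        (M : ℝ) / D * ((∑ z ∈ range (∏ p ∈ W, p), h z * (∑ p ∈ W, φ p z) ^ j) /
          (∏ p ∈ W, p : ℕ))| ≤ 2 * β * (∏ p ∈ S, p : ℕ) * K ^ j := by
  classical
  have hK0 : 0 ≤ K := le_trans (by positivity) hK
  induction j with
  | zero =>
    intro S h β hS hper hβ
    simp only [pow_zero, mul_one]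
    have hdpos : 1 ≤ ∏ p ∈ S, p := Finset.prod_pos fun p hp => (hW p (hS hp)).pos
    have hcoS : Nat.Coprime D (∏ p ∈ S, p) := Nat.Coprime.prod_right fun p hp => hco p (hS hp)
    have h1 := mgf_cell h (∏ p ∈ S, p) D M y x β hdpos hD hcoS hper hβ
    have h2 : ∏ p ∈ W, p = (∏ p ∈ S, p) * ∏ p ∈ W \ S, p := by
      rw [mul_comm, Finset.prod_sdiff hS]
    have h3 : 1 ≤ ∏ p ∈ W \ S, p :=
      Finset.prod_pos fun p hp => (hW p (mem_sdiff.1 hp).1).pos
    have h4 := mgf_period0 h (∏ p ∈ S, p) hdpos hper 0 (∏ p ∈ W \ S, p)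
    simp only [zero_add] at h4
    have h5 : (∑ z ∈ range (∏ p ∈ W, p), h z) / ((∏ p ∈ W, p : ℕ) : ℝ) =
        (∑ z ∈ range (∏ p ∈ S, p), h z) / ((∏ p ∈ S, p : ℕ) : ℝ) := by
      have h6 : ((∏ p ∈ W \ S, p : ℕ) : ℝ) ≠ 0 := by
        have : (∏ p ∈ W \ S, p : ℕ) ≠ 0 := by omega
        exact_mod_cast this
      have h7 : ((∏ p ∈ S, p : ℕ) : ℝ) ≠ 0 := by
        have : (∏ p ∈ S, p : ℕ) ≠ 0 := by omega
        exact_mod_cast this
      rw [h2, h4, Nat.cast_mul]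
      field_simp
    rw [h5]
    exact h1
  | succ j ih =>
    intro S h β hS hper hβ
    have hβ0 : 0 ≤ β := (abs_nonneg _).trans (hβ 0)
    -- expand one factor
    have hexp : ∀ n : ℤ, h n * (∑ p ∈ W, φ p n) ^ (j + 1) =
        ∑ q ∈ W, (h n * φ q n) * (∑ p ∈ W, φ p n) ^ j := by
      intro n
      rw [← Finset.sum_mul, ← Finset.mul_sum, pow_succ]
      ring
    have h1 : ∑ n ∈ cel y M D x, h n * (∑ p ∈ W, φ p n) ^ (j + 1) =
        ∑ q ∈ W, ∑ n ∈ cel y M D x, (h n * φ q n) * (∑ p ∈ W, φ p n) ^ j := by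
      rw [Finset.sum_comm]
      exact Finset.sum_congr rfl fun n _ => hexp n
    have h2 : ∑ z ∈ range (∏ p ∈ W, p), h z * (∑ p ∈ W, φ p z) ^ (j + 1) =
        ∑ q ∈ W, ∑ z ∈ range (∏ p ∈ W, p), (h z * φ q z) * (∑ p ∈ W, φ p z) ^ j := by
      rw [Finset.sum_comm]
      exact Finset.sum_congr rfl fun n _ => hexp n
    have hq : ∀ q ∈ W, |∑ n ∈ cel y M D x, (h n * φ q n) * (∑ p ∈ W, φ p n) ^ j -
        (M : ℝ) / D * ((∑ z ∈ range (∏ p ∈ W, p), (h z * φ q z) * (∑ p ∈ W, φ p z) ^ j) /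
          (∏ p ∈ W, p : ℕ))| ≤ 8 * Y * (2 * β * (∏ p ∈ S, p : ℕ) * K ^ j) := by
      intro q hqW
      have hsub : insert q S ⊆ W := Finset.insert_subset hqW hS
      have hSdvd : ∏ p ∈ S, p ∣ ∏ p ∈ insert q S, p :=
        Finset.prod_dvd_prod_of_subset _ _ _ (Finset.subset_insert q S)
      have hqdvd : q ∣ ∏ p ∈ insert q S, p :=
        Finset.dvd_prod_of_mem (fun p : ℕ => p) (mem_insert_self q S)
      have hper' : ∀ n, (fun n => h n * φ q n) (n + (∏ p ∈ insert q S, p : ℕ)) =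
          (fun n => h n * φ q n) n := by
        intro n
        obtain ⟨c1, hc1⟩ := hSdvd
        obtain ⟨c2, hc2⟩ := hqdvd
        simp only
        have e1 := mgf_perK h (∏ p ∈ S, p) hper c1 n
        have e2 := mgf_perK (φ q) q (hφ q hqW) c2 n
        rw [← hc1] at e1
        rw [← hc2] at e2
        rw [e1, e2]
      have hb' : ∀ n, |(fun n => h n * φ q n) n| ≤ 8 * β := by
        intro n
        simp only
        rw [abs_mul, mul_comm 8 β]
        exact mul_le_mul (hβ n) (h8 q hqW n) (abs_nonneg _) hβ0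
      have h3 := ih (insert q S) (fun n => h n * φ q n) (8 * β) hsub hper' hb'
      refine h3.trans ?_
      have h4 : ((∏ p ∈ insert q S, p : ℕ) : ℝ) ≤ Y * (∏ p ∈ S, p : ℕ) := by
        by_cases hqS : q ∈ S
        · rw [Finset.insert_eq_self.2 hqS]
          have : (0 : ℝ) ≤ ((∏ p ∈ S, p : ℕ) : ℝ) := Nat.cast_nonneg _
          nlinarith
        · rw [Finset.prod_insert hqS, Nat.cast_mul]
          exact mul_le_mul_of_nonneg_right (hY q hqW) (Nat.cast_nonneg _)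
      have hKj : 0 ≤ K ^ j := pow_nonneg hK0 j
      calc 2 * (8 * β) * ((∏ p ∈ insert q S, p : ℕ) : ℝ) * K ^ j
          ≤ 2 * (8 * β) * (Y * (∏ p ∈ S, p : ℕ)) * K ^ j := by gcongr
        _ = 8 * Y * (2 * β * (∏ p ∈ S, p : ℕ) * K ^ j) := by ring
    rw [h1, h2, Finset.sum_div, Finset.mul_sum, ← Finset.sum_sub_distrib]
    refine (Finset.abs_sum_le_sum_abs _ _).trans ((Finset.sum_le_sum hq).trans ?_)
    rw [Finset.sum_const, nsmul_eq_mul]
    have h5 : (0 : ℝ) ≤ 2 * β * (∏ p ∈ S, p : ℕ) * K ^ j := by positivity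
    calc (W.card : ℝ) * (8 * Y * (2 * β * (∏ p ∈ S, p : ℕ) * K ^ j))
        = (8 * Y * W.card) * (2 * β * (∏ p ∈ S, p : ℕ) * K ^ j) := by ring
      _ ≤ K * (2 * β * (∏ p ∈ S, p : ℕ) * K ^ j) := mul_le_mul_of_nonneg_right hK h5
      _ = 2 * β * (∏ p ∈ S, p : ℕ) * K ^ (j + 1) := by rw [pow_succ]; ring

/-- mean of a product over the full period -/
lemma mgf_mean (W : Finset ℕ) (hW : ∀ p ∈ W, p.Prime) (φ : ℕ → ℤ → ℝ)
    (hφ : ∀ p ∈ W, ∀ n, φ p (n + p) = φ p n) (a : ℝ) :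
    (∑ z ∈ range (∏ p ∈ W, p), Real.exp (a * ∑ p ∈ W, φ p z)) / (∏ p ∈ W, p : ℕ) =
      ∏ p ∈ W, ((∑ z ∈ range p, Real.exp (a * φ p z)) / (p : ℝ)) := by
  have h1 := sum_prod_per W hW (fun p n => Real.exp (a * φ p n))
    (fun p hp n => by simp only [hφ p hp n]) W subset_rfl
  rw [Finset.prod_div_distrib, ← h1, Nat.cast_prod]
  congr 1
  refine Finset.sum_congr rfl fun z _ => ?_
  rw [Finset.mul_sum, Real.exp_sum]

/-- the Taylor polynomial of the exponential over a cell -/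
theorem mgf_T (W : Finset ℕ) (hW : ∀ p ∈ W, p.Prime) (φ : ℕ → ℤ → ℝ)
    (hφ : ∀ p ∈ W, ∀ n, φ p (n + p) = φ p n) (h8 : ∀ p ∈ W, ∀ n, |φ p n| ≤ 8)
    (D M : ℕ) (y x : ℤ) (hD : 1 ≤ D) (hco : ∀ p ∈ W, Nat.Coprime D p) (K Y : ℝ)
    (hY : ∀ p ∈ W, (p : ℝ) ≤ Y) (hY1 : 1 ≤ Y) (hK : 8 * Y * W.card ≤ K) (hK1 : 1 ≤ K)
    (T : ℕ) (hT : Even T) :
    ∑ n ∈ cel y M D x, TD T (∑ p ∈ W, φ p n) ≤
      (M : ℝ) / D * (∏ p ∈ W, ((∑ z ∈ range p, Real.exp (φ p z)) / (p : ℝ)) +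
        (1 / 2) ^ (T + 1) * ∏ p ∈ W, ((∑ z ∈ range p, Real.exp (-2 * φ p z)) / (p : ℝ))) +
      6 * K ^ T := by
  classical
  have hli := mgf_li W hW φ hφ h8 D M y x hD hco K Y hY hY1 hK
  have hPi : (0 : ℝ) < (∏ p ∈ W, p : ℕ) := by
    have : 0 < ∏ p ∈ W, p := Finset.prod_pos fun p hp => (hW p hp).pos
    exact_mod_cast this
  have h1 : ∀ j : ℕ, |∑ n ∈ cel y M D x, (∑ p ∈ W, φ p n) ^ j -
      (M : ℝ) / D * ((∑ z ∈ range (∏ p ∈ W, p), (∑ p ∈ W, φ p z) ^ j) /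
        (∏ p ∈ W, p : ℕ))| ≤ 2 * K ^ j := by
    intro j
    have := hli j ∅ (fun _ => 1) 1 (Finset.empty_subset _) (fun _ => rfl) (fun _ => by simp)
    simpa using this
  set E : ℝ := (∑ z ∈ range (∏ p ∈ W, p), TD T (∑ p ∈ W, φ p z)) / (∏ p ∈ W, p : ℕ) with hE
  have h2 : ∑ n ∈ cel y M D x, TD T (∑ p ∈ W, φ p n) - (M : ℝ) / D * E =
      ∑ j ∈ range (T + 1), (∑ n ∈ cel y M D x, (∑ p ∈ W, φ p n) ^ j -
      (M : ℝ) / D * ((∑ z ∈ range (∏ p ∈ W, p), (∑ p ∈ W, φ p z) ^ j) /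
        (∏ p ∈ W, p : ℕ))) / (j.factorial : ℝ) := by
    rw [hE]
    unfold TD
    rw [Finset.sum_comm, Finset.sum_comm (s := range (∏ p ∈ W, p)), Finset.sum_div,
      Finset.mul_sum, ← Finset.sum_sub_distrib]
    refine Finset.sum_congr rfl fun j _ => ?_
    rw [← Finset.sum_div, ← Finset.sum_div]
    ring
  have h3 : |∑ n ∈ cel y M D x, TD T (∑ p ∈ W, φ p n) - (M : ℝ) / D * E| ≤ 6 * K ^ T := by
    rw [h2]
    refine (Finset.abs_sum_le_sum_abs _ _).trans ?_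
    have h4 : ∀ j ∈ range (T + 1), |(∑ n ∈ cel y M D x, (∑ p ∈ W, φ p n) ^ j -
      (M : ℝ) / D * ((∑ z ∈ range (∏ p ∈ W, p), (∑ p ∈ W, φ p z) ^ j) /
        (∏ p ∈ W, p : ℕ))) / (j.factorial : ℝ)| ≤ 2 * K ^ T * (1 ^ j / (j.factorial : ℝ)) := by
      intro j hj
      rw [abs_div, abs_of_pos (show (0 : ℝ) < (j.factorial : ℝ) by positivity), one_pow]
      have hj' : j ≤ T := Nat.lt_succ_iff.1 (mem_range.1 hj)
      have h5 : K ^ j ≤ K ^ T := pow_le_pow_right₀ hK1 hj'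
      have h6 := h1 j
      rw [mul_one_div]
      gcongr
      linarith
    refine (Finset.sum_le_sum h4).trans ?_
    rw [← Finset.mul_sum]
    have h5 := Real.sum_le_exp_of_nonneg (zero_le_one) (T + 1)
    have h6 := Real.exp_one_lt_d9
    have h7 : (0 : ℝ) ≤ 2 * K ^ T := by positivity
    calc 2 * K ^ T * ∑ i ∈ range (T + 1), (1 : ℝ) ^ i / (i.factorial : ℝ)
        ≤ 2 * K ^ T * 3 := mul_le_mul_of_nonneg_left (by linarith) h7
      _ = 6 * K ^ T := by ring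
  have h4 : E ≤ ∏ p ∈ W, ((∑ z ∈ range p, Real.exp (φ p z)) / (p : ℝ)) +
      (1 / 2) ^ (T + 1) * ∏ p ∈ W, ((∑ z ∈ range p, Real.exp (-2 * φ p z)) / (p : ℝ)) := by
    rw [← mgf_mean W hW φ hφ (-2)]
    have h5 := mgf_mean W hW φ hφ 1
    simp only [one_mul] at h5
    rw [← h5, hE, mul_div_assoc', ← add_div]
    refine div_le_div_of_nonneg_right ?_ hPi.le
    rw [Finset.mul_sum, ← Finset.sum_add_distrib]
    exact Finset.sum_le_sum fun z _ => mgf_upper hT _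
  have h5 : (0 : ℝ) ≤ (M : ℝ) / D := by positivity
  have h6 := mul_le_mul_of_nonneg_left h4 h5
  have h7 := (abs_le.1 h3).2
  linarith

end Vale.Agent.P042.UU
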