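import Vale.Agent.P042.UU.Defs

set_option autoImplicit false

/-!
Theorem S5: the state blocks.
-/

namespace Vale.Agent.P042.UU

open Polynomial Finset Vale.Agent.P042.SS Vale.Agent.P042.TT

open Classical in
/-- block MGF5: exponential moments of additive functions under limited independence -/
def MGF5Stmt : Prop :=
  ∀ ε : ℝ, 0 < ε → ε ≤ 1 / 1000 → ∃ P0 : ℝ, ∀ P : ℝ, P0 ≤ P →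
  ∀ (W : Finset ℕ) (φ : ℕ → ℤ → ℝ) (D M : ℕ) (y x : ℤ), W ⊆ Vn ε P D → 1 ≤ D →
    Real.log D ≤ P ^ (1 - 51 * ε) → Real.exp (P / 2) ≤ M →
    (∀ p ∈ W, ∀ n, φ p (n + p) = φ p n) → (∀ p ∈ W, ∀ n, |φ p n| ≤ 8) →
    ∏ p ∈ W, ((∑ z ∈ range p, Real.exp (-2 * φ p z)) / (p : ℝ)) ≤
      Real.exp (P ^ (1 - 49 * ε)) →
    (∀ B : ℝ, B ≤ 4 * Mc2 ε P →
      ∑ n ∈ (cel y M D x).filter (fun n => ∑ p ∈ W, φ p n ≤ B),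
        Real.exp (∑ p ∈ W, φ p n) ≤
      (M : ℝ) / D * (2 * ∏ p ∈ W, ((∑ z ∈ range p, Real.exp (φ p z)) / (p : ℝ)) +
        Real.exp (-(P ^ (1 - 48.5 * ε))))) ∧
    (∀ B : ℝ, 0 ≤ B → B ≤ 4 * Mc2 ε P →
      (((cel y M D x).filter (fun n => B ≤ ∑ p ∈ W, φ p n)).card : ℝ) ≤
      Real.exp (-B) * ((M : ℝ) / D *
        (6 * ∏ p ∈ W, ((∑ z ∈ range p, Real.exp (φ p z)) / (p : ℝ)) +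
          Real.exp (-(P ^ (1 - 48.5 * ε))))))

/-- block RAW5: existence of the near extremal state -/
def RAW5Stmt : Prop :=
  ∀ (h : ℤ[X]) (lam : ℕ → ℕ) (r : ℕ → ℤ) (Hh : ℕ → ℤ[X]) (R : ℕ), AuxData h lam r Hh R →
  1 ≤ h.natDegree → ∀ ε : ℝ, 0 < ε → ε ≤ 1 / 1000 →
  ∃ P0 : ℝ, ∀ P : ℝ, P0 ≤ P → ∀ N : ℕ, 1 ≤ N → Real.log N = P →
  ∀ A : Finset ℤ, A ⊆ Icc (1 : ℤ) N → DiffFree h A →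
    Real.exp (-(P ^ (1 - 100 * ε))) * N ≤ A.card →
    ∃ (d N' Nmin : ℕ) (Φ : ℝ) (g : ℤ → ℝ) (ν : ℕ → ℤ → ℝ), 1 ≤ d ∧
      (d : ℝ) ≤ Real.exp (P ^ (1 - 1.9 * ε)) ∧ Raw5 ε P h.natDegree N' Nmin Φ g ν ∧
      (∀ n m : ℤ, g n ≠ 0 → g m ≠ 0 → ∀ x : ℕ, 1 ≤ x → n - m = (Hh d).eval (x : ℤ) → n = m)

/-- block PIN5: from the raw to the usable form -/
def PIN5Stmt : Prop :=
  ∀ k : ℕ, 1 ≤ k → ∀ ε : ℝ, 0 < ε → ε ≤ 1 / 1000 → ∃ P0 : ℝ, ∀ P : ℝ, P0 ≤ P →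
  ∀ (N' Nmin : ℕ) (Φ : ℝ) (g : ℤ → ℝ) (ν : ℕ → ℤ → ℝ), Raw5 ε P k N' Nmin Φ g ν →
    Pin5 ε P k N' Φ (Gc (W5 ε P) (Mc2 ε P) g ν) ν

/-- block TSB5: tilted state, basic part -/
def TSB5Stmt : Prop :=
  ∀ k : ℕ, 1 ≤ k → ∀ ε : ℝ, 0 < ε → ε ≤ 1 / 1000 → ∃ P0 : ℝ, ∀ P : ℝ, P0 ≤ P →
  ∀ (N' : ℕ) (Φ : ℝ) (G : ℤ → ℝ) (ν a a' c : ℕ → ℤ → ℝ), Pin5 ε P k N' Φ G ν →
    TiltOK ε P ν a → TiltOK ε P ν a' → (c = a ∨ c = a') →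
    Sb5 ε P k N' Φ (Gt ε P ν a a' c G) ν

/-- block TSK5: tilted state, entropy inequality on cells -/
def TSK5Stmt : Prop :=
  ∀ k : ℕ, 1 ≤ k → ∀ ε : ℝ, 0 < ε → ε ≤ 1 / 1000 → ∃ P0 : ℝ, ∀ P : ℝ, P0 ≤ P →
  ∀ (N' : ℕ) (Φ : ℝ) (G : ℤ → ℝ) (ν a a' c : ℕ → ℤ → ℝ), Pin5 ε P k N' Φ G ν →
    TiltOK ε P ν a → TiltOK ε P ν a' → (c = a ∨ c = a') →
    Sb5 ε P k N' Φ (Gt ε P ν a a' c G) ν → St5 ε P k N' Φ (Gt ε P ν a a' c G) ν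

end Vale.Agent.P042.UU
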