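import Vale.Agent.P042.UU.MgfB
import Vale.Agent.P042.UU.SpecB

set_option autoImplicit false

/-!
# P042, Theorem S5, block MGF5
-/

namespace Vale.Agent.P042.UU

open Polynomial Finset Vale.Agent.P042.SS Vale.Agent.P042.TT Filter

lemma mgf_ev (c : ℝ) {a b : ℝ} (hab : b < a) : ∀ᶠ P : ℝ in atTop, c * P ^ b ≤ P ^ a := by
  have h1 : Tendsto (fun P : ℝ => P ^ (a - b)) atTop atTop := tendsto_rpow_atTop (by linarith)
  filter_upwards [h1.eventually_ge_atTop c, eventually_gt_atTop (0 : ℝ)] with P hP hP0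
  calc c * P ^ b ≤ P ^ (a - b) * P ^ b :=
        mul_le_mul_of_nonneg_right hP (Real.rpow_nonneg hP0.le _)
    _ = P ^ a := by rw [← Real.rpow_add hP0]; congr 1; ring

lemma mgf_ev_log {a : ℝ} (ha : 0 < a) : ∀ᶠ P : ℝ in atTop, 3 + 4 * Real.log P ≤ P ^ a := by
  have h1 := (isLittleO_log_rpow_atTop ha).bound (show (0 : ℝ) < 1 / 8 by norm_num)
  filter_upwards [h1, (tendsto_rpow_atTop ha).eventually_ge_atTop (6 : ℝ),
    eventually_ge_atTop (1 : ℝ)] with P hP h6 hP1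
  rw [Real.norm_of_nonneg (Real.log_nonneg hP1),
    Real.norm_of_nonneg (Real.rpow_nonneg (by linarith) _)] at hP
  linarith

/-- the numerical facts -/
structure MgfNum (ε P : ℝ) : Prop where
  P1 : 1 ≤ P
  T2 : 2 ≤ Dt5 ε P
  clip : 4 * Mc2 ε P ≤ ((Dt5 ε P : ℕ) + 1 : ℝ) / 10
  err : Real.log (8 * P ^ 4) * (Dt5 ε P : ℕ) + Real.log 24 + P ^ (1 - 48.5 * ε) +
    P ^ (1 - 51 * ε) ≤ P / 2
  neg : (1 / 2 : ℝ) ^ (Dt5 ε P + 1) * Real.exp (P ^ (1 - 49 * ε)) ≤
    1 / 4 * Real.exp (-(P ^ (1 - 48.5 * ε)))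

theorem mgf_num {ε : ℝ} (hε : 0 < ε) (hε1 : ε ≤ 1 / 1000) : ∀ᶠ P : ℝ in atTop, MgfNum ε P := by
  have e1 := mgf_ev 40 (show 1 - 49 * ε < 1 - 48 * ε by linarith)
  have e2 := mgf_ev 4 (show 1 - 48.5 * ε < 1 - 48 * ε by linarith)
  have e3 := mgf_ev 16 (show 1 - 48.5 * ε < (1 : ℝ) by linarith)
  have e4 := mgf_ev 16 (show 1 - 51 * ε < (1 : ℝ) by linarith)
  have e5 := mgf_ev 16 (show 1 - 47 * ε < (1 : ℝ) by linarith)
  have e6 := mgf_ev_log hε
  have e7 := (tendsto_rpow_atTop (show 0 < 1 - 48 * ε by linarith)).eventually_ge_atTop (8 : ℝ)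
  filter_upwards [e1, e2, e3, e4, e5, e6, e7, eventually_ge_atTop (64 : ℝ)] with
    P h1 h2 h3 h4 h5 h6 h7 hP
  have hP0 : 0 < P := by linarith
  rw [Real.rpow_one] at h3 h4 h5
  set x := P ^ (1 - 48 * ε) with hx
  have hfl := Nat.lt_floor_add_one x
  have hfl2 := Nat.floor_le (show 0 ≤ x by linarith)
  have hT : ((Dt5 ε P : ℕ) : ℝ) = 2 * (⌊x⌋₊ : ℝ) := by
    unfold Dt5
    push_cast
    rfl
  have hTlo : 2 * x - 2 ≤ ((Dt5 ε P : ℕ) : ℝ) := by rw [hT]; linarith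
  have hThi : ((Dt5 ε P : ℕ) : ℝ) ≤ 2 * x := by rw [hT]; linarith
  have hlog24 : Real.log 24 ≤ 4 := by
    have h : (24 : ℝ) ≤ Real.exp 4 := by
      have h2 : Real.exp 4 = Real.exp 1 ^ 4 := by rw [← Real.exp_nat_mul]; norm_num
      have h3 := Real.exp_one_gt_d9
      rw [h2]
      calc (24 : ℝ) ≤ 2.7 ^ 4 := by norm_num
        _ ≤ Real.exp 1 ^ 4 := by gcongr; linarith
    calc Real.log 24 ≤ Real.log (Real.exp 4) := Real.log_le_log (by norm_num) h
      _ = 4 := Real.log_exp 4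
  refine ⟨by linarith, ?_, ?_, ?_, ?_⟩
  · have : (2 : ℝ) ≤ ((Dt5 ε P : ℕ) : ℝ) := by linarith
    exact_mod_cast this
  · unfold Mc2
    linarith
  · have h8 : Real.log (8 * P ^ 4) ≤ P ^ ε := by
      rw [Real.log_mul (by norm_num) (by positivity), Real.log_pow]
      have h9 : Real.log 8 ≤ 3 := by
        have h10 : Real.log 8 = 3 * Real.log 2 := by
          rw [show (8 : ℝ) = 2 ^ 3 by norm_num, Real.log_pow]
          norm_num
        have := Real.log_two_lt_d9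
        linarith
      push_cast
      linarith
    have h9 : P ^ ε * x = P ^ (1 - 47 * ε) := by
      rw [hx, ← Real.rpow_add hP0]
      congr 1
      ring
    have h10 : Real.log (8 * P ^ 4) * ((Dt5 ε P : ℕ) : ℝ) ≤ P ^ ε * (2 * x) :=
      mul_le_mul h8 hThi (Nat.cast_nonneg _) (Real.rpow_nonneg hP0.le _)
    have h11 : P ^ ε * (2 * x) = 2 * P ^ (1 - 47 * ε) := by rw [← h9]; ring
    rw [h11] at h10
    linarith
  · have h8 : (1 / 2 : ℝ) ^ (Dt5 ε P + 1) ≤ Real.exp (-x) := by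
      have h9 : (1 / 2 : ℝ) ^ (Dt5 ε P + 1) =
          Real.exp (-((((Dt5 ε P : ℕ) : ℝ) + 1) * Real.log 2)) := by
        rw [show (-((((Dt5 ε P : ℕ) : ℝ) + 1) * Real.log 2)) =
          ((Dt5 ε P + 1 : ℕ) : ℝ) * Real.log (1 / 2) by
          rw [one_div, Real.log_inv]; push_cast; ring]
        rw [mul_comm, ← Real.rpow_def_of_pos (by norm_num), Real.rpow_natCast]
      rw [h9]
      refine Real.exp_le_exp.2 ?_
      have h10 := Real.log_two_gt_d9
      nlinarith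
    have h9 : (1 / 4 : ℝ) = Real.exp (-Real.log 4) := by
      rw [Real.exp_neg, Real.exp_log (by norm_num)]; norm_num
    have h10 : Real.log 4 ≤ 2 := by
      have h11 : Real.log 4 = 2 * Real.log 2 := by
        rw [show (4 : ℝ) = 2 ^ 2 by norm_num, Real.log_pow]
        norm_num
      have := Real.log_two_lt_d9
      linarith
    calc (1 / 2 : ℝ) ^ (Dt5 ε P + 1) * Real.exp (P ^ (1 - 49 * ε))
        ≤ Real.exp (-x) * Real.exp (P ^ (1 - 49 * ε)) :=
          mul_le_mul_of_nonneg_right h8 (Real.exp_pos _).le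
      _ = Real.exp (-x + P ^ (1 - 49 * ε)) := by rw [Real.exp_add]
      _ ≤ Real.exp (-Real.log 4 + -(P ^ (1 - 48.5 * ε))) := by
          refine Real.exp_le_exp.2 ?_
          linarith
      _ = 1 / 4 * Real.exp (-(P ^ (1 - 48.5 * ε))) := by rw [Real.exp_add, ← h9]

/-- block MGF5 -/
theorem mgf5_holds : MGF5Stmt := by
  classical
  intro ε hε hε1
  obtain ⟨P0, hP0⟩ := eventually_atTop.1 (mgf_num hε hε1)
  refine ⟨P0, fun P hP W φ D M y x hW hD hlogD hM hφ h8 hneg => ?_⟩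
  obtain ⟨hP1, hT2, hclip, herr, hn⟩ := hP0 P hP
  have hPpos : 0 < P := by linarith
  set T := Dt5 ε P with hTdef
  have hTe : Even T := by
    rw [hTdef]
    unfold Dt5
    exact even_two_mul _
  have hWV : ∀ p ∈ W, p ∈ W5 ε P ∧ ¬ p ∣ D := fun p hp => by
    have := hW hp
    unfold Vn at this
    exact mem_filter.1 this
  have hprime : ∀ p ∈ W, p.Prime := fun p hp => by
    have := (hWV p hp).1
    unfold W5 Wp at this
    exact (mem_filter.1 this).2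
  have hco : ∀ p ∈ W, Nat.Coprime D p := fun p hp =>
    ((Nat.Prime.coprime_iff_not_dvd (hprime p hp)).2 (hWV p hp).2).symm
  have hYb : ((⌊P ^ (2 - 190 * ε)⌋₊ : ℕ) : ℝ) ≤ P ^ 2 := by
    refine (Nat.floor_le (Real.rpow_nonneg hPpos.le _)).trans ?_
    rw [← Real.rpow_natCast]
    exact Real.rpow_le_rpow_of_exponent_le hP1 (by push_cast; linarith)
  have hY : ∀ p ∈ W, (p : ℝ) ≤ P ^ 2 := fun p hp => by
    have := (hWV p hp).1
    unfold W5 Wp at this
    have h1 : p ≤ ⌊P ^ (2 - 190 * ε)⌋₊ := (mem_Ioc.1 (mem_filter.1 this).1).2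
    exact le_trans (by exact_mod_cast h1) hYb
  have hcard : (W.card : ℝ) ≤ P ^ 2 := by
    have h1 : W ⊆ Ioc 0 ⌊P ^ (2 - 190 * ε)⌋₊ := by
      intro p hp
      have := (hWV p hp).1
      unfold W5 Wp at this
      have h2 := mem_Ioc.1 (mem_filter.1 this).1
      exact mem_Ioc.2 ⟨by omega, h2.2⟩
    have h2 := Finset.card_le_card h1
    rw [Nat.card_Ioc, Nat.sub_zero] at h2
    exact le_trans (by exact_mod_cast h2) hYb
  have hP2 : (1 : ℝ) ≤ P ^ 2 := one_le_pow₀ hP1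
  have hK : 8 * P ^ 2 * (W.card : ℝ) ≤ 8 * P ^ 4 := by
    have : 8 * P ^ 4 = 8 * P ^ 2 * P ^ 2 := by ring
    rw [this]
    exact mul_le_mul_of_nonneg_left hcard (by positivity)
  have hK1 : (1 : ℝ) ≤ 8 * P ^ 4 := by
    have : (1 : ℝ) ≤ P ^ 4 := one_le_pow₀ hP1
    linarith
  have hmain := mgf_T W hprime φ hφ h8 D M y x hD hco (8 * P ^ 4) (P ^ 2) hY hP2 hK hK1 T hTe
  set E1 := ∏ p ∈ W, ((∑ z ∈ range p, Real.exp (φ p z)) / (p : ℝ)) with hE1
  set E2 := ∏ p ∈ W, ((∑ z ∈ range p, Real.exp (-2 * φ p z)) / (p : ℝ)) with hE2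
  set κ := Real.exp (-(P ^ (1 - 48.5 * ε))) with hκ
  have hκ0 : 0 < κ := Real.exp_pos _
  have hE10 : 0 ≤ E1 := Finset.prod_nonneg fun p _ => by positivity
  have hDpos : (0 : ℝ) < D := by exact_mod_cast hD
  have hMpos : (0 : ℝ) < M := (Real.exp_pos _).trans_le hM
  have hMD : (0 : ℝ) < (M : ℝ) / D := by positivity
  -- the error term
  have herr2 : 6 * (8 * P ^ 4) ^ T ≤ (M : ℝ) / D * (1 / 4 * κ) := by
    have h1 : (D : ℝ) ≤ Real.exp (P ^ (1 - 51 * ε)) := by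
      rw [← Real.exp_log hDpos]
      exact Real.exp_le_exp.2 hlogD
    have h2 : Real.exp (P / 2 - P ^ (1 - 51 * ε)) ≤ (M : ℝ) / D := by
      rw [le_div_iff₀ hDpos, Real.exp_sub, div_mul_eq_mul_div,
        div_le_iff₀ (Real.exp_pos _)]
      exact mul_le_mul hM h1 hDpos.le hMpos.le
    have h3 : (8 * P ^ 4) ^ T = Real.exp (Real.log (8 * P ^ 4) * (T : ℕ)) := by
      rw [← Real.rpow_def_of_pos (by positivity), Real.rpow_natCast]
    have h4 : (24 : ℝ) = Real.exp (Real.log 24) := (Real.exp_log (by norm_num)).symm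
    have h5 : 24 * (8 * P ^ 4) ^ T ≤ (M : ℝ) / D * κ := by
      calc 24 * (8 * P ^ 4) ^ T
          = Real.exp (Real.log 24 + Real.log (8 * P ^ 4) * (T : ℕ)) := by
            rw [Real.exp_add, ← h4, ← h3]
        _ ≤ Real.exp ((P / 2 - P ^ (1 - 51 * ε)) + -(P ^ (1 - 48.5 * ε))) :=
            Real.exp_le_exp.2 (by linarith)
        _ = Real.exp (P / 2 - P ^ (1 - 51 * ε)) * κ := by rw [Real.exp_add]
        _ ≤ (M : ℝ) / D * κ := mul_le_mul_of_nonneg_right h2 hκ0.le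
    linarith
  have hneg2 : (1 / 2 : ℝ) ^ (T + 1) * E2 ≤ 1 / 4 * κ := by
    refine le_trans (mul_le_mul_of_nonneg_left hneg (by positivity)) hn
  have hS : ∑ n ∈ cel y M D x, TD T (∑ p ∈ W, φ p n) ≤ (M : ℝ) / D * (E1 + 1 / 2 * κ) := by
    have h1 : (M : ℝ) / D * (E1 + (1 / 2) ^ (T + 1) * E2) ≤ (M : ℝ) / D * (E1 + 1 / 4 * κ) :=
      mul_le_mul_of_nonneg_left (by linarith) hMD.le
    have h2 : (M : ℝ) / D * (E1 + 1 / 2 * κ) =
      (M : ℝ) / D * (E1 + 1 / 4 * κ) + (M : ℝ) / D * (1 / 4 * κ) := by ring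
    linarith
  have hTpos : ∀ z : ℝ, 0 < TD T z := fun z => mgf_TD_pos hTe z
  have hexp : ∀ z : ℝ, z ≤ 4 * Mc2 ε P → Real.exp z ≤ 2 * TD T z := fun z hz =>
    mgf_exp_le hTe hT2 (hz.trans hclip)
  refine ⟨fun B hB => ?_, fun B hB0 hB => ?_⟩
  · calc ∑ n ∈ (cel y M D x).filter (fun n => ∑ p ∈ W, φ p n ≤ B), Real.exp (∑ p ∈ W, φ p n)
        ≤ ∑ n ∈ (cel y M D x).filter (fun n => ∑ p ∈ W, φ p n ≤ B),
            2 * TD T (∑ p ∈ W, φ p n) :=
          Finset.sum_le_sum fun n hn => hexp _ ((mem_filter.1 hn).2.trans hB)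
      _ ≤ ∑ n ∈ cel y M D x, 2 * TD T (∑ p ∈ W, φ p n) :=
          Finset.sum_le_sum_of_subset_of_nonneg (Finset.filter_subset _ _)
            fun n _ _ => by have := hTpos (∑ p ∈ W, φ p n); linarith
      _ = 2 * ∑ n ∈ cel y M D x, TD T (∑ p ∈ W, φ p n) := by rw [Finset.mul_sum]
      _ ≤ 2 * ((M : ℝ) / D * (E1 + 1 / 2 * κ)) := by linarith
      _ = (M : ℝ) / D * (2 * E1 + κ) := by ring
  · have h1 : ((((cel y M D x).filter (fun n => B ≤ ∑ p ∈ W, φ p n)).card : ℕ) : ℝ) * TD T B ≤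
        (M : ℝ) / D * (E1 + 1 / 2 * κ) := by
      calc ((((cel y M D x).filter (fun n => B ≤ ∑ p ∈ W, φ p n)).card : ℕ) : ℝ) * TD T B
          = ∑ _n ∈ (cel y M D x).filter (fun n => B ≤ ∑ p ∈ W, φ p n), TD T B := by
            rw [Finset.sum_const, nsmul_eq_mul]
        _ ≤ ∑ n ∈ (cel y M D x).filter (fun n => B ≤ ∑ p ∈ W, φ p n),
              TD T (∑ p ∈ W, φ p n) :=
            Finset.sum_le_sum fun n hn => mgf_TD_mono T hB0 (mem_filter.1 hn).2
        _ ≤ ∑ n ∈ cel y M D x, TD T (∑ p ∈ W, φ p n) :=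
            Finset.sum_le_sum_of_subset_of_nonneg (Finset.filter_subset _ _)
              fun n _ _ => (hTpos _).le
        _ ≤ _ := hS
    have h2 : Real.exp B ≤ 2 * TD T B := hexp B hB
    have h3 : 1 ≤ 2 * (Real.exp (-B) * TD T B) := by
      have h4 : Real.exp (-B) * Real.exp B = 1 := by rw [← Real.exp_add]; simp
      have h5 := mul_le_mul_of_nonneg_left h2 (Real.exp_pos (-B)).le
      rw [h4] at h5
      linarith
    set c := ((((cel y M D x).filter (fun n => B ≤ ∑ p ∈ W, φ p n)).card : ℕ) : ℝ) with hc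
    have hc0 : 0 ≤ c := Nat.cast_nonneg _
    calc c = c * 1 := (mul_one c).symm
      _ ≤ c * (2 * (Real.exp (-B) * TD T B)) := mul_le_mul_of_nonneg_left h3 hc0
      _ = 2 * Real.exp (-B) * (c * TD T B) := by ring
      _ ≤ 2 * Real.exp (-B) * ((M : ℝ) / D * (E1 + 1 / 2 * κ)) :=
          mul_le_mul_of_nonneg_left h1 (by positivity)
      _ = Real.exp (-B) * ((M : ℝ) / D * (2 * E1 + κ)) := by ring
      _ ≤ Real.exp (-B) * ((M : ℝ) / D * (6 * E1 + κ)) := by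
          refine mul_le_mul_of_nonneg_left ?_ (Real.exp_pos _).le
          exact mul_le_mul_of_nonneg_left (by linarith) hMD.le

end Vale.Agent.P042.UU
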