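import Vale.Agent.P042.UU.SpecA
import Vale.Agent.P042.TT.Ew
import Vale.Agent.P042.H584.Sum

set_option autoImplicit false

/-!
Block MIX5: multiplication by a function of `n mod Y0`, `Y0 ^ 2 ∣ q`, mixes the units mod `q`.
-/

namespace Vale.Agent.P042.UU

open Finset Vale.Agent.P042.SS Vale.Agent.P042.TT

lemma mix_shift {q : ℕ} (F : ℕ → ℝ) (hF : ∀ b, F (b + q) = F b) (s : ℕ) :
    ∑ b ∈ range q, F (b + s) = ∑ b ∈ range q, F b := by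
  induction s with
  | zero => simp
  | succ s ih =>
    rw [← ih]
    have h1 := sum_range_succ' (fun b => F (b + s)) q
    have h2 := sum_range_succ (fun b => F (b + s)) q
    rw [h2] at h1
    have h3 : F (q + s) = F (0 + s) := by
      rw [zero_add, add_comm q s, hF]
    have h4 : ∀ b, F (b + 1 + s) = F (b + (s + 1)) := fun b => by
      congr 1
      omega
    simp only [h4] at h1
    rw [h3] at h1
    linarith

lemma mix_coprime {q Y0 : ℕ} (hY : Y0 ^ 2 ∣ q) (b c : ℕ) :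
    Nat.Coprime q (b + c * (q / Y0)) ↔ Nat.Coprime q b := by
  rcases Nat.eq_zero_or_pos Y0 with h0 | hY0
  · subst h0
    simp
  have hdvd : Y0 ∣ q := (Dvd.intro_left Y0 (by ring) : Y0 ∣ Y0 ^ 2).trans hY
  have key : ∀ l : ℕ, l.Prime → l ∣ q → l ∣ q / Y0 := by
    intro l hl hlq
    obtain ⟨d, rfl⟩ := hY
    have h1 : Y0 ^ 2 * d / Y0 = Y0 * d := by
      rw [sq, mul_assoc, Nat.mul_div_cancel_left _ hY0]
    rw [h1]
    rcases (hl.dvd_mul.1 hlq) with h | h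
    · exact (hl.dvd_of_dvd_pow h).mul_right d
    · exact h.mul_left Y0
  constructor
  · intro h
    refine Nat.coprime_of_dvd fun l hl h1 h2 => ?_
    exact (Nat.Prime.not_coprime_iff_dvd.2
      ⟨l, hl, h1, (dvd_add h2 ((key l hl h1).mul_left c))⟩) h
  · intro h
    refine Nat.coprime_of_dvd fun l hl h1 h2 => ?_
    have h3 : l ∣ b := (Nat.dvd_add_left ((key l hl h1).mul_left c)).1 h2
    exact (Nat.Prime.not_coprime_iff_dvd.2 ⟨l, hl, h1, h3⟩) h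

/-- the sum over the units mod `q`, averaged over the shifts by multiples of `q / Y0` -/
lemma mix_avg {q Y0 : ℕ} (_hY0 : 1 ≤ Y0) (hY : Y0 ^ 2 ∣ q) (F : ℕ → ℝ)
    (hF : ∀ b, F (b + q) = F b) :
    (Y0 : ℝ) * ∑ b ∈ (range q).filter (Nat.Coprime q), F b =
      ∑ b ∈ (range q).filter (Nat.Coprime q), ∑ c ∈ range Y0, F (b + c * (q / Y0)) := by
  have h1 : ∀ c : ℕ, ∑ b ∈ (range q).filter (Nat.Coprime q), F (b + c * (q / Y0)) =
      ∑ b ∈ (range q).filter (Nat.Coprime q), F b := by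
    intro c
    rw [sum_filter, sum_filter]
    have h2 := mix_shift (q := q) (fun b => if Nat.Coprime q b then F b else 0)
      (fun b => by simp [hF]) (c * (q / Y0))
    rw [← h2]
    refine sum_congr rfl fun b _ => ?_
    by_cases h : Nat.Coprime q b
    · rw [if_pos h, if_pos ((mix_coprime hY b c).2 h)]
    · rw [if_neg h, if_neg (fun h' => h ((mix_coprime hY b c).1 h'))]
  rw [sum_comm, sum_congr rfl fun c _ => h1 c, sum_const, card_range, nsmul_eq_mul]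

lemma mix_hper {Y0 : ℕ} {h : ℤ → ℝ} (hh : ∀ n : ℤ, h (n + Y0) = h n) {n r : ℤ}
    (hn : n ≡ r [ZMOD (Y0 : ℕ)]) : h n = h r := by
  have key1 : ∀ (k : ℕ) (n : ℤ), h (n + k * Y0) = h n := by
    intro k
    induction k with
    | zero => intro n; simp
    | succ k ih =>
      intro n
      have h1 := hh (n + k * Y0)
      rw [ih] at h1
      rw [← h1]
      congr 1
      push_cast
      ring
  have key2 : ∀ (k : ℤ) (n : ℤ), h (n + k * Y0) = h n := by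
    intro k n
    rcases le_total 0 k with h0 | h0
    · obtain ⟨j, rfl⟩ := Int.eq_ofNat_of_zero_le h0
      exact key1 j n
    · obtain ⟨j, hj⟩ := Int.eq_ofNat_of_zero_le (by omega : 0 ≤ -k)
      have h1 := key1 j (n + k * Y0)
      rw [← h1]
      congr 1
      have : (j : ℤ) = -k := by omega
      rw [this]
      ring
  obtain ⟨c, hc⟩ := hn.dvd
  have : r = n + c * Y0 := by linarith
  rw [this, key2]

/-- one coset of `(q / Y0) ℤ` -/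
lemma mix_coset (I : Finset ℤ) (a : ℤ → ℂ) (h : ℤ → ℝ) {q Y0 : ℕ} (B : ℝ) (hq : 1 ≤ q)
    (hY0 : 1 ≤ Y0) (hY : Y0 ^ 2 ∣ q) (hh : ∀ n : ℤ, h (n + Y0) = h n) (hB : ∀ n, |h n| ≤ B)
    (b : ℕ) :
    ∑ c ∈ range Y0, ‖∑ n ∈ I, (a n * (h n : ℂ)) *
        e (-((n : ℝ) * (((b + c * (q / Y0) : ℕ) : ℝ) / q)))‖ ^ 2 ≤
      B ^ 2 * ∑ c ∈ range Y0, ‖∑ n ∈ I, a n *
        e (-((n : ℝ) * (((b + c * (q / Y0) : ℕ) : ℝ) / q)))‖ ^ 2 := by
  have hdvd : Y0 ∣ q := (Dvd.intro_left Y0 (by ring) : Y0 ∣ Y0 ^ 2).trans hY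
  have hY0' : (Y0 : ℝ) ≠ 0 := by positivity
  have hq' : (q : ℝ) ≠ 0 := by positivity
  have hfr : ∀ (c : ℕ) (n : ℤ), e (-((n : ℝ) * (((b + c * (q / Y0) : ℕ) : ℝ) / q))) =
      e (-((n : ℝ) * ((b : ℝ) / q))) * e (-((n : ℝ) * ((c : ℝ) / Y0))) := by
    intro c n
    rw [← e_add]
    congr 1
    rw [Nat.cast_add, Nat.cast_mul, Nat.cast_div hdvd hY0']
    field_simp
    ring
  have hpar : ∀ g : ℤ → ℂ, ∑ c ∈ range Y0, ‖∑ n ∈ I, g n *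
        e (-((n : ℝ) * (((b + c * (q / Y0) : ℕ) : ℝ) / q)))‖ ^ 2 =
      Y0 * ∑ r ∈ range Y0, ‖∑ n ∈ I.filter (fun n : ℤ => n ≡ (r : ℤ) [ZMOD (Y0 : ℕ)]),
        g n * e (-((n : ℝ) * ((b : ℝ) / q)))‖ ^ 2 := by
    intro g
    rw [← SumB.parseval_classes I (fun n => g n * e (-((n : ℝ) * ((b : ℝ) / q)))) Y0 hY0]
    refine sum_congr rfl fun c _ => ?_
    congr 2
    refine sum_congr rfl fun n _ => ?_
    rw [hfr c n, mul_assoc]
  rw [hpar (fun n => a n * (h n : ℂ)), hpar a]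
  have h1 : ∀ r ∈ range Y0, ‖∑ n ∈ I.filter (fun n : ℤ => n ≡ (r : ℤ) [ZMOD (Y0 : ℕ)]),
        (a n * (h n : ℂ)) * e (-((n : ℝ) * ((b : ℝ) / q)))‖ ^ 2 ≤
      B ^ 2 * ‖∑ n ∈ I.filter (fun n : ℤ => n ≡ (r : ℤ) [ZMOD (Y0 : ℕ)]),
        a n * e (-((n : ℝ) * ((b : ℝ) / q)))‖ ^ 2 := by
    intro r _
    have h2 : ∑ n ∈ I.filter (fun n : ℤ => n ≡ (r : ℤ) [ZMOD (Y0 : ℕ)]),
        (a n * (h n : ℂ)) * e (-((n : ℝ) * ((b : ℝ) / q))) =
        (h r : ℂ) * ∑ n ∈ I.filter (fun n : ℤ => n ≡ (r : ℤ) [ZMOD (Y0 : ℕ)]),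
          a n * e (-((n : ℝ) * ((b : ℝ) / q))) := by
      rw [mul_sum]
      refine sum_congr rfl fun n hn => ?_
      rw [mix_hper hh (mem_filter.1 hn).2]
      ring
    rw [h2, norm_mul, mul_pow, Complex.norm_real, Real.norm_eq_abs]
    have h3 : |h r| ^ 2 ≤ B ^ 2 := pow_le_pow_left₀ (abs_nonneg _) (hB r) 2
    exact mul_le_mul_of_nonneg_right h3 (by positivity)
  calc (Y0 : ℝ) * ∑ r ∈ range Y0, _ ≤ (Y0 : ℝ) * ∑ r ∈ range Y0, (B ^ 2 * _) :=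
        mul_le_mul_of_nonneg_left (sum_le_sum h1) (Nat.cast_nonneg _)
    _ = _ := by
      rw [← mul_sum]
      ring

lemma mix_core (I : Finset ℤ) (a : ℤ → ℂ) (h : ℤ → ℝ) {q Y0 : ℕ} (B : ℝ) (hq : 1 ≤ q)
    (hY0 : 1 ≤ Y0) (hY : Y0 ^ 2 ∣ q) (hh : ∀ n : ℤ, h (n + Y0) = h n) (hB : ∀ n, |h n| ≤ B) :
    ∑ b ∈ (range q).filter (Nat.Coprime q), ‖∑ n ∈ I, (a n * (h n : ℂ)) *
        e (-((n : ℝ) * ((b : ℝ) / q)))‖ ^ 2 ≤
      B ^ 2 * ∑ b ∈ (range q).filter (Nat.Coprime q), ‖∑ n ∈ I, a n *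
        e (-((n : ℝ) * ((b : ℝ) / q)))‖ ^ 2 := by
  have hq' : (q : ℝ) ≠ 0 := by positivity
  have hper : ∀ (g : ℤ → ℂ) (b : ℕ), ‖∑ n ∈ I, g n *
        e (-((n : ℝ) * (((b + q : ℕ) : ℝ) / q)))‖ ^ 2 = ‖∑ n ∈ I, g n *
        e (-((n : ℝ) * ((b : ℝ) / q)))‖ ^ 2 := by
    intro g b
    congr 2
    refine sum_congr rfl fun n _ => ?_
    congr 1
    have h1 : -((n : ℝ) * (((b + q : ℕ) : ℝ) / q)) = -((n : ℝ) * ((b : ℝ) / q)) + ((-n : ℤ) : ℝ) := by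
      push_cast
      field_simp
      ring
    rw [h1, e_add_int]
  have h1 := mix_avg hY0 hY (fun b => ‖∑ n ∈ I, (a n * (h n : ℂ)) *
        e (-((n : ℝ) * ((b : ℝ) / q)))‖ ^ 2) (hper _)
  have h2 := mix_avg hY0 hY (fun b => ‖∑ n ∈ I, a n *
        e (-((n : ℝ) * ((b : ℝ) / q)))‖ ^ 2) (hper _)
  have hY0' : (0 : ℝ) < Y0 := by exact_mod_cast hY0
  refine le_of_mul_le_mul_left ?_ hY0'
  calc (Y0 : ℝ) * _ = _ := h1
    _ ≤ ∑ b ∈ (range q).filter (Nat.Coprime q), B ^ 2 * ∑ c ∈ range Y0, ‖∑ n ∈ I, a n *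
        e (-((n : ℝ) * (((b + c * (q / Y0) : ℕ) : ℝ) / q)))‖ ^ 2 :=
      sum_le_sum fun b _ => mix_coset I a h B hq hY0 hY hh hB b
    _ = B ^ 2 * ((Y0 : ℝ) * ∑ b ∈ (range q).filter (Nat.Coprime q), ‖∑ n ∈ I, a n *
        e (-((n : ℝ) * ((b : ℝ) / q)))‖ ^ 2) := by
      rw [← mul_sum, h2]
    _ = _ := by ring

section comp

variable {V : Finset ℕ} {ν : ℕ → ℤ → ℝ}

/-- the coefficient of `n` in the component of the density -/
noncomputable def mix_K (ν : ℕ → ℤ → ℝ) (V : Finset ℕ) (W : Finset ↥V) (x : XS V) (n : ℤ) : ℂ :=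
  ∑ T ∈ W.powerset, (((-1 : ℝ) ^ (W \ T).card *
    ((∏ p ∈ T, (((p : ℕ) : ℝ) * (ν p (x p : ℕ))⁻¹)) *
      (if (∀ p ∈ T, n ≡ ((x p : ℕ) : ℤ) [ZMOD ((p : ℕ) : ℤ)]) then 1 else 0)) : ℝ) : ℂ)

lemma mix_comp (hp : ∀ p ∈ V, p.Prime) (hw : Wts V ν) (G : ℤ → ℝ) (y : ℤ) (M : ℕ) (θ : ℝ)
    (hG : ∀ n, G n ≠ 0 → ∀ p ∈ V, ν p n ≠ 0) (W : Finset ↥V) (x : XS V) :
    comp (piV ν V) (fV ν V G y M 1 0 θ) W x =
      ∑ n ∈ Ioc y (y + M), ((G n : ℂ) * mix_K ν V W x n) * e (-((n : ℝ) * θ)) := by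
  unfold comp mix_K
  have h1 : ∀ T ∈ W.powerset, ((-1 : ℝ) ^ (W \ T).card) • rho (piV ν V) (fV ν V G y M 1 0 θ) T x =
      ∑ n ∈ Ioc y (y + M), ((G n : ℂ) * (((-1 : ℝ) ^ (W \ T).card *
        ((∏ p ∈ T, (((p : ℕ) : ℝ) * (ν p (x p : ℕ))⁻¹)) *
        (if (∀ p ∈ T, n ≡ ((x p : ℕ) : ℤ) [ZMOD ((p : ℕ) : ℤ)]) then 1 else 0)) : ℝ) : ℂ)) *
          e (-((n : ℝ) * θ)) := by
    intro T _
    rw [rho_fV hp hw G y M 1 0 θ hG, Complex.real_smul, sum_filter, mul_sum, mul_sum]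
    refine sum_congr rfl fun n _ => ?_
    have h2 : (n ≡ 0 [ZMOD ((1 : ℕ) : ℤ)] ∧
        ∀ p ∈ T, n ≡ ((x p : ℕ) : ℤ) [ZMOD ((p : ℕ) : ℤ)]) ↔
        (∀ p ∈ T, n ≡ ((x p : ℕ) : ℤ) [ZMOD ((p : ℕ) : ℤ)]) :=
      ⟨fun h => h.2, fun h => ⟨by rw [Nat.cast_one]; exact Int.modEq_one, h⟩⟩
    by_cases h3 : (∀ p ∈ T, n ≡ ((x p : ℕ) : ℤ) [ZMOD ((p : ℕ) : ℤ)])
    · rw [if_pos (h2.2 h3), if_pos h3]
      push_cast
      ring
    · rw [if_neg (fun h => h3 (h2.1 h)), if_neg h3]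
      push_cast
      ring
  rw [sum_congr rfl h1, sum_comm]
  refine sum_congr rfl fun n _ => ?_
  rw [mul_sum, sum_mul]

end comp

theorem mix5_holds : MIX5Stmt := by
  intro V U ν G h y M q Y0 B hp hw hU hG hq hY0 hY hh hB
  have hpi := piV_isPr hp hw
  obtain ⟨W, rfl⟩ : ∃ W : Finset ↥V, U = W.map (Function.Embedding.subtype _) := by
    refine ⟨U.subtype (fun p => p ∈ V), ?_⟩
    ext p
    simp only [mem_map, mem_subtype, Function.Embedding.subtype_apply]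
    constructor
    · intro h
      exact ⟨⟨p, hU h⟩, h, rfl⟩
    · rintro ⟨a, ha, rfl⟩
      exact ha
  have hGh : ∀ n, G n * h n ≠ 0 → ∀ p ∈ V, ν p n ≠ 0 := fun n hn =>
    hG n (left_ne_zero_of_mul hn)
  have h1 : ∀ b : ℕ, ew ν (fun n => G n * h n) y M 1 0 ((b : ℝ) / q)
      (W.map (Function.Embedding.subtype _)) = Ev (piV ν V) (fun x =>
        ‖∑ n ∈ Ioc y (y + M), (((G n : ℂ) * mix_K ν V W x n) * (h n : ℂ)) *
          e (-((n : ℝ) * ((b : ℝ) / q)))‖ ^ 2) := by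
    intro b
    rw [← (ew_holds V ν (fun n => G n * h n) y M 1 0 ((b : ℝ) / q) hp hw hGh).2.2.2.2 W]
    unfold TT.en
    congr 1
    funext x
    rw [mix_comp hp hw (fun n => G n * h n) y M _ hGh]
    congr 2
    refine sum_congr rfl fun n _ => ?_
    push_cast
    ring
  have h2 : ∀ b : ℕ, ew ν G y M 1 0 ((b : ℝ) / q)
      (W.map (Function.Embedding.subtype _)) = Ev (piV ν V) (fun x =>
        ‖∑ n ∈ Ioc y (y + M), ((G n : ℂ) * mix_K ν V W x n) *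
          e (-((n : ℝ) * ((b : ℝ) / q)))‖ ^ 2) := by
    intro b
    rw [← (ew_holds V ν G y M 1 0 ((b : ℝ) / q) hp hw hG).2.2.2.2 W]
    unfold TT.en
    congr 1
    funext x
    rw [mix_comp hp hw G y M _ hG]
  simp only [h1, h2]
  rw [← Ev_sum, ← Ev_sum]
  have h3 : ∀ x : XS V, ∑ b ∈ (range q).filter (Nat.Coprime q),
      ‖∑ n ∈ Ioc y (y + M), (((G n : ℂ) * mix_K ν V W x n) * (h n : ℂ)) *
          e (-((n : ℝ) * ((b : ℝ) / q)))‖ ^ 2 ≤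
      B ^ 2 * ∑ b ∈ (range q).filter (Nat.Coprime q), ‖∑ n ∈ Ioc y (y + M),
        ((G n : ℂ) * mix_K ν V W x n) * e (-((n : ℝ) * ((b : ℝ) / q)))‖ ^ 2 := fun x =>
    mix_core (Ioc y (y + M)) (fun n => (G n : ℂ) * mix_K ν V W x n) h B hq hY0 hY hh hB
  refine (hpi.Ev_mono h3).trans (le_of_eq ?_)
  exact Ev_smul (π := piV ν V) (B ^ 2) _

end Vale.Agent.P042.UU
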