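import Vale.Agent.P042.UU.MomG
import Vale.Agent.P042.TT.BrB

set_option autoImplicit false

/-!
Block MOM5 of Theorem S5: high moments of the random densities.
-/

namespace Vale.Agent.P042.UU

open Finset Filter Vale.Agent.P042.SS Vale.Agent.P042.TT

theorem mom5_of (hPsi : PSI5Stmt) (hLoc : LOC5Stmt) (hBr : BRStmt) : MOM5Stmt := by
  intro k m ε hk hm hε hε1 hmε
  obtain ⟨C0, hC0, hloc⟩ := hLoc m 21 hm (by norm_num)
  obtain ⟨P3, hP3⟩ := Filter.eventually_atTop.1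
    (mom5_big C0 ε ((⌈2 / ε⌉₊ + 1 : ℕ) : ℝ) hε hε1)
  refine ⟨max (C0 ^ (2 * m) * Real.exp (8 * m)) (4 * m), P3,
    lt_max_of_lt_left (by positivity), ?_⟩
  intro P hP N' Φ G ν hSt V R M y r hV hR hVR hRlog hMN hNM
  have hMB := hP3 P hP
  have hF := mom5_F hε hε1 (Nat.cast_nonneg _) hMB
  have hPone := hF.P1
  have hPpos : 0 < P := by linarith
  have hSb := hSt.toSb5
  have hΦ : 0 < Φ := lt_of_lt_of_le (Real.exp_pos _) hSb.Φlo
  have hprime : ∀ p ∈ V, p.Prime := fun p hp => (mom5_W_mem hPpos.le (hV hp)).1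
  have hw : Wts V ν := ⟨hSb.wts.nn, fun p hp => hSb.wts.per p (hV hp),
    fun p hp => hSb.wts.mean p (hV hp)⟩
  have hGV : ∀ n, G n ≠ 0 → ∀ p ∈ V, ν p n ≠ 0 := fun n hn p hp => hSb.Gν n hn p (hV hp)
  obtain ⟨hpi, _, _, hmo, _, _⟩ := hBr V ν G y M R r 0 hprime hw hGV
  have hR0 : (0 : ℝ) < R := by exact_mod_cast hR
  have hM0 : (0 : ℝ) < M := by
    have h1 := hSb.N'lo
    have h2 := Real.exp_pos (7 / 8 * P)
    have h3 : 0 < P * M := by linarith
    exact (mul_pos_iff_of_pos_left hPpos).1 h3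
  have hf0 : ∀ x, 0 ≤ gV ν V G y M R r x := by
    intro x
    unfold gV
    refine mul_nonneg (Finset.prod_nonneg fun p _ => ?_) (Finset.sum_nonneg fun n _ =>
      hSb.G0 n)
    exact mul_nonneg (Nat.cast_nonneg _) (inv_nonneg.2 (hSb.wts.nn _ _))
  have hs1 : ∀ i : ↥V, s5 ε P i ≤ 1 := fun i => by
    have h1 := (mom5_blk hε hMB.P4 (hV i.2)).1
    have h2 := (mom5_msb hε hPone (mblk ε P i)).2
    have h3 := hF.s55
    linarith
  have hfin := hloc ↥V (fun p => Fin (p : ℕ)) (piV ν V) (gV ν V G y M R r)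
    (fun i => s5 ε P i)
    (fun i => t5 ε P i) (Real.exp 4 * (R : ℝ) ^ (2 * P ^ (-(95.9 * ε))) *
        ((M * Φ) / R)) (dT5 ε P) hpi hf0 (by positivity) (fun i => ⟨by unfold t5; positivity, by
      unfold t5 s5
      rw [← mul_assoc]
      exact mul_le_mul_of_nonneg_right hMB.csb (by positivity), hs1 i⟩)
    (mom5_sum4 hMB hV)
    (mom5_local hPsi hBr hε hε1 hm hmε hMB hF hSt hV hR hVR hRlog hMN hNM hf0 hpi hM0)
  have hL : ∑ T ∈ V.powerset.filter (fun T => T.card ≤ dT5 ε P), wtR (t5 ε P) V T *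
        moT ν G y M R r T (2 * m) =
      ∑ T ∈ (univ : Finset (Finset ↥V)).filter (fun T => T.card ≤ dT5 ε P),
        wtR (fun i : ↥V => t5 ε P i) univ T *
        Ev (piV ν V) (fun x => (rho (piV ν V) (gV ν V G y M R r) T x) ^ (2 * m)) := by
    rw [← mom5_sum_sub V (dT5 ε P) (fun T => wtR (t5 ε P) V T * moT ν G y M R r T (2 * m))]
    refine Finset.sum_congr rfl fun T _ => ?_
    rw [mom5_wtR_map, ← hmo T (2 * m)]
  rw [hL]
  refine hfin.trans ?_
  rw [mul_pow, mul_pow, mul_pow, ← mul_assoc, ← mul_assoc]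
  refine mul_le_mul_of_nonneg_right ?_ (by positivity)
  have h1 : (Real.exp 4) ^ (2 * m) = Real.exp (8 * m) := by
    rw [← Real.exp_nat_mul]
    congr 1
    push_cast
    ring
  have h2 : ((R : ℝ) ^ (2 * P ^ (-(95.9 * ε)))) ^ (2 * m) =
      (R : ℝ) ^ (4 * m * P ^ (-(95.9 * ε))) := by
    rw [← Real.rpow_natCast, ← Real.rpow_mul hR0.le]
    congr 1
    push_cast
    ring
  rw [h1, h2]
  refine mul_le_mul (le_max_left _ _) ?_ (by positivity) (le_max_of_le_left (by positivity))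
  refine Real.rpow_le_rpow_of_exponent_le (by exact_mod_cast hR) ?_
  exact mul_le_mul (le_max_right _ _) hF.bcb (by positivity) (le_max_of_le_left (by positivity))

theorem mom5_holds : MOM5Stmt := mom5_of psi5_holds loc5_holds br_holds

end Vale.Agent.P042.UU
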