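import Vale.Agent.P042.UU.SpecC
import Vale.Agent.P042.TT.CellA

set_option autoImplicit false

/-!
Block MOM5 of Theorem S5, part A: numeric facts and the window.
-/

namespace Vale.Agent.P042.UU

open Finset Filter Vale.Agent.P042.SS Vale.Agent.P042.TT

theorem mom5_pow_dom (a b c : ℝ) (hab : a < b) : ∀ᶠ P : ℝ in atTop, c * P ^ a ≤ P ^ b := by
  have h := tendsto_rpow_atTop (sub_pos.2 hab)
  filter_upwards [h.eventually_ge_atTop c, eventually_gt_atTop 0] with P h1 h2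
  have h3 : P ^ b = P ^ (b - a) * P ^ a := by
    rw [← Real.rpow_add h2]; congr 1; ring
  rw [h3]
  exact mul_le_mul_of_nonneg_right h1 (Real.rpow_nonneg h2.le a)

theorem mom5_log_dom (c s : ℝ) (hs : 0 < s) : ∀ᶠ P : ℝ in atTop, c * Real.log P ≤ P ^ s := by
  have h := (isLittleO_log_rpow_atTop hs).bound (show (0 : ℝ) < 1 / (|c| + 1) by positivity)
  filter_upwards [h, eventually_ge_atTop 1] with P hP hP1
  have h1 : 0 ≤ Real.log P := Real.log_nonneg hP1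
  have h2 : 0 ≤ P ^ s := Real.rpow_nonneg (by linarith) s
  rw [Real.norm_of_nonneg h1, Real.norm_of_nonneg h2] at hP
  have h3 : c ≤ |c| := le_abs_self c
  have h4 : 0 < |c| + 1 := by positivity
  calc c * Real.log P ≤ (|c| + 1) * Real.log P := by gcongr; linarith
    _ ≤ (|c| + 1) * (1 / (|c| + 1) * P ^ s) := by gcongr
    _ = P ^ s := by field_simp

/-- elements of the window -/
theorem mom5_W_mem {ε P : ℝ} (hP : 0 ≤ P) {p : ℕ} (hp : p ∈ W5 ε P) :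
    p.Prime ∧ P ^ (190 * ε) < p ∧ (p : ℝ) ≤ P ^ (2 - 190 * ε) := by
  unfold W5 Wp at hp
  rw [mem_filter, mem_Ioc] at hp
  refine ⟨hp.2, ?_, ?_⟩
  · exact Nat.lt_of_floor_lt hp.1.1
  · exact (Nat.cast_le.2 hp.1.2).trans (Nat.floor_le (Real.rpow_nonneg hP _))

theorem mom5_sqrt_step (n : ℕ) :
    1 / Real.sqrt ((n + 1 : ℕ) : ℝ) ≤ 2 * Real.sqrt ((n + 1 : ℕ) : ℝ) - 2 * Real.sqrt (n : ℝ) := by
  have h1 : 0 < Real.sqrt ((n + 1 : ℕ) : ℝ) := Real.sqrt_pos.2 (by positivity)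
  have h2 : 0 ≤ Real.sqrt (n : ℝ) := Real.sqrt_nonneg _
  have h3 : Real.sqrt ((n + 1 : ℕ) : ℝ) ^ 2 = (n : ℝ) + 1 := by
    rw [Real.sq_sqrt (by positivity)]; push_cast; ring
  have h4 : Real.sqrt (n : ℝ) ^ 2 = (n : ℝ) := Real.sq_sqrt (by positivity)
  rw [div_le_iff₀ h1]
  nlinarith [sq_nonneg (Real.sqrt ((n + 1 : ℕ) : ℝ) - Real.sqrt (n : ℝ))]

theorem mom5_sqrt_sum (N : ℕ) :
    ∑ n ∈ Ioc 0 N, 1 / Real.sqrt (n : ℝ) ≤ 2 * Real.sqrt (N : ℝ) := by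
  induction N with
  | zero => simp
  | succ n ih =>
    rw [Finset.sum_Ioc_succ_top (Nat.zero_le n)]
    have := mom5_sqrt_step n
    linarith

/-- `∑ p^{-1/2}` up to `X` -/
theorem mom5_sum_rpow (A : Finset ℕ) (X : ℝ) (hX : 0 ≤ X) (h : ∀ p ∈ A, 1 ≤ p ∧ (p : ℝ) ≤ X) :
    ∑ p ∈ A, (p : ℝ) ^ (-(1 / 2) : ℝ) ≤ 2 * X ^ (1 / 2 : ℝ) := by
  have h1 : ∀ p ∈ A, (p : ℝ) ^ (-(1 / 2) : ℝ) = 1 / Real.sqrt (p : ℝ) := by
    intro p _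
    rw [Real.rpow_neg (Nat.cast_nonneg _), ← Real.sqrt_eq_rpow, one_div]
  rw [sum_congr rfl h1]
  have h2 : A ⊆ Ioc 0 ⌊X⌋₊ := by
    intro p hp
    rw [mem_Ioc]
    exact ⟨(h p hp).1, Nat.le_floor (h p hp).2⟩
  calc ∑ p ∈ A, 1 / Real.sqrt (p : ℝ) ≤ ∑ p ∈ Ioc 0 ⌊X⌋₊, 1 / Real.sqrt (p : ℝ) :=
        sum_le_sum_of_subset_of_nonneg h2 fun _ _ _ => by positivity
    _ ≤ 2 * Real.sqrt (⌊X⌋₊ : ℝ) := mom5_sqrt_sum _
    _ ≤ 2 * Real.sqrt X := by gcongr; exact Nat.floor_le hX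
    _ = _ := by rw [Real.sqrt_eq_rpow]

/-- growth facts -/
structure MomBig5 (C0 ε J P : ℝ) : Prop where
  P4 : 4 ≤ P
  w20 : 20 * P ^ (2 - 190 * ε) ≤ P ^ (2 : ℝ)
  s0le : 4 * P ^ (-(55 * ε)) ≤ P ^ (0 : ℝ)
  csb : C0 * P ^ (38 * ε) ≤ P ^ (40 * ε)
  dT : 9 * P ^ (1 - 55 * ε) ≤ P ^ (1 - 53 * ε)
  dT1 : 1 * P ^ (0 : ℝ) ≤ P ^ (1 - 55 * ε)
  dS : 3 * P ^ (1 - 53 * ε) ≤ P ^ (1 - 52 * ε)
  cond : 12 * P ^ (-(54.5 * ε)) ≤ P ^ (-(ε / 10))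
  lg1 : 2 * Real.log P ≤ P ^ (ε / 10)
  lgD : 3 * P ^ (1 - 52 * ε) ≤ P ^ (1 - 51 * ε)
  lgR : 1 * P ^ (1 - 91 * ε) ≤ P ^ (1 - 53 * ε)
  x1 : (600 * (J + 1)) * P ^ (-(14 * ε)) ≤ P ^ (0 : ℝ)

theorem mom5_big (C0 ε J : ℝ) (hε : 0 < ε) (hε1 : ε ≤ 1 / 1000) :
    ∀ᶠ P : ℝ in atTop, MomBig5 C0 ε J P := by
  filter_upwards [eventually_ge_atTop 4, mom5_pow_dom (2 - 190 * ε) 2 20 (by linarith),
    mom5_pow_dom (-(55 * ε)) 0 4 (by linarith), mom5_pow_dom (38 * ε) (40 * ε) C0 (by linarith),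
    mom5_pow_dom (1 - 55 * ε) (1 - 53 * ε) 9 (by linarith),
    mom5_pow_dom 0 (1 - 55 * ε) 1 (by linarith),
    mom5_pow_dom (1 - 53 * ε) (1 - 52 * ε) 3 (by linarith),
    mom5_pow_dom (-(54.5 * ε)) (-(ε / 10)) 12 (by linarith),
    mom5_log_dom 2 (ε / 10) (by linarith),
    mom5_pow_dom (1 - 52 * ε) (1 - 51 * ε) 3 (by linarith),
    mom5_pow_dom (1 - 91 * ε) (1 - 53 * ε) 1 (by linarith),
    mom5_pow_dom (-(14 * ε)) 0 (600 * (J + 1)) (by linarith)]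
    with P h1 h2 h3 h4 h5 h6 h7 h8 h9 h10 h11 h12
  exact ⟨h1, h2, h3, h4, h5, h6, h7, h8, h9, h10, h11, h12⟩

end Vale.Agent.P042.UU
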