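import Vale.Agent.P042.UU.PsiB

set_option autoImplicit false

/-!
Staged and truncated self-bounding estimate, part C: the statement for random sub-cells.
-/

namespace Vale.Agent.P042.UU

open Finset Vale.Agent.P042.SS Vale.Agent.P042.TT

/-- block PSI of Theorem S5: staged and truncated self-bounding estimate -/
def PSI5Stmt : Prop :=
  ∀ (ι : Type) [Fintype ι] [DecidableEq ι] (Ω : ι → Type) [∀ i, Fintype (Ω i)]
    (π : ∀ i, Ω i → ℝ) (f : (∀ i, Ω i) → ℝ) (s : ι → ℝ) (ℓ : ∀ i, Ω i → ℝ)
    (blk : ι → ℕ) (J : ℕ) (sb : ℕ → ℝ) (D : ℕ) (err : Finset ι → (∀ i, Ω i) → ℝ)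
    (θ τ A0 b1 ε1 U s0 : ℝ) (S0 : Finset ι) (x0 : ∀ i, Ω i),
    IsPr π → (∀ x, 0 ≤ f x) → 0 < θ → θ ≤ 1 → 0 < τ → 0 ≤ A0 → 0 ≤ b1 → 0 ≤ ε1 → 1 ≤ U →
    0 ≤ s0 → s0 ≤ 1 / 4 → (∀ i, 0 ≤ s i ∧ s i ≤ sb (blk i)) → (∀ j, 0 ≤ sb j ∧ sb j ≤ s0) →
    (∀ i, blk i < J) → (∀ i x, 0 ≤ ℓ i x) →
    (∀ i, ∑ x, π i x * (Real.exp (ℓ i x) - 1) ≤ ε1) →
    (∀ i x, π i x = 0 ∨ 1 ≤ U * π i x) →
    (∀ (S : Finset ι) (x : ∀ i, Ω i), S0 ⊆ S → S.card < D → (∀ i ∈ S0, x i = x0 i) →
      ∑ i ∈ Sᶜ, klr π f S i x ≤ 1 / τ * (rho π f S x *
        (A0 + b1 * ((S \ S0).card : ℝ) + ∑ i ∈ S \ S0, ℓ i (x i) -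
          Real.log (rho π f S x))) + err S x) →
    (∀ S : Finset ι, S0 ⊆ S → S.card < D →
      Ex π S0ᶜ (fun z => (rho π f S z) ^ θ * err S z) x0 ≤ 1 / τ) →
    s0 * U ^ θ * (1 + 2 * b1) ≤ τ / 4 →
    ∑ T ∈ S0ᶜ.powerset.filter (fun T => (S0 ∪ T).card ≤ D), wtR s S0ᶜ T *
        Ex π T (fun z => (rho π f (S0 ∪ T) z) ^ (1 + θ)) x0 + 1 ≤
      ((rho π f S0 x0) ^ (1 + θ) + 1) *
        Real.exp (3 * (θ * (1 + θ) * U ^ θ) / τ * ∑ j ∈ range J, sb j *
          (A0 + 2 + (b1 + ε1) * U ^ θ * ∑ i ∈ univ.filter (fun i => blk i ≤ j), s i))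

open Vale.Agent.P042.TT.Psi in
theorem psi5_holds : PSI5Stmt := by
  intro ι _ _ X _ π f s ℓ blk J sb D err θ τ K0 b1 ε1 U s0 S0 x0 hπ hf hθ hθ1 hτ hK0 hb1 hε1
    hU1 hs00 hs0 hs hsb hblk hℓ hε hU hklv herr hsm
  have hUθ : 1 ≤ U ^ θ := Real.one_le_rpow hU1 hθ.le
  have hbe : 0 ≤ (b1 + ε1) * U ^ θ := by
    have : 0 ≤ U ^ θ := by linarith
    positivity
  have hr0 : 0 ≤ rho π f S0 x0 := by
    rw [rho_eq]; exact cexp_nonneg π hπ.nn f hf _ _
  have hr1 := Real.rpow_nonneg hr0 (1 + θ)
  have hc4 : 0 ≤ 3 * (θ * (1 + θ) * U ^ θ) / τ := by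
    have : 0 ≤ U ^ θ := by linarith
    positivity
  have hex0 : 0 ≤ 3 * (θ * (1 + θ) * U ^ θ) / τ * ∑ j ∈ range J, sb j *
          (K0 + 2 + (b1 + ε1) * U ^ θ * ∑ i ∈ univ.filter (fun i => blk i ≤ j), s i) := by
    refine mul_nonneg hc4 (sum_nonneg fun j _ => mul_nonneg (hsb j).1 ?_)
    have : 0 ≤ ∑ i ∈ univ.filter (fun i => blk i ≤ j), s i := sum_nonneg fun i _ => (hs i).1
    have := mul_nonneg hbe this
    linarith
  by_cases hSD : D < S0.card
  · have hemp : S0ᶜ.powerset.filter (fun T => (S0 ∪ T).card ≤ D) = ∅ := by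
      apply filter_false_of_mem
      intro T _
      have := card_le_card (subset_union_left : S0 ⊆ S0 ∪ T)
      omega
    rw [hemp, sum_empty]
    have h1 := Real.one_le_exp hex0
    nlinarith
  push Not at hSD
  obtain ⟨F, hF⟩ : ∃ F : (∀ i, X i) → ℝ, F = fun y => f (S0.piecewise x0 y) := ⟨_, rfl⟩
  have hF0 : ∀ x, 0 ≤ F x := by intro x; rw [hF]; exact hf _
  have hcF : ∀ T x, cexp π T F x = rho π f (S0 ∪ T) (S0.piecewise x0 x) := by
    intro T x
    rw [hF, rho_eq, cexp_restr]
  obtain ⟨s', hs'⟩ : ∃ s' : ι → ℝ, s' = fun i => if i ∈ S0 then 0 else s i := ⟨_, rfl⟩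
  have hs'1 : ∀ i, 0 ≤ s' i ∧ s' i ≤ sb (blk i) := by
    intro i
    rw [hs']
    by_cases h : i ∈ S0
    · simp [h, (hsb _).1]
    · simp [h, hs i]
  have hcard : ∀ T : Finset ι, T.card < D - S0.card → (S0 ∪ T).card < D := by
    intro T hT
    have := card_union_le S0 T
    omega
  have hk : ∀ T x, T.card < D - S0.card →
      cexp π T F x * ∑ i ∈ univ \ T, KLc π F T i x ≤ 1 / τ * (cexp π T F x *
      (K0 + b1 * (T.card : ℝ) + ∑ i ∈ T, ℓ i (x i) - Real.log (cexp π T F x))) +
      err (S0 ∪ T) (S0.piecewise x0 x) := by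
    intro T x hT
    have hx' : ∀ i ∈ S0, (S0.piecewise x0 x) i = x0 i := by
      intro i hi; simp [Finset.piecewise, hi]
    have h1 := hklv (S0 ∪ T) (S0.piecewise x0 x) subset_union_left (hcard T hT) hx'
    rw [← hcF] at h1
    rcases (cexp_nonneg π hπ.nn F hF0 T x).eq_or_lt with h | h
    · have h0 : rho π f (S0 ∪ T) (S0.piecewise x0 x) = 0 := by rw [← hcF]; exact h.symm
      have h2 : ∑ i ∈ (S0 ∪ T)ᶜ, klr π f (S0 ∪ T) i (S0.piecewise x0 x) = 0 := by
        apply sum_eq_zero
        intro i _
        unfold klr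
        rw [h0]
        simp
      rw [h2, ← h] at h1
      rw [← h]
      simpa using h1
    · have h2 : cexp π T F x * ∑ i ∈ univ \ T, KLc π F T i x =
          ∑ i ∈ (S0 ∪ T)ᶜ, klr π f (S0 ∪ T) i (S0.piecewise x0 x) := by
        have hsub : (S0 ∪ T)ᶜ ⊆ univ \ T := by
          intro i hi; simp at hi ⊢; exact hi.2
        rw [mul_sum]
        symm
        refine sum_subset_zero_on_sdiff hsub ?_ ?_ |>.trans rfl
        · intro i hi
          simp only [mem_sdiff, mem_univ, true_and, mem_compl, mem_union, not_or, not_and,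
            not_not] at hi
          have hi0 : i ∈ S0 := by
            by_contra hcon
            exact hi.1 (hi.2 hcon)
          have : KLc π F T i x = 0 := by
            unfold KLc
            apply sum_eq_zero
            intro z _
            have e : lr π F T i x z = 1 := by
              unfold lr
              have : cexp π (insert i T) F (Function.update x i z) = cexp π T F x := by
                rw [hcF, hcF]
                have e1 : S0 ∪ insert i T = S0 ∪ T := by
                  ext j; simp only [mem_union, mem_insert]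
                  constructor
                  · rintro (h1 | h1 | h1)
                    · exact Or.inl h1
                    · exact Or.inl (h1 ▸ hi0)
                    · exact Or.inr h1
                  · rintro (h1 | h1)
                    · exact Or.inl h1
                    · exact Or.inr (Or.inr h1)
                have e2 : S0.piecewise x0 (Function.update x i z) = S0.piecewise x0 x := by
                  ext j
                  by_cases hj : j ∈ S0
                  · simp [Finset.piecewise, hj]
                  · have : j ≠ i := fun h => hj (h ▸ hi0)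
                    simp [Finset.piecewise, hj, this]
                rw [e1, e2]
              rw [this, div_self h.ne']
            rw [e]; simp
          rw [this]; ring
        · intro i hi
          have hi2 : i ∉ S0 ∧ i ∉ T := by simpa using hi
          unfold klr KLc
          rw [mul_sum]
          apply sum_congr rfl
          intro z _
          have e0 : rho π f (insert i (S0 ∪ T)) (Function.update (S0.piecewise x0 x) i z) =
              cexp π (insert i T) F (Function.update x i z) := by
            rw [hcF]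
            have e1 : S0 ∪ insert i T = insert i (S0 ∪ T) := by
              ext j; simp only [mem_union, mem_insert]; tauto
            have e2 : S0.piecewise x0 (Function.update x i z) =
                Function.update (S0.piecewise x0 x) i z := by
              ext j
              by_cases hj : j = i
              · subst hj
                simp [Finset.piecewise, hi2.1]
              · simp [Finset.piecewise, hj]
            rw [e1, e2]
          have e3 : cexp π (insert i T) F (Function.update x i z) =
              cexp π T F x * lr π F T i x z := by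
            unfold lr; rw [mul_div_cancel₀ _ h.ne']
          rw [e0, ← hcF]
          have e4 : cexp π (insert i T) F (Function.update x i z) / cexp π T F x =
            lr π F T i x z := rfl
          rw [e4, e3]
          ring
      rw [h2]
      refine h1.trans ?_
      refine add_le_add ?_ (le_refl _)
      apply mul_le_mul_of_nonneg_left _ (by positivity)
      apply mul_le_mul_of_nonneg_left _ h.le
      have e5 : (S0 ∪ T) \ S0 = T \ S0 := by
        ext j; simp only [mem_sdiff, mem_union]; tauto
      rw [e5]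
      have e6 : b1 * ((T \ S0).card : ℝ) ≤ b1 * (T.card : ℝ) := by
        apply mul_le_mul_of_nonneg_left _ hb1
        exact_mod_cast card_le_card sdiff_subset
      have e7 : ∑ i ∈ T \ S0, ℓ i ((S0.piecewise x0 x) i) ≤ ∑ i ∈ T, ℓ i (x i) := by
        have : ∑ i ∈ T \ S0, ℓ i ((S0.piecewise x0 x) i) = ∑ i ∈ T \ S0, ℓ i (x i) := by
          apply sum_congr rfl
          intro i hi
          have : i ∉ S0 := (mem_sdiff.mp hi).2
          simp [Finset.piecewise, this]
        rw [this]
        exact sum_le_sum_of_subset_of_nonneg sdiff_subset (fun i _ _ => hℓ i _)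
      linarith
  have hpc : ∀ x : ∀ i, X i, S0ᶜ.piecewise x x0 = S0.piecewise x0 x := by
    intro x
    ext j
    by_cases hj : j ∈ S0
    · simp [Finset.piecewise, hj]
    · simp [Finset.piecewise, hj]
  have he : ∀ T : Finset ι, T.card < D - S0.card →
      ex π (fun x => cexp π T F x ^ θ * err (S0 ∪ T) (S0.piecewise x0 x)) ≤ 1 / τ := by
    intro T hT
    refine le_trans (le_of_eq ?_) (herr (S0 ∪ T) subset_union_left (hcard T hT))
    unfold ex Ex Ev wt
    apply sum_congr rfl
    intro x _
    rw [smul_eq_mul]
    show (∏ i, π i (x i)) * (cexp π T F x ^ θ * err (S0 ∪ T) (S0.piecewise x0 x)) =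
      (∏ i, π i (x i)) * (rho π f (S0 ∪ T) (S0ᶜ.piecewise x x0) ^ θ *
        err (S0 ∪ T) (S0ᶜ.piecewise x x0))
    rw [hpc, hcF]
  have main := Vale.Agent.P042.UU.Psi.psi_core2 π hπ.nn hπ.one F hF0 θ U hθ hθ1 hU1 hU s' s0
    τ K0 b1 ε1 ℓ blk J sb (D - S0.card) (fun T x => err (S0 ∪ T) (S0.piecewise x0 x)) hs'1 hs00
    hs0 hsb (fun i _ => hblk i) hτ hK0 hb1 hε1 hℓ hε hk he hsm
  have hex : ex π F = rho π f S0 x0 := by
    rw [rho_eq, hF]; rfl
  rw [hex] at main
  -- left-hand side
  have hL : ∑ T, Wr s' T * (if T.card ≤ D - S0.card then Psi π F θ T else 0) =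
      ∑ T ∈ S0ᶜ.powerset.filter (fun T => (S0 ∪ T).card ≤ D), wtR s S0ᶜ T *
        Ex π T (fun z => (rho π f (S0 ∪ T) z) ^ (1 + θ)) x0 := by
    symm
    refine sum_subset_zero_on_sdiff (subset_univ _) ?_ ?_ |>.trans rfl
    · intro T hT
      simp only [mem_sdiff, mem_univ, true_and, mem_filter, mem_powerset, not_and_or] at hT
      by_cases hd : T ⊆ S0ᶜ
      · have hcc : ¬ (S0 ∪ T).card ≤ D := by
          rcases hT with h | h
          · exact absurd hd h
          · exact h
        have hdis : Disjoint S0 T := by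
          rw [Finset.disjoint_right]
          intro i hi; have := hd hi; simpa using this
        rw [card_union_of_disjoint hdis] at hcc
        rw [if_neg (by omega)]; ring
      · obtain ⟨i, hi, hi2⟩ := not_subset.mp hd
        have hi3 : i ∈ S0 := by simpa using hi2
        have : Wr s' T = 0 := by
          unfold Wr
          rw [prod_eq_zero hi (by rw [hs']; simp [hi3])]
          ring
        rw [this]; ring
    · intro T hT
      rw [mem_filter, mem_powerset] at hT
      have hd : ∀ i ∈ T, i ∉ S0 := by
        intro i hi; have := hT.1 hi; simpa using this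
      have hdis : Disjoint S0 T := by
        rw [Finset.disjoint_right]
        exact hd
      have hTc := hT.2
      rw [card_union_of_disjoint hdis] at hTc
      rw [if_pos (by omega)]
      have h1 : Wr s' T = wtR s S0ᶜ T := by
        unfold Wr wtR
        congr 1
        · apply prod_congr rfl
          intro i hi
          rw [hs']; simp [hd i hi]
        · symm
          apply prod_subset_one_on_sdiff
          · exact sdiff_subset_sdiff (subset_univ _) (le_refl _)
          · intro i hi
            simp only [mem_sdiff, mem_univ, true_and, mem_compl, not_and, not_not] at hi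
            have : i ∈ S0 := by
              by_contra hcon
              exact hi.1 (hi.2 hcon)
            rw [hs']; simp [this]
          · intro i hi
            have : i ∉ S0 := by
              have := (mem_sdiff.mp hi).1; simpa using this
            rw [hs']; simp [this]
      rw [← h1]
      congr 1
      unfold Psi ex Ex Ev wt
      apply sum_congr rfl
      intro y _
      rw [smul_eq_mul]
      show (∏ i, π i (y i)) * (rho π f (S0 ∪ T) (T.piecewise y x0) ^ (1 + θ)) =
        (∏ i, π i (y i)) * (cexp π T F y ^ (1 + θ))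
      rw [hcF, rho_eq, rho_eq]
      congr 2
      apply cexp_congr
      intro i hi
      by_cases h0 : i ∈ S0
      · have : i ∉ T := fun h => hd i h h0
        simp [Finset.piecewise, h0, this]
      · have : i ∈ T := by
          rcases mem_union.mp hi with h | h
          · exact absurd h h0
          · exact h
        simp [Finset.piecewise, h0, this]
  rw [hL] at main
  refine main.trans ?_
  apply mul_le_mul_of_nonneg_left
  · apply Real.exp_le_exp.mpr
    apply mul_le_mul_of_nonneg_left _ hc4
    apply sum_le_sum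
    intro j _
    apply mul_le_mul_of_nonneg_left _ (hsb j).1
    have hsum : ∑ i ∈ univ.filter (fun i => blk i ≤ j), s' i ≤
        ∑ i ∈ univ.filter (fun i => blk i ≤ j), s i := by
      apply sum_le_sum
      intro i _
      rw [hs']
      by_cases h : i ∈ S0
      · simp [h, (hs i).1]
      · simp [h]
    have := mul_le_mul_of_nonneg_left hsum hbe
    linarith
  · linarith

end Vale.Agent.P042.UU
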