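import Vale.Agent.P042.UU.MomA
import Vale.Agent.P042.UU.PsiC
import Vale.Agent.P042.UU.LocF
import Vale.Agent.P042.TT.AnovaA

set_option autoImplicit false

/-!
Block MOM5 of Theorem S5, part B: abstract facts, the initial density, the weights.
-/

namespace Vale.Agent.P042.UU

open Finset Filter Vale.Agent.P042.SS Vale.Agent.P042.TT

section abstr

variable {ι : Type} [Fintype ι] [DecidableEq ι] {Ω : ι → Type} [∀ i, Fintype (Ω i)]

theorem mom5_Ex_mul (π : ∀ i, Ω i → ℝ) (a : ℝ) (T : Finset ι) (f : (∀ i, Ω i) → ℝ)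
    (x : ∀ i, Ω i) : Ex π T (fun z => a * f z) x = a * Ex π T f x := by
  unfold Ex Ev
  rw [Finset.mul_sum]
  refine Finset.sum_congr rfl fun y _ => ?_
  simp only [smul_eq_mul]
  ring

theorem mom5_rho_mul (π : ∀ i, Ω i → ℝ) (a : ℝ) (f : (∀ i, Ω i) → ℝ) (S : Finset ι)
    (x : ∀ i, Ω i) : rho π (fun z => a * f z) S x = a * rho π f S x :=
  mom5_Ex_mul π a Sᶜ f x

theorem mom5_rho_nonneg {π : ∀ i, Ω i → ℝ} (hπ : IsPr π) {f : (∀ i, Ω i) → ℝ}
    (hf : ∀ x, 0 ≤ f x) (S : Finset ι) (x : ∀ i, Ω i) : 0 ≤ rho π f S x :=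
  hπ.Ev_nonneg fun _ => hf _

/-- rescaling -/
theorem mom5_scaled {π : ∀ i, Ω i → ℝ} (hπ : IsPr π) {f : (∀ i, Ω i) → ℝ} (hf : ∀ x, 0 ≤ f x)
    (S : Finset ι) (x0 : ∀ i, Ω i) (A : Finset (Finset ι)) (w : Finset ι → ℝ) (θ a E : ℝ)
    (ha : 0 < a) (hE : 0 ≤ E)
    (h : ∑ T ∈ A, w T *
        Ex π T (fun z => (rho π (fun z => a * f z) (S ∪ T) z) ^ (1 + θ)) x0 ≤ E ^ (1 + θ)) :
    ∑ T ∈ A, w T *
        Ex π T (fun z => (rho π f (S ∪ T) z) ^ (1 + θ)) x0 ≤ (E / a) ^ (1 + θ) := by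
  have h1 : ∀ T ∈ A, w T *
        Ex π T (fun z => (rho π (fun z => a * f z) (S ∪ T) z) ^ (1 + θ)) x0 =
      a ^ (1 + θ) * (w T *
        Ex π T (fun z => (rho π f (S ∪ T) z) ^ (1 + θ)) x0) := by
    intro T _
    have h2 : (fun z => (rho π (fun z => a * f z) (S ∪ T) z) ^ (1 + θ)) =
        fun z => a ^ (1 + θ) * (rho π f (S ∪ T) z) ^ (1 + θ) := by
      funext z
      rw [mom5_rho_mul, Real.mul_rpow ha.le (mom5_rho_nonneg hπ hf _ _)]
    rw [h2, mom5_Ex_mul]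
    ring
  rw [Finset.sum_congr rfl h1, ← Finset.mul_sum] at h
  rw [Real.div_rpow hE ha.le, le_div_iff₀ (Real.rpow_pos_of_pos ha _), mul_comm]
  exact h

theorem mom5_Ex_mono {π : ∀ i, Ω i → ℝ} (hπ : IsPr π) (T : Finset ι) {f g : (∀ i, Ω i) → ℝ}
    (hfg : ∀ x, f x ≤ g x) (x : ∀ i, Ω i) : Ex π T f x ≤ Ex π T g x := by
  unfold Ex Ev
  refine Finset.sum_le_sum fun y _ => ?_
  simp only [smul_eq_mul]
  exact mul_le_mul_of_nonneg_left (hfg _) (Finset.prod_nonneg fun i _ => hπ.nn i _)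

end abstr

/-! ### the sub-cells -/

theorem mom5_wtR_map (t : ℕ → ℝ) (V : Finset ℕ) (T : Finset ↥V) :
    wtR t V (T.map (Function.Embedding.subtype _)) =
      wtR (fun p : ↥V => t p) univ T := by
  classical
  have hV : V \ T.map (Function.Embedding.subtype _) =
      (univ \ T).map (Function.Embedding.subtype _) := by
    ext p
    simp only [Finset.mem_sdiff, Finset.mem_map, Finset.mem_univ, true_and, Function.Embedding.subtype_apply,
      Subtype.exists, exists_and_right, exists_eq_right, not_exists]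
    constructor
    · rintro ⟨h1, h2⟩
      exact ⟨h1, h2 h1⟩
    · rintro ⟨h1, h2⟩
      exact ⟨h1, fun _ => h2⟩
  unfold wtR
  rw [hV, prod_map, prod_map]
  rfl

theorem mom5_sum_sub (V : Finset ℕ) (d : ℕ) (g : Finset ℕ → ℝ) :
    ∑ W ∈ (univ : Finset (Finset ↥V)).filter (fun W => W.card ≤ d),
      g (W.map (Function.Embedding.subtype _)) =
      ∑ W ∈ V.powerset.filter (fun W => W.card ≤ d), g W := by
  classical
  refine Finset.sum_nbij' (fun W => W.map (Function.Embedding.subtype _))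
    (fun S => S.subtype (· ∈ V)) ?_ ?_ ?_ ?_ ?_
  · intro W hW
    rw [mem_filter] at hW
    rw [mem_filter, Finset.mem_powerset, card_map]
    refine ⟨?_, hW.2⟩
    intro x hx
    rw [Finset.mem_map] at hx
    obtain ⟨y, _, rfl⟩ := hx
    exact y.2
  · intro S hS
    rw [mem_filter, mem_powerset] at hS
    rw [mem_filter]
    refine ⟨mem_univ _, ?_⟩
    have h1 : (S.subtype (· ∈ V)).map (Function.Embedding.subtype _) = S :=
      Finset.subtype_map_of_mem fun x hx => hS.1 hx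
    have h2 := congrArg card h1
    rw [card_map] at h2
    rw [h2]; exact hS.2
  · intro W _
    ext x
    simp
  · intro S hS
    rw [mem_filter, Finset.mem_powerset] at hS
    exact Finset.subtype_map_of_mem fun x hx => hS.1 hx
  · intro W _
    rfl

/-- the density of a sub-cell -/
theorem mom5_rho_cell {ε P : ℝ} {k N' : ℕ} {Φ : ℝ} {G : ℤ → ℝ} {ν : ℕ → ℤ → ℝ}
    (hSb : Sb5 ε P k N' Φ G ν) (hBr : BRStmt) (hP : 0 < P) {V : Finset ℕ} {R M : ℕ} {y r : ℤ}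
    (hV : V ⊆ W5 ε P) (hR : 1 ≤ R) (hVR : ∀ p ∈ V, Nat.Coprime p R) (hMN : M ≤ N')
    (hNM : (N' : ℝ) ≤ P * M) (S : Finset ↥V) (x : XS V)
    (hx : ∀ i ∈ S, ν (i : ℕ) (x i : ℕ) ≠ 0)
    (hlog : Real.log R + ∑ p ∈ S, Real.log (p : ℕ) ≤ P ^ (1 - 51 * ε)) :
    rho (piV ν V) (fun z => (∏ p ∈ S, ν p (x p : ℕ)) * R / (M * Φ) * gV ν V G y M R r z) S x ≤
      Real.exp (P ^ (-(90 * ε)) + b5 ε P * (Real.log R + ∑ p ∈ S, Real.log (p : ℕ))) := by
  classical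
  have hprime : ∀ p ∈ V, p.Prime := fun p hp => (mom5_W_mem hP.le (hV hp)).1
  have hw : Wts V ν := ⟨hSb.wts.nn, fun p hp => hSb.wts.per p (hV hp),
    fun p hp => hSb.wts.mean p (hV hp)⟩
  have hGV : ∀ n, G n ≠ 0 → ∀ p ∈ V, ν p n ≠ 0 := fun n hn p hp => hSb.Gν n hn p (hV hp)
  obtain ⟨_, hrho, _, _, _, _⟩ := hBr V ν G y M R r 0 hprime hw hGV
  obtain ⟨z, hz⟩ := cell_crt hprime R r hVR S (fun p => ((x p : ℕ) : ℤ))
  have hR0 : (0 : ℝ) < R := by exact_mod_cast hR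
  have hM0 : (0 : ℝ) < M := by
    have h1 := hSb.N'lo
    have h2 := Real.exp_pos (7 / 8 * P)
    have h3 : 0 < P * M := by linarith
    exact (mul_pos_iff_of_pos_left hP).1 h3
  have hΦ : 0 < Φ := lt_of_lt_of_le (Real.exp_pos _) hSb.Φlo
  have hpos : ∀ p : ↥V, (0 : ℝ) < ((p : ℕ) : ℝ) := fun p => by
    exact_mod_cast (hprime p p.2).pos
  have hprodS : 0 < ∏ p ∈ S, ((p : ℕ) : ℝ) := Finset.prod_pos fun p _ => hpos p
  set D : ℕ := R * ∏ p ∈ S, (p : ℕ) with hD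
  have hSpos : 0 < ∏ p ∈ S, (p : ℕ) := Finset.prod_pos fun p _ => (hprime p p.2).pos
  have hD1 : 1 ≤ D := Nat.mul_pos hR hSpos
  have hDc : (D : ℝ) = R * ∏ p ∈ S, ((p : ℕ) : ℝ) := by rw [hD]; push_cast; rfl
  have hDlog : Real.log D = Real.log R + ∑ p ∈ S, Real.log (p : ℕ) := by
    rw [hDc, Real.log_mul hR0.ne' hprodS.ne', Real.log_prod fun p _ => (hpos p).ne']
  have hsup := hSb.sup D M y z hD1 (by rw [hDlog]; exact hlog) hMN hNM
  have hset : mass G y M D z = ∑ n ∈ (Ioc y (y + M)).filter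
        (fun n : ℤ => n ≡ r [ZMOD (R : ℕ)] ∧
          ∀ p ∈ S, n ≡ ((x p : ℕ) : ℤ) [ZMOD ((p : ℕ) : ℤ)]), G n := by
    unfold mass
    refine Finset.sum_congr (Finset.filter_congr fun n _ => hz n) fun _ _ => rfl
  rw [mom5_rho_mul, hrho, ← hset]
  have hν : ∀ i ∈ S, 0 < ν (i : ℕ) (x i : ℕ) := fun i hi =>
    lt_of_le_of_ne (hSb.wts.nn _ _) (Ne.symm (hx i hi))
  have hνp : 0 < ∏ p ∈ S, ν p (x p : ℕ) := Finset.prod_pos hν
  have e1 : ∏ p ∈ S, (((p : ℕ) : ℝ) * (ν p (x p : ℕ))⁻¹) =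
      (∏ p ∈ S, ((p : ℕ) : ℝ)) * (∏ p ∈ S, ν p (x p : ℕ))⁻¹ := by
    rw [Finset.prod_mul_distrib, Finset.prod_inv_distrib]
  rw [e1]
  have e2 : (∏ p ∈ S, ν p (x p : ℕ)) * (R : ℝ) / (M * Φ) *
      ((∏ p ∈ S, ((p : ℕ) : ℝ)) * (∏ p ∈ S, ν p (x p : ℕ))⁻¹ * mass G y M D z) =
      (D / (M * Φ)) * mass G y M D z := by
    rw [hDc]
    field_simp
  rw [e2]
  have hD0 : (0 : ℝ) < D := by exact_mod_cast hD1
  calc (D : ℝ) / (M * Φ) * mass G y M D z ≤
      D / (M * Φ) * ((M * Φ / D) * Real.exp (P ^ (-(90 * ε)) + b5 ε P * Real.log D)) :=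
        mul_le_mul_of_nonneg_left hsup (by positivity)
    _ = Real.exp (P ^ (-(90 * ε)) + b5 ε P * Real.log D) := by field_simp
    _ = _ := by rw [hDlog]

/-- the means of the rewards -/
theorem mom5_ell {ε P : ℝ} {k N' : ℕ} {Φ : ℝ} {G : ℤ → ℝ} {ν : ℕ → ℤ → ℝ}
    (hSb : Sb5 ε P k N' Φ G ν) (hP : 0 < P) (hbn : bn5 ε P ≤ 1) {p : ℕ} (hp : p ∈ W5 ε P) :
    ∑ x ∈ range p, ν p (x : ℤ) / ((p : ℕ) : ℝ) *
      (Real.exp (max 0 (Real.log (1 / ν p (x : ℤ)))) - 1) ≤ 2 * bn5 ε P := by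
  have hp0 : (0 : ℝ) < p := by exact_mod_cast (mom5_W_mem hP.le hp).1.pos
  have hb0 : 0 ≤ bn5 ε P := by unfold bn5; positivity
  have h1 : ∀ x ∈ range p, ν p (x : ℤ) / ((p : ℕ) : ℝ) *
      (Real.exp (max 0 (Real.log (1 / ν p (x : ℤ)))) - 1) ≤
      (2 * bn5 ε P - (ν p (x : ℤ) - 1)) / p := by
    intro x _
    have hn := hSb.wts.nn p (x : ℤ)
    have hle := hSb.νle p hp (x : ℤ)
    have he : Real.exp (bn5 ε P) ≤ 1 + 2 * bn5 ε P := by
      have h2 := Real.abs_exp_sub_one_le (x := bn5 ε P) (by rw [abs_of_nonneg hb0]; exact hbn)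
      rw [abs_of_nonneg hb0, abs_of_nonneg (by linarith [Real.add_one_le_exp (bn5 ε P)])] at h2
      linarith
    rw [div_mul_eq_mul_div]
    apply div_le_div_of_nonneg_right _ hp0.le
    rcases eq_or_lt_of_le hn with h0 | h0
    · rw [← h0]; simp; linarith
    · rcases le_or_gt (ν p (x : ℤ)) 1 with h3 | h3
      · have h4 : 0 ≤ Real.log (1 / ν p (x : ℤ)) :=
          Real.log_nonneg (by rw [le_div_iff₀ h0]; linarith)
        rw [max_eq_right h4, Real.exp_log (by positivity)]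
        have h5 : ν p (x : ℤ) * (1 / ν p (x : ℤ) - 1) = 1 - ν p (x : ℤ) := by
          field_simp
        rw [h5]; linarith
      · have h4 : Real.log (1 / ν p (x : ℤ)) ≤ 0 :=
          Real.log_nonpos (by positivity) (by rw [div_le_iff₀ h0]; linarith)
        rw [max_eq_left h4, Real.exp_zero, sub_self, mul_zero]
        linarith
  refine (Finset.sum_le_sum h1).trans ?_
  rw [← Finset.sum_div, Finset.sum_sub_distrib, Finset.sum_sub_distrib, hSb.wts.mean p hp]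
  simp only [sum_const, card_range, nsmul_eq_mul, mul_one, sub_self, sub_zero]
  rw [mul_div_cancel_left₀ _ hp0.ne']

end Vale.Agent.P042.UU
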