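import Vale.Agent.P042.UU.MomB

set_option autoImplicit false

/-!
Block MOM5 of Theorem S5, part C: the numerical comparisons.
-/

namespace Vale.Agent.P042.UU

open Finset Filter Vale.Agent.P042.SS Vale.Agent.P042.TT

section abstr

variable {ι : Type} [Fintype ι] [DecidableEq ι] {Ω : ι → Type} [∀ i, Fintype (Ω i)]

theorem mom5_tower {π : ∀ i, Ω i → ℝ} (hπ : IsPr π) {S0 S : Finset ι} (h : S0 ⊆ S)
    (f : (∀ i, Ω i) → ℝ) (x : ∀ i, Ω i) :
    Ex π S0ᶜ (fun z => rho π f S z) x = rho π f S0 x := by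
  unfold rho
  rw [hπ.Ex_Ex]
  congr 1
  rw [Finset.union_eq_left]
  exact Finset.compl_subset_compl.2 h

/-- the error term -/
theorem mom5_err {π : ∀ i, Ω i → ℝ} (hπ : IsPr π) {S0 S : Finset ι} (h : S0 ⊆ S)
    {f : (∀ i, Ω i) → ℝ} (hf : ∀ x, 0 ≤ f x) (x : ∀ i, Ω i) {θ e0 : ℝ} (hθ0 : 0 ≤ θ)
    (hθ1 : θ ≤ 1) (he : 0 ≤ e0) :
    Ex π S0ᶜ (fun z => (rho π f S z) ^ θ * e0) x ≤ e0 * (1 + rho π f S0 x) := by
  have h1 : Ex π S0ᶜ (fun z => (rho π f S z) ^ θ * e0) x ≤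
      Ex π S0ᶜ (fun z => e0 * (1 + rho π f S z)) x := by
    apply mom5_Ex_mono hπ
    intro z
    have hr := mom5_rho_nonneg hπ hf S z
    have : (rho π f S z) ^ θ ≤ 1 + rho π f S z := by
      rcases le_total (rho π f S z) 1 with h1 | h1
      · have := Real.rpow_le_one hr h1 hθ0
        linarith
      · have := Real.rpow_le_rpow_of_exponent_le h1 hθ1
        rw [Real.rpow_one] at this
        linarith
    rw [mul_comm]
    exact mul_le_mul_of_nonneg_left this he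
  refine h1.trans (le_of_eq ?_)
  rw [mom5_Ex_mul]
  congr 1
  have h2 : Ex π S0ᶜ (fun z => 1 + rho π f S z) x =
      Ex π S0ᶜ (fun _ => (1 : ℝ)) x + Ex π S0ᶜ (fun z => rho π f S z) x := by
    unfold Ex
    exact Ev_add _ _
  rw [h2, mom5_tower hπ h]
  congr 1
  exact hπ.Ev_const (1 : ℝ)

end abstr

/-- final comparison at one point -/
theorem mom5_point {A0 X b lR c : ℝ} {θ ρ sum1 : ℝ} (hb : 0 ≤ b) (hlR : 0 ≤ lR)
    (hθ0 : 0 ≤ θ) (hc0 : 0 ≤ c) (hρ0 : 0 ≤ ρ) (hρ : ρ ≤ Real.exp A0)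
    (hX : X ≤ 1 + 0.01 * c + b * lR) (hA0 : A0 = 2 + b * lR + b * c)
    (hsum : sum1 + 1 ≤ (ρ ^ (1 + θ) + 1) * Real.exp X) :
    sum1 ≤ (Real.exp (4 + 2 * b * lR + (b + 0.01) * c)) ^ (1 + θ) := by
  have hA0' : 0 ≤ A0 := by rw [hA0]; positivity
  have h1 : ρ ^ (1 + θ) ≤ Real.exp (A0 * (1 + θ)) := by
    calc ρ ^ (1 + θ) ≤ (Real.exp A0) ^ (1 + θ) := Real.rpow_le_rpow hρ0 hρ (by linarith)
      _ = _ := by rw [← Real.exp_mul]
  have h2 : (1 : ℝ) ≤ Real.exp (A0 * (1 + θ)) := Real.one_le_exp (by positivity)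
  have h3 : (2 : ℝ) ≤ Real.exp 1 := by
    have := Real.add_one_le_exp (1 : ℝ)
    linarith
  have h4 : Real.exp X ≤ Real.exp (1 + 0.01 * c + b * lR) := Real.exp_le_exp.2 hX
  calc sum1 ≤ (ρ ^ (1 + θ) + 1) * Real.exp X := by linarith
    _ ≤ (2 * Real.exp (A0 * (1 + θ))) * Real.exp (1 + 0.01 * c + b * lR) := by
        refine mul_le_mul (by linarith) h4 (Real.exp_pos _).le (by positivity)
    _ ≤ (Real.exp 1 * Real.exp (A0 * (1 + θ))) * Real.exp (1 + 0.01 * c + b * lR) := by gcongr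
    _ = Real.exp (1 + A0 * (1 + θ) + (1 + 0.01 * c + b * lR)) := by
        rw [← Real.exp_add, ← Real.exp_add]
    _ ≤ Real.exp ((4 + 2 * b * lR + (b + 0.01) * c) * (1 + θ)) := by
        refine Real.exp_le_exp.2 ?_
        have : 4 + 2 * b * lR + (b + 0.01) * c = A0 + 2 + 0.01 * c + b * lR := by rw [hA0]; ring
        rw [this]
        have h5 : 0 ≤ θ * (2 + 0.01 * c + b * lR) := by positivity
        nlinarith
    _ = _ := by rw [← Real.exp_mul]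

/-- comparison with the growth constant `21` -/
theorem mom5_growth {b lR MΦ Rr pr : ℝ} {S : ℕ} (hb : 100 * b ≤ 1)
    (hMΦ : 0 < MΦ) (hR : 0 < Rr) (hlR : lR = Real.log Rr) (hpr : (1 / 20 : ℝ) ^ S ≤ pr) :
    Real.exp (4 + 2 * b * lR + (b + 0.01) * S) / (pr * Rr / MΦ) ≤
      21 ^ S * (Real.exp 4 * Rr ^ (2 * b) * (MΦ / Rr)) := by
  have hpr0 : 0 < pr := lt_of_lt_of_le (by positivity) hpr
  have h1 : Real.exp (4 + 2 * b * lR + (b + 0.01) * S) =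
      Real.exp 4 * Rr ^ (2 * b) * Real.exp ((b + 0.01) * S) := by
    rw [Real.exp_add, Real.exp_add, Real.rpow_def_of_pos hR, hlR, mul_comm (Real.log Rr)]
  have h2 : Real.exp ((b + 0.01) * S) ≤ (21 / 20 : ℝ) ^ S := by
    rw [mul_comm, Real.exp_nat_mul]
    refine pow_le_pow_left₀ (Real.exp_pos _).le ?_ S
    have h3 : Real.exp (b + 0.01) ≤ Real.exp (0.02 : ℝ) := Real.exp_le_exp.2 (by linarith)
    have h4 : (1 : ℝ) - 0.02 ≤ Real.exp (-(0.02 : ℝ)) := by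
      have := Real.add_one_le_exp (-(0.02 : ℝ))
      linarith
    rw [Real.exp_neg] at h4
    have h5 := Real.exp_pos (0.02 : ℝ)
    have h6 : (0.98 : ℝ) * Real.exp 0.02 ≤ 1 := by
      calc (0.98 : ℝ) * Real.exp 0.02 ≤ (Real.exp 0.02)⁻¹ * Real.exp 0.02 := by
            refine mul_le_mul_of_nonneg_right ?_ h5.le
            linarith
        _ = 1 := inv_mul_cancel₀ h5.ne'
    linarith
  have h7 : 1 / pr ≤ 20 ^ S := by
    rw [div_le_iff₀ hpr0]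
    calc (1 : ℝ) = 20 ^ S * (1 / 20) ^ S := by rw [← mul_pow]; norm_num
      _ ≤ 20 ^ S * pr := by gcongr
  rw [h1]
  have h8 : Real.exp 4 * Rr ^ (2 * b) * Real.exp ((b + 0.01) * S) / (pr * Rr / MΦ) =
      (Real.exp ((b + 0.01) * S) * (1 / pr)) * (Real.exp 4 * Rr ^ (2 * b) * (MΦ / Rr)) := by
    field_simp
  rw [h8]
  refine mul_le_mul_of_nonneg_right ?_ (by positivity)
  calc Real.exp ((b + 0.01) * S) * (1 / pr) ≤ (21 / 20 : ℝ) ^ S * 20 ^ S := by gcongr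
    _ = 21 ^ S := by rw [← mul_pow]; norm_num

/-- the exponent of PSI5 -/
theorem mom5_expo {C0 ε P θ u τ b lR A0 c : ℝ} {J : ℕ} {sb Sg : ℕ → ℝ} {ε1 : ℝ}
    (hε : 0 < ε) (hB : MomBig5 C0 ε J P) (hθ0 : 0 ≤ θ) (hθ1 : θ ≤ 1 / 2) (hu0 : 0 ≤ u)
    (hu : u ≤ P ^ (0.4 * ε)) (hτ0 : 0 < τ) (hτ : 1 / τ ≤ P ^ (ε / 10))
    (hb : b = P ^ (-(95.9 * ε))) (hε1 : ε1 ≤ 2 * P ^ (-(95.9 * ε))) (hε10 : 0 ≤ ε1)
    (hlR0 : 0 ≤ lR) (hc : 0 ≤ c) (hA0 : A0 = 2 + b * lR + b * c)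
    (hsb0 : ∀ j, 0 ≤ sb j) (hsb : ∀ j, sb j ≤ P ^ (-(55 * ε)))
    (hSg0 : ∀ j, 0 ≤ Sg j) (hSg : ∀ j, sb j * Sg j ≤ 2 * P ^ (80.5 * ε)) :
    3 * (θ * (1 + θ) * u) / τ * ∑ j ∈ range J, sb j * (A0 + 2 + (b + ε1) * u * Sg j) ≤
      1 + 0.01 * c + b * lR := by
  have hP4 := hB.P4
  have hP0 : 0 < P := by linarith
  have hP1 : 1 ≤ P := by linarith
  have hb0 : 0 ≤ b := by rw [hb]; positivity
  have hJ : ∀ j ∈ range J, sb j * (A0 + 2 + (b + ε1) * u * Sg j) ≤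
      P ^ (-(55 * ε)) * (4 + b * lR + b * c) + 6 * P ^ (-(15 * ε)) := by
    intro j _
    have h1 : sb j * (A0 + 2) ≤ P ^ (-(55 * ε)) * (4 + b * lR + b * c) := by
      refine mul_le_mul (hsb j) (by rw [hA0]; linarith) ?_ (by positivity)
      rw [hA0]; positivity
    have h2 : sb j * ((b + ε1) * u * Sg j) ≤ 6 * P ^ (-(15 * ε)) := by
      calc sb j * ((b + ε1) * u * Sg j) = (b + ε1) * u * (sb j * Sg j) := by ring
        _ ≤ (3 * P ^ (-(95.9 * ε))) * P ^ (0.4 * ε) * (2 * P ^ (80.5 * ε)) := by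
            have : b + ε1 ≤ 3 * P ^ (-(95.9 * ε)) := by rw [hb]; linarith
            have h3 := hSg j
            have h4 : 0 ≤ sb j * Sg j := mul_nonneg (hsb0 j) (hSg0 j)
            gcongr
        _ = 6 * (P ^ (-(95.9 * ε)) * P ^ (0.4 * ε) * P ^ (80.5 * ε)) := by ring
        _ = 6 * P ^ (-(15 * ε)) := by
            rw [← Real.rpow_add hP0, ← Real.rpow_add hP0]
            congr 2; ring
    calc sb j * (A0 + 2 + (b + ε1) * u * Sg j) =
          sb j * (A0 + 2) + sb j * ((b + ε1) * u * Sg j) := by ring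
      _ ≤ _ := add_le_add h1 h2
  have hsum : ∑ j ∈ range J, sb j * (A0 + 2 + (b + ε1) * u * Sg j) ≤
      J * (P ^ (-(55 * ε)) * (4 + b * lR + b * c) + 6 * P ^ (-(15 * ε))) := by
    refine (Finset.sum_le_sum hJ).trans (le_of_eq ?_)
    rw [Finset.sum_const, card_range, nsmul_eq_mul]
  have hcoef : 3 * (θ * (1 + θ) * u) / τ ≤ 3 * P ^ (0.5 * ε) := by
    have h1 : θ * (1 + θ) ≤ 1 := by nlinarith
    calc 3 * (θ * (1 + θ) * u) / τ = 3 * (θ * (1 + θ)) * (u * (1 / τ)) := by ring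
      _ ≤ 3 * 1 * (P ^ (0.4 * ε) * P ^ (ε / 10)) := by
          have : 0 ≤ 1 / τ := by positivity
          gcongr
      _ = 3 * P ^ (0.5 * ε) := by
          rw [← Real.rpow_add hP0]
          ring_nf
  have hcoef0 : 0 ≤ 3 * (θ * (1 + θ) * u) / τ := by positivity
  have e1 : P ^ (0.5 * ε) * P ^ (-(55 * ε)) ≤ P ^ (-(14 * ε)) := by
    rw [← Real.rpow_add hP0]
    exact Real.rpow_le_rpow_of_exponent_le hP1 (by linarith)
  have e2 : P ^ (0.5 * ε) * P ^ (-(15 * ε)) ≤ P ^ (-(14 * ε)) := by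
    rw [← Real.rpow_add hP0]
    exact Real.rpow_le_rpow_of_exponent_le hP1 (by linarith)
  have hx := hB.x1
  rw [Real.rpow_zero] at hx
  have hJ0 : (0 : ℝ) ≤ J := Nat.cast_nonneg _
  have hq : 0 ≤ P ^ (-(14 * ε)) := by positivity
  have hJx : (J : ℝ) * P ^ (-(14 * ε)) ≤ 1 / 600 := by nlinarith
  have hL0 : 0 ≤ 4 + b * lR + b * c := by positivity
  calc 3 * (θ * (1 + θ) * u) / τ * ∑ j ∈ range J, sb j * (A0 + 2 + (b + ε1) * u * Sg j)
      ≤ (3 * P ^ (0.5 * ε)) *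
        (J * (P ^ (-(55 * ε)) * (4 + b * lR + b * c) + 6 * P ^ (-(15 * ε)))) := by
        refine mul_le_mul hcoef hsum ?_ (by positivity)
        refine Finset.sum_nonneg fun j _ => mul_nonneg (hsb0 j) ?_
        have := hSg0 j
        rw [hA0]; positivity
    _ = 3 * J * ((P ^ (0.5 * ε) * P ^ (-(55 * ε))) * (4 + b * lR + b * c) +
        6 * (P ^ (0.5 * ε) * P ^ (-(15 * ε)))) := by ring
    _ ≤ 3 * J * (P ^ (-(14 * ε)) * (4 + b * lR + b * c) + 6 * P ^ (-(14 * ε))) := by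
        gcongr
    _ = 3 * ((J : ℝ) * P ^ (-(14 * ε))) * (10 + b * lR + b * c) := by ring
    _ ≤ 3 * (1 / 600) * (10 + b * lR + b * c) := by
        have : 0 ≤ 10 + b * lR + b * c := by positivity
        gcongr
    _ ≤ 1 + 0.01 * c + b * lR := by
        have hb1 : b ≤ 1 := by
          rw [hb]
          exact Real.rpow_le_one_of_one_le_of_nonpos hP1 (by linarith)
        have h1 : b * c ≤ c := by nlinarith
        have h2 : 0 ≤ b * lR := by positivity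
        linarith

end Vale.Agent.P042.UU
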