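import Vale.Agent.P042.UU.MomC
import Vale.Agent.P042.TT.BrB

set_option autoImplicit false

/-!
Block MOM5 of Theorem S5, part D: blocks of primes.
-/

namespace Vale.Agent.P042.UU

open Finset Filter Vale.Agent.P042.SS Vale.Agent.P042.TT

/-- the blocks -/
noncomputable def mblk (ε P : ℝ) (p : ℕ) : ℕ := ⌊Real.log p / (ε * Real.log P)⌋₊

noncomputable def msb (ε P : ℝ) (j : ℕ) : ℝ := P ^ (40 * ε - (max (j : ℝ) 190) * ε / 2)

theorem mom5_blk {ε P : ℝ} (hε : 0 < ε) (hP : 4 ≤ P) {p : ℕ} (hp : p ∈ W5 ε P) :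
    s5 ε P p ≤ msb ε P (mblk ε P p) ∧ mblk ε P p < ⌈2 / ε⌉₊ + 1 ∧
      ∀ j, mblk ε P p ≤ j → (p : ℝ) ≤ P ^ (((j : ℝ) + 1) * ε) := by
  have hP0 : 0 < P := by linarith
  have hlP : 0 < Real.log P := Real.log_pos (by linarith)
  obtain ⟨hpr, hlo, hhi⟩ := mom5_W_mem hP0.le hp
  have hp0 : (0 : ℝ) < p := by exact_mod_cast hpr.pos
  have hp1 : (1 : ℝ) ≤ p := by exact_mod_cast hpr.one_lt.le
  have hlp0 : 0 ≤ Real.log p := Real.log_nonneg hp1
  have hd : 0 < ε * Real.log P := by positivity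
  have hq0 : 0 ≤ Real.log p / (ε * Real.log P) := by positivity
  have hfl : ((mblk ε P p : ℕ) : ℝ) ≤ Real.log p / (ε * Real.log P) := Nat.floor_le hq0
  have hlt : Real.log p / (ε * Real.log P) < (mblk ε P p : ℝ) + 1 := Nat.lt_floor_add_one _
  have hloL : 190 * ε * Real.log P < Real.log p := by
    have := Real.log_lt_log (by positivity) hlo
    rwa [Real.log_rpow hP0] at this
  have hhiL : Real.log p ≤ (2 - 190 * ε) * Real.log P := by
    have := Real.log_le_log hp0 hhi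
    rwa [Real.log_rpow hP0] at this
  refine ⟨?_, ?_, ?_⟩
  · -- size
    have h190 : (190 : ℝ) ≤ Real.log p / (ε * Real.log P) := by
      rw [le_div_iff₀ hd]; nlinarith
    have hmax : max ((mblk ε P p : ℕ) : ℝ) 190 ≤ Real.log p / (ε * Real.log P) :=
      max_le hfl h190
    have h2 : max ((mblk ε P p : ℕ) : ℝ) 190 * ε * Real.log P ≤ Real.log p := by
      have := mul_le_mul_of_nonneg_right hmax hd.le
      rw [div_mul_cancel₀ _ hd.ne'] at this
      linarith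
    unfold s5 msb
    rw [show (40 * ε - max ((mblk ε P p : ℕ) : ℝ) 190 * ε / 2) =
      40 * ε + -(max ((mblk ε P p : ℕ) : ℝ) 190 * ε / 2) by ring, Real.rpow_add hP0]
    refine mul_le_mul_of_nonneg_left ?_ (by positivity)
    rw [Real.rpow_def_of_pos hp0, Real.rpow_def_of_pos hP0]
    refine Real.exp_le_exp.2 ?_
    nlinarith
  · have h1 : ((mblk ε P p : ℕ) : ℝ) ≤ 2 / ε := by
      refine hfl.trans ?_
      rw [div_le_div_iff₀ hd hε]
      have : 0 < 190 * ε * Real.log P := by positivity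
      nlinarith
    have h2 : ((mblk ε P p : ℕ) : ℝ) ≤ (⌈2 / ε⌉₊ : ℝ) := h1.trans (Nat.le_ceil _)
    have h3 : mblk ε P p ≤ ⌈2 / ε⌉₊ := by exact_mod_cast h2
    omega
  · intro j hj
    have h1 : ((mblk ε P p : ℕ) : ℝ) ≤ j := by exact_mod_cast hj
    have h2 : Real.log p < ((j : ℝ) + 1) * (ε * Real.log P) := by
      rw [div_lt_iff₀ hd] at hlt
      have : ((mblk ε P p : ℕ) : ℝ) + 1 ≤ (j : ℝ) + 1 := by linarith
      have := mul_le_mul_of_nonneg_right this hd.le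
      linarith
    rw [Real.rpow_def_of_pos hP0, ← Real.exp_log hp0]
    refine Real.exp_le_exp.2 ?_
    linarith

/-- sums of the rates -/
theorem mom5_rates {ε P : ℝ} (hP : 4 ≤ P) (A : Finset ℕ)
    (X : ℝ) (hX : 0 ≤ X) (hA : ∀ p ∈ A, 1 ≤ p ∧ (p : ℝ) ≤ X) :
    ∑ p ∈ A, s5 ε P p ≤ 2 * P ^ (40 * ε) * X ^ (1 / 2 : ℝ) := by
  have hP0 : 0 < P := by linarith
  unfold s5
  rw [← Finset.mul_sum]
  have := mom5_sum_rpow A X hX hA
  have h2 : 0 ≤ P ^ (40 * ε) := by positivity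
  nlinarith

theorem mom5_Sg {ε P : ℝ} (hε : 0 < ε) (hP : 4 ≤ P) {V : Finset ℕ} (hV : V ⊆ W5 ε P) (j : ℕ) :
    msb ε P j * ∑ i ∈ (univ : Finset ↥V).filter (fun i : ↥V => mblk ε P (i : ℕ) ≤ j), s5 ε P i ≤
      2 * P ^ (80.5 * ε) := by
  have hP0 : 0 < P := by linarith
  have h1 : ∑ i ∈ (univ : Finset ↥V).filter (fun i : ↥V => mblk ε P (i : ℕ) ≤ j), s5 ε P i ≤
      2 * P ^ (40 * ε) * (P ^ (((j : ℝ) + 1) * ε)) ^ (1 / 2 : ℝ) := by
    have h2 : ∑ i ∈ (univ : Finset ↥V).filter (fun i : ↥V => mblk ε P (i : ℕ) ≤ j), s5 ε P i =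
        ∑ p ∈ ((univ : Finset ↥V).filter (fun i : ↥V => mblk ε P (i : ℕ) ≤ j)).map
          (Function.Embedding.subtype _), s5 ε P p := by
      rw [Finset.sum_map]; rfl
    rw [h2]
    apply mom5_rates hP _ _ (by positivity)
    intro p hp
    rw [Finset.mem_map] at hp
    obtain ⟨i, hi, rfl⟩ := hp
    have hiW := hV i.2
    exact ⟨(mom5_W_mem hP0.le hiW).1.pos, (mom5_blk hε hP hiW).2.2 j (mem_filter.1 hi).2⟩
  have hm0 : 0 ≤ msb ε P j := by unfold msb; positivity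
  calc _ ≤ msb ε P j * (2 * P ^ (40 * ε) * (P ^ (((j : ℝ) + 1) * ε)) ^ (1 / 2 : ℝ)) :=
        mul_le_mul_of_nonneg_left h1 hm0
    _ = 2 * P ^ (40 * ε - (max (j : ℝ) 190) * ε / 2 + 40 * ε + ((j : ℝ) + 1) * ε * (1 / 2)) := by
        unfold msb
        rw [← Real.rpow_mul hP0.le, Real.rpow_add hP0, Real.rpow_add hP0]
        ring
    _ ≤ 2 * P ^ (80.5 * ε) := by
        have : (j : ℝ) ≤ max (j : ℝ) 190 := le_max_left _ _
        have h3 : (40 * ε - (max (j : ℝ) 190) * ε / 2 + 40 * ε + ((j : ℝ) + 1) * ε * (1 / 2)) ≤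
            80.5 * ε := by nlinarith
        have := Real.rpow_le_rpow_of_exponent_le (by linarith : (1 : ℝ) ≤ P) h3
        linarith

end Vale.Agent.P042.UU
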