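import Vale.Agent.P042.UU.MomD

set_option autoImplicit false

/-!
Block MOM5 of Theorem S5.
-/

namespace Vale.Agent.P042.UU

open Finset Filter Vale.Agent.P042.SS Vale.Agent.P042.TT

/-- consequences of the growth facts -/
structure MomF (ε P : ℝ) : Prop where
  P1 : 1 ≤ P
  b100 : 100 * P ^ (-(95.9 * ε)) ≤ 1
  bnb : bn5 ε P ≤ P ^ (-(95.9 * ε))
  bcb : P ^ (-(95.9 * ε)) ≤ bc5 ε P
  s55 : P ^ (-(55 * ε)) ≤ 1 / 4
  dT : (dT5 ε P : ℝ) ≤ P ^ (1 - 53 * ε)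
  dS : 2 * dT5 ε P ≤ dS5 ε P
  A1 : 3 + 2 * P ^ (1 - 53 * ε) ≤ P ^ (1 - 51 * ε)
  lgS : P ^ (1 - 53 * ε) * (2 * Real.log P) ≤ P ^ (1 - 52 * ε)
  lgT : P ^ (1 - 53 * ε) + P ^ (1 - 52 * ε) ≤ P ^ (1 - 51 * ε)
  b5l : b5 ε P * (2 * Real.log P) ≤ P ^ (-(95.9 * ε))
  b5b : b5 ε P ≤ P ^ (-(95.9 * ε))

theorem mom5_F {ε C0 J P : ℝ} (hε : 0 < ε) (hε1 : ε ≤ 1 / 1000) (hJ : 0 ≤ J)
    (hMB : MomBig5 C0 ε J P) : MomF ε P := by
  have hP4 := hMB.P4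
  have hPone : 1 ≤ P := by linarith
  have hPpos : 0 < P := by linarith
  have hlP0 : 0 ≤ Real.log P := Real.log_nonneg hPone
  have hdT : (dT5 ε P : ℝ) ≤ P ^ (1 - 53 * ε) := Nat.floor_le (by positivity)
  have h53 : P ^ (1 - 53 * ε) ≤ P ^ (1 - 52 * ε) :=
    Real.rpow_le_rpow_of_exponent_le hPone (by linarith)
  refine ⟨hPone, ?_, ?_, ?_, ?_, hdT, ?_, ?_, ?_, ?_, ?_, ?_⟩
  · have h1 := hMB.x1
    rw [Real.rpow_zero] at h1
    have h2 : P ^ (-(95.9 * ε)) ≤ P ^ (-(14 * ε)) :=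
      Real.rpow_le_rpow_of_exponent_le hPone (by linarith)
    have h4 : 0 ≤ P ^ (-(14 * ε)) := by positivity
    nlinarith
  · unfold bn5
    exact Real.rpow_le_rpow_of_exponent_le hPone (by linarith)
  · unfold bc5
    exact Real.rpow_le_rpow_of_exponent_le hPone (by linarith)
  · have := hMB.s0le
    rw [Real.rpow_zero] at this
    linarith
  · unfold dS5
    apply Nat.le_floor
    push_cast
    have := hMB.dS
    have h1 : 0 ≤ P ^ (1 - 53 * ε) := by positivity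
    linarith
  · have h5 := hMB.dT1
    rw [Real.rpow_zero] at h5
    have h6 := hMB.dT
    have h7 := hMB.dS
    have h8 := hMB.lgD
    have h9 : 0 ≤ P ^ (1 - 52 * ε) := by positivity
    linarith
  · have hlP := hMB.lg1
    calc P ^ (1 - 53 * ε) * (2 * Real.log P) ≤ P ^ (1 - 53 * ε) * P ^ (ε / 10) := by gcongr
      _ = P ^ (1 - 53 * ε + ε / 10) := by rw [← Real.rpow_add hPpos]
      _ ≤ _ := Real.rpow_le_rpow_of_exponent_le hPone (by linarith)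
  · have h3 := hMB.lgD
    have h9 : 0 ≤ P ^ (1 - 52 * ε) := by positivity
    linarith
  · have hlP := hMB.lg1
    unfold b5
    calc P ^ (-(96 * ε)) * (2 * Real.log P) ≤ P ^ (-(96 * ε)) * P ^ (ε / 10) := by gcongr
      _ = P ^ (-(95.9 * ε)) := by rw [← Real.rpow_add hPpos]; congr 1; ring
  · unfold b5
    exact Real.rpow_le_rpow_of_exponent_le hPone (by linarith)

theorem mom5_sum4 {ε C0 J P : ℝ} (hMB : MomBig5 C0 ε J P)
    {V : Finset ℕ} (hV : V ⊆ W5 ε P) : 4 * ∑ i : ↥V, s5 ε P i ≤ dT5 ε P := by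
  have hP4 := hMB.P4
  have hPpos : 0 < P := by linarith
  have h1 : ∑ i : ↥V, s5 ε P i = ∑ p ∈ V, s5 ε P p := Finset.sum_coe_sort V (fun p => s5 ε P p)
  have h2 := mom5_rates (ε := ε) hP4 V (P ^ (2 - 190 * ε)) (by positivity) (fun p hp =>
    ⟨(mom5_W_mem hPpos.le (hV hp)).1.pos, (mom5_W_mem hPpos.le (hV hp)).2.2⟩)
  have h3 : P ^ (40 * ε) * (P ^ (2 - 190 * ε)) ^ (1 / 2 : ℝ) = P ^ (1 - 55 * ε) := by
    rw [← Real.rpow_mul hPpos.le, ← Real.rpow_add hPpos]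
    congr 1; ring
  have h4 : P ^ (1 - 53 * ε) < (dT5 ε P : ℝ) + 1 := Nat.lt_floor_add_one _
  have h5 := hMB.dT
  have h6 := hMB.dT1
  rw [Real.rpow_zero] at h6
  rw [h1]
  linarith

theorem mom5_logS {ε P : ℝ} (hε : 0 < ε) (hP1 : 1 ≤ P) {V : Finset ℕ} (hV : V ⊆ W5 ε P)
    (S : Finset ↥V) : ∑ p ∈ S, Real.log (p : ℕ) ≤ S.card * (2 * Real.log P) := by
  have hPpos : 0 < P := by linarith
  rw [← nsmul_eq_mul, ← Finset.sum_const]
  refine Finset.sum_le_sum fun p _ => ?_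
  have hm := mom5_W_mem hPpos.le (hV p.2)
  have hp0 : (0 : ℝ) < ((p : ℕ) : ℝ) := by exact_mod_cast hm.1.pos
  have h1 := Real.log_le_log hp0 hm.2.2
  rw [Real.log_rpow hPpos] at h1
  have h2 : 0 ≤ Real.log P := Real.log_nonneg hP1
  nlinarith

/-- the initial density -/
theorem mom5_r0 (hBr : BRStmt) {ε P : ℝ} (hε : 0 < ε) (hF : MomF ε P) {k N' : ℕ} {Φ : ℝ}
    {G : ℤ → ℝ} {ν : ℕ → ℤ → ℝ} (hSb : Sb5 ε P k N' Φ G ν) {V : Finset ℕ} {R M : ℕ} {y r : ℤ}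
    (hV : V ⊆ W5 ε P) (hR : 1 ≤ R) (hVR : ∀ p ∈ V, Nat.Coprime p R)
    (hlgR : Real.log R ≤ P ^ (1 - 53 * ε)) (hMN : M ≤ N') (hNM : (N' : ℝ) ≤ P * M)
    (S : Finset ↥V) (x : XS V) (hSc : (S.card : ℝ) ≤ P ^ (1 - 53 * ε))
    (hν0 : ∀ i ∈ S, ν (i : ℕ) (x i : ℕ) ≠ 0) :
    rho (piV ν V) (fun z => (∏ p ∈ S, ν p (x p : ℕ)) * R / (M * Φ) * gV ν V G y M R r z) S x ≤
      Real.exp (2 + P ^ (-(95.9 * ε)) * Real.log R + P ^ (-(95.9 * ε)) * (S.card : ℝ)) := by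
  have hPone := hF.P1
  have hPpos : 0 < P := by linarith
  have hlP0 : 0 ≤ Real.log P := Real.log_nonneg hPone
  have hlR0 : 0 ≤ Real.log R := Real.log_nonneg (by exact_mod_cast hR)
  have h6 := mom5_logS hε hPone hV S
  have h1 := mom5_rho_cell hSb hBr hPpos hV hR hVR hMN hNM (y := y) (r := r) S x hν0 (by
    have h2 : (S.card : ℝ) * (2 * Real.log P) ≤ P ^ (1 - 53 * ε) * (2 * Real.log P) := by gcongr
    have h3 := hF.lgS
    have h4 := hF.lgT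
    linarith)
  refine h1.trans (Real.exp_le_exp.2 ?_)
  have h2 : P ^ (-(90 * ε)) ≤ 1 :=
    Real.rpow_le_one_of_one_le_of_nonpos hPone (by linarith)
  have h3 := hF.b5l
  have h4 := hF.b5b
  have h5 : 0 ≤ b5 ε P := by unfold b5; positivity
  calc P ^ (-(90 * ε)) + b5 ε P * (Real.log R + ∑ p ∈ S, Real.log (p : ℕ))
      ≤ 1 + b5 ε P * (Real.log R + S.card * (2 * Real.log P)) := by gcongr
    _ = 1 + b5 ε P * Real.log R + (b5 ε P * (2 * Real.log P)) * S.card := by ring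
    _ ≤ 1 + P ^ (-(95.9 * ε)) * Real.log R + P ^ (-(95.9 * ε)) * S.card := by gcongr
    _ ≤ _ := by linarith

/-- the error hypothesis of PSI5 -/
theorem mom5_errh {ι : Type} [Fintype ι] [DecidableEq ι] {Ω : ι → Type} [∀ i, Fintype (Ω i)]
    {π : ∀ i, Ω i → ℝ} (hπ : IsPr π) {S0 S : Finset ι} (h : S0 ⊆ S)
    {f : (∀ i, Ω i) → ℝ} (hf : ∀ x, 0 ≤ f x) (x : ∀ i, Ω i) {θ ε P A0 lR c : ℝ} (hε : 0 < ε)
    (hF : MomF ε P) (hθ0 : 0 ≤ θ) (hθ1 : θ ≤ 1) (hr0 : rho π f S0 x ≤ Real.exp A0)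
    (hA0 : A0 = 2 + P ^ (-(95.9 * ε)) * lR + P ^ (-(95.9 * ε)) * c) (hlR : 0 ≤ lR)
    (hc : 0 ≤ c) (hlR1 : lR ≤ P ^ (1 - 53 * ε)) (hc1 : c ≤ P ^ (1 - 53 * ε)) :
    Ex π S0ᶜ (fun z => (rho π f S z) ^ θ * Real.exp (-(P ^ (1 - 51 * ε)))) x ≤
      1 / P ^ (-(ε / 10)) := by
  refine (mom5_err hπ h hf x hθ0 hθ1 (Real.exp_pos _).le).trans ?_
  have hPone := hF.P1
  have hPpos : 0 < P := by linarith
  have hb0 : 0 ≤ P ^ (-(95.9 * ε)) := by positivity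
  have hb1 : P ^ (-(95.9 * ε)) ≤ 1 := by linarith [hF.b100]
  have hA00 : 0 ≤ A0 := by rw [hA0]; positivity
  have h1 : (1 : ℝ) + rho π f S0 x ≤ Real.exp (A0 + 1) := by
    have h3 : (2 : ℝ) ≤ Real.exp 1 := by
      have := Real.add_one_le_exp (1 : ℝ)
      linarith
    rw [Real.exp_add]
    have h4 := Real.one_le_exp hA00
    nlinarith
  have h2 : A0 + 1 ≤ P ^ (1 - 51 * ε) := by
    have h3 : P ^ (-(95.9 * ε)) * lR ≤ P ^ (1 - 53 * ε) := by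
      calc P ^ (-(95.9 * ε)) * lR ≤ 1 * P ^ (1 - 53 * ε) := by gcongr
        _ = _ := one_mul _
    have h4 : P ^ (-(95.9 * ε)) * c ≤ P ^ (1 - 53 * ε) := by
      calc P ^ (-(95.9 * ε)) * c ≤ 1 * P ^ (1 - 53 * ε) := by gcongr
        _ = _ := one_mul _
    have h5 := hF.A1
    rw [hA0]
    linarith
  calc Real.exp (-(P ^ (1 - 51 * ε))) * (1 + rho π f S0 x)
      ≤ Real.exp (-(P ^ (1 - 51 * ε))) * Real.exp (A0 + 1) :=
        mul_le_mul_of_nonneg_left h1 (Real.exp_pos _).le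
    _ = Real.exp (-(P ^ (1 - 51 * ε)) + (A0 + 1)) := by rw [← Real.exp_add]
    _ ≤ Real.exp 0 := Real.exp_le_exp.2 (by linarith)
    _ = 1 := Real.exp_zero
    _ ≤ 1 / P ^ (-(ε / 10)) := by
        rw [Real.rpow_neg hPpos.le, one_div, inv_inv]
        exact Real.one_le_rpow hPone (by linarith)

end Vale.Agent.P042.UU
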