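import Vale.Agent.P042.UU.MomE

set_option autoImplicit false

/-!
Block MOM5 of Theorem S5: the local norms.
-/

namespace Vale.Agent.P042.UU

open Finset Filter Vale.Agent.P042.SS Vale.Agent.P042.TT

theorem mom5_U {ε P θ : ℝ} (hP1 : 1 ≤ P) (hθ0 : 0 ≤ θ) (hθε : θ ≤ ε / 5)
    (h20 : 20 * P ^ (2 - 190 * ε) ≤ P ^ (2 : ℝ)) : (20 * P ^ (2 - 190 * ε)) ^ θ ≤ P ^ (0.4 * ε) := by
  have hPpos : 0 < P := by linarith
  calc (20 * P ^ (2 - 190 * ε)) ^ θ ≤ (P ^ (2 : ℝ)) ^ θ :=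
        Real.rpow_le_rpow (by positivity) h20 hθ0
    _ = P ^ (2 * θ) := by rw [← Real.rpow_mul hPpos.le]
    _ ≤ _ := Real.rpow_le_rpow_of_exponent_le hP1 (by linarith)

theorem mom5_cond {ε C0 J P u : ℝ} (hMB : MomBig5 C0 ε J P) (hF : MomF ε P)
    (hu : u ≤ P ^ (0.4 * ε)) (hε : 0 < ε) :
    P ^ (-(55 * ε)) * u * (1 + 2 * P ^ (-(95.9 * ε))) ≤ P ^ (-(ε / 10)) / 4 := by
  have hP1 := hF.P1
  have hPpos : 0 < P := by linarith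
  have hb := hF.b100
  have h1 : 1 + 2 * P ^ (-(95.9 * ε)) ≤ 3 := by linarith
  have h0 : 0 ≤ 1 + 2 * P ^ (-(95.9 * ε)) := by positivity
  have h2 : P ^ (-(55 * ε)) * u * (1 + 2 * P ^ (-(95.9 * ε))) ≤
      P ^ (-(55 * ε)) * P ^ (0.4 * ε) * 3 := by gcongr
  have h3 : P ^ (-(55 * ε)) * P ^ (0.4 * ε) ≤ P ^ (-(54.5 * ε)) := by
    rw [← Real.rpow_add hPpos]
    exact Real.rpow_le_rpow_of_exponent_le hP1 (by linarith)
  have h4 := hMB.cond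
  linarith

theorem mom5_piU {ε P : ℝ} {k N' : ℕ} {Φ : ℝ} {G : ℤ → ℝ} {ν : ℕ → ℤ → ℝ} (hP : 0 < P)
    (hSb : Sb5 ε P k N' Φ G ν) {V : Finset ℕ} (hV : V ⊆ W5 ε P) (i : ↥V) (x : Fin (i : ℕ)) :
    piV ν V i x = 0 ∨ 1 ≤ (20 * P ^ (2 - 190 * ε)) * piV ν V i x := by
  have hiW := hV i.2
  have hp0 : (0 : ℝ) < ((i : ℕ) : ℝ) := by exact_mod_cast (mom5_W_mem hP.le hiW).1.pos
  rcases hSb.low (i : ℕ) hiW ((x : ℕ) : ℤ) with h | h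
  · left
    unfold piV
    rw [h, zero_div]
  · right
    unfold piV
    have h1 := (mom5_W_mem hP.le hiW).2.2
    rw [← mul_div_assoc, le_div_iff₀ hp0, one_mul]
    calc ((i : ℕ) : ℝ) ≤ P ^ (2 - 190 * ε) := h1
      _ = 20 * P ^ (2 - 190 * ε) * (1 / 20) := by ring
      _ ≤ _ := by gcongr

theorem mom5_ell' {ε P : ℝ} {k N' : ℕ} {Φ : ℝ} {G : ℤ → ℝ} {ν : ℕ → ℤ → ℝ} (hP : 0 < P)
    (hSb : Sb5 ε P k N' Φ G ν) (hbn : bn5 ε P ≤ 1) {V : Finset ℕ} (hV : V ⊆ W5 ε P) (i : ↥V) :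
    ∑ x : Fin (i : ℕ), piV ν V i x *
      (Real.exp (max 0 (Real.log (1 / ν (i : ℕ) ((x : ℕ) : ℤ)))) - 1) ≤ 2 * bn5 ε P := by
  have h1 := mom5_ell hSb hP hbn (hV i.2)
  have h2 : ∑ x : Fin (i : ℕ), piV ν V i x *
    (Real.exp (max 0 (Real.log (1 / ν (i : ℕ) ((x : ℕ) : ℤ)))) - 1) =
    ∑ x ∈ range (i : ℕ), ν (i : ℕ) (x : ℤ) / ((i : ℕ) : ℝ) *
    (Real.exp (max 0 (Real.log (1 / ν (i : ℕ) (x : ℤ)))) - 1) :=
    Fin.sum_univ_eq_sum_range (fun x : ℕ => ν (i : ℕ) (x : ℤ) / ((i : ℕ) : ℝ) *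
      (Real.exp (max 0 (Real.log (1 / ν (i : ℕ) (x : ℤ)))) - 1)) (i : ℕ)
  rw [h2]
  exact h1

theorem mom5_msb {ε P : ℝ} (hε : 0 < ε) (hP1 : 1 ≤ P) (j : ℕ) :
    0 ≤ msb ε P j ∧ msb ε P j ≤ P ^ (-(55 * ε)) := by
  have hPpos : 0 < P := by linarith
  unfold msb
  refine ⟨by positivity, Real.rpow_le_rpow_of_exponent_le hP1 ?_⟩
  have : (190 : ℝ) ≤ max (j : ℝ) 190 := le_max_right _ _
  nlinarith

/-- PSI5 for a cell -/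
theorem mom5_psi (hPsi : PSI5Stmt) (hBr : BRStmt) {ε C0 P θ : ℝ} (hε : 0 < ε)
    (hε1 : ε ≤ 1 / 1000)
    (hMB : MomBig5 C0 ε ((⌈2 / ε⌉₊ + 1 : ℕ) : ℝ) P) (hF : MomF ε P)
    (hθ0 : 0 < θ) (hθε : θ ≤ ε / 5) (hθ1 : θ ≤ 1 / 2) {k N' : ℕ} {Φ : ℝ}
    {G : ℤ → ℝ} {ν : ℕ → ℤ → ℝ} (hSt : St5 ε P k N' Φ G ν) {V : Finset ℕ} {R M : ℕ} {y r : ℤ}
    (hV : V ⊆ W5 ε P) (hR : 1 ≤ R) (hVR : ∀ p ∈ V, Nat.Coprime p R)
    (hlgR : Real.log R ≤ P ^ (1 - 53 * ε)) (hlgR' : Real.log R ≤ P ^ (1 - 90 * ε)) (hMN : M ≤ N')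
    (hNM : (N' : ℝ) ≤ P * M)
    (hf0 : ∀ x, 0 ≤ gV ν V G y M R r x) (hpi : IsPr (piV ν V))
    (S : Finset ↥V) (x : XS V) (hSc : (S.card : ℝ) ≤ P ^ (1 - 53 * ε))
    (hν0 : ∀ i ∈ S, ν (i : ℕ) (x i : ℕ) ≠ 0) (a : ℝ)
    (ha : a = (∏ p ∈ S, ν p (x p : ℕ)) * R / (M * Φ)) (ha0 : 0 < a) (A0 : ℝ)
    (hA0 : A0 = 2 + P ^ (-(95.9 * ε)) * Real.log R + P ^ (-(95.9 * ε)) * (S.card : ℝ)) :
    ∑ T ∈ Sᶜ.powerset.filter (fun T => (S ∪ T).card ≤ 2 * dT5 ε P),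
        wtR (fun i : ↥V => s5 ε P i) Sᶜ T *
        Ex (piV ν V) T (fun z => (rho (piV ν V) (fun z => a * gV ν V G y M R r z) (S ∪ T) z) ^
          (1 + θ)) x ≤
      (Real.exp (4 + 2 * P ^ (-(95.9 * ε)) * Real.log R +
        (P ^ (-(95.9 * ε)) + 0.01) * (S.card : ℝ))) ^ (1 + θ) := by
  have hP1 := hF.P1
  have hPpos : 0 < P := by linarith
  have hSb := hSt.toSb5
  have hlR0 : 0 ≤ Real.log R := Real.log_nonneg (by exact_mod_cast hR)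
  have hb0 : 0 ≤ P ^ (-(95.9 * ε)) := by positivity
  have hA00 : 0 ≤ A0 := by rw [hA0]; positivity
  have hτ0 : 0 < P ^ (-(ε / 10)) := by positivity
  have hτi : 1 / P ^ (-(ε / 10)) = P ^ (ε / 10) := by
    rw [Real.rpow_neg hPpos.le, one_div, inv_inv]
  have hbn0 : 0 ≤ bn5 ε P := by unfold bn5; positivity
  have hbn1 : bn5 ε P ≤ 1 := by linarith [hF.bnb, hF.b100]
  have hU1 : 1 ≤ 20 * P ^ (2 - 190 * ε) := by
    have : (1 : ℝ) ≤ P ^ (2 - 190 * ε) := Real.one_le_rpow hP1 (by linarith)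
    linarith
  have hu := mom5_U hP1 hθ0.le hθε hMB.w20
  have hs0 : ∀ i : ↥V, 0 ≤ s5 ε P i := fun i => by unfold s5; positivity
  have hr0 := mom5_r0 hBr hε hF hSb hV hR hVR hlgR hMN hNM (y := y) (r := r) S x hSc hν0
  rw [← ha, ← hA0] at hr0
  have hfa : ∀ z, 0 ≤ (fun z => a * gV ν V G y M R r z) z := fun z => mul_nonneg ha0.le (hf0 z)
  have hpsi := hPsi ↥V (fun p => Fin (p : ℕ)) (piV ν V) (fun z => a * gV ν V G y M R r z)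
    (fun i => s5 ε P i)
    (fun p z => max 0 (Real.log (1 / ν (p : ℕ) ((z : ℕ) : ℤ))))
    (fun i => mblk ε P i) (⌈2 / ε⌉₊ + 1) (msb ε P) (2 * dT5 ε P)
    (fun _ _ => Real.exp (-(P ^ (1 - 51 * ε)))) θ (P ^ (-(ε / 10))) A0 (P ^ (-(95.9 * ε)))
    (2 * bn5 ε P) (20 * P ^ (2 - 190 * ε)) (P ^ (-(55 * ε))) S x hpi hfa hθ0 (by linarith) hτ0
    hA00 hb0 (by positivity) hU1 (by positivity) hF.s55
    (fun i => ⟨hs0 i, (mom5_blk hε hMB.P4 (hV i.2)).1⟩) (mom5_msb hε hP1)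
    (fun i => (mom5_blk hε hMB.P4 (hV i.2)).2.1) (fun _ _ => le_max_left _ _)
    (mom5_ell' hPpos hSb hbn1 hV) (mom5_piU hPpos hSb hV)
    ?_ ?_ (mom5_cond hMB hF hu hε)
  · have hX := mom5_expo (c := (S.card : ℝ)) (sb := msb ε P)
      (Sg := fun j => ∑ i ∈ (univ : Finset ↥V).filter (fun i : ↥V => mblk ε P (i : ℕ) ≤ j),
        s5 ε P i)
      (A0 := A0) (J := ⌈2 / ε⌉₊ + 1) hε hMB hθ0.le hθ1 (by positivity) hu hτ0 hτi.le rfl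
      (by linarith [hF.bnb] : 2 * bn5 ε P ≤ 2 * P ^ (-(95.9 * ε))) (by positivity) hlR0
      (Nat.cast_nonneg _) hA0 (fun j => (mom5_msb hε hP1 j).1) (fun j => (mom5_msb hε hP1 j).2)
      (fun j => Finset.sum_nonneg fun i _ => hs0 i) (fun j => mom5_Sg hε hMB.P4 hV j)
    exact mom5_point hb0 hlR0 hθ0.le (Nat.cast_nonneg S.card) (mom5_rho_nonneg hpi hfa S x)
      hr0 hX hA0 hpsi
  · intro T z hST hT hz
    have hcardT : (T.card : ℝ) = (S.card : ℝ) + ((T \ S).card : ℝ) := by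
      rw [Finset.card_sdiff_of_subset hST, Nat.cast_sub (Finset.card_le_card hST)]
      ring
    have haz : a = (∏ p ∈ S, ν p (z p : ℕ)) * R / (M * Φ) := by
      rw [ha]
      congr 2
      refine Finset.prod_congr rfl fun p hp => ?_
      rw [hz p hp]
    have hdS := hF.dS
    refine (hSt.klc V R M y r S T z a hV hR hVR hlgR' hMN hNM hST
      (by omega) haz).trans (le_of_eq ?_)
    rw [hτi, hcardT, hA0]
    ring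
  · intro T hST hT
    exact mom5_errh hpi hST hfa x hε hF hθ0.le (by linarith) hr0 hA0 hlR0 (Nat.cast_nonneg _)
      hlgR hSc

/-- the local norms -/
theorem mom5_local (hPsi : PSI5Stmt) (hBr : BRStmt) {ε C0 P : ℝ} {m : ℕ} (hε : 0 < ε)
    (hε1 : ε ≤ 1 / 1000) (hm : 2 ≤ m) (hmε : 3 / ε ≤ m)
    (hMB : MomBig5 C0 ε ((⌈2 / ε⌉₊ + 1 : ℕ) : ℝ) P) (hF : MomF ε P) {k N' : ℕ} {Φ : ℝ}
    {G : ℤ → ℝ} {ν : ℕ → ℤ → ℝ} (hSt : St5 ε P k N' Φ G ν) {V : Finset ℕ} {R M : ℕ} {y r : ℤ}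
    (hV : V ⊆ W5 ε P) (hR : 1 ≤ R) (hVR : ∀ p ∈ V, Nat.Coprime p R)
    (hRlog : Real.log R ≤ P ^ (1 - 91 * ε)) (hMN : M ≤ N') (hNM : (N' : ℝ) ≤ P * M)
    (hf0 : ∀ x, 0 ≤ gV ν V G y M R r x) (hpi : IsPr (piV ν V)) (hM0 : (0 : ℝ) < M)
    (S : Finset ↥V) (x : XS V) (hSc : S.card ≤ dT5 ε P)
    (hx : ∀ i ∈ S, piV ν V i (x i) ≠ 0) :
    ∑ T ∈ Sᶜ.powerset.filter (fun T => S.card + T.card ≤ 2 * dT5 ε P),
        wtR (fun i : ↥V => s5 ε P i) Sᶜ T *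
        Ex (piV ν V) T (fun z => (rho (piV ν V) (gV ν V G y M R r) (S ∪ T) z) ^
          ((2 * m : ℝ) / (2 * m - 1))) x ≤
      ((21 : ℝ) ^ S.card * (Real.exp 4 * (R : ℝ) ^ (2 * P ^ (-(95.9 * ε))) *
        ((M * Φ) / R))) ^ ((2 * m : ℝ) / (2 * m - 1)) := by
  have hP1 := hF.P1
  have hPpos : 0 < P := by linarith
  have hSb := hSt.toSb5
  have hm' : (2 : ℝ) ≤ m := by exact_mod_cast hm
  obtain ⟨θ, hθdef⟩ : ∃ θ : ℝ, θ = 1 / (2 * (m : ℝ) - 1) := ⟨_, rfl⟩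
  have hden : (0 : ℝ) < 2 * (m : ℝ) - 1 := by linarith
  have hθ0 : 0 < θ := by rw [hθdef]; positivity
  have hθε : θ ≤ ε / 5 := by
    rw [hθdef, div_le_iff₀ hden]
    rw [div_le_iff₀ hε] at hmε
    nlinarith
  have hθ1 : θ ≤ 1 / 2 := by linarith
  have hexp : (2 * m : ℝ) / (2 * m - 1) = 1 + θ := by
    rw [hθdef]
    field_simp
    ring
  rw [hexp]
  have hΦ : 0 < Φ := lt_of_lt_of_le (Real.exp_pos _) hSb.Φlo
  have hMΦ : 0 < (M : ℝ) * Φ := by positivity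
  have hR0 : (0 : ℝ) < R := by exact_mod_cast hR
  have hSc' : (S.card : ℝ) ≤ P ^ (1 - 53 * ε) := (Nat.cast_le.2 hSc).trans hF.dT
  have hν0 : ∀ i ∈ S, ν (i : ℕ) ((x i : ℕ) : ℤ) ≠ 0 := by
    intro i hi h
    apply hx i hi
    unfold piV
    rw [h, zero_div]
  have hν20 : ∀ i ∈ S, (1 / 20 : ℝ) ≤ ν (i : ℕ) ((x i : ℕ) : ℤ) := fun i hi =>
    (hSb.low (i : ℕ) (hV i.2) ((x i : ℕ) : ℤ)).resolve_left (hν0 i hi)
  have hpr : (1 / 20 : ℝ) ^ S.card ≤ ∏ p ∈ S, ν (p : ℕ) ((x p : ℕ) : ℤ) := by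
    rw [← Finset.prod_const]
    exact Finset.prod_le_prod (fun _ _ => by norm_num) hν20
  have hpr0 : 0 < ∏ p ∈ S, ν (p : ℕ) ((x p : ℕ) : ℤ) :=
    lt_of_lt_of_le (by positivity) hpr
  have ha0 : 0 < (∏ p ∈ S, ν (p : ℕ) ((x p : ℕ) : ℤ)) * R / (M * Φ) := by positivity
  have hlgR : Real.log R ≤ P ^ (1 - 53 * ε) := by
    have := hMB.lgR
    linarith
  have h1 := mom5_psi hPsi hBr hε hε1 hMB hF hθ0 hθε hθ1 hSt hV hR hVR hlgR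
    (hRlog.trans (Real.rpow_le_rpow_of_exponent_le hP1 (by linarith))) hMN hNM
    hf0 hpi S x hSc' hν0 _ rfl ha0 _ rfl
  have hfil : Sᶜ.powerset.filter (fun T => (S ∪ T).card ≤ 2 * dT5 ε P) =
      Sᶜ.powerset.filter (fun T => S.card + T.card ≤ 2 * dT5 ε P) := by
    refine Finset.filter_congr fun T hT => ?_
    rw [Finset.card_union_of_disjoint]
    rw [Finset.mem_powerset] at hT
    exact Finset.disjoint_left.2 fun i hi hi' => (Finset.mem_compl.1 (hT hi')) hi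
  rw [hfil] at h1
  have h2 := mom5_scaled hpi hf0 S x _ _ θ _ _ ha0 (Real.exp_pos _).le h1
  refine h2.trans ?_
  refine Real.rpow_le_rpow (by positivity) ?_ (by linarith)
  exact mom5_growth hF.b100 hMΦ hR0 rfl hpr

end Vale.Agent.P042.UU
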