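import Vale.Agent.P042.UU.SpecC
import Vale.Agent.P042.TT.NvB

set_option autoImplicit false

/-!
# P042, Theorem S5, block NV5: the random normalisation
-/

namespace Vale.Agent.P042.UU

open Polynomial Finset Vale.Agent.P042.SS Vale.Agent.P042.TT

/-! ### the window -/

theorem nv_prime {ε P : ℝ} {p : ℕ} (hp : p ∈ W5 ε P) : p.Prime := by
  unfold W5 Wp at hp
  exact (mem_filter.1 hp).2

theorem nv_le {ε P : ℝ} {p : ℕ} (hp : p ∈ W5 ε P) : p ≤ ⌊P ^ (2 - 190 * ε)⌋₊ := by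
  unfold W5 Wp at hp
  exact (mem_Ioc.1 (mem_filter.1 hp).1).2

theorem nv_lt {ε P : ℝ} {p : ℕ} (hp : p ∈ W5 ε P) (hP : 0 ≤ P) : P ^ (190 * ε) < p := by
  unfold W5 Wp at hp
  have := (mem_Ioc.1 (mem_filter.1 hp).1).1
  rwa [Nat.floor_lt (Real.rpow_nonneg hP _)] at this

theorem nv_t5_nonneg {ε P : ℝ} (hP : 0 ≤ P) (p : ℕ) : 0 ≤ t5 ε P p :=
  mul_nonneg (Real.rpow_nonneg hP _) (Real.rpow_nonneg (Nat.cast_nonneg p) _)

theorem nv_t5_le {ε P : ℝ} (hε : 0 < ε) (hP : 1 ≤ P) {p : ℕ} (hp : p ∈ W5 ε P) :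
    t5 ε P p ≤ 1 := by
  have hP0 : 0 < P := by linarith
  have h1 := nv_lt hp hP0.le
  have h2 : (p : ℝ) ^ (-(1 / 2) : ℝ) ≤ (P ^ (190 * ε)) ^ (-(1 / 2) : ℝ) :=
    Real.rpow_le_rpow_of_nonpos (Real.rpow_pos_of_pos hP0 _) h1.le (by norm_num)
  unfold t5
  calc P ^ (38 * ε) * (p : ℝ) ^ (-(1 / 2) : ℝ)
      ≤ P ^ (38 * ε) * (P ^ (190 * ε)) ^ (-(1 / 2) : ℝ) :=
        mul_le_mul_of_nonneg_left h2 (Real.rpow_nonneg hP0.le _)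
    _ = P ^ (38 * ε + 190 * ε * (-(1 / 2))) := by
        rw [← Real.rpow_mul hP0.le, ← Real.rpow_add hP0]
    _ ≤ 1 := Real.rpow_le_one_of_one_le_of_nonpos hP (by linarith)

/-! ### definitions -/

/-- support sets of the `z`-part -/
noncomputable def ZF5 (ε P : ℝ) (R Q : ℕ) : Finset (Finset ℕ) :=
  (((Icc 1 Q).filter
    (fun p => p.Prime ∧ ⌊P ^ (2 - 190 * ε)⌋₊ < p ∧ Nat.Coprime p R)).powerset).filter
    (fun S => ∏ p ∈ S, p ≤ Q)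

/-- growth constant of the prime `p` -/
noncomputable def cp5 (ε : ℝ) (p : ℕ) : ℝ := (p : ℝ) ^ (ε / 10)

/-- half of the order of the moments -/
noncomputable def mm5 (ε : ℝ) (J' : ℕ) : ℕ := ⌈30 * ((J' : ℝ) + 3) / ε⌉₊

/-- normalised density of the sub-cell -/
noncomputable def dnm5 (ε : ℝ) (ν : ℕ → ℤ → ℝ) (G : ℤ → ℝ) (y : ℤ) (M R J' : ℕ) (Φ : ℝ)
    (S : Finset ℕ) (z : ℤ) (T : Finset ℕ) (x : ℤ) : ℝ :=
  (∏ p ∈ S, (cp5 ε p)⁻¹) * (((R * QSn J' S : ℕ) : ℝ) / (M * Φ)) *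
    rT ν G y M (R * QSn J' S) z T x

/-- the random normalisation -/
noncomputable def NN5 (ε P : ℝ) (ν : ℕ → ℤ → ℝ) (G : ℤ → ℝ) (y : ℤ) (M R J' Q : ℕ) (r : ℤ)
    (Φ : ℝ) (T : Finset ℕ) (x : ℤ) : ℝ :=
  1 + ∑ S ∈ ZF5 ε P R Q, ∑ z ∈ zcl R J' r S,
    (dnm5 ε ν G y M R J' Φ S z T x) ^ (2 * mm5 ε J')

/-! ### elementary facts -/

theorem mem_ZF5 {ε P : ℝ} {R Q : ℕ} {S : Finset ℕ} : S ∈ ZF5 ε P R Q ↔
    (∀ p ∈ S, (1 ≤ p ∧ p ≤ Q) ∧ p.Prime ∧ ⌊P ^ (2 - 190 * ε)⌋₊ < p ∧ Nat.Coprime p R) ∧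
      ∏ p ∈ S, p ≤ Q := by
  unfold ZF5
  rw [mem_filter, mem_powerset]
  refine and_congr_left fun _ => ?_
  constructor
  · intro h p hp
    have := h hp
    rw [mem_filter, mem_Icc] at this
    exact this
  · intro h p hp
    rw [mem_filter, mem_Icc]
    exact h p hp

theorem cp5_pos (ε : ℝ) {p : ℕ} (hp : 1 ≤ p) : 0 < cp5 ε p :=
  Real.rpow_pos_of_pos (by exact_mod_cast hp) _

theorem dnm5_nonneg (ε : ℝ) {ν : ℕ → ℤ → ℝ} {G : ℤ → ℝ} (hν : ∀ p n, 0 ≤ ν p n)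
    (hG : ∀ n, 0 ≤ G n) (y : ℤ) (M R J' : ℕ) {Φ : ℝ} (hΦ : 0 < Φ) (S : Finset ℕ) (z : ℤ)
    (T : Finset ℕ) (x : ℤ) : 0 ≤ dnm5 ε ν G y M R J' Φ S z T x := by
  unfold dnm5
  apply mul_nonneg (mul_nonneg _ _) (rT_nonneg hν hG y M _ z T x)
  · exact Finset.prod_nonneg fun p _ => inv_nonneg.2 (Real.rpow_nonneg (Nat.cast_nonneg p) _)
  · positivity

theorem one_le_NN5 {ε P : ℝ} {ν : ℕ → ℤ → ℝ} {G : ℤ → ℝ} (y : ℤ) (M R J' Q : ℕ) (r : ℤ)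
    (Φ : ℝ) (T : Finset ℕ) (x : ℤ) : 1 ≤ NN5 ε P ν G y M R J' Q r Φ T x := by
  unfold NN5
  have : 0 ≤ ∑ S ∈ ZF5 ε P R Q, ∑ z ∈ zcl R J' r S,
    (dnm5 ε ν G y M R J' Φ S z T x) ^ (2 * mm5 ε J') :=
    Finset.sum_nonneg fun S _ => Finset.sum_nonneg fun z _ => by
      rw [pow_mul]
      exact pow_nonneg (sq_nonneg _) _
  linarith

/-- every normalised density is bounded by the random normalisation -/
theorem dnm5_le_NN5 {ε P : ℝ} {ν : ℕ → ℤ → ℝ} {G : ℤ → ℝ} (y : ℤ) (M R J' Q : ℕ) (r : ℤ)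
    (Φ : ℝ) (T : Finset ℕ) (x : ℤ) {S : Finset ℕ} (hS : S ∈ ZF5 ε P R Q)
    {z : ℕ} (hz : z ∈ zcl R J' r S) :
    (dnm5 ε ν G y M R J' Φ S z T x) ^ (2 * mm5 ε J') ≤ NN5 ε P ν G y M R J' Q r Φ T x := by
  have hnn : ∀ (S : Finset ℕ) (z : ℕ),
      0 ≤ (dnm5 ε ν G y M R J' Φ S z T x) ^ (2 * mm5 ε J') := by
    intro S z
    rw [pow_mul]
    exact pow_nonneg (sq_nonneg _) _
  unfold NN5
  have h1 : (dnm5 ε ν G y M R J' Φ S z T x) ^ (2 * mm5 ε J') ≤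
      ∑ z ∈ zcl R J' r S, (dnm5 ε ν G y M R J' Φ S z T x) ^ (2 * mm5 ε J') :=
    Finset.single_le_sum (f := fun z : ℕ => (dnm5 ε ν G y M R J' Φ S z T x) ^ (2 * mm5 ε J'))
      (fun z _ => hnn S z) hz
  have h2 : ∑ z ∈ zcl R J' r S, (dnm5 ε ν G y M R J' Φ S z T x) ^ (2 * mm5 ε J') ≤
      ∑ S ∈ ZF5 ε P R Q, ∑ z ∈ zcl R J' r S,
        (dnm5 ε ν G y M R J' Φ S z T x) ^ (2 * mm5 ε J') :=
    Finset.single_le_sum
      (f := fun S => ∑ z ∈ zcl R J' r S, (dnm5 ε ν G y M R J' Φ S z T x) ^ (2 * mm5 ε J'))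
      (fun S _ => Finset.sum_nonneg fun z _ => hnn S z) hS
  linarith

/-- sum over the support sets -/
theorem sum_ZF5_le {ε P : ℝ} {R Q : ℕ} (f : Finset ℕ → ℝ)
    (hf : ∀ S ∈ ZF5 ε P R Q, f S ≤ ∏ p ∈ S, (1 / (p : ℝ) ^ 2)) :
    ∑ S ∈ ZF5 ε P R Q, f S ≤ Real.exp 2 := by
  have h0 : ∑ S ∈ ZF5 ε P R Q, f S ≤ ∑ S ∈ (Icc 1 Q).powerset, ∏ p ∈ S, (1 / (p : ℝ) ^ 2) := by
    refine (Finset.sum_le_sum hf).trans ?_
    apply Finset.sum_le_sum_of_subset_of_nonneg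
    · intro S hS
      rw [mem_powerset]
      intro p hp
      rw [mem_Icc]
      exact ((mem_ZF5.1 hS).1 p hp).1
    · intro S _ _
      exact Finset.prod_nonneg fun p _ => by positivity
  refine h0.trans ?_
  have h1 : ∑ S ∈ (Icc 1 Q).powerset, ∏ p ∈ S, (1 / (p : ℝ) ^ 2) =
      ∏ p ∈ Icc 1 Q, (1 + 1 / (p : ℝ) ^ 2) := by
    rw [Finset.prod_one_add]
  rw [h1]
  have h2 : ∏ p ∈ Icc 1 Q, (1 + 1 / (p : ℝ) ^ 2) ≤
      ∏ p ∈ Icc 1 Q, Real.exp (1 / (p : ℝ) ^ 2) := by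
    apply Finset.prod_le_prod
    · intro p _
      positivity
    · intro p _
      have := Real.add_one_le_exp (1 / (p : ℝ) ^ 2)
      linarith
  refine h2.trans ?_
  rw [← Real.exp_sum]
  apply Real.exp_le_exp.2
  rcases Nat.eq_zero_or_pos Q with hQ | hQ
  · subst hQ; simp
  have h3 := sum_inv_sq Q hQ
  have h6 : (0 : ℝ) ≤ 1 / (Q : ℝ) := by positivity
  linarith

theorem log_QSn_le5 {ε P : ℝ} {R Q J' : ℕ} {S : Finset ℕ} (hS : S ∈ ZF5 ε P R Q) :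
    Real.log (QSn J' S) ≤ J' * Real.log Q := by
  have h := mem_ZF5.1 hS
  rw [QSn_eq]
  push_cast
  rw [Real.log_pow]
  have hpos : 0 < ∏ p ∈ S, p := Finset.prod_pos fun p hp => (h.1 p hp).2.1.pos
  have h1 : Real.log (∏ p ∈ S, (p : ℝ)) ≤ Real.log Q := by
    have h2 : ((∏ p ∈ S, p : ℕ) : ℝ) ≤ Q := by exact_mod_cast h.2
    push_cast at h2
    refine Real.log_le_log ?_ h2
    have h3 : (0 : ℝ) < ((∏ p ∈ S, p : ℕ) : ℝ) := by exact_mod_cast hpos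
    push_cast at h3
    exact h3
  exact mul_le_mul_of_nonneg_left h1 (Nat.cast_nonneg _)

/-- the coefficient of one support set -/
theorem nv_coef5_le {ε P : ℝ} (hε : 0 < ε) {R Q J' : ℕ} {S : Finset ℕ} (hS : S ∈ ZF5 ε P R Q)
    {c : ℝ} (hc : J' * c ≤ 1) :
    (QSn J' S : ℝ) * ((∏ p ∈ S, (cp5 ε p)⁻¹) ^ (2 * mm5 ε J') * (QSn J' S : ℝ) ^ c) ≤
      ∏ p ∈ S, (1 / (p : ℝ) ^ 2) := by
  have h := mem_ZF5.1 hS
  have h1 : (QSn J' S : ℝ) ^ c = ∏ p ∈ S, ((p : ℝ) ^ J') ^ c := by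
    rw [QSn_cast]
    exact (Real.finsetProd_rpow S _ (fun p _ => by positivity) c).symm
  rw [h1, QSn_cast, ← Finset.prod_pow, ← Finset.prod_mul_distrib, ← Finset.prod_mul_distrib]
  apply Finset.prod_le_prod
  · intro p _
    have : 0 ≤ (cp5 ε p)⁻¹ := inv_nonneg.2 (Real.rpow_nonneg (Nat.cast_nonneg p) _)
    positivity
  · intro p hp
    have hp1 : (1 : ℝ) ≤ p := by exact_mod_cast ((h.1 p hp).1.1)
    have hp0 : (0 : ℝ) < p := by linarith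
    have e1 : ((cp5 ε p)⁻¹) ^ (2 * mm5 ε J') =
        (p : ℝ) ^ (-(ε / 10 * (2 * (mm5 ε J' : ℝ)))) := by
      unfold cp5
      rw [← Real.rpow_neg hp0.le, ← Real.rpow_natCast, ← Real.rpow_mul hp0.le]
      congr 1
      push_cast
      ring
    have e2 : ((p : ℝ) ^ J') ^ c = (p : ℝ) ^ (J' * c) := by
      rw [← Real.rpow_natCast, ← Real.rpow_mul hp0.le]
    have e3 : (p : ℝ) ^ J' = (p : ℝ) ^ (J' : ℝ) := (Real.rpow_natCast _ _).symm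
    have e4 : 1 / (p : ℝ) ^ 2 = (p : ℝ) ^ (-(2 : ℝ)) := by
      rw [Real.rpow_neg hp0.le, one_div]
      norm_num
    rw [e1, e2, e3, e4, ← Real.rpow_add hp0, ← Real.rpow_add hp0]
    apply Real.rpow_le_rpow_of_exponent_le hp1
    have hJ0 : (0 : ℝ) ≤ J' := Nat.cast_nonneg _
    have hm : 30 * ((J' : ℝ) + 3) / ε ≤ mm5 ε J' := Nat.le_ceil _
    rw [div_le_iff₀ hε] at hm
    nlinarith

end Vale.Agent.P042.UU
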