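import Vale.Agent.P042.UU.NvA

set_option autoImplicit false

/-!
# P042, Theorem S5, block NV5: the mean of the random normalisation
-/

namespace Vale.Agent.P042.UU

open Polynomial Finset Vale.Agent.P042.SS Vale.Agent.P042.TT

theorem nv_log_Q5 {ε P : ℝ} (hP : 0 ≤ P) : Real.log (Q5 ε P) ≤ P ^ (1 - 95 * ε) := by
  unfold Q5
  have h4 : ((⌊Real.exp (P ^ (1 - 95 * ε))⌋₊ : ℕ) : ℝ) ≤ Real.exp (P ^ (1 - 95 * ε)) :=
    Nat.floor_le (Real.exp_pos _).le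
  have h5 : 1 ≤ ⌊Real.exp (P ^ (1 - 95 * ε))⌋₊ := by
    rw [Nat.one_le_floor_iff]
    exact Real.one_le_exp (Real.rpow_nonneg hP _)
  have h6 : (0 : ℝ) < ((⌊Real.exp (P ^ (1 - 95 * ε))⌋₊ : ℕ) : ℝ) := by exact_mod_cast h5
  have h7 := Real.log_le_log h6 h4
  rwa [Real.log_exp] at h7

theorem nv_core_one (hMOM : MOM5Stmt) (k J' : ℕ) (ε : ℝ) (hk : 1 ≤ k) (hε : 0 < ε)
    (hε1 : ε ≤ 1 / 1000) :
    ∃ C P0 : ℝ, 0 < C ∧ ∀ P : ℝ, P0 ≤ P →
    ∀ (N' : ℕ) (Φ : ℝ) (G : ℤ → ℝ) (ν : ℕ → ℤ → ℝ), St5 ε P k N' Φ G ν →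
    ∀ (V : Finset ℕ) (R M : ℕ) (y r : ℤ),
    V ⊆ W5 ε P → 1 ≤ R → (∀ p ∈ V, Nat.Coprime p R) → Real.log R ≤ P ^ (1 - 92 * ε) →
    M ≤ N' → (N' : ℝ) ≤ P * M →
    ∑ T ∈ V.powerset.filter (fun T => T.card ≤ dT5 ε P), wtR (t5 ε P) V T *
      ∑ x ∈ range (∏ p ∈ T, p), (∏ p ∈ T, (ν p (x : ℤ) / p)) *
        NN5 ε P ν G y M R J' (Q5 ε P) r Φ T x ≤ C * (R : ℝ) ^ (C * bc5 ε P) := by
  have hmm : 30 * ((J' : ℝ) + 3) / ε ≤ (mm5 ε J' : ℝ) := Nat.le_ceil _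
  have hJ0 : (0 : ℝ) ≤ J' := Nat.cast_nonneg _
  have hm3 : 3 / ε ≤ (mm5 ε J' : ℝ) := by
    refine le_trans ?_ hmm
    apply div_le_div_of_nonneg_right _ hε.le
    linarith
  have hm2 : 2 ≤ mm5 ε J' := by
    have h1 : (2 : ℝ) ≤ 3 / ε := by
      rw [le_div_iff₀ hε]
      linarith
    exact_mod_cast h1.trans hm3
  obtain ⟨C0, P1, hC0, hM⟩ := hMOM k (mm5 ε J') ε hk hm2 hε hε1 hm3
  -- numerical conditions
  have hev : ∀ᶠ P : ℝ in Filter.atTop, P1 ≤ P ∧ 1 ≤ P ∧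
      2 * P ^ (1 - 92 * ε) ≤ P ^ (1 - 91 * ε) ∧
      (2 * J') * P ^ (1 - 95 * ε) ≤ P ^ (1 - 91 * ε) ∧
      J' * C0 * P ^ (-(95.8 * ε)) ≤ P ^ (0 : ℝ) := by
    filter_upwards [Filter.eventually_ge_atTop P1, Filter.eventually_ge_atTop 1,
      pow_dom (1 - 92 * ε) (1 - 91 * ε) 2 (by linarith),
      pow_dom (1 - 95 * ε) (1 - 91 * ε) (2 * J') (by linarith),
      pow_dom (-(95.8 * ε)) 0 (J' * C0) (by linarith)] with P h1 h2 h3 h4 h5
    exact ⟨h1, h2, h3, h4, h5⟩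
  obtain ⟨P0, hP0⟩ := Filter.eventually_atTop.1 hev
  refine ⟨1 + C0 * Real.exp 2 + C0, P0, by positivity, ?_⟩
  intro P hP N' Φ G ν hSt V R M y r hV hR hVR hRlog hMN hNM
  obtain ⟨hP1, hPone, hn1, hn2, hn3⟩ := hP0 P hP
  rw [Real.rpow_zero] at hn3
  have hn4 : (J' : ℝ) * (C0 * bc5 ε P) ≤ 1 := by
    have : (J' : ℝ) * (C0 * bc5 ε P) = J' * C0 * P ^ (-(95.8 * ε)) := by
      unfold bc5
      ring
    rw [this]
    exact hn3
  have hPpos : 0 < P := by linarith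
  have ht0 : ∀ p ∈ V, 0 ≤ t5 ε P p := fun p _ => nv_t5_nonneg hPpos.le p
  have ht1 : ∀ p ∈ V, t5 ε P p ≤ 1 := fun p hp => nv_t5_le hε hPone (hV hp)
  have hΦ : 0 < Φ := lt_of_lt_of_le (Real.exp_pos _) hSt.Φlo
  have hν := hSt.wts.nn
  have hG := hSt.G0
  have hprime : ∀ p ∈ W5 ε P, p.Prime := fun p hp => nv_prime hp
  have hb0 : 0 ≤ bc5 ε P := Real.rpow_nonneg hPpos.le _
  -- positivity of `M`
  have hN0 : (0 : ℝ) < N' := lt_of_lt_of_le (Real.exp_pos _) hSt.N'lo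
  have hM0 : (0 : ℝ) < M := by
    by_contra h
    have h1 : (M : ℝ) ≤ 0 := not_lt.1 h
    have h2 : P * M ≤ 0 := mul_nonpos_of_nonneg_of_nonpos hPpos.le h1
    linarith
  set m := mm5 ε J' with hm
  set K : Finset ℕ → ℝ := fun S => (∏ p ∈ S, (cp5 ε p)⁻¹) *
    (((R * QSn J' S : ℕ) : ℝ) / (M * Φ)) with hK
  set Pw := V.powerset.filter (fun T => T.card ≤ dT5 ε P) with hPw
  have hPwV : ∀ T ∈ Pw, T ⊆ V := fun T hT => mem_powerset.1 (mem_filter.1 hT).1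
  -- step 1: the inner sum
  have hstep1 : ∀ T ∈ Pw, ∑ x ∈ range (∏ p ∈ T, p), (∏ p ∈ T, (ν p (x : ℤ) / p)) *
      NN5 ε P ν G y M R J' (Q5 ε P) r Φ T x =
      1 + ∑ S ∈ ZF5 ε P R (Q5 ε P), ∑ z ∈ zcl R J' r S,
        (K S) ^ (2 * m) * moT ν G y M (R * QSn J' S) z T (2 * m) := by
    intro T hT
    have hT := hPwV T hT
    unfold NN5
    have h1 : ∀ x ∈ range (∏ p ∈ T, p), (∏ p ∈ T, (ν p (x : ℤ) / p)) *
        (1 + ∑ S ∈ ZF5 ε P R (Q5 ε P), ∑ z ∈ zcl R J' r S,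
          (dnm5 ε ν G y M R J' Φ S z T x) ^ (2 * mm5 ε J')) =
        (∏ p ∈ T, (ν p (x : ℤ) / p)) +
        ∑ S ∈ ZF5 ε P R (Q5 ε P), ∑ z ∈ zcl R J' r S,
          (K S) ^ (2 * m) * ((∏ p ∈ T, (ν p (x : ℤ) / p)) *
            (rT ν G y M (R * QSn J' S) z T x) ^ (2 * m)) := by
      intro x _
      rw [mul_add, mul_one, Finset.mul_sum]
      congr 1
      refine Finset.sum_congr rfl fun S _ => ?_
      rw [Finset.mul_sum]
      refine Finset.sum_congr rfl fun z _ => ?_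
      unfold dnm5
      rw [mul_pow]
      ring
    rw [Finset.sum_congr rfl h1, Finset.sum_add_distrib,
      sum_pi_one hSt.wts hprime (hT.trans hV), Finset.sum_comm]
    congr 1
    refine Finset.sum_congr rfl fun S _ => ?_
    rw [Finset.sum_comm]
    refine Finset.sum_congr rfl fun z _ => ?_
    rw [← Finset.mul_sum]
    rfl
  have hstep2 : ∑ T ∈ Pw, wtR (t5 ε P) V T *
      ∑ x ∈ range (∏ p ∈ T, p), (∏ p ∈ T, (ν p (x : ℤ) / p)) *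
        NN5 ε P ν G y M R J' (Q5 ε P) r Φ T x =
      ∑ T ∈ Pw, wtR (t5 ε P) V T +
      ∑ S ∈ ZF5 ε P R (Q5 ε P), ∑ z ∈ zcl R J' r S, (K S) ^ (2 * m) *
        ∑ T ∈ Pw, wtR (t5 ε P) V T * moT ν G y M (R * QSn J' S) z T (2 * m) := by
    have h1 : ∀ T ∈ Pw, wtR (t5 ε P) V T *
      ∑ x ∈ range (∏ p ∈ T, p), (∏ p ∈ T, (ν p (x : ℤ) / p)) *
        NN5 ε P ν G y M R J' (Q5 ε P) r Φ T x = wtR (t5 ε P) V T +
        ∑ S ∈ ZF5 ε P R (Q5 ε P), ∑ z ∈ zcl R J' r S,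
          (K S) ^ (2 * m) * (wtR (t5 ε P) V T *
            moT ν G y M (R * QSn J' S) z T (2 * m)) := by
      intro T hT
      rw [hstep1 T hT, mul_add, mul_one, Finset.mul_sum]
      congr 1
      refine Finset.sum_congr rfl fun S _ => ?_
      rw [Finset.mul_sum]
      refine Finset.sum_congr rfl fun z _ => ?_
      ring
    rw [Finset.sum_congr rfl h1, Finset.sum_add_distrib, Finset.sum_comm]
    congr 1
    refine Finset.sum_congr rfl fun S _ => ?_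
    rw [Finset.sum_comm]
    refine Finset.sum_congr rfl fun z _ => ?_
    rw [← Finset.mul_sum]
  rw [hstep2]
  have hwt : ∑ T ∈ Pw, wtR (t5 ε P) V T ≤ 1 := by
    rw [← sum_wtR (t5 ε P) V]
    apply Finset.sum_le_sum_of_subset_of_nonneg (filter_subset _ _)
    intro T hT _
    exact wtR_nonneg _ V T (mem_powerset.1 hT) ht0 ht1
  -- step 3: the moment bound
  have hstep3 : ∀ S ∈ ZF5 ε P R (Q5 ε P), ∑ z ∈ zcl R J' r S, (K S) ^ (2 * m) *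
        ∑ T ∈ Pw, wtR (t5 ε P) V T * moT ν G y M (R * QSn J' S) z T (2 * m) ≤
      C0 * (R : ℝ) ^ (C0 * bc5 ε P) * ((QSn J' S : ℝ) * ((∏ p ∈ S, (cp5 ε p)⁻¹) ^ (2 * m) *
        (QSn J' S : ℝ) ^ (C0 * bc5 ε P))) := by
    intro S hS
    have hSm := mem_ZF5.1 hS
    have hSp : ∀ p ∈ S, p.Prime := fun p hp => (hSm.1 p hp).2.1
    have hQS1 : 1 ≤ QSn J' S := QSn_pos hSp
    have hQS0 : (0 : ℝ) < QSn J' S := by exact_mod_cast hQS1
    have hR0 : (0 : ℝ) < R := by exact_mod_cast hR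
    have hlogs : Real.log ((R * QSn J' S : ℕ) : ℝ) ≤ P ^ (1 - 91 * ε) := by
      push_cast
      rw [Real.log_mul hR0.ne' hQS0.ne']
      have h2 := log_QSn_le5 (J' := J') hS
      have h3 : Real.log (Q5 ε P) ≤ P ^ (1 - 95 * ε) := nv_log_Q5 hPpos.le
      have h4 : (J' : ℝ) * Real.log (Q5 ε P) ≤ J' * P ^ (1 - 95 * ε) :=
        mul_le_mul_of_nonneg_left h3 (Nat.cast_nonneg _)
      linarith
    have hone : ∀ z ∈ zcl R J' r S, (K S) ^ (2 * m) *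
        ∑ T ∈ Pw, wtR (t5 ε P) V T * moT ν G y M (R * QSn J' S) z T (2 * m) ≤
        C0 * (R : ℝ) ^ (C0 * bc5 ε P) * ((∏ p ∈ S, (cp5 ε p)⁻¹) ^ (2 * m) *
        (QSn J' S : ℝ) ^ (C0 * bc5 ε P)) := by
      intro z _
      have h3 := hM P hP1 N' Φ G ν hSt V (R * QSn J' S) M y z hV
        (Nat.mul_pos hR hQS1)
        (fun p hp => Nat.Coprime.mul_right (hVR p hp)
            (coprime_QSn (hprime p (hV hp)) hSp (fun hpS => by
              have h5 := nv_le (hV hp)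
              have h6 := (hSm.1 p hpS).2.2.1
              omega))) hlogs hMN hNM
      have hK0 : 0 ≤ (K S) ^ (2 * m) := by
        rw [pow_mul]; exact pow_nonneg (sq_nonneg _) _
      refine (mul_le_mul_of_nonneg_left h3 hK0).trans (le_of_eq ?_)
      have e1 : (K S) ^ (2 * m) * ((M : ℝ) * Φ / ((R * QSn J' S : ℕ) : ℝ)) ^ (2 * m) =
          (∏ p ∈ S, (cp5 ε p)⁻¹) ^ (2 * m) := by
        rw [← mul_pow]
        congr 1
        simp only [hK]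
        push_cast
        field_simp
      have e2 : (((R * QSn J' S : ℕ) : ℝ)) ^ (C0 * bc5 ε P) =
          (R : ℝ) ^ (C0 * bc5 ε P) * (QSn J' S : ℝ) ^ (C0 * bc5 ε P) := by
        push_cast
        exact Real.mul_rpow hR0.le hQS0.le
      rw [e2, ← e1]
      ring
    refine (Finset.sum_le_sum hone).trans ?_
    rw [Finset.sum_const, nsmul_eq_mul]
    have hcard : (((zcl R J' r S).card : ℕ) : ℝ) ≤ QSn J' S := by
      exact_mod_cast card_zcl R J' r S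
    have hA : 0 ≤ (∏ p ∈ S, (cp5 ε p)⁻¹) ^ (2 * m) := by
      rw [pow_mul]; exact pow_nonneg (sq_nonneg _) _
    have hB : 0 ≤ C0 * (R : ℝ) ^ (C0 * bc5 ε P) * ((∏ p ∈ S, (cp5 ε p)⁻¹) ^ (2 * m) *
        (QSn J' S : ℝ) ^ (C0 * bc5 ε P)) :=
      mul_nonneg (mul_nonneg hC0.le (Real.rpow_nonneg hR0.le _))
        (mul_nonneg hA (Real.rpow_nonneg hQS0.le _))
    refine (mul_le_mul_of_nonneg_right hcard hB).trans (le_of_eq ?_)
    ring
  have hstep4 : ∑ S ∈ ZF5 ε P R (Q5 ε P), ∑ z ∈ zcl R J' r S, (K S) ^ (2 * m) *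
        ∑ T ∈ Pw, wtR (t5 ε P) V T * moT ν G y M (R * QSn J' S) z T (2 * m) ≤
      C0 * (R : ℝ) ^ (C0 * bc5 ε P) * Real.exp 2 := by
    refine (Finset.sum_le_sum hstep3).trans ?_
    rw [← Finset.mul_sum]
    apply mul_le_mul_of_nonneg_left _ (by positivity)
    apply sum_ZF5_le
    intro S hS
    exact nv_coef5_le hε hS hn4
  have hR1 : (1 : ℝ) ≤ R := by exact_mod_cast hR
  set C := 1 + C0 * Real.exp 2 + C0 with hC
  have hCC0 : C0 ≤ C := by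
    have : 0 < C0 * Real.exp 2 := by positivity
    linarith
  have h5 : (R : ℝ) ^ (C0 * bc5 ε P) ≤ (R : ℝ) ^ (C * bc5 ε P) :=
    Real.rpow_le_rpow_of_exponent_le hR1 (mul_le_mul_of_nonneg_right hCC0 hb0)
  have h6 : 1 ≤ (R : ℝ) ^ (C * bc5 ε P) :=
    Real.one_le_rpow hR1 (mul_nonneg (by positivity) hb0)
  have h7 : C0 * (R : ℝ) ^ (C0 * bc5 ε P) * Real.exp 2 ≤
      C0 * Real.exp 2 * (R : ℝ) ^ (C * bc5 ε P) := by
    have := mul_le_mul_of_nonneg_left h5 (show 0 ≤ C0 * Real.exp 2 by positivity)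
    linarith
  have h8 : 0 ≤ C0 * (R : ℝ) ^ (C * bc5 ε P) := by positivity
  have h9 : ∀ X : ℝ, C * X = X + C0 * Real.exp 2 * X + C0 * X := by
    intro X
    rw [hC]
    ring
  rw [h9]
  generalize (R : ℝ) ^ (C * bc5 ε P) = X at h5 h6 h7 h8 ⊢
  linarith

end Vale.Agent.P042.UU
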