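import Vale.Agent.P042.UU.NvB
import Vale.Agent.P042.SS.ExtA0

set_option autoImplicit false

/-!
# P042, Theorem S5, block NV5
-/

namespace Vale.Agent.P042.UU

open Polynomial Finset Vale.Agent.P042.SS Vale.Agent.P042.TT

/-- the mass of a cell modulo `R * (∏ T * QSn)` -/
theorem nv_mass_le_NN {ε P : ℝ} {k N' : ℕ} {Φ : ℝ} {G : ℤ → ℝ} {ν : ℕ → ℤ → ℝ}
    (hSt : St5 ε P k N' Φ G ν) {V : Finset ℕ} {R M J' : ℕ} {y r : ℤ}
    (hm0 : 0 < 2 * mm5 ε J')
    (hV : V ⊆ W5 ε P) (hR : 1 ≤ R) (hM : (0 : ℝ) < M) {T : Finset ℕ} (hT : T ⊆ V) {x : ℕ}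
    {S : Finset ℕ} (hS : S ∈ ZF5 ε P R (Q5 ε P)) {z : ℤ}
    (hzx : z ≡ (x : ℤ) [ZMOD ((∏ p ∈ T, p : ℕ) : ℤ)]) (hzr : z ≡ r [ZMOD (R : ℕ)]) :
    mass G y M (R * ((∏ p ∈ T, p) * ∏ p ∈ S, p ^ J')) z ≤
      (NN5 ε P ν G y M R J' (Q5 ε P) r Φ T x) ^ (1 / ((2 * mm5 ε J' : ℕ) : ℝ)) *
        (∏ p ∈ S, (p : ℝ) ^ (ε / 10)) * (∏ p ∈ T, (ν p x / p)) *
          (Φ * M / (R * ∏ p ∈ S, (p : ℝ) ^ J')) := by
  have hν := hSt.wts.nn
  have hG := hSt.G0
  have hΦ : 0 < Φ := lt_of_lt_of_le (Real.exp_pos _) hSt.Φlo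
  have hSm := mem_ZF5.1 hS
  have hSp : ∀ p ∈ S, p.Prime := fun p hp => (hSm.1 p hp).2.1
  have hQS1 : 1 ≤ QSn J' S := QSn_pos hSp
  have hQS0 : (0 : ℝ) < QSn J' S := by exact_mod_cast hQS1
  have hR0 : (0 : ℝ) < R := by exact_mod_cast hR
  have hTW : T ⊆ W5 ε P := hT.trans hV
  by_cases hz : ∀ p ∈ T, ν p x ≠ 0
  · -- nonzero weights
    have hdn : 0 < dn ν T x := by
      unfold dn
      refine Finset.prod_pos fun p hp => ?_
      have h1 : 0 < ν p x := lt_of_le_of_ne (hν p x) (Ne.symm (hz p hp))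
      have h2 : (0 : ℝ) < p := by exact_mod_cast (nv_prime (hTW hp)).pos
      positivity
    -- the residue modulo `R * QSn`
    have hmod : (0 : ℤ) < ((R * QSn J' S : ℕ) : ℤ) := by
      exact_mod_cast Nat.mul_pos hR hQS1
    set z' : ℕ := (z % ((R * QSn J' S : ℕ) : ℤ)).toNat with hz'
    have hz'c : (z' : ℤ) = z % ((R * QSn J' S : ℕ) : ℤ) := by
      rw [hz', Int.toNat_of_nonneg (Int.emod_nonneg _ hmod.ne')]
    have hz'z : (z' : ℤ) ≡ z [ZMOD ((R * QSn J' S : ℕ) : ℤ)] := by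
      rw [hz'c]; exact Int.mod_modEq _ _
    have hz'm : z' ∈ zcl R J' r S := by
      unfold zcl
      rw [mem_filter, mem_range]
      refine ⟨?_, ?_⟩
      · have : (z' : ℤ) < ((R * QSn J' S : ℕ) : ℤ) := by
          rw [hz'c]; exact Int.emod_lt_of_pos _ hmod
        exact_mod_cast this
      · refine Int.ModEq.trans (Int.ModEq.of_dvd ?_ hz'z) hzr
        exact Int.natCast_dvd_natCast.2 (dvd_mul_right R (QSn J' S))
    have h1 := dnm5_le_NN5 (P := P) (ν := ν) (G := G) y M R J' (Q5 ε P) r Φ T (x : ℤ) hS hz'm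
    have hd0 : 0 ≤ dnm5 ε ν G y M R J' Φ S z' T x := dnm5_nonneg ε hν hG y M R J' hΦ S z' T x
    have h2 : dnm5 ε ν G y M R J' Φ S z' T x ≤
        (NN5 ε P ν G y M R J' (Q5 ε P) r Φ T x) ^ (1 / ((2 * mm5 ε J' : ℕ) : ℝ)) := by
      have h3 := Real.rpow_le_rpow (pow_nonneg hd0 _) h1
        (show 0 ≤ 1 / ((2 * mm5 ε J' : ℕ) : ℝ) from div_nonneg zero_le_one (Nat.cast_nonneg _))
      rwa [← Real.rpow_natCast, ← Real.rpow_mul hd0, mul_one_div_cancel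
        (by exact_mod_cast hm0.ne'), Real.rpow_one] at h3
    -- mass versus `rT`
    have h4 : dn ν T x * mass G y M (R * ((∏ p ∈ T, p) * ∏ p ∈ S, p ^ J')) z ≤
        rT ν G y M (R * QSn J' S) z' T x := by
      unfold rT mass
      refine mul_le_mul_of_nonneg_left ?_ hdn.le
      apply Finset.sum_le_sum_of_subset_of_nonneg
      · intro n hn
        rw [mem_filter] at hn ⊢
        refine ⟨hn.1, ?_, ?_⟩
        · refine Int.ModEq.trans (Int.ModEq.of_dvd ?_ hn.2) hz'z.symm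
          refine Int.natCast_dvd_natCast.2 ⟨∏ p ∈ T, p, ?_⟩
          unfold QSn
          ring
        · refine Int.ModEq.trans (Int.ModEq.of_dvd ?_ hn.2) hzx
          refine Int.natCast_dvd_natCast.2 ⟨R * ∏ p ∈ S, p ^ J', ?_⟩
          ring
      · intro n _ _
        exact hG n
    have hcp : 0 < ∏ p ∈ S, cp5 ε p :=
      Finset.prod_pos fun p hp => cp5_pos ε (hSp p hp).one_lt.le
    have h5 : rT ν G y M (R * QSn J' S) z' T x = dnm5 ε ν G y M R J' Φ S z' T x *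
        (∏ p ∈ S, cp5 ε p) * (M * Φ / (R * QSn J' S)) := by
      unfold dnm5
      rw [Finset.prod_inv_distrib]
      push_cast
      field_simp
    have e1 : ∏ p ∈ S, (p : ℝ) ^ (ε / 10) = ∏ p ∈ S, cp5 ε p := rfl
    have e2 : ∏ p ∈ S, (p : ℝ) ^ J' = QSn J' S := (QSn_cast J' S).symm
    have e3 : dn ν T x * ∏ p ∈ T, (ν p x / p) = 1 := by
      unfold dn
      rw [← Finset.prod_mul_distrib]
      refine Finset.prod_eq_one fun p hp => ?_
      have h2 : (p : ℝ) ≠ 0 := by exact_mod_cast (nv_prime (hTW hp)).ne_zero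
      have h3 := hz p hp
      field_simp
    rw [e1, e2]
    rw [h5] at h4
    have h6 : dnm5 ε ν G y M R J' Φ S z' T x * (∏ p ∈ S, cp5 ε p) *
          (M * Φ / (R * QSn J' S)) ≤
        (NN5 ε P ν G y M R J' (Q5 ε P) r Φ T x) ^ (1 / ((2 * mm5 ε J' : ℕ) : ℝ)) *
          (∏ p ∈ S, cp5 ε p) * (M * Φ / (R * QSn J' S)) := by
      apply mul_le_mul_of_nonneg_right _ (by positivity)
      exact mul_le_mul_of_nonneg_right h2 hcp.le
    have h7 := h4.trans h6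
    have h8 : 0 ≤ ∏ p ∈ T, (ν p x / p) :=
      Finset.prod_nonneg fun p _ => div_nonneg (hν p _) (Nat.cast_nonneg p)
    have h9 := mul_le_mul_of_nonneg_right h7 h8
    calc mass G y M (R * ((∏ p ∈ T, p) * ∏ p ∈ S, p ^ J')) z
        = (dn ν T x * ∏ p ∈ T, (ν p x / p)) *
          mass G y M (R * ((∏ p ∈ T, p) * ∏ p ∈ S, p ^ J')) z := by rw [e3, one_mul]
      _ = dn ν T x * mass G y M (R * ((∏ p ∈ T, p) * ∏ p ∈ S, p ^ J')) z *
          ∏ p ∈ T, (ν p x / p) := by ring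
      _ ≤ _ := h9
      _ = _ := by ring
  · -- some weight vanishes
    push Not at hz
    obtain ⟨p, hpT, hp0⟩ := hz
    have hpW : p ∈ W5 ε P := hTW hpT
    have hmass : mass G y M (R * ((∏ p ∈ T, p) * ∏ p ∈ S, p ^ J')) z = 0 := by
      unfold mass
      refine Finset.sum_eq_zero fun n hn => ?_
      rw [mem_filter] at hn
      have h1 : n ≡ (x : ℤ) [ZMOD ((∏ p ∈ T, p : ℕ) : ℤ)] := by
        refine Int.ModEq.trans (Int.ModEq.of_dvd ?_ hn.2) hzx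
        refine Int.natCast_dvd_natCast.2 ⟨R * ∏ p ∈ S, p ^ J', ?_⟩
        ring
      have h2 : n ≡ (x : ℤ) [ZMOD (p : ℤ)] :=
        Int.ModEq.of_dvd (Int.natCast_dvd_natCast.2 (Finset.dvd_prod_of_mem (fun p : ℕ => p) hpT)) h1
      have h3 : ν p n = 0 := by
        rw [per_congr (hSt.wts.per p hpW) h2]
        exact hp0
      by_contra h4
      exact hSt.Gν n h4 p hpW h3
    have hprod : ∏ p ∈ T, (ν p x / p) = 0 := by
      refine Finset.prod_eq_zero hpT ?_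
      rw [hp0, zero_div]
    rw [hmass, hprod]
    simp

theorem nv5_of (hMOM : MOM5Stmt) : NV5Stmt := by
  intro k J' ε hk _ hε hε1
  obtain ⟨C, P1, hC, hcore⟩ := nv_core_one hMOM k J' ε hk hε hε1
  have hm0 : 4 ≤ 2 * mm5 ε J' := by
    have hmm : 30 * ((J' : ℝ) + 3) / ε ≤ (mm5 ε J' : ℝ) := Nat.le_ceil _
    have hJ0 : (0 : ℝ) ≤ J' := Nat.cast_nonneg _
    have h1 : (2 : ℝ) ≤ 30 * ((J' : ℝ) + 3) / ε := by
      rw [le_div_iff₀ hε]
      nlinarith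
    have h2 : 2 ≤ mm5 ε J' := by exact_mod_cast h1.trans hmm
    omega
  refine ⟨C, max P1 1, hC, ?_⟩
  intro P hP N' Φ G ν hSt V R M y r Pr hV hR hVR hRlog hMN hNM hPr
  have hP1 : P1 ≤ P := (le_max_left _ _).trans hP
  have hPone : 1 ≤ P := (le_max_right _ _).trans hP
  have hPpos : 0 < P := by linarith
  have hν := hSt.wts.nn
  have hN0 : (0 : ℝ) < N' := lt_of_lt_of_le (Real.exp_pos _) hSt.N'lo
  have hM0 : (0 : ℝ) < M := by
    by_contra h
    have h1 : (M : ℝ) ≤ 0 := not_lt.1 h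
    have h2 : P * M ≤ 0 := mul_nonpos_of_nonneg_of_nonpos hPpos.le h1
    linarith
  have hNN1 : ∀ (T : Finset ℕ) (x : ℤ), 1 ≤ NN5 ε P ν G y M R J' (Q5 ε P) r Φ T x :=
    fun T x => one_le_NN5 y M R J' (Q5 ε P) r Φ T x
  refine ⟨fun T x => (NN5 ε P ν G y M R J' (Q5 ε P) r Φ T x) ^
    (1 / ((2 * mm5 ε J' : ℕ) : ℝ)), ?_, ?_, ?_⟩
  · intro T x
    exact Real.one_le_rpow (hNN1 T x) (div_nonneg zero_le_one (Nat.cast_nonneg _))
  · intro T hT _ x S hS hSQ z hzx hzr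
    have hSZ : S ∈ ZF5 ε P R (Q5 ε P) := by
      rw [mem_ZF5]
      refine ⟨fun p hp => ?_, hSQ⟩
      have h1 := hPr p (hS hp)
      refine ⟨⟨h1.1.one_lt.le, ?_⟩, h1.1, ?_, h1.2.2⟩
      · refine le_trans ?_ hSQ
        exact Nat.le_of_dvd (Finset.prod_pos fun q hq => (hPr q (hS hq)).1.pos)
          (Finset.dvd_prod_of_mem (fun p : ℕ => p) hp)
      · rw [Nat.floor_lt (Real.rpow_nonneg hPpos.le _)]
        exact h1.2.1
    exact nv_mass_le_NN hSt (by omega) hV hR hM0 hT hSZ hzx hzr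
  · refine le_trans ?_ (hcore P hP1 N' Φ G ν hSt V R M y r hV hR hVR hRlog hMN hNM)
    refine Finset.sum_le_sum fun T hT => ?_
    have hT' : T ⊆ V := mem_powerset.1 (mem_filter.1 hT).1
    refine mul_le_mul_of_nonneg_left ?_ (wtR_nonneg _ V T hT'
      (fun p _ => nv_t5_nonneg hPpos.le p) (fun p hp => nv_t5_le hε hPone (hV hp)))
    refine Finset.sum_le_sum fun x _ => ?_
    refine mul_le_mul_of_nonneg_left ?_ (Finset.prod_nonneg fun p _ =>
      div_nonneg (hν p _) (Nat.cast_nonneg p))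
    have h1 := hNN1 T x
    have h0 : 0 ≤ NN5 ε P ν G y M R J' (Q5 ε P) r Φ T x := by linarith
    rw [← Real.rpow_natCast, ← Real.rpow_mul h0]
    conv_rhs => rw [← Real.rpow_one (NN5 ε P ν G y M R J' (Q5 ε P) r Φ T x)]
    apply Real.rpow_le_rpow_of_exponent_le h1
    have h2 : (0 : ℝ) < ((2 * mm5 ε J' : ℕ) : ℝ) := Nat.cast_pos.2 (by omega)
    rw [one_div, inv_mul_le_iff₀ h2, mul_one]
    exact_mod_cast hm0

end Vale.Agent.P042.UU
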