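import Vale.Agent.P042.UU.SpecB
import Vale.Agent.P042.SS.ExtB

set_option autoImplicit false

/-!
Theorem S5, block PIN5, part A: parameters and the clipped logarithm.
-/

namespace Vale.Agent.P042.UU.PIN

open Polynomial Finset Filter Vale.Agent.P042.SS Vale.Agent.P042.TT

/-! ### parameters -/

/-- everything we need about the size of `P` -/
structure PinB (ε : ℝ) (k : ℕ) (P : ℝ) : Prop where
  e0 : 0 < ε
  e1 : ε ≤ 1 / 1000
  one : 1 ≤ P
  lgP : Real.log P ≤ P ^ (ε / 20)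
  ct : 10 ^ 12 * ((k : ℝ) + 1) ≤ P ^ (ε / 20)

theorem pin_eventually (k : ℕ) {ε : ℝ} (h0 : 0 < ε) (h1 : ε ≤ 1 / 1000) :
    ∃ P0 : ℝ, ∀ P : ℝ, P0 ≤ P → PinB ε k P := by
  have g1 : ∀ᶠ P : ℝ in atTop, (1 : ℝ) ≤ P := eventually_ge_atTop _
  have g2 : ∀ᶠ P : ℝ in atTop, Real.log P ≤ P ^ (ε / 20) := by
    have h := (isLittleO_log_rpow_atTop (r := ε / 20) (by positivity)).bound
      (c := 1) one_pos
    filter_upwards [h, eventually_ge_atTop (1 : ℝ)] with P hP hP1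
    rw [one_mul, Real.norm_eq_abs, Real.norm_eq_abs, abs_of_nonneg (Real.log_nonneg hP1),
      abs_of_nonneg (by positivity)] at hP
    exact hP
  have g3 : ∀ᶠ P : ℝ in atTop, 10 ^ 12 * ((k : ℝ) + 1) ≤ P ^ (ε / 20) :=
    (tendsto_rpow_atTop (by positivity)).eventually_ge_atTop _
  obtain ⟨P0, hP0⟩ := (g1.and (g2.and g3)).exists_forall_of_atTop
  exact ⟨P0, fun P hP => ⟨h0, h1, (hP0 P hP).1, (hP0 P hP).2.1, (hP0 P hP).2.2⟩⟩

namespace PinB

variable {ε : ℝ} {k : ℕ} {P : ℝ} (hB : PinB ε k P)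
include hB

theorem pos : 0 < P := by linarith [hB.one]

theorem r_le {a b : ℝ} (hab : a ≤ b) : P ^ a ≤ P ^ b :=
  Real.rpow_le_rpow_of_exponent_le hB.one hab

theorem c_le {c a b : ℝ} (hc : c ≤ 10 ^ 12 * ((k : ℝ) + 1)) (h : a + ε / 20 ≤ b) :
    c * P ^ a ≤ P ^ b := by
  have hP := hB.pos
  calc c * P ^ a ≤ P ^ (ε / 20) * P ^ a :=
        mul_le_mul_of_nonneg_right (hc.trans hB.ct) (by positivity)
    _ = P ^ (a + ε / 20) := by rw [← Real.rpow_add hP, add_comm]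
    _ ≤ P ^ b := hB.r_le h

theorem c_le' {c a b : ℝ} (hc : c ≤ 10 ^ 12) (h : a + ε / 20 ≤ b) : c * P ^ a ≤ P ^ b := by
  refine hB.c_le (hc.trans ?_) h
  have : (0 : ℝ) ≤ k := Nat.cast_nonneg k
  linarith

theorem l_le {a b : ℝ} (h : a + ε / 20 ≤ b) : Real.log P * P ^ a ≤ P ^ b := by
  have hP := hB.pos
  calc Real.log P * P ^ a ≤ P ^ (ε / 20) * P ^ a :=
        mul_le_mul_of_nonneg_right hB.lgP (by positivity)
    _ = P ^ (a + ε / 20) := by rw [← Real.rpow_add hP, add_comm]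
    _ ≤ P ^ b := hB.r_le h

theorem big : 10 ^ 12 ≤ P := by
  have h1 := hB.r_le (a := ε / 20) (b := 1) (by linarith [hB.e1])
  rw [Real.rpow_one] at h1
  have h2 := hB.ct
  have : (0 : ℝ) ≤ k := Nat.cast_nonneg k
  linarith

theorem const_le {c b : ℝ} (hc : c ≤ 10 ^ 12) (h : ε / 20 ≤ b) : c ≤ P ^ b := by
  have := hB.c_le' (c := c) (a := 0) (b := b) hc (by linarith)
  rwa [Real.rpow_zero, mul_one] at this

theorem log_nn : 0 ≤ Real.log P := Real.log_nonneg hB.one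

end PinB

/-- the size of the perturbations -/
noncomputable def dl5 (ε P : ℝ) : ℝ := Real.exp (-(P ^ (1 - 49.6 * ε)))

section num

variable {ε : ℝ} {k : ℕ} {P : ℝ} (hB : PinB ε k P)
include hB

theorem dl5_pos : 0 < dl5 ε P := Real.exp_pos _

theorem pin_exp_le {a b : ℝ} (h : b + ε / 20 ≤ a) :
    Real.exp (-(P ^ a)) ≤ Real.exp (-(P ^ b)) ^ 2 := by
  rw [← Real.exp_nat_mul]
  refine Real.exp_le_exp.2 ?_
  have := hB.c_le' (c := 2) (a := b) (b := a) (by norm_num) h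
  push_cast
  linarith

theorem dl5_small : 10 ^ 6 * dl5 ε P * P ^ 4 ≤ 1 := by
  have hP := hB.pos
  have h0 := hB.e0
  have h1' := hB.e1
  have h1 : 10 * Real.log P ≤ P ^ (1 - 49.6 * ε) := by
    calc 10 * Real.log P ≤ 10 * P ^ (ε / 20) := by linarith [hB.lgP]
      _ ≤ P ^ (1 - 49.6 * ε) := hB.c_le' (by norm_num) (by linarith)
  have h2 : dl5 ε P ≤ (P ^ 10)⁻¹ := by
    unfold dl5
    rw [← Real.exp_log (show 0 < P ^ 10 by positivity), ← Real.exp_neg, Real.log_pow]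
    exact Real.exp_le_exp.2 (by push_cast; linarith)
  have h3 : (10 : ℝ) ^ 6 ≤ P ^ 6 := by
    have : (10 : ℝ) ≤ P := by linarith [hB.big]
    gcongr
  calc 10 ^ 6 * dl5 ε P * P ^ 4 ≤ P ^ 6 * (P ^ 10)⁻¹ * P ^ 4 := by
        have := (dl5_pos hB).le
        gcongr
    _ = 1 := by field_simp

theorem pin_sl : Real.exp (-(P ^ (1 - 49.5 * ε))) ≤ dl5 ε P ^ 2 :=
  pin_exp_le hB (by linarith [hB.e0])

theorem pin_lm : Real.exp (-(P ^ (1 - 49.2 * ε))) ≤ dl5 ε P ^ 2 :=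
  pin_exp_le hB (by linarith [hB.e0])

theorem pin_P4 : Real.exp (-(P / 4)) ≤ dl5 ε P ^ 2 := by
  unfold dl5
  rw [← Real.exp_nat_mul]
  refine Real.exp_le_exp.2 ?_
  have := hB.c_le' (c := 8) (a := 1 - 49.6 * ε) (b := 1) (by norm_num) (by linarith [hB.e0])
  rw [Real.rpow_one] at this
  push_cast
  linarith

theorem pin_fin : 16 * dl5 ε P ≤ Real.exp (-(P ^ (1 - 50 * ε))) := by
  have h0 := hB.e0
  have h1' := hB.e1
  have h1 : Real.log 16 ≤ 16 := by linarith [Real.log_le_sub_one_of_pos (show (0 : ℝ) < 16 by norm_num)]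
  have h2 := hB.c_le' (c := 2) (a := 1 - 50 * ε) (b := 1 - 49.6 * ε) (by norm_num) (by linarith)
  have h3 := hB.const_le (c := 16) (b := 1 - 50 * ε) (by norm_num) (by linarith)
  unfold dl5
  calc 16 * Real.exp (-(P ^ (1 - 49.6 * ε))) =
        Real.exp (Real.log 16 + -(P ^ (1 - 49.6 * ε))) := by
        rw [Real.exp_add, Real.exp_log (by norm_num)]
    _ ≤ Real.exp (-(P ^ (1 - 50 * ε))) := Real.exp_le_exp.2 (by linarith)

theorem pin_prime {p : ℕ} (hp : p ∈ W5 ε P) : p.Prime := (mem_filter.1 hp).2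

theorem pin_p_le {p : ℕ} (hp : p ∈ W5 ε P) : (p : ℝ) ≤ P ^ 2 := by
  have hP := hB.pos
  have h := (mem_Ioc.1 (mem_filter.1 hp).1).2
  have h1 := (Nat.le_floor_iff (by positivity)).1 h
  refine h1.trans ?_
  rw [← Real.rpow_natCast]
  exact hB.r_le (by push_cast; linarith [hB.e0])

theorem pin_p_gt {p : ℕ} (hp : p ∈ W5 ε P) : 10 ^ 12 ≤ (p : ℝ) := by
  have h := (mem_Ioc.1 (mem_filter.1 hp).1).1
  have h1 := (Nat.floor_lt' (mem_filter.1 hp).2.ne_zero).1 h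
  exact (hB.const_le (c := 10 ^ 12) le_rfl (by linarith [hB.e0])).trans h1.le

theorem pin_log_p {p : ℕ} (hp : p ∈ W5 ε P) : Real.log p ≤ 2 * Real.log P := by
  have h2 : (0 : ℝ) < p := Nat.cast_pos.2 (pin_prime hB hp).pos
  calc Real.log p ≤ Real.log (P ^ 2) := Real.log_le_log h2 (pin_p_le hB hp)
    _ = 2 * Real.log P := by rw [Real.log_pow]; push_cast; ring

theorem pin_dl_p {p : ℕ} (hp : p ∈ W5 ε P) : 10 ^ 6 * dl5 ε P * p ^ 2 ≤ 1 := by
  refine le_trans ?_ (dl5_small hB)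
  have h1 := pin_p_le hB hp
  have h2 : (p : ℝ) ^ 2 ≤ P ^ 4 := by
    calc (p : ℝ) ^ 2 ≤ (P ^ 2) ^ 2 := by gcongr
      _ = P ^ 4 := by ring
  have := (dl5_pos hB).le
  gcongr

theorem pin_sub_Vn : W5 ε P ⊆ Vn ε P 1 := by
  intro p hp
  unfold Vn
  rw [mem_filter]
  exact ⟨hp, fun h => (pin_prime hB hp).one_lt.ne' (Nat.dvd_one.1 h)⟩

theorem pin_Vn_one : Vn ε P 1 = W5 ε P := by
  refine le_antisymm (filter_subset _ _) (pin_sub_Vn hB)

end num

/-! ### the clipped logarithm -/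

theorem lg_ge (t : ℝ) : -3 ≤ lg t := by
  unfold lg
  split_ifs
  · exact le_rfl
  · exact le_max_right _ _

theorem pin_e3 : Real.exp (-3) ≤ 1 / 8 := by
  have h1 : (2 : ℝ) ≤ Real.exp 1 := by linarith [Real.add_one_le_exp (1 : ℝ)]
  have h2 : Real.exp (-3) = 1 / Real.exp 1 ^ 3 := by
    rw [← Real.exp_nat_mul, Real.exp_neg, one_div]
    norm_num
  rw [h2]
  exact (one_div_le_one_div_of_le (by norm_num) (pow_le_pow_left₀ (by norm_num) h1 3)).trans
    (by norm_num)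

theorem pin_e3' : 1 / 27 ≤ Real.exp (-3) := by
  have h1 : Real.exp 1 ≤ 3 := by linarith [Real.exp_one_lt_d9]
  have h2 : Real.exp (-3) = 1 / Real.exp 1 ^ 3 := by
    rw [← Real.exp_nat_mul, Real.exp_neg, one_div]
    norm_num
  rw [h2]
  exact le_trans (by norm_num) (one_div_le_one_div_of_le (by positivity)
    (pow_le_pow_left₀ (by positivity) h1 3))

theorem pin_e12 : Real.exp 12 ≤ 531441 := by
  have h1 : Real.exp 1 ≤ 3 := by linarith [Real.exp_one_lt_d9]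
  have h2 : Real.exp 12 = Real.exp 1 ^ 12 := by
    rw [← Real.exp_nat_mul]
    norm_num
  rw [h2]
  exact (pow_le_pow_left₀ (by positivity) h1 12).trans (by norm_num)

theorem lg_of_ge {t : ℝ} (h : Real.exp (-6) ≤ t) : lg t = Real.log t / 2 := by
  have h0 : 0 < t := (Real.exp_pos _).trans_le h
  unfold lg
  rw [if_neg h0.ne', max_eq_left]
  have := Real.log_le_log (Real.exp_pos _) h
  rw [Real.log_exp] at this
  linarith

theorem lg_of_lt {t : ℝ} (h0 : 0 ≤ t) (h : t < Real.exp (-6)) : lg t = -3 := by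
  unfold lg
  split_ifs with h1
  · rfl
  · have h2 : 0 < t := lt_of_le_of_ne h0 (Ne.symm h1)
    have := Real.log_le_log h2 h.le
    rw [Real.log_exp] at this
    rw [max_eq_right]
    linarith

theorem pin_sqrt_lb {t : ℝ} (h : Real.exp (-6) ≤ t) : Real.exp (-3) ≤ √t := by
  apply Real.le_sqrt_of_sq_le
  rw [← Real.exp_nat_mul]
  norm_num
  exact h

theorem pin_sqrt_ub {t : ℝ} (h : t < Real.exp (-6)) : √t ≤ Real.exp (-3) := by
  rw [Real.sqrt_le_left (Real.exp_pos _).le, ← Real.exp_nat_mul]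
  norm_num
  exact h.le

theorem lg_eq_log {t : ℝ} (h : Real.exp (-6) ≤ t) : lg t = Real.log (√t) := by
  have h0 : 0 < t := (Real.exp_pos _).trans_le h
  rw [lg_of_ge h, Real.log_sqrt h0.le]

theorem lg_le_one {t : ℝ} (h0 : 0 ≤ t) (h4 : t ≤ 4) : lg t ≤ 1 := by
  by_cases h : Real.exp (-6) ≤ t
  · rw [lg_eq_log h]
    have h1 : 0 < √t := (Real.exp_pos _).trans_le (pin_sqrt_lb h)
    have h2 : √t ≤ 2 := by
      rw [Real.sqrt_le_left (by norm_num)]
      linarith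
    linarith [Real.log_le_sub_one_of_pos h1]
  · push Not at h
    rw [lg_of_lt h0 h]
    norm_num

theorem sqrt_le_exp_lg {t : ℝ} (h0 : 0 ≤ t) : √t ≤ Real.exp (lg t) := by
  by_cases h : Real.exp (-6) ≤ t
  · have h1 : 0 < √t := (Real.exp_pos _).trans_le (pin_sqrt_lb h)
    rw [lg_eq_log h, Real.exp_log h1]
  · push Not at h
    rw [lg_of_lt h0 h]
    exact pin_sqrt_ub h

theorem pin_exp_quad {z : ℝ} (hz : |z| ≤ 12) : Real.exp z ≤ 1 + z + z ^ 2 * 531441 := by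
  by_cases h : |z| ≤ 1
  · have h1 := Real.abs_exp_sub_one_sub_id_le h
    have h2 := (abs_le.1 h1).2
    nlinarith [sq_nonneg z]
  · push Not at h
    have h1 : Real.exp z ≤ 531441 :=
      (Real.exp_le_exp.2 ((le_abs_self z).trans hz)).trans pin_e12
    have h2 : |z| ^ 2 = z ^ 2 := sq_abs z
    have h3 := neg_abs_le z
    nlinarith

theorem pin_exp_lg {s t : ℝ} (hs : |s| ≤ 4) (h0 : 0 ≤ t) (h4 : t ≤ 4) :
    Real.exp (s * lg t) ≤ 1 + s / 2 * (t - 1) + 10 ^ 10 * (√t - 1) ^ 2 := by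
  have hs1 := abs_le.1 hs
  by_cases h : Real.exp (-6) ≤ t
  · rw [lg_eq_log h]
    have g1 : (1 : ℝ) / 27 ≤ √t := pin_e3'.trans (pin_sqrt_lb h)
    have g2 : √t ≤ 2 := by
      rw [Real.sqrt_le_left (by norm_num)]
      linarith
    have g3 : √t ^ 2 = t := Real.sq_sqrt h0
    set r := √t with hr
    have hr0 : 0 < r := by linarith
    have g4 := Real.log_le_sub_one_of_pos hr0
    have g5 := Real.one_sub_inv_le_log_of_pos hr0
    have g6 : r⁻¹ ≤ 27 := by
      rw [inv_le_comm₀ hr0 (by norm_num)]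
      linarith
    have g7 : 1 - r⁻¹ = (r - 1) - (r - 1) ^ 2 * r⁻¹ := by
      field_simp
      ring
    have g8 : (r - 1) - 27 * (r - 1) ^ 2 ≤ Real.log r := by
      have : (r - 1) ^ 2 * r⁻¹ ≤ (r - 1) ^ 2 * 27 := mul_le_mul_of_nonneg_left g6 (sq_nonneg _)
      linarith
    have g9 : Real.log r ^ 2 ≤ 729 * (r - 1) ^ 2 := by
      rcases le_total 1 r with h1 | h1
      · have := Real.log_nonneg h1
        nlinarith
      · have k1 := Real.log_nonpos hr0.le h1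
        have k2 : 1 - r⁻¹ = (r - 1) * r⁻¹ := by field_simp
        have k3 : 27 * (r - 1) ≤ Real.log r := by
          have : 27 * (r - 1) ≤ (r - 1) * r⁻¹ := by nlinarith
          linarith
        nlinarith
    have g10 : |Real.log r| ≤ 3 := by
      rw [abs_le]
      constructor
      · have := lg_ge t
        rw [lg_eq_log h] at this
        exact this
      · linarith
    have g11 : |s * Real.log r| ≤ 12 := by
      rw [abs_mul]
      have := mul_le_mul hs g10 (abs_nonneg _) (by norm_num)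
      linarith
    have g12 := pin_exp_quad g11
    have g13 : s * Real.log r ≤ s / 2 * (r ^ 2 - 1) + 112 * (r - 1) ^ 2 := by
      have k1 : Real.log r - (r ^ 2 - 1) / 2 ≤ 0 := by nlinarith
      have k2 : -(28 * (r - 1) ^ 2) ≤ Real.log r - (r ^ 2 - 1) / 2 := by nlinarith
      nlinarith [sq_nonneg (r - 1)]
    have g14 : (s * Real.log r) ^ 2 ≤ 11664 * (r - 1) ^ 2 := by
      have k1 : s ^ 2 ≤ 16 := by nlinarith
      calc (s * Real.log r) ^ 2 = s ^ 2 * Real.log r ^ 2 := by ring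
        _ ≤ 16 * (729 * (r - 1) ^ 2) := mul_le_mul k1 g9 (sq_nonneg _) (by norm_num)
        _ = _ := by ring
    rw [← g3]
    nlinarith [sq_nonneg (r - 1)]
  · push Not at h
    have g1 : √t ≤ 1 / 8 := (pin_sqrt_ub h).trans pin_e3
    have g0 := Real.sqrt_nonneg t
    rw [lg_of_lt h0 h]
    have g2 : Real.exp (s * -3) ≤ 531441 :=
      (Real.exp_le_exp.2 (by linarith)).trans pin_e12
    have g3 : (1 : ℝ) / 2 ≤ (√t - 1) ^ 2 := by nlinarith
    have g4 : t ≤ 1 := by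
      have : √t ^ 2 = t := Real.sq_sqrt h0
      nlinarith
    nlinarith

theorem pin_exp_lg1 {t : ℝ} (h0 : 0 ≤ t) :
    Real.exp (1 * lg t) ≤ 1 + 1 / 2 * (t - 1) + -(1 / 4) * (√t - 1) ^ 2 := by
  rw [one_mul]
  have g3 : √t ^ 2 = t := Real.sq_sqrt h0
  by_cases h : Real.exp (-6) ≤ t
  · have h1 : 0 < √t := (Real.exp_pos _).trans_le (pin_sqrt_lb h)
    rw [lg_eq_log h, Real.exp_log h1]
    nlinarith [sq_nonneg (√t - 1)]
  · push Not at h
    rw [lg_of_lt h0 h]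
    have g1 : √t ≤ 1 / 8 := (pin_sqrt_ub h).trans pin_e3
    have g0 := Real.sqrt_nonneg t
    have g2 := pin_e3
    nlinarith

theorem lg_mul_le {t F : ℝ} (h0 : 0 ≤ t) (hF : 0 ≤ F) (hF2 : F ≤ 4) : lg (t * F) ≤ lg t + 1 := by
  have h3 := lg_ge t
  unfold lg at h3 ⊢
  by_cases h : t * F = 0
  · rw [if_pos h]
    linarith
  · have ht : t ≠ 0 := fun h' => h (by rw [h', zero_mul])
    have hF' : F ≠ 0 := fun h' => h (by rw [h', mul_zero])
    rw [if_neg h, if_neg ht]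
    rw [if_neg ht] at h3
    refine max_le ?_ (by linarith)
    rw [Real.log_mul ht hF']
    have h4 : Real.log F ≤ 2 := by
      have k0 : 0 < F := lt_of_le_of_ne hF (Ne.symm hF')
      have k1 : Real.log F ≤ Real.log (2 ^ 2) := Real.log_le_log k0 (by linarith)
      rw [Real.log_pow] at k1
      have := Real.log_two_lt_d9
      push_cast at k1
      linarith
    have h5 := le_max_left (Real.log t / 2) (-3)
    linarith

/-! ### averages over a prime -/

theorem pin_avg {p : ℕ} (hp : 0 < p) (u : ℕ → ℝ) (h0 : ∀ x, 0 ≤ u x)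
    (hm : ∑ x ∈ range p, u x = p) (ψ : ℝ → ℝ) {a C : ℝ}
    (h : ∀ x, ψ (u x) ≤ 1 + a * (u x - 1) + C * (√(u x) - 1) ^ 2) :
    (∑ x ∈ range p, ψ (u x)) / (p : ℝ) ≤ 1 + 2 * C * (1 - (∑ x ∈ range p, √(u x)) / p) := by
  have hp0 : (0 : ℝ) < p := by exact_mod_cast hp
  have h1 : ∑ x ∈ range p, ψ (u x) ≤
      ∑ x ∈ range p, ((1 - a + C) + (a + C) * u x - 2 * C * √(u x)) := by
    refine sum_le_sum fun x _ => (h x).trans (le_of_eq ?_)
    have := Real.sq_sqrt (h0 x)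
    linear_combination C * this
  rw [sum_sub_distrib, sum_add_distrib, sum_const, card_range, ← mul_sum, ← mul_sum, hm,
    nsmul_eq_mul] at h1
  rw [div_le_iff₀ hp0]
  refine h1.trans (le_of_eq ?_)
  field_simp
  ring

theorem pin_h_nn {p : ℕ} (hp : 0 < p) (u : ℕ → ℝ) (h0 : ∀ x, 0 ≤ u x)
    (hm : ∑ x ∈ range p, u x = p) : 0 ≤ 1 - (∑ x ∈ range p, √(u x)) / p := by
  have h1 := pin_avg hp u h0 hm (fun _ => 1) (a := 0) (C := 1) (fun x => by
    have := sq_nonneg (√(u x) - 1)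
    linarith)
  have hp0 : (0 : ℝ) < p := by exact_mod_cast hp
  rw [sum_const, card_range, nsmul_eq_mul, mul_one, div_self hp0.ne'] at h1
  linarith

theorem pin_prod {W : Finset ℕ} {ν : ℕ → ℤ → ℝ} (hW : ∀ p ∈ W, 0 < p) (hν : Wts W ν)
    (ψ : ℝ → ℝ) {a C : ℝ} (h0 : ∀ t, 0 ≤ ψ t)
    (h : ∀ p ∈ W, ∀ n, ψ (ν p n) ≤ 1 + a * (ν p n - 1) + C * (√(ν p n) - 1) ^ 2) :
    ∏ p ∈ W, ((∑ x ∈ range p, ψ (ν p x)) / (p : ℝ)) ≤ Real.exp (2 * C * Hl W ν) := by
  have h1 : ∀ p ∈ W, (∑ x ∈ range p, ψ (ν p x)) / (p : ℝ) ≤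
      Real.exp (2 * C * (1 - (∑ x ∈ range p, √(ν p x)) / p)) := by
    intro p hp
    have k1 := pin_avg (hW p hp) (fun x : ℕ => ν p x) (fun x => hν.nn p x) (hν.mean p hp) ψ
      (fun x => h p hp x)
    refine k1.trans ?_
    rw [add_comm]
    exact Real.add_one_le_exp _
  calc ∏ p ∈ W, ((∑ x ∈ range p, ψ (ν p x)) / (p : ℝ)) ≤
        ∏ p ∈ W, Real.exp (2 * C * (1 - (∑ x ∈ range p, √(ν p x)) / p)) := by
        refine prod_le_prod (fun p _ => ?_) h1
        exact div_nonneg (sum_nonneg fun x _ => h0 _) (Nat.cast_nonneg _)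
    _ = Real.exp (2 * C * Hl W ν) := by
        rw [← Real.exp_sum, ← mul_sum]
        rfl

end Vale.Agent.P042.UU.PIN
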