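import Vale.Agent.P042.UU.PinA

set_option autoImplicit false

/-!
Theorem S5, block PIN5, part B: the Hellinger deviation and the tails.
-/

namespace Vale.Agent.P042.UU.PIN

open Polynomial Finset Filter Vale.Agent.P042.SS Vale.Agent.P042.TT

open Classical in
/-- `MGF5` at one `P` -/
def MgfAt (ε P : ℝ) : Prop :=
  ∀ (W : Finset ℕ) (φ : ℕ → ℤ → ℝ) (D M : ℕ) (y x : ℤ), W ⊆ Vn ε P D → 1 ≤ D →
    Real.log D ≤ P ^ (1 - 51 * ε) → Real.exp (P / 2) ≤ M →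
    (∀ p ∈ W, ∀ n, φ p (n + p) = φ p n) → (∀ p ∈ W, ∀ n, |φ p n| ≤ 8) →
    ∏ p ∈ W, ((∑ z ∈ range p, Real.exp (-2 * φ p z)) / (p : ℝ)) ≤
      Real.exp (P ^ (1 - 49 * ε)) →
    (∀ B : ℝ, B ≤ 4 * Mc2 ε P →
      ∑ n ∈ (cel y M D x).filter (fun n => ∑ p ∈ W, φ p n ≤ B),
        Real.exp (∑ p ∈ W, φ p n) ≤
      (M : ℝ) / D * (2 * ∏ p ∈ W, ((∑ z ∈ range p, Real.exp (φ p z)) / (p : ℝ)) +
        Real.exp (-(P ^ (1 - 48.5 * ε))))) ∧
    (∀ B : ℝ, 0 ≤ B → B ≤ 4 * Mc2 ε P →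
      (((cel y M D x).filter (fun n => B ≤ ∑ p ∈ W, φ p n)).card : ℝ) ≤
      Real.exp (-B) * ((M : ℝ) / D *
        (6 * ∏ p ∈ W, ((∑ z ∈ range p, Real.exp (φ p z)) / (p : ℝ)) +
          Real.exp (-(P ^ (1 - 48.5 * ε))))))

theorem pin_mgfAt (h : MGF5Stmt) {ε : ℝ} (h0 : 0 < ε) (h1 : ε ≤ 1 / 1000) :
    ∃ P0 : ℝ, ∀ P : ℝ, P0 ≤ P → MgfAt ε P := h ε h0 h1

theorem cel_one (N' : ℕ) : cel 0 N' 1 0 = Icc (1 : ℤ) N' := by
  ext n
  simp only [cel, mem_filter, mem_Ioc, mem_Icc, zero_add]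
  constructor
  · rintro ⟨⟨h1, h2⟩, _⟩
    exact ⟨by omega, h2⟩
  · rintro ⟨h1, h2⟩
    exact ⟨⟨by omega, h2⟩, by simp [Int.modEq_one]⟩

section

variable {ε : ℝ} {k : ℕ} {P : ℝ} (hB : PinB ε k P) {N' Nmin : ℕ} {Φ : ℝ} {g : ℤ → ℝ}
  {ν : ℕ → ℤ → ℝ}

include hB

theorem pin_log_one : Real.log ((1 : ℕ) : ℝ) ≤ P ^ (1 - 51 * ε) := by
  have := hB.pos
  rw [Nat.cast_one, Real.log_one]
  positivity

theorem pin_half {N' : ℕ} (hN : Real.exp (7 / 8 * P) ≤ N') : Real.exp (P / 2) ≤ N' :=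
  (Real.exp_le_exp.2 (by linarith [hB.pos])).trans hN

theorem pin_mgf_s (hM : MgfAt ε P) {s : ℝ} (hs0 : 0 < s) (hs2 : s ≤ 2)
    (hW : Wts (W5 ε P) ν) (h4 : ∀ p ∈ W5 ε P, ∀ n, ν p n ≤ 4)
    (hH : Hl (W5 ε P) ν ≤ V05 ε P) (hN : Real.exp (7 / 8 * P) ≤ N') :
    ∑ n ∈ (Icc (1 : ℤ) N').filter (fun n => Xn (W5 ε P) ν n ≤ Mc2 ε P),
      Real.exp (s * Xn (W5 ε P) ν n) ≤
    N' * (2 * ∏ p ∈ W5 ε P, ((∑ z ∈ range p, Real.exp (s * lg (ν p z))) / (p : ℝ)) +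
        Real.exp (-(P ^ (1 - 48.5 * ε)))) := by
  have hM2 : 0 < Mc2 ε P := by have := hB.pos; unfold Mc2; positivity
  have h := (hM (W5 ε P) (fun p n => s * lg (ν p n)) 1 N' 0 0 (pin_sub_Vn hB) le_rfl
    (pin_log_one hB) (pin_half hB hN) (fun p hp n => by
      show s * lg (ν p (n + p)) = s * lg (ν p n)
      rw [hW.per p hp]) (fun p hp n => by
      have g1 := lg_ge (ν p n)
      have g2 := lg_le_one (hW.nn p n) (h4 p hp n)
      rw [abs_le]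
      constructor <;> nlinarith) (by
      have e1 : ∀ p ∈ W5 ε P, (∑ z ∈ range p, Real.exp (-2 * (s * lg (ν p z)))) / (p : ℝ) =
          (∑ z ∈ range p, Real.exp ((-2 * s) * lg (ν p z))) / (p : ℝ) := by
        intro p _
        congr 1
        refine sum_congr rfl fun z _ => ?_
        congr 1
        ring
      rw [prod_congr rfl e1]
      refine (pin_prod (fun p hp => (pin_prime hB hp).pos) hW
        (fun t => Real.exp ((-2 * s) * lg t)) (a := -2 * s / 2) (C := 10 ^ 10)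
        (fun t => (Real.exp_pos _).le) (fun p hp n => pin_exp_lg (by
          rw [abs_le]; constructor <;> linarith) (hW.nn p n) (h4 p hp n))).trans ?_
      refine Real.exp_le_exp.2 ?_
      have k1 := hB.c_le' (c := 2 * 10 ^ 10) (a := 1 - 50.5 * ε) (b := 1 - 49 * ε)
        (by norm_num) (by linarith [hB.e0])
      unfold V05 at hH
      linarith)).1 (s * Mc2 ε P) (by nlinarith)
  rw [Nat.cast_one, div_one, cel_one] at h
  refine le_trans (le_of_eq ?_) h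
  refine sum_congr ?_ fun n _ => ?_
  · ext n
    simp only [mem_filter, ← mul_sum]
    refine and_congr_right fun _ => ?_
    show Xn (W5 ε P) ν n ≤ Mc2 ε P ↔ s * Xn (W5 ε P) ν n ≤ s * Mc2 ε P
    rw [mul_le_mul_iff_right₀ hs0]
  · rw [← mul_sum]
    rfl

omit hB in
theorem Gc_le {W : Finset ℕ} {M : ℝ} (h0 : ∀ n, 0 ≤ g n) (h1 : ∀ n, g n ≤ 1)
    (hν : ∀ p n, 0 ≤ ν p n) (n : ℤ) : Gc W M g ν n ≤ Real.exp (Xn W ν n) := by
  unfold Gc
  split_ifs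
  · unfold Xn
    rw [Real.exp_sum]
    have g1 : ∏ p ∈ W, √(ν p n) ≤ ∏ p ∈ W, Real.exp (lg (ν p n)) :=
      prod_le_prod (fun p _ => Real.sqrt_nonneg _) fun p _ => sqrt_le_exp_lg (hν p n)
    have g2 : 0 ≤ ∏ p ∈ W, √(ν p n) := prod_nonneg fun p _ => Real.sqrt_nonneg _
    calc g n * ∏ p ∈ W, √(ν p n) ≤ 1 * ∏ p ∈ W, √(ν p n) :=
          mul_le_mul_of_nonneg_right (h1 n) g2
      _ ≤ _ := by rw [one_mul]; exact g1
  · exact (Real.exp_pos _).le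

omit hB in
theorem Gc_nn {W : Finset ℕ} {M : ℝ} (h0 : ∀ n, 0 ≤ g n) (n : ℤ) : 0 ≤ Gc W M g ν n := by
  unfold Gc
  split_ifs
  · exact mul_nonneg (h0 n) (prod_nonneg fun p _ => Real.sqrt_nonneg _)
  · exact le_rfl

omit hB in
theorem Gc_zero {W : Finset ℕ} {M : ℝ} {n : ℤ} (h : ¬ Xn W ν n ≤ M) : Gc W M g ν n = 0 := by
  unfold Gc
  rw [if_neg h]

theorem pin_Φpos (hR : Raw5 ε P k N' Nmin Φ g ν) : 0 < Φ := (Real.exp_pos _).trans_le hR.Φlo

theorem pin_N'pos (hR : Raw5 ε P k N' Nmin Φ g ν) : (0 : ℝ) < N' :=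
  (Real.exp_pos _).trans_le hR.N'lo

/-- the Hellinger deviation -/
theorem pin_hell (hM : MgfAt ε P) (hR : Raw5 ε P k N' Nmin Φ g ν) :
    Hl (W5 ε P) ν ≤ P ^ (1 - 99.5 * ε) := by
  have h0 := hB.e0
  have h1' := hB.e1
  have hN0 := pin_N'pos hB hR
  have hΦ := pin_Φpos hB hR
  have h1 := pin_mgf_s hB hM one_pos (by norm_num) hR.wts hR.le4 hR.hell hR.N'lo
  have h2 := pin_prod (fun p hp => (pin_prime hB hp).pos) hR.wts
        (fun t => Real.exp (1 * lg t)) (a := 1 / 2) (C := -(1 / 4))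
        (fun t => (Real.exp_pos _).le) (fun p hp n => pin_exp_lg1 (hR.wts.nn p n))
  have h3 : N' * Φ ≤ ∑ n ∈ (Icc (1 : ℤ) N').filter (fun n => Xn (W5 ε P) ν n ≤ Mc2 ε P),
      Real.exp (1 * Xn (W5 ε P) ν n) := by
    rw [← hR.Gsum, sum_filter]
    refine sum_le_sum fun n _ => ?_
    split_ifs with hc
    · rw [one_mul]
      exact Gc_le hR.g0 hR.g1 hR.wts.nn n
    · exact (Gc_zero hc).le
  have h4 : Φ ≤ 2 * Real.exp (2 * -(1 / 4) * Hl (W5 ε P) ν) + Real.exp (-(P ^ (1 - 48.5 * ε))) := by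
    refine le_of_mul_le_mul_left ?_ hN0
    refine h3.trans (h1.trans (mul_le_mul_of_nonneg_left ?_ hN0.le))
    linarith
  have h5 : Real.exp (-(P ^ (1 - 48.5 * ε))) ≤ Φ / 2 := by
    have k1 := hB.c_le' (c := 6) (a := 1 - 100 * ε) (b := 1 - 48.5 * ε)
        (by norm_num) (by linarith)
    have k2 := hB.const_le (c := 2) (b := 1 - 48.5 * ε) (by norm_num) (by linarith)
    have k3 : Real.exp (-(P ^ (1 - 48.5 * ε))) ≤ Real.exp (-1 + -(3 * P ^ (1 - 100 * ε))) :=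
      Real.exp_le_exp.2 (by linarith)
    rw [Real.exp_add] at k3
    have k4 : Real.exp (-1) ≤ 1 / 2 := by
      rw [Real.exp_neg, ← one_div]
      exact one_div_le_one_div_of_le (by norm_num) (by linarith [Real.add_one_le_exp (1 : ℝ)])
    have k5 : Real.exp (-1) * Real.exp (-(3 * P ^ (1 - 100 * ε))) ≤ 1 / 2 * Φ :=
      mul_le_mul k4 hR.Φlo (Real.exp_pos _).le (by norm_num)
    linarith
  have h6 : Φ ≤ 4 * Real.exp (2 * -(1 / 4) * Hl (W5 ε P) ν) := by linarith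
  have h7 : Real.exp (-(3 * P ^ (1 - 100 * ε))) ≤
      Real.exp (3 + 2 * -(1 / 4) * Hl (W5 ε P) ν) := by
    refine (hR.Φlo.trans h6).trans ?_
    rw [Real.exp_add]
    refine mul_le_mul_of_nonneg_right ?_ (Real.exp_pos _).le
    linarith [Real.add_one_le_exp (3 : ℝ)]
  have h8 := Real.exp_le_exp.1 h7
  have k1 := hB.c_le' (c := 12) (a := 1 - 100 * ε) (b := 1 - 99.5 * ε)
        (by norm_num) (by linarith)
  have k2 := hB.const_le (c := 12) (b := 1 - 99.5 * ε) (by norm_num) (by linarith)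
  linarith

/-- the tail near the clip level -/
theorem pin_tail (hM : MgfAt ε P) (hR : Raw5 ε P k N' Nmin Φ g ν) :
    ∑ n ∈ (Icc (1 : ℤ) N').filter (fun n => ¬ Xn (W5 ε P) ν n ≤ Mc2 ε P - 3),
      Gc (W5 ε P) (Mc2 ε P) g ν n ≤ dl5 ε P ^ 2 * (N' * Φ) := by
  have h0 := hB.e0
  have h1' := hB.e1
  have hN0 := pin_N'pos hB hR
  have hΦ := pin_Φpos hB hR
  have hH := pin_hell hB hM hR
  have h1 := pin_mgf_s hB hM two_pos le_rfl hR.wts hR.le4 hR.hell hR.N'lo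
  have h2 := pin_prod (fun p hp => (pin_prime hB hp).pos) hR.wts
        (fun t => Real.exp (2 * lg t)) (a := 2 / 2) (C := 10 ^ 10)
        (fun t => (Real.exp_pos _).le) (fun p hp n => pin_exp_lg (by
          rw [abs_le]; constructor <;> norm_num) (hR.wts.nn p n) (hR.le4 p hp n))
  have h3 : ∑ n ∈ (Icc (1 : ℤ) N').filter (fun n => ¬ Xn (W5 ε P) ν n ≤ Mc2 ε P - 3),
      Gc (W5 ε P) (Mc2 ε P) g ν n ≤ Real.exp (3 - Mc2 ε P) *
      ∑ n ∈ (Icc (1 : ℤ) N').filter (fun n => Xn (W5 ε P) ν n ≤ Mc2 ε P),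
      Real.exp (2 * Xn (W5 ε P) ν n) := by
    rw [sum_filter, sum_filter, mul_sum]
    refine sum_le_sum fun n _ => ?_
    by_cases hc : Xn (W5 ε P) ν n ≤ Mc2 ε P
    · rw [if_pos hc]
      split_ifs with hd
      · exact mul_nonneg (Real.exp_pos _).le (Real.exp_pos _).le
      · rw [← Real.exp_add]
        refine (Gc_le hR.g0 hR.g1 hR.wts.nn n).trans (Real.exp_le_exp.2 ?_)
        linarith
    · rw [if_neg hc, Gc_zero hc]
      simp
  refine h3.trans ?_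
  have h4 : ∑ n ∈ (Icc (1 : ℤ) N').filter (fun n => Xn (W5 ε P) ν n ≤ Mc2 ε P),
      Real.exp (2 * Xn (W5 ε P) ν n) ≤ N' * Real.exp (2 + 2 * 10 ^ 10 * P ^ (1 - 99.5 * ε)) := by
    refine h1.trans (mul_le_mul_of_nonneg_left ?_ hN0.le)
    have k0 : 0 ≤ P ^ (1 - 99.5 * ε) := by have := hB.pos; positivity
    have k1 : ∏ p ∈ W5 ε P, ((∑ z ∈ range p, Real.exp (2 * lg (ν p z))) / (p : ℝ)) ≤
        Real.exp (2 * 10 ^ 10 * P ^ (1 - 99.5 * ε)) := by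
      refine h2.trans (Real.exp_le_exp.2 ?_)
      nlinarith
    have k2 : Real.exp (-(P ^ (1 - 48.5 * ε))) ≤ Real.exp (2 * 10 ^ 10 * P ^ (1 - 99.5 * ε)) := by
      refine Real.exp_le_exp.2 ?_
      have : 0 ≤ P ^ (1 - 48.5 * ε) := by have := hB.pos; positivity
      linarith
    rw [Real.exp_add]
    have k3 : (3 : ℝ) ≤ Real.exp 2 := by linarith [Real.add_one_le_exp (2 : ℝ)]
    have k4 := Real.exp_pos (2 * 10 ^ 10 * P ^ (1 - 99.5 * ε))
    nlinarith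
  calc Real.exp (3 - Mc2 ε P) *
      ∑ n ∈ (Icc (1 : ℤ) N').filter (fun n => Xn (W5 ε P) ν n ≤ Mc2 ε P),
      Real.exp (2 * Xn (W5 ε P) ν n) ≤
      Real.exp (3 - Mc2 ε P) * (N' * Real.exp (2 + 2 * 10 ^ 10 * P ^ (1 - 99.5 * ε))) :=
        mul_le_mul_of_nonneg_left h4 (Real.exp_pos _).le
    _ = N' * Real.exp (3 - Mc2 ε P + (2 + 2 * 10 ^ 10 * P ^ (1 - 99.5 * ε))) := by
        rw [Real.exp_add (3 - Mc2 ε P)]
        ring
    _ ≤ N' * Real.exp (-(P ^ (1 - 49.2 * ε)) + -(3 * P ^ (1 - 100 * ε))) := by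
        refine mul_le_mul_of_nonneg_left (Real.exp_le_exp.2 ?_) hN0.le
        have k1 := hB.c_le' (c := 4) (a := 1 - 49.2 * ε) (b := 1 - 49 * ε)
          (by norm_num) (by linarith)
        have k2 := hB.c_le' (c := 12) (a := 1 - 100 * ε) (b := 1 - 49 * ε)
          (by norm_num) (by linarith)
        have k3 := hB.c_le' (c := 8 * 10 ^ 10) (a := 1 - 99.5 * ε) (b := 1 - 49 * ε)
          (by norm_num) (by linarith)
        have k4 := hB.const_le (c := 20) (b := 1 - 49 * ε) (by norm_num) (by linarith)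
        unfold Mc2
        linarith
    _ = Real.exp (-(P ^ (1 - 49.2 * ε))) * (N' * Real.exp (-(3 * P ^ (1 - 100 * ε)))) := by
        rw [Real.exp_add]
        ring
    _ ≤ dl5 ε P ^ 2 * (N' * Φ) := by
        have k1 := pin_lm hB
        have k2 := hR.Φlo
        gcongr

end

end Vale.Agent.P042.UU.PIN
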