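import Vale.Agent.P042.UU.PinB

set_option autoImplicit false

/-!
Theorem S5, block PIN5, part C: perturbation of one weight, bound of the law.
-/

namespace Vale.Agent.P042.UU.PIN

open Polynomial Finset Filter Vale.Agent.P042.SS Vale.Agent.P042.TT

/-- the weights `ν`, multiplied by `F` at `p` -/
noncomputable def wt (ν : ℕ → ℤ → ℝ) (p : ℕ) (F : ℤ → ℝ) : ℕ → ℤ → ℝ :=
  Function.update ν p (fun n => ν p n * F n)

theorem wt_self (ν : ℕ → ℤ → ℝ) (p : ℕ) (F : ℤ → ℝ) (n : ℤ) : wt ν p F p n = ν p n * F n := by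
  unfold wt
  rw [Function.update_self]

theorem wt_ne (ν : ℕ → ℤ → ℝ) {p q : ℕ} (h : q ≠ p) (F : ℤ → ℝ) (n : ℤ) :
    wt ν p F q n = ν q n := by
  unfold wt
  rw [Function.update_of_ne h]

theorem zf_wt_ne (ν : ℕ → ℤ → ℝ) {p q : ℕ} (h : q ≠ p) (F : ℤ → ℝ) :
    zf (wt ν p F) q = zf ν q := by
  unfold zf
  simp only [wt_ne ν h F]

theorem zf_nn (ν : ℕ → ℤ → ℝ) (p : ℕ) : 0 ≤ zf ν p := by unfold zf; positivity

theorem zf_le1 (ν : ℕ → ℤ → ℝ) (p : ℕ) : zf ν p ≤ 1 := by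
  unfold zf
  refine div_le_one_of_le₀ ?_ (Nat.cast_nonneg _)
  have h := card_filter_le (range p) (fun x : ℕ => ν p x = 0)
  rw [card_range] at h
  exact_mod_cast h

theorem zf_wt_pos (ν : ℕ → ℤ → ℝ) (p : ℕ) (F : ℤ → ℝ) (hF : ∀ x, 0 < F x) :
    zf (wt ν p F) p = zf ν p := by
  unfold zf
  have : ∀ x : ℕ, (wt ν p F p x = 0) = (ν p x = 0) := by
    intro x
    rw [wt_self]
    simp [(hF x).ne']
  simp only [this]

/-- the law of the state mod `p` -/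
noncomputable def lw (ε P : ℝ) (N' : ℕ) (Φ : ℝ) (g : ℤ → ℝ) (ν : ℕ → ℤ → ℝ) (p : ℕ) (x : ℤ) : ℝ :=
  mass (Gc (W5 ε P) (Mc2 ε P) g ν) 0 N' p x / (N' * Φ)

section

variable {ε : ℝ} {k : ℕ} {P : ℝ} (hB : PinB ε k P) {N' Nmin : ℕ} {Φ : ℝ} {g : ℤ → ℝ}
  {ν : ℕ → ℤ → ℝ}

include hB

/-- the size condition for a modulus `D` with `k log D ≤ P / 100` -/
theorem size_ok (hR : Raw5 ε P k N' Nmin Φ g ν) {D M : ℕ} (hD : 1 ≤ D)
    (hDP : (k : ℝ) * Real.log D ≤ P / 100) (hM : (N' : ℝ) ≤ P * M) :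
    D ^ k * Nmin ≤ M ∧ ((D : ℝ) ^ k / M) ≤ Real.exp (-(P / 4)) := by
  have hP := hB.pos
  have hD0 : (0 : ℝ) < D := Nat.cast_pos.2 hD
  have hDk : (D : ℝ) ^ k = Real.exp (k * Real.log D) := by
    rw [mul_comm, Real.exp_mul, Real.exp_log hD0, Real.rpow_natCast]
  have hPe : P ≤ Real.exp (P / 100) := by
    have h1 : 1 + P / 100 + (P / 100) ^ 2 / 2 ≤ Real.exp (P / 100) :=
      Real.quadratic_le_exp_of_nonneg (by positivity)
    nlinarith [hB.big]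
  have hMlow : Real.exp (7 / 8 * P - P / 100) ≤ M := by
    rw [Real.exp_sub, div_le_iff₀ (Real.exp_pos _)]
    have h1 := hR.N'lo
    have hM0 : (0 : ℝ) ≤ M := Nat.cast_nonneg M
    calc Real.exp (7 / 8 * P) ≤ P * M := h1.trans hM
      _ ≤ M * Real.exp (P / 100) := by nlinarith
  have hNm : (Nmin : ℝ) ≤ Real.exp (P / 2 + P / 100) := by
    have h1 := hR.Nmin_le
    have h2 : (1 : ℝ) ≤ Real.exp (P / 2) := Real.one_le_exp (by positivity)
    have h3 : (2 : ℝ) ≤ Real.exp (P / 100) := by linarith [hB.big]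
    rw [Real.exp_add]
    nlinarith [Real.exp_pos (P / 2)]
  constructor
  · have h : ((D ^ k * Nmin : ℕ) : ℝ) ≤ (M : ℝ) := by
      push_cast
      rw [hDk]
      calc Real.exp (k * Real.log D) * Nmin ≤ Real.exp (P / 100) * Real.exp (P / 2 + P / 100) :=
            mul_le_mul (Real.exp_le_exp.2 hDP) hNm (Nat.cast_nonneg _) (Real.exp_pos _).le
        _ = Real.exp (P / 100 + (P / 2 + P / 100)) := (Real.exp_add _ _).symm
        _ ≤ Real.exp (7 / 8 * P - P / 100) := Real.exp_le_exp.2 (by linarith)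
        _ ≤ M := hMlow
    exact_mod_cast h
  · have hM0 : (0 : ℝ) < M := lt_of_lt_of_le (Real.exp_pos _) hMlow
    rw [div_le_iff₀ hM0, hDk]
    calc Real.exp (k * Real.log D) ≤ Real.exp (P / 100) := Real.exp_le_exp.2 hDP
      _ ≤ Real.exp (-(P / 4) + (7 / 8 * P - P / 100)) := Real.exp_le_exp.2 (by linarith)
      _ = Real.exp (-(P / 4)) * Real.exp (7 / 8 * P - P / 100) := Real.exp_add _ _
      _ ≤ Real.exp (-(P / 4)) * M := mul_le_mul_of_nonneg_left hMlow (Real.exp_pos _).le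

theorem self_le (N' : ℕ) : (N' : ℝ) ≤ P * N' :=
  le_mul_of_one_le_left (Nat.cast_nonneg _) hB.one

theorem dl_le_one : dl5 ε P ≤ 1 / 10 ^ 6 := by
  have h1 := dl5_small hB
  have h2 := hB.one
  have h3 : 1 ≤ P ^ 4 := one_le_pow₀ h2
  have h4 := (dl5_pos hB).le
  have h5 : 10 ^ 6 * dl5 ε P * 1 ≤ 10 ^ 6 * dl5 ε P * P ^ 4 :=
    mul_le_mul_of_nonneg_left h3 (by positivity)
  linarith

/-- the factor of the near maximality -/
theorem fac_le {u : ℝ} (h0 : 0 ≤ u) (hu : u ≤ Real.exp (-(P / 4))) :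
    (1 + u) * Real.exp (Real.exp (-(P ^ (1 - 49.5 * ε)))) ≤ 1 + 4 * dl5 ε P ^ 2 := by
  have h1 := pin_sl hB
  have h2 := pin_P4 hB
  have h3 := dl_le_one hB
  have h4 := (dl5_pos hB).le
  have h5 : Real.exp (Real.exp (-(P ^ (1 - 49.5 * ε)))) ≤ Real.exp (dl5 ε P ^ 2) :=
    Real.exp_le_exp.2 h1
  have h6 : dl5 ε P ^ 2 ≤ 1 / 10 ^ 6 := by nlinarith
  have h7 : Real.exp (dl5 ε P ^ 2) ≤ 1 + 2 * dl5 ε P ^ 2 := by
    have := Real.abs_exp_sub_one_sub_id_le (x := dl5 ε P ^ 2) (by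
      rw [abs_of_nonneg (sq_nonneg _)]; linarith)
    have k1 := (abs_le.1 this).2
    nlinarith [sq_nonneg (dl5 ε P)]
  calc (1 + u) * Real.exp (Real.exp (-(P ^ (1 - 49.5 * ε)))) ≤
      (1 + dl5 ε P ^ 2) * (1 + 2 * dl5 ε P ^ 2) := by
        refine mul_le_mul (by linarith) (h5.trans h7) (Real.exp_pos _).le (by positivity)
    _ ≤ 1 + 4 * dl5 ε P ^ 2 := by nlinarith [sq_nonneg (dl5 ε P)]

/-- near maximality over the weights -/
theorem pin_max1 (hR : Raw5 ε P k N' Nmin Φ g ν) {μ : ℕ → ℤ → ℝ} (hW : Wts (W5 ε P) μ)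
    (h4 : ∀ p ∈ W5 ε P, ∀ n, μ p n ≤ 4) (hH : Hl (W5 ε P) μ ≤ V05 ε P) :
    (∑ n ∈ Icc (1 : ℤ) N', Gc (W5 ε P) (Mc2 ε P) g μ n) *
      Real.exp (1 / 8 * ∑ p ∈ W5 ε P, zf μ p) ≤
    (N' * Φ * (1 + 4 * dl5 ε P ^ 2)) * Real.exp (1 / 8 * ∑ p ∈ W5 ε P, zf ν p) := by
  have hN0 := pin_N'pos hB hR
  have hΦ := pin_Φpos hB hR
  have hs := size_ok hB hR (D := 1) (M := N') le_rfl (by
    rw [Nat.cast_one, Real.log_one, mul_zero]
    have := hB.pos
    positivity) (self_le hB N')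
  have h := hR.max 1 N' 0 0 μ le_rfl hs.1 hs.1 (by rw [pin_Vn_one hB]; exact hW)
    (by rw [pin_Vn_one hB]; exact h4) (by rw [pin_Vn_one hB]; exact hH)
  rw [pin_Vn_one hB, cel_one] at h
  refine h.trans ?_
  have e1 : (N' : ℝ) * ((1 : ℕ) : ℝ) ^ k / N' = 1 := by
    rw [Nat.cast_one, one_pow, mul_one, div_self hN0.ne']
  rw [e1, Real.one_rpow]
  refine mul_le_mul_of_nonneg_right ?_ (Real.exp_pos _).le
  have h1 := fac_le hB (u := ((1 : ℕ) : ℝ) ^ k / N') (by positivity) hs.2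
  calc (N' : ℝ) / ((1 : ℕ) : ℝ) * Φ * (1 + ((1 : ℕ) : ℝ) ^ k / N') * 1 *
        Real.exp (Real.exp (-(P ^ (1 - 49.5 * ε)))) =
      N' * Φ * ((1 + ((1 : ℕ) : ℝ) ^ k / N') *
        Real.exp (Real.exp (-(P ^ (1 - 49.5 * ε))))) := by
        rw [Nat.cast_one, div_one]
        ring
    _ ≤ _ := mul_le_mul_of_nonneg_left h1 (by positivity)

theorem hl_term_nn {W : Finset ℕ} (hW' : W ⊆ W5 ε P) {μ : ℕ → ℤ → ℝ} (hW : Wts W μ) {p : ℕ}
    (hp : p ∈ W) :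
    0 ≤ 1 - (∑ x ∈ range p, √(μ p x)) / (p : ℝ) :=
  pin_h_nn (pin_prime hB (hW' hp)).pos (fun x : ℕ => μ p x) (fun x => hW.nn p x) (hW.mean p hp)

theorem wt_wts (hW : Wts (W5 ε P) ν) {p : ℕ} (hp : p ∈ W5 ε P) {F : ℤ → ℝ}
    (hF0 : ∀ x, 0 ≤ F x) (hFp : ∀ x, F (x + p) = F x)
    (hFm : ∑ x ∈ range p, ν p x * F x = p) : Wts (W5 ε P) (wt ν p F) := by
  refine ⟨fun q n => ?_, fun q hq n => ?_, fun q hq => ?_⟩
  · by_cases h : q = p
    · subst h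
      rw [wt_self]
      exact mul_nonneg (hW.nn _ _) (hF0 _)
    · rw [wt_ne ν h]
      exact hW.nn _ _
  · by_cases h : q = p
    · subst h
      rw [wt_self, wt_self, hW.per _ hp, hFp]
    · rw [wt_ne ν h, wt_ne ν h]
      exact hW.per q hq n
  · by_cases h : q = p
    · subst h
      simp only [wt_self]
      exact hFm
    · simp only [wt_ne ν h]
      exact hW.mean q hq

theorem wt_hl (hR : Raw5 ε P k N' Nmin Φ g ν) (hM : MgfAt ε P) {p : ℕ} (hp : p ∈ W5 ε P)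
    (F : ℤ → ℝ) : Hl (W5 ε P) (wt ν p F) ≤ V05 ε P := by
  have h0 := hB.e0
  have h1' := hB.e1
  have h1 := pin_hell hB hM hR
  have h2 : Hl (W5 ε P) (wt ν p F) ≤ Hl (W5 ε P) ν + 1 := by
    unfold Hl
    rw [← add_sum_erase _ _ hp, ← add_sum_erase (W5 ε P)
      (fun p => 1 - (∑ x ∈ range p, √(ν p x)) / (p : ℝ)) hp]
    have e1 : ∑ q ∈ (W5 ε P).erase p, (1 - (∑ x ∈ range q, √(wt ν p F q x)) / (q : ℝ)) =
        ∑ q ∈ (W5 ε P).erase p, (1 - (∑ x ∈ range q, √(ν q x)) / (q : ℝ)) := by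
      refine sum_congr rfl fun q hq => ?_
      simp only [wt_ne ν (ne_of_mem_erase hq)]
    rw [e1]
    have e2 := hl_term_nn hB subset_rfl hR.wts hp
    have e3 : 0 ≤ (∑ x ∈ range p, √(wt ν p F p x)) / (p : ℝ) :=
      div_nonneg (sum_nonneg fun _ _ => Real.sqrt_nonneg _) (Nat.cast_nonneg _)
    linarith
  have k1 := hB.c_le' (c := 2) (a := 1 - 99.5 * ε) (b := 1 - 50.5 * ε)
        (by norm_num) (by linarith)
  have k2 := hB.const_le (c := 2) (b := 1 - 50.5 * ε) (by norm_num) (by linarith)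
  unfold V05
  linarith

theorem lw_nn (hR : Raw5 ε P k N' Nmin Φ g ν) (p : ℕ) (x : ℤ) : 0 ≤ lw ε P N' Φ g ν p x := by
  have hN0 := pin_N'pos hB hR
  have hΦ := pin_Φpos hB hR
  unfold lw mass
  refine div_nonneg (sum_nonneg fun n _ => ?_) (by positivity)
  exact Gc_nn hR.g0 n

theorem sum_lw (hR : Raw5 ε P k N' Nmin Φ g ν) {p : ℕ} (hp : p ∈ W5 ε P) (F : ℤ → ℝ)
    (hFp : ∀ x, F (x + p) = F x) :
    ∑ n ∈ Icc (1 : ℤ) N', Gc (W5 ε P) (Mc2 ε P) g ν n * F n =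
      (∑ x ∈ range p, lw ε P N' Φ g ν p x * F x) * (N' * Φ) := by
  have hN0 := pin_N'pos hB hR
  have hΦ := pin_Φpos hB hR
  rw [sum_per _ N' p (pin_prime hB hp).pos F hFp, sum_mul]
  refine sum_congr rfl fun x _ => ?_
  unfold lw
  field_simp

theorem sum_lw_one (hR : Raw5 ε P k N' Nmin Φ g ν) {p : ℕ} (hp : p ∈ W5 ε P) :
    ∑ x ∈ range p, lw ε P N' Φ g ν p x = 1 := by
  have hN0 := pin_N'pos hB hR
  have hΦ := pin_Φpos hB hR
  have h := sum_lw hB hR hp (fun _ => 1) (fun _ => rfl)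
  simp only [mul_one] at h
  rw [hR.Gsum] at h
  have h1 : (N' : ℝ) * Φ ≠ 0 := by positivity
  have h2 : (∑ x ∈ range p, lw ε P N' Φ g ν p x) * (N' * Φ) = 1 * (N' * Φ) := by
    rw [← h, one_mul]
  exact mul_right_cancel₀ h1 h2

/-- **perturbation of one weight** -/
theorem pin_pert (hR : Raw5 ε P k N' Nmin Φ g ν) (hM : MgfAt ε P) {p : ℕ} (hp : p ∈ W5 ε P)
    {F : ℤ → ℝ} (hF0 : ∀ x, 0 ≤ F x) (hF4 : ∀ x, F x ≤ 4) (hFp : ∀ x, F (x + p) = F x)
    (hFν : ∀ x, ν p x * F x ≤ 4) (hFm : ∑ x ∈ range p, ν p x * F x = p) :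
    (∑ x ∈ range p, lw ε P N' Φ g ν p x * √(F x) - 2 * dl5 ε P ^ 2) *
      Real.exp (1 / 8 * zf (wt ν p F) p) ≤
    (1 + 4 * dl5 ε P ^ 2) * Real.exp (1 / 8 * zf ν p) := by
  have hN0 := pin_N'pos hB hR
  have hΦ := pin_Φpos hB hR
  have hNΦ : 0 < (N' : ℝ) * Φ := by positivity
  have h1 := pin_max1 hB hR (wt_wts hB hR.wts hp hF0 hFp hFm) (fun q hq n => by
    by_cases h : q = p
    · subst h
      rw [wt_self]
      exact hFν n
    · rw [wt_ne ν h]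
      exact hR.le4 q hq n) (wt_hl hB hR hM hp F)
  -- the reward
  rw [← add_sum_erase _ _ hp, ← add_sum_erase (W5 ε P) (fun p => zf ν p) hp] at h1
  have e1 : ∑ q ∈ (W5 ε P).erase p, zf (wt ν p F) q = ∑ q ∈ (W5 ε P).erase p, zf ν q :=
    sum_congr rfl fun q hq => zf_wt_ne ν (ne_of_mem_erase hq) F
  rw [e1, mul_add (1 / 8 : ℝ), mul_add (1 / 8 : ℝ), Real.exp_add, Real.exp_add, ← mul_assoc,
    ← mul_assoc] at h1
  have h2 := le_of_mul_le_mul_right h1 (Real.exp_pos _)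
  -- the sum
  have h3 : ∑ n ∈ Icc (1 : ℤ) N', Gc (W5 ε P) (Mc2 ε P) g ν n * √(F n) ≤
      ∑ n ∈ Icc (1 : ℤ) N', Gc (W5 ε P) (Mc2 ε P) g (wt ν p F) n +
      2 * (dl5 ε P ^ 2 * (N' * Φ)) := by
    have ht := pin_tail hB hM hR
    rw [sum_filter] at ht
    have : ∑ n ∈ Icc (1 : ℤ) N', Gc (W5 ε P) (Mc2 ε P) g ν n * √(F n) ≤
        ∑ n ∈ Icc (1 : ℤ) N', (Gc (W5 ε P) (Mc2 ε P) g (wt ν p F) n +
        2 * (if ¬ Xn (W5 ε P) ν n ≤ Mc2 ε P - 3 then Gc (W5 ε P) (Mc2 ε P) g ν n else 0)) := by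
      refine sum_le_sum fun n _ => ?_
      have k0 : 0 ≤ Gc (W5 ε P) (Mc2 ε P) g (wt ν p F) n := Gc_nn hR.g0 n
      have k1 : 0 ≤ Gc (W5 ε P) (Mc2 ε P) g ν n := Gc_nn hR.g0 n
      have k2 : √(F n) ≤ 2 := by
        rw [Real.sqrt_le_left (by norm_num)]
        linarith [hF4 n]
      split_ifs with hc
      · rw [mul_zero, add_zero]
        refine le_of_eq ?_
        have hc1 : Xn (W5 ε P) (wt ν p F) n ≤ Mc2 ε P := by
          have : Xn (W5 ε P) (wt ν p F) n ≤ Xn (W5 ε P) ν n + 1 := by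
            unfold Xn
            rw [← add_sum_erase _ _ hp, ← add_sum_erase (W5 ε P) (fun p => lg (ν p n)) hp]
            have e2 : ∑ q ∈ (W5 ε P).erase p, lg (wt ν p F q n) =
                ∑ q ∈ (W5 ε P).erase p, lg (ν q n) :=
              sum_congr rfl fun q hq => by rw [wt_ne ν (ne_of_mem_erase hq)]
            rw [e2, wt_self]
            have := lg_mul_le (hR.wts.nn p n) (hF0 n) (hF4 n)
            linarith
          linarith
        unfold Gc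
        rw [if_pos hc1, if_pos (by linarith : Xn (W5 ε P) ν n ≤ Mc2 ε P), mul_assoc]
        congr 1
        have e2 : ∏ q ∈ (W5 ε P).erase p, √(wt ν p F q n) =
            ∏ q ∈ (W5 ε P).erase p, √(ν q n) :=
          prod_congr rfl fun q hq => by rw [wt_ne ν (ne_of_mem_erase hq)]
        have e3 : ∏ q ∈ W5 ε P, √(wt ν p F q n) =
            √(ν p n * F n) * ∏ q ∈ (W5 ε P).erase p, √(ν q n) := by
          rw [← mul_prod_erase _ _ hp, e2, wt_self]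
        have e4 : ∏ q ∈ W5 ε P, √(ν q n) = √(ν p n) * ∏ q ∈ (W5 ε P).erase p, √(ν q n) :=
          (mul_prod_erase _ _ hp).symm
        rw [e3, e4, Real.sqrt_mul (hR.wts.nn p n)]
        ring
      · nlinarith
    rw [sum_add_distrib, ← mul_sum] at this
    linarith
  rw [sum_lw hB hR hp (fun x => √(F x)) (fun x => by simp only [hFp])] at h3
  have h4 : (∑ x ∈ range p, lw ε P N' Φ g ν p x * √(F x) - 2 * dl5 ε P ^ 2) * (N' * Φ) ≤
      ∑ n ∈ Icc (1 : ℤ) N', Gc (W5 ε P) (Mc2 ε P) g (wt ν p F) n := by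
    linarith
  refine le_of_mul_le_mul_right ?_ hNΦ
  calc (∑ x ∈ range p, lw ε P N' Φ g ν p x * √(F x) - 2 * dl5 ε P ^ 2) *
      Real.exp (1 / 8 * zf (wt ν p F) p) * (N' * Φ) =
      (∑ x ∈ range p, lw ε P N' Φ g ν p x * √(F x) - 2 * dl5 ε P ^ 2) * (N' * Φ) *
      Real.exp (1 / 8 * zf (wt ν p F) p) := by ring
    _ ≤ (∑ n ∈ Icc (1 : ℤ) N', Gc (W5 ε P) (Mc2 ε P) g (wt ν p F) n) *
      Real.exp (1 / 8 * zf (wt ν p F) p) := mul_le_mul_of_nonneg_right h4 (Real.exp_pos _).le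
    _ ≤ _ := h2
    _ = _ := by ring

theorem Vn_prime {p : ℕ} (hp : p ∈ W5 ε P) : Vn ε P p = (W5 ε P).erase p := by
  ext q
  unfold Vn
  simp only [mem_filter, mem_erase]
  constructor
  · rintro ⟨h1, h2⟩
    exact ⟨fun h => h2 (h ▸ dvd_rfl), h1⟩
  · rintro ⟨h1, h2⟩
    refine ⟨h2, fun h => h1 ?_⟩
    exact (Nat.prime_dvd_prime_iff_eq (pin_prime hB h2) (pin_prime hB hp)).1 h

theorem k_log_p {p : ℕ} (hp : p ∈ W5 ε P) : (k : ℝ) * Real.log p ≤ P / 100 := by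
  have h0 := hB.e0
  have h1' := hB.e1
  have h1 := pin_log_p hB hp
  have h2 : (k : ℝ) * Real.log p ≤ k * (2 * P ^ (ε / 20)) :=
    mul_le_mul_of_nonneg_left (h1.trans (by linarith [hB.lgP])) (Nat.cast_nonneg k)
  have h3 := hB.c_le (c := 200 * k) (a := ε / 20) (b := 1) (by
    have : (0 : ℝ) ≤ k := Nat.cast_nonneg k
    linarith) (by linarith)
  rw [Real.rpow_one] at h3
  linarith

/-- the small exponent -/
theorem hl_mono {V : Finset ℕ} (hV : V ⊆ W5 ε P) (hW : Wts (W5 ε P) ν) :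
    Hl V ν ≤ Hl (W5 ε P) ν := by
  unfold Hl
  exact sum_le_sum_of_subset_of_nonneg hV fun p hp _ => hl_term_nn hB subset_rfl hW hp

omit hB in
theorem wts_mono {V W : Finset ℕ} (hV : V ⊆ W) (hW : Wts W ν) : Wts V ν :=
  ⟨hW.nn, fun p hp => hW.per p (hV hp), fun p hp => hW.mean p (hV hp)⟩

/-- **bound of the law** -/
theorem lw_le (hR : Raw5 ε P k N' Nmin Φ g ν) (hM : MgfAt ε P) {p : ℕ} (hp : p ∈ W5 ε P) (x : ℤ) :
    lw ε P N' Φ g ν p x ≤ √(ν p x) / p * Real.exp (4 * dl5 ε P ^ 2 +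
      eta5 ε P * (k * Real.log p) + zf ν p / 8) + dl5 ε P ^ 2 := by
  have hN0 := pin_N'pos hB hR
  have hΦ := pin_Φpos hB hR
  have hNΦ : 0 < (N' : ℝ) * Φ := by positivity
  have hpp := pin_prime hB hp
  have hp0 : (0 : ℝ) < p := Nat.cast_pos.2 hpp.pos
  have hs := size_ok hB hR (D := p) (M := N') hpp.pos (k_log_p hB hp) (self_le hB N')
  have hVe := Vn_prime hB hp
  have hsub : Vn ε P p ⊆ W5 ε P := filter_subset _ _
  have h := hR.max p N' 0 x ν hpp.pos hs.1 hs.1 (wts_mono hsub hR.wts)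
    (fun q hq n => hR.le4 q (hsub hq) n) ((hl_mono hB hsub hR.wts).trans hR.hell)
  rw [← add_sum_erase (W5 ε P) (fun p => zf ν p) hp, ← hVe, mul_add (1 / 8 : ℝ) (zf ν p),
    Real.exp_add, ← mul_assoc] at h
  have h2 := le_of_mul_le_mul_right h (Real.exp_pos _)
  -- the constant
  have e1 : ((N' : ℝ) * (p : ℝ) ^ k / N') ^ (eta5 ε P) =
      Real.exp (eta5 ε P * ((k : ℝ) * Real.log p)) := by
    have hk : (p : ℝ) ^ k = Real.exp (k * Real.log p) := by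
      rw [mul_comm, Real.exp_mul, Real.exp_log hp0, Real.rpow_natCast]
    rw [mul_div_cancel_left₀ _ hN0.ne', hk, ← Real.exp_mul, mul_comm]
  rw [e1] at h2
  have e2 := fac_le hB (u := (p : ℝ) ^ k / N') (by positivity) hs.2
  have e3 : (1 + (p : ℝ) ^ k / N') * Real.exp (Real.exp (-(P ^ (1 - 49.5 * ε)))) ≤
      Real.exp (4 * dl5 ε P ^ 2) := e2.trans (by linarith [Real.add_one_le_exp (4 * dl5 ε P ^ 2)])
  have h3 : ∑ n ∈ cel 0 N' p x, Gc (Vn ε P p) (Mc2 ε P) g ν n ≤ (N' * Φ) * (1 / p *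
      Real.exp (4 * dl5 ε P ^ 2 + eta5 ε P * (k * Real.log p) + zf ν p / 8)) := by
    refine h2.trans ?_
    rw [Real.exp_add, Real.exp_add, show (1 : ℝ) / 8 * zf ν p = zf ν p / 8 by ring]
    have : (0 : ℝ) < N' / p * Φ * Real.exp (eta5 ε P * (k * Real.log p)) *
      Real.exp (zf ν p / 8) := by positivity
    calc (N' : ℝ) / p * Φ * (1 + (p : ℝ) ^ k / N') * Real.exp (eta5 ε P * (k * Real.log p)) *
        Real.exp (Real.exp (-(P ^ (1 - 49.5 * ε)))) * Real.exp (zf ν p / 8) =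
        (N' / p * Φ * Real.exp (eta5 ε P * (k * Real.log p)) * Real.exp (zf ν p / 8)) *
          ((1 + (p : ℝ) ^ k / N') * Real.exp (Real.exp (-(P ^ (1 - 49.5 * ε))))) := by ring
      _ ≤ (N' / p * Φ * Real.exp (eta5 ε P * (k * Real.log p)) * Real.exp (zf ν p / 8)) *
          Real.exp (4 * dl5 ε P ^ 2) := mul_le_mul_of_nonneg_left e3 this.le
      _ = _ := by ring
  -- the sum
  have hcel : cel 0 N' p x = (Icc (1 : ℤ) N').filter (fun n : ℤ => n ≡ x [ZMOD (p : ℕ)]) := by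
    ext n
    simp only [cel, mem_filter, mem_Ioc, mem_Icc, zero_add]
    constructor
    · rintro ⟨⟨k1, k2⟩, k3⟩
      exact ⟨⟨by omega, k2⟩, k3⟩
    · rintro ⟨⟨k1, k2⟩, k3⟩
      exact ⟨⟨by omega, k2⟩, k3⟩
  have h4 : mass (Gc (W5 ε P) (Mc2 ε P) g ν) 0 N' p x ≤
      √(ν p x) * ∑ n ∈ cel 0 N' p x, Gc (Vn ε P p) (Mc2 ε P) g ν n +
      dl5 ε P ^ 2 * (N' * Φ) := by
    have ht := pin_tail hB hM hR
    rw [sum_filter] at ht
    have ht' : ∑ n ∈ cel 0 N' p x, (if ¬ Xn (W5 ε P) ν n ≤ Mc2 ε P - 3 then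
        Gc (W5 ε P) (Mc2 ε P) g ν n else 0) ≤ dl5 ε P ^ 2 * (N' * Φ) := by
      refine le_trans ?_ ht
      rw [hcel]
      refine sum_le_sum_of_subset_of_nonneg (filter_subset _ _) fun n _ _ => ?_
      split_ifs
      · exact le_rfl
      · exact Gc_nn hR.g0 n
    have : mass (Gc (W5 ε P) (Mc2 ε P) g ν) 0 N' p x ≤
        ∑ n ∈ cel 0 N' p x, (√(ν p x) * Gc (Vn ε P p) (Mc2 ε P) g ν n +
        (if ¬ Xn (W5 ε P) ν n ≤ Mc2 ε P - 3 then Gc (W5 ε P) (Mc2 ε P) g ν n else 0)) := by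
      unfold mass
      refine sum_le_sum fun n hn => ?_
      have k0 : 0 ≤ Gc (Vn ε P p) (Mc2 ε P) g ν n := Gc_nn hR.g0 n
      split_ifs with hc
      · rw [add_zero]
        refine le_of_eq ?_
        have hmod : n ≡ x [ZMOD (p : ℕ)] := (mem_filter.1 hn).2
        have hνn : ν p n = ν p x := by
          rw [← extb_per_emod (hR.wts.per p hp) n, ← extb_per_emod (hR.wts.per p hp) x, hmod]
        have hc1 : Xn (Vn ε P p) ν n ≤ Mc2 ε P := by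
          have e4 : Xn (W5 ε P) ν n = lg (ν p n) + Xn (Vn ε P p) ν n := by
            unfold Xn
            rw [← add_sum_erase _ _ hp, hVe]
          have := lg_ge (ν p n)
          linarith
        unfold Gc
        rw [if_pos hc1, if_pos (by linarith : Xn (W5 ε P) ν n ≤ Mc2 ε P),
          ← mul_prod_erase _ _ hp, hVe, hνn]
        ring
      · have := Real.sqrt_nonneg (ν p x)
        nlinarith
    rw [sum_add_distrib, ← mul_sum] at this
    linarith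
  unfold lw
  rw [div_le_iff₀ hNΦ]
  refine h4.trans ?_
  have h5 := mul_le_mul_of_nonneg_left h3 (Real.sqrt_nonneg (ν p x))
  calc √(ν p x) * ∑ n ∈ cel 0 N' p x, Gc (Vn ε P p) (Mc2 ε P) g ν n + dl5 ε P ^ 2 * (N' * Φ) ≤
      √(ν p x) * ((N' * Φ) * (1 / p * Real.exp (4 * dl5 ε P ^ 2 +
        eta5 ε P * (k * Real.log p) + zf ν p / 8))) + dl5 ε P ^ 2 * (N' * Φ) := by linarith
    _ = _ := by ring

end

end Vale.Agent.P042.UU.PIN
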