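import Vale.Agent.P042.UU.PinC

set_option autoImplicit false

/-!
Theorem S5, block PIN5, part D: size of the weights, marginals.
-/

namespace Vale.Agent.P042.UU.PIN

open Polynomial Finset Filter Vale.Agent.P042.SS Vale.Agent.P042.TT

theorem exp_le_inv {c : ℝ} (h1 : c < 1) : Real.exp c ≤ 1 / (1 - c) := by
  rw [le_div_iff₀ (by linarith)]
  have h2 : 1 - c ≤ Real.exp (-c) := by
    have := Real.add_one_le_exp (-c)
    linarith
  have h3 : Real.exp c * Real.exp (-c) = 1 := by rw [← Real.exp_add]; simp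
  exact (mul_le_mul_of_nonneg_left h2 (Real.exp_pos _).le).trans_eq h3

theorem sqrt_lb {u : ℝ} (hu : |u| ≤ 1) : 1 + u / 2 - u ^ 2 / 2 ≤ √(1 + u) := by
  have h := abs_le.1 hu
  apply Real.le_sqrt_of_sq_le
  have h1 : 0 ≤ u ^ 2 * (1 - u) := mul_nonneg (sq_nonneg _) (by linarith)
  have h2 : 0 ≤ u ^ 2 * (1 + u) := mul_nonneg (sq_nonneg _) (by linarith)
  nlinarith [mul_nonneg h1 (by linarith : (0 : ℝ) ≤ 1 + u)]

theorem rep_nat (p : ℕ) (hp : 0 < p) (x : ℤ) : ∃ x0 : ℕ, x0 ∈ range p ∧ (x0 : ℤ) = x % p := by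
  have hp0 : (0 : ℤ) < p := by exact_mod_cast hp
  have h1 := Int.emod_lt_of_pos x hp0
  have h2 := Int.emod_nonneg x hp0.ne'
  exact ⟨(x % p).toNat, by rw [mem_range]; omega, by omega⟩

/-- the indicator of a class -/
noncomputable def ic (p x0 : ℕ) (x : ℤ) : ℝ := if (p : ℤ) ∣ x - x0 then 1 else 0

theorem ic_per (p x0 : ℕ) (x : ℤ) : ic p x0 (x + p) = ic p x0 x := by
  unfold ic
  have : ((p : ℤ) ∣ x + p - x0) = ((p : ℤ) ∣ x - x0) := by
    rw [show x + (p : ℤ) - x0 = (x - x0) + p by ring]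
    simp
  simp only [this]

theorem ic_nat {p x0 x : ℕ} (h0 : x0 ∈ range p) (hx : x ∈ range p) :
    ic p x0 (x : ℤ) = if x = x0 then 1 else 0 := by
  unfold ic
  rw [mem_range] at h0 hx
  congr 1
  rw [eq_iff_iff]
  constructor
  · intro h
    have h1 := Int.eq_zero_of_abs_lt_dvd h (by rw [abs_lt]; omega)
    omega
  · rintro rfl
    simp

theorem sum_ic {p x0 : ℕ} (h0 : x0 ∈ range p) (f : ℕ → ℝ) :
    ∑ x ∈ range p, f x * ic p x0 (x : ℤ) = f x0 := by
  have : ∀ x ∈ range p, f x * ic p x0 (x : ℤ) = if x = x0 then f x else 0 := by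
    intro x hx
    rw [ic_nat h0 hx]
    split_ifs <;> simp
  rw [sum_congr rfl this, sum_ite_eq' _ _ _, if_pos h0]

section

variable {ε : ℝ} {k : ℕ} {P : ℝ} (hB : PinB ε k P) {N' Nmin : ℕ} {Φ : ℝ} {g : ℤ → ℝ}
  {ν : ℕ → ℤ → ℝ}

include hB

/-- the small exponent -/
theorem sm_nn {p : ℕ} (hp : p ∈ W5 ε P) :
    0 ≤ 4 * dl5 ε P ^ 2 + eta5 ε P * (k * Real.log p) := by
  have h1 := hB.pos
  have h2 : 0 ≤ Real.log p := Real.log_nonneg (by exact_mod_cast (pin_prime hB hp).one_lt.le)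
  unfold eta5
  positivity

theorem bn5_pos : 0 < bn5 ε P := by have := hB.pos; unfold bn5; positivity

theorem dl_p_le {p : ℕ} (hp : p ∈ W5 ε P) : dl5 ε P * p ≤ bn5 ε P / 10 ^ 6 := by
  have hP := hB.pos
  have h1 := dl5_small hB
  have h2 := pin_p_le hB hp
  have h3 := (dl5_pos hB).le
  have h4 : P ^ (-2 : ℝ) ≤ bn5 ε P := hB.r_le (by linarith [hB.e1])
  have h5 : P ^ (-2 : ℝ) * P ^ 2 = 1 := by
    rw [← Real.rpow_natCast, ← Real.rpow_add hP]
    norm_num
  have h6 : dl5 ε P * P ^ 2 ≤ P ^ (-2 : ℝ) / 10 ^ 6 := by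
    have h7 : 10 ^ 6 * dl5 ε P * P ^ 2 * P ^ 2 ≤ P ^ (-2 : ℝ) * P ^ 2 := by
      rw [h5]
      refine le_trans (le_of_eq ?_) h1
      ring
    have := le_of_mul_le_mul_right h7 (by positivity)
    linarith
  have h8 : dl5 ε P * p ≤ dl5 ε P * P ^ 2 := mul_le_mul_of_nonneg_left h2 h3
  linarith

theorem dl_le {p : ℕ} (hp : p ∈ W5 ε P) : dl5 ε P ≤ bn5 ε P / 10 ^ 6 := by
  refine le_trans ?_ (dl_p_le hB hp)
  have h1 : (1 : ℝ) ≤ p := by exact_mod_cast (pin_prime hB hp).one_lt.le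
  exact le_mul_of_one_le_right (dl5_pos hB).le h1

theorem sm_le {p : ℕ} (hp : p ∈ W5 ε P) :
    4 * dl5 ε P ^ 2 + eta5 ε P * (k * Real.log p) ≤ bn5 ε P / 100 := by
  have hP := hB.pos
  have h0 := hB.e0
  have hb := bn5_pos hB
  have h1 := dl_le hB hp
  have h2 := dl_le_one hB
  have h3 := (dl5_pos hB).le
  have h4 : eta5 ε P * (k * Real.log p) ≤ bn5 ε P / 200 := by
    have k1 := pin_log_p hB hp
    have k2 : (k : ℝ) * Real.log p ≤ k * (2 * P ^ (ε / 20)) :=
      mul_le_mul_of_nonneg_left (k1.trans (by linarith [hB.lgP])) (Nat.cast_nonneg k)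
    have k3 : 0 ≤ eta5 ε P := by unfold eta5; positivity
    have k4 := hB.c_le (c := 400 * k) (a := -(98 * ε) + ε / 20) (b := -(97 * ε)) (by
      have : (0 : ℝ) ≤ k := Nat.cast_nonneg k
      linarith) (by linarith)
    rw [Real.rpow_add hP] at k4
    calc eta5 ε P * (k * Real.log p) ≤ eta5 ε P * (k * (2 * P ^ (ε / 20))) :=
          mul_le_mul_of_nonneg_left k2 k3
      _ = (400 * k * (P ^ (-(98 * ε)) * P ^ (ε / 20))) / 200 := by unfold eta5; ring
      _ ≤ bn5 ε P / 200 := by unfold bn5; linarith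
  nlinarith

theorem bn5_le : bn5 ε P ≤ 1 / 10 := by
  have hP := hB.pos
  have h0 := hB.e0
  have h := hB.c_le' (c := 10) (a := -(97 * ε)) (b := 0) (by norm_num) (by linarith)
  rw [Real.rpow_zero] at h
  unfold bn5
  linarith

/-- small perturbations -/
theorem pert_small (hR : Raw5 ε P k N' Nmin Φ g ν) (hM : MgfAt ε P) {p : ℕ} (hp : p ∈ W5 ε P)
    {u : ℤ → ℝ} (hu : ∀ x, |u x| ≤ 1) (hup : ∀ x, u (x + p) = u x)
    (hu4 : ∀ x, ν p x * (1 + dl5 ε P * u x) ≤ 4) (hum : ∑ x ∈ range p, ν p x * u x = 0) :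
    ∑ x ∈ range p, lw ε P N' Φ g ν p x * u x ≤ 13 * dl5 ε P := by
  have hd := dl5_pos hB
  have hd1 := dl_le_one hB
  have hF : ∀ x, |dl5 ε P * u x| ≤ dl5 ε P := by
    intro x
    rw [abs_mul, abs_of_pos hd]
    have := mul_le_mul_of_nonneg_left (hu x) hd.le
    linarith
  have hF0 : ∀ x, 0 < 1 + dl5 ε P * u x := by
    intro x
    have := (abs_le.1 (hF x)).1
    linarith
  have h := pin_pert hB hR hM hp (F := fun x => 1 + dl5 ε P * u x) (fun x => (hF0 x).le)
    (fun x => by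
      have := (abs_le.1 (hF x)).2
      linarith) (fun x => by simp only [hup]) hu4 (by
      have e : ∑ x ∈ range p, ν p x * (1 + dl5 ε P * u x) =
          ∑ x ∈ range p, ν p x + dl5 ε P * ∑ x ∈ range p, ν p x * u x := by
        rw [mul_sum, ← sum_add_distrib]
        refine sum_congr rfl fun x _ => ?_
        ring
      rw [e, hum, mul_zero, add_zero, hR.wts.mean p hp])
  rw [zf_wt_pos ν p _ hF0] at h
  have h1 := le_of_mul_le_mul_right h (Real.exp_pos _)
  have h2 : 1 + dl5 ε P / 2 * ∑ x ∈ range p, lw ε P N' Φ g ν p x * u x - dl5 ε P ^ 2 / 2 ≤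
      ∑ x ∈ range p, lw ε P N' Φ g ν p x * √(1 + dl5 ε P * u x) := by
    have e : 1 + dl5 ε P / 2 * ∑ x ∈ range p, lw ε P N' Φ g ν p x * u x - dl5 ε P ^ 2 / 2 =
        ∑ x ∈ range p, lw ε P N' Φ g ν p x * (1 + dl5 ε P * u x / 2 - dl5 ε P ^ 2 / 2) := by
      have e1 : ∀ x : ℕ, lw ε P N' Φ g ν p x * (1 + dl5 ε P * u x / 2 - dl5 ε P ^ 2 / 2) =
          lw ε P N' Φ g ν p x * (1 - dl5 ε P ^ 2 / 2) +
          dl5 ε P / 2 * (lw ε P N' Φ g ν p x * u x) := by intro x; ring
      simp only [e1]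
      rw [sum_add_distrib, ← sum_mul, ← mul_sum, sum_lw_one hB hR hp]
      ring
    rw [e]
    refine sum_le_sum fun x _ => mul_le_mul_of_nonneg_left ?_ (lw_nn hB hR p x)
    have k1 := sqrt_lb ((hF x).trans (by linarith : dl5 ε P ≤ 1))
    have k2 : (dl5 ε P * u x) ^ 2 ≤ dl5 ε P ^ 2 := sq_le_sq' (by
      have := (abs_le.1 (hF x)).1
      linarith) (abs_le.1 (hF x)).2
    linarith
  have h3 : dl5 ε P * (∑ x ∈ range p, lw ε P N' Φ g ν p x * u x) ≤ dl5 ε P * (13 * dl5 ε P) := by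
    nlinarith
  exact le_of_mul_le_mul_left h3 hd

theorem p_big {p : ℕ} (hp : p ∈ W5 ε P) : dl5 ε P * p ≤ 1 / 10 ^ 6 := by
  have h1 := dl_p_le hB hp
  have h2 := bn5_le hB
  linarith

/-- the weights are smaller than `3` -/
theorem nu_lt3 (hR : Raw5 ε P k N' Nmin Φ g ν) (hM : MgfAt ε P) {p : ℕ} (hp : p ∈ W5 ε P) (x : ℤ) :
    ν p x < 3 := by
  by_contra hx
  push Not at hx
  have hd := dl5_pos hB
  have hd1 := dl_le_one hB
  have hpp := pin_prime hB hp
  have hp0 : (0 : ℝ) < p := Nat.cast_pos.2 hpp.pos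
  have hdp := p_big hB hp
  set b : ℝ := (∑ x ∈ range p, if 3 ≤ ν p x then ν p x else 0) / p with hb
  have hb0 : 0 ≤ b := div_nonneg (sum_nonneg fun x _ => by
    split_ifs
    · exact hR.wts.nn p x
    · exact le_rfl) hp0.le
  have hb1 : b ≤ 1 := by
    rw [hb, div_le_one hp0]
    refine le_trans (sum_le_sum fun x _ => ?_) (hR.wts.mean p hp).le
    split_ifs
    · exact le_rfl
    · exact hR.wts.nn p x
  have hbp : (∑ x ∈ range p, if 3 ≤ ν p x then ν p x else 0) = b * p := by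
    rw [hb, div_mul_cancel₀ _ hp0.ne']
  have hb3 : 3 ≤ b * p := by
    obtain ⟨x0, h0, h1⟩ := rep_nat p hpp.pos x
    have h2 : ν p (x0 : ℤ) = ν p x := by rw [h1]; exact extb_per_emod (hR.wts.per p hp) x
    rw [← hbp]
    refine le_trans ?_ (single_le_sum (f := fun x : ℕ => if 3 ≤ ν p x then ν p x else 0)
      (fun x _ => ?_) h0)
    · rw [h2, if_pos hx]
      exact hx
    · split_ifs
      · exact hR.wts.nn p x
      · exact le_rfl
  have h := pert_small hB hR hM hp (u := fun x => if 3 ≤ ν p x then -(1 - b) else b)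
    (fun x => by
      split_ifs
      · rw [abs_neg, abs_le]
        constructor <;> linarith
      · rw [abs_le]
        constructor <;> linarith) (fun x => by simp only [hR.wts.per p hp]) (fun x => by
      have k0 := hR.wts.nn p x
      have k4 := hR.le4 p hp x
      split_ifs with hc
      · have : 1 + dl5 ε P * -(1 - b) ≤ 1 := by nlinarith
        nlinarith
      · push Not at hc
        have : 1 + dl5 ε P * b ≤ 4 / 3 := by nlinarith
        nlinarith) (by
      have e1 : ∀ x : ℕ, ν p x * (if 3 ≤ ν p x then -(1 - b) else b) =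
          b * ν p x - (if 3 ≤ ν p x then ν p x else 0) := by
        intro x
        split_ifs <;> ring
      simp only [e1]
      rw [sum_sub_distrib, ← mul_sum, hR.wts.mean p hp, hbp]
      ring)
  -- the law of the set
  set lB : ℝ := ∑ x ∈ range p, if 3 ≤ ν p x then lw ε P N' Φ g ν p x else 0 with hlB
  have h1 : ∑ x ∈ range p, lw ε P N' Φ g ν p x * (if 3 ≤ ν p x then -(1 - b) else b) = b - lB := by
    have e1 : ∀ x : ℕ, lw ε P N' Φ g ν p x * (if 3 ≤ ν p x then -(1 - b) else b) =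
        b * lw ε P N' Φ g ν p x - (if 3 ≤ ν p x then lw ε P N' Φ g ν p x else 0) := by
      intro x
      split_ifs <;> ring
    simp only [e1]
    rw [sum_sub_distrib, ← mul_sum, sum_lw_one hB hR hp]
    ring
  rw [h1] at h
  have h2 : lB ≤ 3 / 4 * b := by
    have hK : Real.exp (4 * dl5 ε P ^ 2 + eta5 ε P * (k * Real.log p) + zf ν p / 8) ≤ 6 / 5 := by
      have k1 := sm_le hB hp
      have k2 := bn5_le hB
      have k3 := zf_le1 ν p
      refine (Real.exp_le_exp.2 (show _ ≤ (0.13 : ℝ) by linarith)).trans ?_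
      refine (exp_le_inv (by norm_num)).trans ?_
      norm_num
    have h3 : lB ≤ ∑ x ∈ range p, (3 / 4) * ((if 3 ≤ ν p x then ν p x else 0) / p) := by
      rw [hlB]
      refine sum_le_sum fun x _ => ?_
      split_ifs with hc
      · refine (lw_le hB hR hM hp x).trans ?_
        have hν := hR.wts.nn p (x : ℤ)
        have k1 : (17 : ℝ) / 10 ≤ √(ν p x) := by
          apply Real.le_sqrt_of_sq_le
          norm_num
          linarith
        have k2 : √(ν p x) ^ 2 = ν p x := Real.sq_sqrt hν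
        have k3 : √(ν p x) ≤ 10 / 17 * ν p x := by nlinarith
        have k4 : √(ν p x) / p * Real.exp (4 * dl5 ε P ^ 2 + eta5 ε P * (k * Real.log p) +
            zf ν p / 8) ≤ (10 / 17 * ν p x) / p * (6 / 5) := by gcongr
        have k5 : dl5 ε P ^ 2 ≤ (1 / 100) * (ν p x / p) := by
          rw [mul_div_assoc', le_div_iff₀ hp0]
          have : dl5 ε P ^ 2 * p = dl5 ε P * (dl5 ε P * p) := by ring
          rw [this]
          nlinarith
        have k6 : (10 / 17 * ν p x) / p * (6 / 5) = (12 / 17) * (ν p x / p) := by ring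
        rw [k6] at k4
        have k7 : 0 ≤ ν p x / p := div_nonneg hν hp0.le
        linarith
      · simp
    rw [← mul_sum, ← sum_div, hbp, mul_div_cancel_right₀ _ hp0.ne'] at h3
    exact h3
  have h3 : b ≤ 52 * dl5 ε P := by linarith
  have h4 : b * p ≤ 52 * dl5 ε P * p := mul_le_mul_of_nonneg_right h3 hp0.le
  linarith

/-- **the marginals** -/
theorem lw_abs (hR : Raw5 ε P k N' Nmin Φ g ν) (hM : MgfAt ε P) {p : ℕ} (hp : p ∈ W5 ε P)
    {x0 : ℕ} (h0 : x0 ∈ range p) : |lw ε P N' Φ g ν p x0 - ν p x0 / p| ≤ 13 * dl5 ε P := by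
  have hd := dl5_pos hB
  have hd1 := dl_le_one hB
  have hpp := pin_prime hB hp
  have hp0 : (0 : ℝ) < p := Nat.cast_pos.2 hpp.pos
  have hp12 := pin_p_gt hB hp
  have key : ∀ s : ℝ, |s| = 1 → s * (lw ε P N' Φ g ν p x0 - ν p x0 / p) ≤ 13 * dl5 ε P := by
    intro s hs
    have q0 : 0 ≤ ν p x0 / p := div_nonneg (hR.wts.nn p x0) hp0.le
    have q1 : ν p x0 / p ≤ 1 := by
      rw [div_le_one hp0]
      have := nu_lt3 hB hR hM hp x0
      linarith
    have hu : ∀ x : ℤ, |s * (ic p x0 x - ν p x0 / p)| ≤ 1 := by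
      intro x
      rw [abs_mul, hs, one_mul, abs_le]
      unfold ic
      split_ifs <;> constructor <;> linarith
    have h := pert_small hB hR hM hp (u := fun x => s * (ic p x0 x - ν p x0 / p)) hu
      (fun x => by simp only [ic_per]) (fun x => by
        have k1 := (abs_le.1 (hu x)).2
        have k0 := hR.wts.nn p x
        have k4 := nu_lt3 hB hR hM hp x
        have : 1 + dl5 ε P * (s * (ic p x0 x - ν p x0 / p)) ≤ 4 / 3 := by nlinarith
        nlinarith) (by
        have e1 : ∀ x : ℕ, ν p x * (s * (ic p x0 x - ν p x0 / p)) =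
            s * (ν p x * ic p x0 x) - s * (ν p x0 / p) * ν p x := by
          intro x
          ring
        simp only [e1]
        rw [sum_sub_distrib, ← mul_sum, ← mul_sum, hR.wts.mean p hp,
          sum_ic h0 (fun x : ℕ => ν p x)]
        field_simp
        ring)
    have e2 : ∀ x : ℕ, lw ε P N' Φ g ν p x * (s * (ic p x0 x - ν p x0 / p)) =
        s * (lw ε P N' Φ g ν p x * ic p x0 x) - s * (ν p x0 / p) * lw ε P N' Φ g ν p x := by
      intro x
      ring
    simp only [e2] at h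
    rw [sum_sub_distrib, ← mul_sum, ← mul_sum, sum_lw_one hB hR hp,
      sum_ic h0 (fun x : ℕ => lw ε P N' Φ g ν p x)] at h
    linarith
  rw [abs_le]
  have k1 := key 1 (by simp)
  have k2 := key (-1) (by simp)
  constructor <;> linarith

theorem lw_emod (hR : Raw5 ε P k N' Nmin Φ g ν) {p : ℕ} (x : ℤ) :
    lw ε P N' Φ g ν p (x % p) = lw ε P N' Φ g ν p x := by
  unfold lw
  rw [mass_emod]

theorem lw_abs' (hR : Raw5 ε P k N' Nmin Φ g ν) (hM : MgfAt ε P) {p : ℕ} (hp : p ∈ W5 ε P)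
    (x : ℤ) : |lw ε P N' Φ g ν p x - ν p x / p| ≤ 13 * dl5 ε P := by
  obtain ⟨x0, h0, h1⟩ := rep_nat p (pin_prime hB hp).pos x
  have h := lw_abs hB hR hM hp h0
  rwa [h1, lw_emod hB hR, extb_per_emod (hR.wts.per p hp)] at h

end

end Vale.Agent.P042.UU.PIN
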