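import Vale.Agent.P042.UU.SpecB

set_option autoImplicit false

/-!
Theorem S5: the pieces of block PIN5.
-/

namespace Vale.Agent.P042.UU

open Polynomial Finset Vale.Agent.P042.SS Vale.Agent.P042.TT

/-- the tail of the raw state -/
def PinTl (ε P : ℝ) (N' : ℕ) (Φ : ℝ) (ν : ℕ → ℤ → ℝ) : Prop :=
  ∑ n ∈ (Icc (1 : ℤ) N').filter (fun n => Mc2 ε P - 4 ≤ Xn (W5 ε P) ν n ∧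
      Xn (W5 ε P) ν n ≤ Mc2 ε P), Real.exp (Xn (W5 ε P) ν n) ≤
    Real.exp (-(Mc2 ε P / 2)) * (N' * Φ)

/-- piece A (from MGF5 and TAIL5, `D = 1`) -/
def PinAStmt : Prop :=
  ∀ k : ℕ, 1 ≤ k → ∀ ε : ℝ, 0 < ε → ε ≤ 1 / 1000 → ∃ P0 : ℝ, ∀ P : ℝ, P0 ≤ P →
  ∀ (N' Nmin : ℕ) (Φ : ℝ) (g : ℤ → ℝ) (ν : ℕ → ℤ → ℝ), Raw5 ε P k N' Nmin Φ g ν →
    Hl (W5 ε P) ν ≤ P ^ (1 - 99.5 * ε) ∧ PinTl ε P N' Φ ν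

/-- piece B: bound of the mass of a residue class, from `max` with `D = p` -/
def PinBStmt : Prop :=
  ∀ k : ℕ, 1 ≤ k → ∀ ε : ℝ, 0 < ε → ε ≤ 1 / 1000 → ∃ P0 : ℝ, ∀ P : ℝ, P0 ≤ P →
  ∀ (N' Nmin : ℕ) (Φ : ℝ) (g : ℤ → ℝ) (ν : ℕ → ℤ → ℝ), Raw5 ε P k N' Nmin Φ g ν →
    Hl (W5 ε P) ν ≤ P ^ (1 - 99.5 * ε) → PinTl ε P N' Φ ν →
    ∀ p ∈ W5 ε P, ∀ x : ℤ,
      mass (Gc (W5 ε P) (Mc2 ε P) g ν) 0 N' p x ≤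
        (N' * Φ / p) * Real.sqrt (ν p x) * Real.exp (P ^ (-(97.9 * ε)) + zf ν p / 8) +
          Real.exp (-(Mc2 ε P / 2)) * (N' * Φ)

/-- piece C: perturbation of the weight at one prime -/
def PinCStmt : Prop :=
  ∀ k : ℕ, 1 ≤ k → ∀ ε : ℝ, 0 < ε → ε ≤ 1 / 1000 → ∃ P0 : ℝ, ∀ P : ℝ, P0 ≤ P →
  ∀ (N' Nmin : ℕ) (Φ : ℝ) (g : ℤ → ℝ) (ν : ℕ → ℤ → ℝ), Raw5 ε P k N' Nmin Φ g ν →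
    Hl (W5 ε P) ν ≤ P ^ (1 - 99.5 * ε) → PinTl ε P N' Φ ν →
    ∀ p ∈ W5 ε P, ∀ g0 : ℤ → ℝ, (∀ n, g0 (n + p) = g0 n) → (∀ n, |g0 n| ≤ 1) →
      ∑ z ∈ range p, ν p z * g0 z = 0 →
      (∀ n, ν p n * (1 + Real.exp (-(P ^ (1 - 49.6 * ε))) * g0 n) ≤ 4) →
      ∑ n ∈ Icc (1 : ℤ) N', Gc (W5 ε P) (Mc2 ε P) g ν n * g0 n ≤
        Real.exp (-(P ^ (1 - 49.7 * ε))) * (N' * Φ)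

/-- piece D: from B and C (`pinD_of (hB : PinBStmt) (hC : PinCStmt)`) -/
def PinDStmt : Prop :=
  ∀ k : ℕ, 1 ≤ k → ∀ ε : ℝ, 0 < ε → ε ≤ 1 / 1000 → ∃ P0 : ℝ, ∀ P : ℝ, P0 ≤ P →
  ∀ (N' Nmin : ℕ) (Φ : ℝ) (g : ℤ → ℝ) (ν : ℕ → ℤ → ℝ), Raw5 ε P k N' Nmin Φ g ν →
    Hl (W5 ε P) ν ≤ P ^ (1 - 99.5 * ε) → PinTl ε P N' Φ ν →
    (∀ p ∈ W5 ε P, ∀ x, ν p x ≤ Real.exp (bn5 ε P)) ∧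
    (∀ p ∈ W5 ε P, zf ν p ≤ P ^ (-(97.8 * ε))) ∧
    (∀ p ∈ W5 ε P, ∀ x : ℤ,
      |mass (Gc (W5 ε P) (Mc2 ε P) g ν) 0 N' p x - N' * Φ * ν p x / p| ≤
        Real.exp (-(P ^ (1 - 49.8 * ε))) * (N' * Φ))

/-- piece E: no small positive values -/
def PinEStmt : Prop :=
  ∀ k : ℕ, 1 ≤ k → ∀ ε : ℝ, 0 < ε → ε ≤ 1 / 1000 → ∃ P0 : ℝ, ∀ P : ℝ, P0 ≤ P →
  ∀ (N' Nmin : ℕ) (Φ : ℝ) (g : ℤ → ℝ) (ν : ℕ → ℤ → ℝ), Raw5 ε P k N' Nmin Φ g ν →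
    Hl (W5 ε P) ν ≤ P ^ (1 - 99.5 * ε) → PinTl ε P N' Φ ν →
    (∀ p ∈ W5 ε P, ∀ x, ν p x ≤ Real.exp (bn5 ε P)) →
    (∀ p ∈ W5 ε P, ∀ x : ℤ,
      |mass (Gc (W5 ε P) (Mc2 ε P) g ν) 0 N' p x - N' * Φ * ν p x / p| ≤
        Real.exp (-(P ^ (1 - 49.8 * ε))) * (N' * Φ)) →
    ∀ p ∈ W5 ε P, ∀ x, ν p x = 0 ∨ 1 / 20 ≤ ν p x

/-- piece F: the inequality `klv` of `Pin5` -/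
def PinFStmt : Prop :=
  ∀ k : ℕ, 1 ≤ k → ∀ ε : ℝ, 0 < ε → ε ≤ 1 / 1000 → ∃ P0 : ℝ, ∀ P : ℝ, P0 ≤ P →
  ∀ (N' Nmin : ℕ) (Φ : ℝ) (g : ℤ → ℝ) (ν : ℕ → ℤ → ℝ), Raw5 ε P k N' Nmin Φ g ν →
    Hl (W5 ε P) ν ≤ P ^ (1 - 99.5 * ε) →
    (∀ p ∈ W5 ε P, ∀ x, ν p x ≤ Real.exp (bn5 ε P)) →
    (∀ p ∈ W5 ε P, zf ν p ≤ P ^ (-(97.8 * ε))) →
    (∀ p ∈ W5 ε P, ∀ x, ν p x = 0 ∨ 1 / 20 ≤ ν p x) →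
    ∀ (D M : ℕ) (y x : ℤ) (U : Finset ℕ) (F : ℕ → ℤ → ℝ), 1 ≤ D →
    Real.log D ≤ P ^ (1 - 51 * ε) → M ≤ N' → (N' : ℝ) ≤ P * M → U ⊆ Vn ε P D →
    (∀ p ∈ U, ∀ n, F p (n + p) = F p n) → (∀ p ∈ U, ∀ n, 1 / 3 ≤ F p n ∧ F p n ≤ 3) →
    (∀ p ∈ U, ∑ z ∈ range p, ν p z * F p z = p) →
    ∑ p ∈ U, (∑ z ∈ range p, ν p z * (F p z - 1) ^ 2) / (p : ℝ) ≤ P ^ (1 - 50.8 * ε) →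
    ∑ n ∈ (cel y M D x).filter (fun n => Xn (W5 ε P) ν n + (∑ p ∈ U, Real.log (F p n)) / 2 ≤
        Mc2 ε P / 2), Gc (W5 ε P) (Mc2 ε P) g ν n * ∏ p ∈ U, Real.sqrt (F p n) ≤
      (M * Φ / D) * Real.exp (P ^ (-(96.9 * ε)) * (1 + Real.log D))

end Vale.Agent.P042.UU
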