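import Vale.Agent.P042.UU.PinPD
import Vale.Agent.P042.TT.CoreNum

set_option autoImplicit false

/-!
Block PIN5, piece D: `pinD_of`.
-/

namespace Vale.Agent.P042.UU

open Finset Filter Topology Vale.Agent.P042.SS Vale.Agent.P042.TT Vale.Agent.P042.TT.CoreNumP

/-- exponent facts -/
structure PinNum (ε P : ℝ) : Prop where
  one_le : 1 ≤ P
  small : 100 * P ^ (5 : ℕ) * Real.exp (-(P ^ (1 / 2 : ℝ))) ≤ 1
  two : 2 ≤ P ^ (1 / 2 : ℝ)
  half : 2 * P ^ (1 / 2 : ℝ) ≤ P ^ (1 - 49 * ε)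
  eps : 3 ≤ P ^ (0.1 * ε)
  eps9 : 100 ≤ P ^ (97.9 * ε)

theorem pinD_num {ε : ℝ} (hε : 0 < ε) (hε2 : ε ≤ 1 / 1000) :
    ∃ P0 : ℝ, ∀ P : ℝ, P0 ≤ P → PinNum ε P := by
  have hT : Tendsto (fun P : ℝ => (P ^ (1 / 2 : ℝ)) ^ 10 * Real.exp (-(P ^ (1 / 2 : ℝ)))) atTop
      (𝓝 0) := (Real.tendsto_pow_mul_exp_neg_atTop_nhds_zero 10).comp
        (tendsto_rpow_atTop (by norm_num))
  have H : ∀ᶠ P : ℝ in atTop, PinNum ε P := by
    filter_upwards [eventually_ge_atTop 1,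
      hT.eventually (ge_mem_nhds (show (0 : ℝ) < 1 / 100 by norm_num)),
      ev0 (b := 1 / 2) (by norm_num) 2,
      ev (a := 1 / 2) (b := 1 - 49 * ε) (by linarith) 2,
      ev0 (b := 0.1 * ε) (by positivity) 3,
      ev0 (b := 97.9 * ε) (by positivity) 100] with P h1 h2 h3 h4 h5 h6
    refine ⟨h1, ?_, h3, h4, h5, h6⟩
    have hP : 0 ≤ P := by linarith
    have e1 : (P ^ (1 / 2 : ℝ)) ^ 10 = P ^ (5 : ℕ) := by
      rw [← Real.rpow_natCast (P ^ (1 / 2 : ℝ)) 10, ← Real.rpow_mul hP,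
        ← Real.rpow_natCast P 5]
      norm_num
    rw [e1] at h2
    linarith
  obtain ⟨P0, h⟩ := Filter.eventually_atTop.1 H
  exact ⟨P0, fun P hP => h P hP⟩

theorem pinD_W_le {ε P : ℝ} (hε : 0 < ε) (hP : 1 ≤ P) {p : ℕ} (hp : p ∈ W5 ε P) :
    (p : ℝ) ≤ P ^ (2 : ℕ) := by
  unfold W5 Wp at hp
  have h1 := (Finset.mem_Ioc.1 (Finset.mem_filter.1 hp).1).2
  have h2 : (p : ℝ) ≤ P ^ (2 - 190 * ε) := (Nat.le_floor_iff (by positivity)).1 h1
  have h3 : P ^ (2 - 190 * ε) ≤ P ^ (2 : ℝ) :=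
    Real.rpow_le_rpow_of_exponent_le hP (by linarith)
  refine h2.trans (h3.trans (le_of_eq ?_))
  rw [← Real.rpow_natCast]
  norm_num

theorem pinD_prime {ε P : ℝ} {p : ℕ} (hp : p ∈ W5 ε P) : p.Prime := by
  unfold W5 Wp at hp
  exact (Finset.mem_filter.1 hp).2

theorem pinD_of (hB : PinBStmt) (hC : PinCStmt) : PinDStmt := by
  intro k hk ε hε hε2
  obtain ⟨P1, hP1⟩ := hB k hk ε hε hε2
  obtain ⟨P2, hP2⟩ := hC k hk ε hε hε2
  obtain ⟨P3, hP3⟩ := pinD_num hε hε2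
  refine ⟨max P1 (max P2 P3), ?_⟩
  intro P hPP N' Nmin Φ g ν hRaw hHl hTl
  have hB' := hP1 P ((le_max_left _ _).trans hPP) N' Nmin Φ g ν hRaw hHl hTl
  have hC' := hP2 P ((le_trans (le_max_left _ _) (le_max_right _ _)).trans hPP)
    N' Nmin Φ g ν hRaw hHl hTl
  have hN := hP3 P ((le_trans (le_max_right _ _) (le_max_right _ _)).trans hPP)
  have hP := hN.one_le
  have hP0 : 0 < P := by linarith
  -- the constants
  set s : ℝ := P ^ (-(97.9 * ε)) with hs
  set τ : ℝ := Real.exp (-(P ^ (1 - 49.7 * ε))) with hτ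
  set τ' : ℝ := Real.exp (-(Mc2 ε P / 2)) with hτ'
  set δ : ℝ := Real.exp (-(P ^ (1 - 49.6 * ε))) with hδ
  set X : ℝ := Real.exp (-(P ^ (1 / 2 : ℝ))) with hX
  have hs0 : 0 < s := by rw [hs]; positivity
  have hsm : s = (P ^ (97.9 * ε))⁻¹ := by rw [hs, Real.rpow_neg hP0.le]
  have hs1 : s ≤ 1 / 100 := by
    have h9 := hN.eps9
    rw [hsm, inv_le_comm₀ (by positivity) (by norm_num), one_div, inv_inv]
    exact h9
  have hspow : P⁻¹ ≤ s := by
    rw [hsm]
    apply inv_anti₀ (by positivity)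
    calc P ^ (97.9 * ε) ≤ P ^ (1 : ℝ) := Real.rpow_le_rpow_of_exponent_le hP (by linarith)
      _ = P := Real.rpow_one P
  have hX0 : 0 < X := Real.exp_pos _
  have hτX : τ ≤ X := by
    rw [hτ, hX]
    apply Real.exp_le_exp.2
    have : P ^ (1 / 2 : ℝ) ≤ P ^ (1 - 49.7 * ε) :=
      Real.rpow_le_rpow_of_exponent_le hP (by linarith)
    linarith
  have hτX' : τ' ≤ X := by
    rw [hτ', hX]
    apply Real.exp_le_exp.2
    have := hN.half
    unfold Mc2
    linarith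
  have hδ1 : δ ≤ 1 / 4 := by
    have h1 : (2 : ℝ) ≤ P ^ (1 - 49.6 * ε) := hN.two.trans
      (Real.rpow_le_rpow_of_exponent_le hP (by linarith))
    have h2 : δ ≤ Real.exp (-2) := by
      rw [hδ]
      exact Real.exp_le_exp.2 (by linarith)
    refine h2.trans ?_
    have h3 : (4 : ℝ) ≤ Real.exp 2 := by
      have h4 : Real.exp 2 = Real.exp 1 * Real.exp 1 := by rw [← Real.exp_add]; norm_num
      have h5 := Real.exp_one_gt_d9
      rw [h4]
      nlinarith
    rw [Real.exp_neg, inv_le_comm₀ (Real.exp_pos _) (by norm_num)]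
    norm_num
    exact h3
  have hΦ : 0 < Φ := lt_of_lt_of_le (Real.exp_pos _) hRaw.Φlo
  have hN'0 : (0 : ℝ) < N' := lt_of_lt_of_le (Real.exp_pos _) hRaw.N'lo
  have hsmall := hN.small
  rw [← hX] at hsmall
  have hone : ∀ p ∈ W5 ε P, PinOne p N' (ν p) (Gc (W5 ε P) (Mc2 ε P) g ν) (N' * Φ) s (zf ν p)
      δ τ τ' := by
    intro p hp
    have hpp := pinD_prime hp
    have hp1 : (1 : ℝ) ≤ p := by exact_mod_cast hpp.one_le
    have hpP := pinD_W_le hε hP hp
    have hPp : (1 : ℝ) ≤ P ^ 2 := one_le_pow₀ hP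
    have hκ : (p : ℝ) * X ≤ P ^ 2 * X := mul_le_mul_of_nonneg_right hpP hX0.le
    have hκ2 : (p : ℝ) * (p * X) ≤ P ^ 4 * X := by
      calc (p : ℝ) * (p * X) ≤ P ^ 2 * (P ^ 2 * X) := by
            apply mul_le_mul hpP hκ (by positivity) (by positivity)
        _ = P ^ 4 * X := by ring
    have h4 : P ^ 4 * X ≤ 1 / 100 := by
      have h5 : P ^ 4 * X ≤ P ^ 5 * X := by
        apply mul_le_mul_of_nonneg_right _ hX0.le
        exact pow_le_pow_right₀ hP (by norm_num)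
      linarith
    have h2 : P ^ 2 * X ≤ P ^ 4 * X := by
      apply mul_le_mul_of_nonneg_right _ hX0.le
      exact pow_le_pow_right₀ hP (by norm_num)
    refine ⟨hpp.one_le, hRaw.wts.nn p, hRaw.wts.per p hp, hRaw.wts.mean p hp, hRaw.le4 p hp,
      by positivity, hRaw.Gsum, ?_, ?_, rfl, (Real.exp_pos _).le, hδ1, hs0.le, hs1,
      (Real.exp_pos _).le, (Real.exp_pos _).le, ?_, ?_⟩
    · intro x
      exact hB' p hp x
    · intro g0 h1 h2 h3 h4
      exact hC' p hp g0 h1 h2 h3 h4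
    · have h5 : (p : ℝ) * (τ + p * τ') ≤ p * (X + p * X) := by gcongr
      nlinarith
    · have h5 : (p : ℝ) * (τ + τ') ≤ p * (X + X) := by gcongr
      have h6 : 40 * (P ^ 2 * X) ≤ P⁻¹ := by
        rw [le_inv_comm₀ (by positivity) hP0]
        have h7 : 100 * P ^ 3 * X ≤ 1 := by
          have h8 : P ^ 3 * X ≤ P ^ 5 * X := by
            apply mul_le_mul_of_nonneg_right _ hX0.le
            exact pow_le_pow_right₀ hP (by norm_num)
          linarith
        rw [le_inv_comm₀ hP0 (by positivity)]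
        rw [← one_div, le_div_iff₀ hP0]
        have h9 : 0 ≤ P ^ 3 * X := by positivity
        nlinarith
      nlinarith
  have h3s : 3 * s ≤ P ^ (-(97.8 * ε)) := by
    have h1 : P ^ (-(97.8 * ε)) = P ^ (0.1 * ε) * s := by
      rw [hs, ← Real.rpow_add hP0]
      congr 1
      ring
    rw [h1]
    exact mul_le_mul_of_nonneg_right hN.eps hs0.le
  have h3s' : 3 * s ≤ bn5 ε P := by
    refine h3s.trans ?_
    unfold bn5
    exact Real.rpow_le_rpow_of_exponent_le hP (by linarith)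
  refine ⟨?_, ?_, ?_⟩
  · intro p hp x
    exact ((hone p hp).le_exp3 x).trans (Real.exp_le_exp.2 h3s')
  · intro p hp
    exact (hone p hp).z_le.trans h3s
  · intro p hp x
    refine ((hone p hp).marg x).trans ?_
    apply mul_le_mul_of_nonneg_right _ (by positivity)
    rw [hτ]
    apply Real.exp_le_exp.2
    have : P ^ (1 - 49.8 * ε) ≤ P ^ (1 - 49.7 * ε) :=
      Real.rpow_le_rpow_of_exponent_le hP (by linarith)
    linarith

end Vale.Agent.P042.UU
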