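import Vale.Agent.P042.UU.PinD

set_option autoImplicit false

/-!
Theorem S5, block PIN5, part E: upper and lower bounds of the weights.
-/

namespace Vale.Agent.P042.UU.PIN

open Polynomial Finset Filter Vale.Agent.P042.SS Vale.Agent.P042.TT

section

variable {ε : ℝ} {k : ℕ} {P : ℝ} (hB : PinB ε k P) {N' Nmin : ℕ} {Φ : ℝ} {g : ℤ → ℝ}
  {ν : ℕ → ℤ → ℝ}

include hB

theorem nu_aux (hR : Raw5 ε P k N' Nmin Φ g ν) (hM : MgfAt ε P) {p : ℕ} (hp : p ∈ W5 ε P)
    (x : ℤ) : ν p x ≤ Real.exp (bn5 ε P / 40 + zf ν p / 4) := by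
  have hd := dl5_pos hB
  have hpp := pin_prime hB hp
  have hp0 : (0 : ℝ) < p := Nat.cast_pos.2 hpp.pos
  have hz := zf_nn ν p
  have hb := bn5_pos hB
  rcases le_total (ν p x) 1 with h1 | h1
  · exact h1.trans (Real.one_le_exp (by positivity))
  · set s0 := 4 * dl5 ε P ^ 2 + eta5 ε P * (k * Real.log p) with hs0
    have k1 : s0 ≤ bn5 ε P / 100 := sm_le hB hp
    have k0 : 0 ≤ s0 := sm_nn hB hp
    have k2 := lw_le hB hR hM hp x
    rw [← hs0] at k2
    have k3 := (abs_le.1 (lw_abs' hB hR hM hp x)).1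
    have k4 := dl_p_le hB hp
    have k5 := dl_le_one hB
    set K := Real.exp (s0 + zf ν p / 8) with hK
    have hK1 : 1 ≤ K := Real.one_le_exp (by positivity)
    have k6 : ν p x / p ≤ √(ν p x) / p * K + 14 * dl5 ε P := by nlinarith
    have k7 : ν p x ≤ √(ν p x) * K + 14 * (dl5 ε P * p) := by
      have := mul_le_mul_of_nonneg_right k6 hp0.le
      rw [div_mul_cancel₀ _ hp0.ne'] at this
      refine this.trans (le_of_eq ?_)
      field_simp
    have k8 : 1 ≤ √(ν p x) := Real.one_le_sqrt.2 h1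
    have k9 : √(ν p x) ^ 2 = ν p x := Real.sq_sqrt (by linarith)
    have hdp : 0 ≤ dl5 ε P * p := by positivity
    have k10 : √(ν p x) ≤ K + 14 * (dl5 ε P * p) := by
      by_contra hc
      push Not at hc
      nlinarith
    have k11 : √(ν p x) ≤ K * Real.exp (14 * (dl5 ε P * p)) := by
      have : K * (14 * (dl5 ε P * p) + 1) ≤ K * Real.exp (14 * (dl5 ε P * p)) :=
        mul_le_mul_of_nonneg_left (Real.add_one_le_exp _) (by linarith)
      nlinarith
    rw [hK, ← Real.exp_add] at k11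
    calc ν p x = √(ν p x) ^ 2 := k9.symm
      _ ≤ (Real.exp (s0 + zf ν p / 8 + 14 * (dl5 ε P * p))) ^ 2 := by
          gcongr
      _ = Real.exp (2 * (s0 + zf ν p / 8 + 14 * (dl5 ε P * p))) := by
          rw [← Real.exp_nat_mul]
          norm_num
      _ ≤ _ := Real.exp_le_exp.2 (by linarith)

theorem zf_le5 (hR : Raw5 ε P k N' Nmin Φ g ν) (hM : MgfAt ε P) {p : ℕ} (hp : p ∈ W5 ε P) :
    zf ν p ≤ bn5 ε P / 30 := by
  have hpp := pin_prime hB hp
  have hp0 : (0 : ℝ) < p := Nat.cast_pos.2 hpp.pos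
  set K := Real.exp (bn5 ε P / 40 + zf ν p / 4) with hK
  have h1 : (p : ℝ) ≤ (p - zf ν p * p) * K := by
    calc (p : ℝ) = ∑ x ∈ range p, ν p x := (hR.wts.mean p hp).symm
      _ = ∑ x ∈ (range p).filter (fun x : ℕ => ν p x = 0), ν p x +
          ∑ x ∈ (range p).filter (fun x : ℕ => ¬ ν p x = 0), ν p x :=
          (sum_filter_add_sum_filter_not _ _ _).symm
      _ ≤ 0 + ∑ x ∈ (range p).filter (fun x : ℕ => ¬ ν p x = 0), K := by
          refine add_le_add (le_of_eq (sum_eq_zero fun x hx => (mem_filter.1 hx).2)) ?_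
          exact sum_le_sum fun x _ => nu_aux hB hR hM hp x
      _ = ((range p).filter (fun x : ℕ => ¬ ν p x = 0)).card * K := by
          rw [zero_add, sum_const, nsmul_eq_mul]
      _ = (p - zf ν p * p) * K := by
          congr 1
          have h2 := card_filter_add_card_filter_not (s := range p) (fun x : ℕ => ν p x = 0)
          rw [card_range] at h2
          have h3 : zf ν p * p = (((range p).filter (fun x : ℕ => ν p x = 0)).card : ℝ) := by
            unfold zf
            rw [div_mul_cancel₀ _ hp0.ne']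
          have h4 : (((range p).filter (fun x : ℕ => ν p x = 0)).card : ℝ) +
              ((range p).filter (fun x : ℕ => ¬ ν p x = 0)).card = p := by exact_mod_cast h2
          rw [h3]
          linarith
  have h2 : 1 ≤ Real.exp (-(zf ν p) + (bn5 ε P / 40 + zf ν p / 4)) := by
    have h3 : 1 ≤ (1 - zf ν p) * K := by
      have h4 : (p : ℝ) * 1 ≤ p * ((1 - zf ν p) * K) := by
        calc (p : ℝ) * 1 = p := mul_one _
          _ ≤ _ := h1
          _ = _ := by ring
      exact le_of_mul_le_mul_left h4 hp0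
    rw [Real.exp_add]
    have h4 : 1 - zf ν p ≤ Real.exp (-(zf ν p)) := by
      have := Real.add_one_le_exp (-(zf ν p))
      linarith
    exact h3.trans (mul_le_mul_of_nonneg_right h4 (Real.exp_pos _).le)
  have h3 : 0 ≤ -(zf ν p) + (bn5 ε P / 40 + zf ν p / 4) := by
    by_contra h
    push Not at h
    exact absurd h2 (not_le.2 (by rw [← Real.exp_zero]; exact Real.exp_lt_exp.2 h))
  linarith

theorem nu_le5 (hR : Raw5 ε P k N' Nmin Φ g ν) (hM : MgfAt ε P) {p : ℕ} (hp : p ∈ W5 ε P)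
    (x : ℤ) : ν p x ≤ Real.exp (bn5 ε P / 20) := by
  refine (nu_aux hB hR hM hp x).trans (Real.exp_le_exp.2 ?_)
  have h1 := zf_le5 hB hR hM hp
  have h2 := bn5_pos hB
  linarith

theorem nu_le43 (hR : Raw5 ε P k N' Nmin Φ g ν) (hM : MgfAt ε P) {p : ℕ} (hp : p ∈ W5 ε P)
    (x : ℤ) : ν p x ≤ 4 / 3 := by
  refine (nu_le5 hB hR hM hp x).trans ?_
  have h2 := bn5_le hB
  refine (Real.exp_le_exp.2 (show _ ≤ (0.1 : ℝ) by linarith)).trans ?_
  refine (exp_le_inv (by norm_num)).trans ?_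
  norm_num

/-- **no small values** -/
theorem low5 (hR : Raw5 ε P k N' Nmin Φ g ν) (hM : MgfAt ε P) {p : ℕ} (hp : p ∈ W5 ε P)
    {x0 : ℕ} (h0 : x0 ∈ range p) : ν p x0 = 0 ∨ 1 / 20 ≤ ν p x0 := by
  by_contra hcon
  push Not at hcon
  obtain ⟨hne, hlt⟩ := hcon
  have hd := dl5_pos hB
  have hd1 := dl_le_one hB
  have hpp := pin_prime hB hp
  have hp0 : (0 : ℝ) < p := Nat.cast_pos.2 hpp.pos
  have hp12 := pin_p_gt hB hp
  have hdp := p_big hB hp
  have hν0 := hR.wts.nn p (x0 : ℤ)
  set q : ℝ := 1 / p with hq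
  have hq0 : 0 < q := by positivity
  have hqp : q * p = 1 := by rw [hq]; field_simp
  have hq12 : q ≤ 1 / 10 ^ 12 := by
    rw [hq]
    exact one_div_le_one_div_of_le (by norm_num) hp12
  set a : ℝ := ν p x0 * q with ha
  have ha0 : 0 ≤ a := by positivity
  have ha1 : a ≤ q / 20 := by rw [ha]; nlinarith
  have hap : a * p = ν p x0 := by rw [ha, mul_assoc, hqp, mul_one]
  set c : ℝ := 1 / (1 - a) with hc
  have ha2 : 0 < 1 - a := by linarith
  have hc1 : c * (1 - a) = 1 := by rw [hc]; field_simp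
  have hc2 : 1 ≤ c := by
    rw [hc, le_div_iff₀ ha2]
    linarith
  have hc3 : c ≤ 2 := by
    rw [hc, div_le_iff₀ ha2]
    linarith
  have hic : ∀ x : ℤ, ic p x0 x = 0 ∨ ic p x0 x = 1 := by
    intro x
    unfold ic
    split_ifs
    · exact Or.inr rfl
    · exact Or.inl rfl
  have h := pin_pert hB hR hM hp (F := fun x => c * (1 - ic p x0 x)) (fun x => by
      rcases hic x with h | h <;> rw [h] <;> linarith) (fun x => by
      rcases hic x with h | h <;> rw [h] <;> linarith) (fun x => by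
      simp only [ic_per]) (fun x => by
      have k1 := nu_le43 hB hR hM hp x
      have k0 := hR.wts.nn p x
      rcases hic x with h | h <;> rw [h] <;> nlinarith) (by
      have e1 : ∀ x : ℕ, ν p x * (c * (1 - ic p x0 x)) = c * ν p x - c * (ν p x * ic p x0 x) := by
        intro x
        ring
      simp only [e1]
      rw [sum_sub_distrib, ← mul_sum, ← mul_sum, hR.wts.mean p hp,
        sum_ic h0 (fun x : ℕ => ν p x), ← hap]
      calc c * p - c * (a * p) = (c * (1 - a)) * p := by ring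
        _ = p := by rw [hc1, one_mul])
  -- the reward
  have hz : zf (wt ν p fun x => c * (1 - ic p x0 x)) p = zf ν p + q := by
    unfold zf
    have e1 : (range p).filter (fun x : ℕ => wt ν p (fun x => c * (1 - ic p x0 x)) p x = 0) =
        insert x0 ((range p).filter (fun x : ℕ => ν p x = 0)) := by
      ext x
      simp only [mem_filter, mem_insert, wt_self]
      constructor
      · rintro ⟨h1, h2⟩
        by_cases hx : x = x0
        · exact Or.inl hx
        · right
          refine ⟨h1, ?_⟩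
          rw [ic_nat h0 h1, if_neg hx, sub_zero, mul_one] at h2
          rcases mul_eq_zero.1 h2 with h3 | h3
          · exact h3
          · linarith
      · rintro (h1 | ⟨h1, h2⟩)
        · subst h1
          refine ⟨h0, ?_⟩
          rw [ic_nat h0 h0, if_pos rfl]
          ring
        · exact ⟨h1, by rw [h2, zero_mul]⟩
    rw [e1, card_insert_of_notMem (by
      rw [mem_filter]
      exact fun h => hne h.2)]
    push_cast
    rw [hq]
    ring
  rw [hz, mul_add, Real.exp_add, mul_comm (Real.exp (1 / 8 * zf ν p)), ← mul_assoc] at h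
  have h1 := le_of_mul_le_mul_right h (Real.exp_pos _)
  have h2 : 1 - lw ε P N' Φ g ν p x0 ≤
      ∑ x ∈ range p, lw ε P N' Φ g ν p x * √(c * (1 - ic p x0 x)) := by
    have e1 : 1 - lw ε P N' Φ g ν p x0 =
        ∑ x ∈ range p, lw ε P N' Φ g ν p x * (1 - ic p x0 x) := by
      have e2 : ∀ x : ℕ, lw ε P N' Φ g ν p x * (1 - ic p x0 x) =
          lw ε P N' Φ g ν p x - lw ε P N' Φ g ν p x * ic p x0 x := by intro x; ring
      simp only [e2]
      rw [sum_sub_distrib, sum_lw_one hB hR hp, sum_ic h0 (fun x : ℕ => lw ε P N' Φ g ν p x)]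
    rw [e1]
    refine sum_le_sum fun x _ => mul_le_mul_of_nonneg_left ?_ (lw_nn hB hR p x)
    rcases hic x with h | h
    · rw [h, sub_zero, mul_one]
      exact Real.one_le_sqrt.2 hc2
    · rw [h]
      simp
  have h3 := (abs_le.1 (lw_abs hB hR hM hp h0)).2
  have h4 : ν p x0 / p = a := by rw [ha, hq]; ring
  rw [h4] at h3
  have h5 := Real.add_one_le_exp (1 / 8 * q)
  have h6 : dl5 ε P ≤ q / 10 ^ 6 := by
    have : dl5 ε P = dl5 ε P * p * q := by rw [mul_assoc, mul_comm (p : ℝ), hqp, mul_one]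
    rw [this]
    nlinarith
  have h7 : dl5 ε P ^ 2 ≤ dl5 ε P := by nlinarith
  have h8 : 1 - q / 20 - 13 * dl5 ε P - 2 * dl5 ε P ^ 2 ≤
      ∑ x ∈ range p, lw ε P N' Φ g ν p x * √(c * (1 - ic p x0 x)) - 2 * dl5 ε P ^ 2 := by
    linarith
  have h9 : 0 ≤ 1 - q / 20 - 13 * dl5 ε P - 2 * dl5 ε P ^ 2 := by nlinarith
  have h10 : (1 - q / 20 - 13 * dl5 ε P - 2 * dl5 ε P ^ 2) * (1 / 8 * q + 1) ≤
      1 + 4 * dl5 ε P ^ 2 := by
    refine le_trans ?_ h1
    refine mul_le_mul h8 h5 (by positivity) (h9.trans h8)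
  nlinarith

theorem low5' (hR : Raw5 ε P k N' Nmin Φ g ν) (hM : MgfAt ε P) {p : ℕ} (hp : p ∈ W5 ε P)
    (x : ℤ) : ν p x = 0 ∨ 1 / 20 ≤ ν p x := by
  obtain ⟨x0, h0, h1⟩ := rep_nat p (pin_prime hB hp).pos x
  have h := low5 hB hR hM hp h0
  rwa [h1, extb_per_emod (hR.wts.per p hp)] at h

end

end Vale.Agent.P042.UU.PIN
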