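import Vale.Agent.P042.UU.PinC
import Vale.Agent.P042.UU.PinDefs

set_option autoImplicit false

/-!
Theorem S5, block PIN5, piece F (helper323): the inequality `klv`.
-/

namespace Vale.Agent.P042.UU

open Polynomial Finset Filter Vale.Agent.P042.SS Vale.Agent.P042.TT Vale.Agent.P042.UU.PIN

/-- lower bound of the square root -/
theorem pinF_sqrt_lb {t : ℝ} (h0 : 0 ≤ t) : 1 + (t - 1) / 2 - (t - 1) ^ 2 / 2 ≤ √t := by
  have h1 : √t * √t = t := Real.mul_self_sqrt h0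
  have h2 : 0 ≤ √t := Real.sqrt_nonneg t
  have h3 : (√t - 1) ^ 2 ≤ (t - 1) ^ 2 := by
    have e : (t - 1) ^ 2 = (√t - 1) ^ 2 * (√t + 1) ^ 2 := by
      rw [← mul_pow]
      congr 1
      nlinarith
    rw [e]
    nlinarith [sq_nonneg (√t - 1), mul_nonneg (sq_nonneg (√t - 1)) h2,
      mul_nonneg (mul_nonneg (sq_nonneg (√t - 1)) h2) h2]
  nlinarith

/-- one class -/
theorem pinF_pt {v F : ℝ} (h0 : 0 ≤ v) (hv : v = 0 ∨ 1 / 20 ≤ v) (hF : 0 ≤ F) :
    √v + v * (F - 1) / 2 - 3 * (v * (F - 1) ^ 2) - (1 - √v) ^ 2 / 4 ≤ √(v * F) := by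
  rw [Real.sqrt_mul h0]
  have h1 : √v * √v = v := Real.mul_self_sqrt h0
  have h2 : 0 ≤ √v := Real.sqrt_nonneg v
  have h3 := pinF_sqrt_lb hF
  have h4 : √v ≤ 5 * v := by
    rcases hv with h | h
    · rw [h]; simp
    · have h5 : (1 : ℝ) / 5 ≤ √v := by
        apply Real.le_sqrt_of_sq_le
        linarith
      nlinarith
  have h6 : √v * (1 + (F - 1) / 2 - (F - 1) ^ 2 / 2) ≤ √v * √F :=
    mul_le_mul_of_nonneg_left h3 h2
  have h7 : √v * (F - 1) ^ 2 ≤ 5 * v * (F - 1) ^ 2 :=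
    mul_le_mul_of_nonneg_right h4 (sq_nonneg _)
  have h8 : -((√v * (F - 1)) ^ 2 + (1 - √v) ^ 2) / 2 ≤ (√v * (F - 1)) * (1 - √v) := by
    nlinarith [sq_nonneg (√v * (F - 1) + (1 - √v))]
  have h9 : (√v * (F - 1)) ^ 2 = v * (F - 1) ^ 2 := by
    rw [mul_pow, sq (√v), h1]
  have h10 : (√v * (F - 1)) * (1 - √v) = √v * (F - 1) - v * (F - 1) := by
    calc (√v * (F - 1)) * (1 - √v) = √v * (F - 1) - (√v * √v) * (F - 1) := by ring
      _ = _ := by rw [h1]
  have h11 : 0 ≤ v * (F - 1) ^ 2 := mul_nonneg h0 (sq_nonneg _)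
  rw [h9, h10] at h8
  nlinarith

/-- one prime -/
theorem pinF_one {p : ℕ} (hp : 0 < p) (v F : ℤ → ℝ) (h0 : ∀ n, 0 ≤ v n)
    (hv : ∀ x, v x = 0 ∨ 1 / 20 ≤ v x) (hF : ∀ n, 0 ≤ F n)
    (hm : ∑ x ∈ range p, v x = p) (hm2 : ∑ x ∈ range p, v x * F x = p) :
    1 - (∑ x ∈ range p, √(v x * F x)) / (p : ℝ) ≤
      3 / 2 * (1 - (∑ x ∈ range p, √(v x)) / (p : ℝ)) +
        3 * ((∑ x ∈ range p, v x * (F x - 1) ^ 2) / (p : ℝ)) := by
  have hp' : (0 : ℝ) < p := Nat.cast_pos.2 hp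
  have h1 : ∑ x ∈ range p, (√(v x) + v x * (F x - 1) / 2 - 3 * (v x * (F x - 1) ^ 2) -
      (1 - √(v x)) ^ 2 / 4) ≤ ∑ x ∈ range p, √(v x * F x) :=
    sum_le_sum fun x _ => pinF_pt (h0 x) (hv x) (hF x)
  have h2 : ∀ x ∈ range p, √(v x) + v x * (F x - 1) / 2 - 3 * (v x * (F x - 1) ^ 2) -
      (1 - √(v x)) ^ 2 / 4 = 3 / 2 * √(v x) + (v x * F x) / 2 - 3 / 4 * v x - 1 / 4 -
        3 * (v x * (F x - 1) ^ 2) := by
    intro x _
    have : √(v x) * √(v x) = v x := Real.mul_self_sqrt (h0 x)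
    linear_combination (-(1 : ℝ) / 4) * this
  rw [sum_congr rfl h2, sum_sub_distrib, sum_sub_distrib, sum_sub_distrib, sum_add_distrib,
    ← mul_sum, ← sum_div, ← mul_sum, ← mul_sum, hm, hm2] at h1
  simp only [sum_const, card_range, nsmul_eq_mul] at h1
  set A := ∑ x ∈ range p, √(v x * F x)
  set B := ∑ x ∈ range p, √(v x)
  set C := ∑ x ∈ range p, v x * (F x - 1) ^ 2
  have h3 : (p : ℝ) - A ≤ 3 / 2 * (p - B) + 3 * C := by linarith
  have h4 : 1 - A / (p : ℝ) = (p - A) / p := by field_simp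
  have h5 : 3 / 2 * (1 - B / (p : ℝ)) + 3 * (C / p) = (3 / 2 * (p - B) + 3 * C) / p := by
    field_simp
  rw [h4, h5]
  exact div_le_div_of_nonneg_right h3 hp'.le

open Classical in
/-- the weights of the test -/
noncomputable def muF (U : Finset ℕ) (ν F : ℕ → ℤ → ℝ) : ℕ → ℤ → ℝ :=
  fun p n => if p ∈ U then ν p n * F p n else ν p n

theorem muF_in {U : Finset ℕ} {ν F : ℕ → ℤ → ℝ} {p : ℕ} (h : p ∈ U) (n : ℤ) :
    muF U ν F p n = ν p n * F p n := by
  unfold muF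
  rw [if_pos h]

theorem muF_out {U : Finset ℕ} {ν F : ℕ → ℤ → ℝ} {p : ℕ} (h : p ∉ U) (n : ℤ) :
    muF U ν F p n = ν p n := by
  unfold muF
  rw [if_neg h]

theorem zf_muF {U : Finset ℕ} {ν F : ℕ → ℤ → ℝ} (hF : ∀ p ∈ U, ∀ n, 1 / 3 ≤ F p n) (p : ℕ) :
    zf (muF U ν F) p = zf ν p := by
  unfold zf
  have : ∀ x : ℕ, (muF U ν F p x = 0) = (ν p x = 0) := by
    intro x
    by_cases h : p ∈ U
    · rw [muF_in h]
      have : F p x ≠ 0 := by linarith [hF p h x]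
      simp [this]
    · rw [muF_out h]
  simp only [this]

/-- number of primes of the window dividing `D` -/
theorem Yn_card {ε : ℝ} {k : ℕ} {P : ℝ} (hB : PinB ε k P) {D : ℕ} (hD : 1 ≤ D) :
    ((Yn ε P D).card : ℝ) ≤ Real.log D := by
  have h1 : ∏ p ∈ Yn ε P D, p ∣ D := by
    apply Finset.prod_primes_dvd
    · intro p hp
      exact (pin_prime hB (mem_filter.1 hp).1).prime
    · intro p hp
      exact (mem_filter.1 hp).2
  have h2 : ((∏ p ∈ Yn ε P D, p : ℕ) : ℝ) ≤ D := by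
    exact_mod_cast Nat.le_of_dvd (by omega) h1
  have h3 : Real.exp 1 ^ (Yn ε P D).card ≤ ((∏ p ∈ Yn ε P D, p : ℕ) : ℝ) := by
    push_cast
    rw [← Finset.prod_const]
    refine Finset.prod_le_prod (fun _ _ => (Real.exp_pos _).le) fun p hp => ?_
    have := pin_p_gt hB (mem_filter.1 hp).1
    linarith [Real.exp_one_lt_d9]
  have h4 : (0 : ℝ) < D := by exact_mod_cast hD
  rw [Real.le_log_iff_exp_le h4]
  calc Real.exp ((Yn ε P D).card : ℝ) = Real.exp 1 ^ (Yn ε P D).card := by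
        rw [← Real.exp_nat_mul, mul_one]
    _ ≤ _ := h3.trans h2

theorem VY_disj (ε P : ℝ) (D : ℕ) : Disjoint (Vn ε P D) (Yn ε P D) := by
  rw [Finset.disjoint_left]
  intro p hp hq
  exact (mem_filter.1 hp).2 (mem_filter.1 hq).2

theorem VY_union (ε P : ℝ) (D : ℕ) : Vn ε P D ∪ Yn ε P D = W5 ε P := by
  ext p
  unfold Vn Yn
  rw [mem_union, mem_filter, mem_filter]
  tauto

theorem sum_VY (ε P : ℝ) (D : ℕ) (f : ℕ → ℝ) :
    ∑ p ∈ W5 ε P, f p = ∑ p ∈ Vn ε P D, f p + ∑ p ∈ Yn ε P D, f p := by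
  rw [← Finset.sum_union (VY_disj ε P D), VY_union]

theorem prod_VY (ε P : ℝ) (D : ℕ) (f : ℕ → ℝ) :
    ∏ p ∈ W5 ε P, f p = (∏ p ∈ Vn ε P D, f p) * ∏ p ∈ Yn ε P D, f p := by
  rw [← Finset.prod_union (VY_disj ε P D), VY_union]

section

variable {ε : ℝ} {k : ℕ} {P : ℝ} (hB : PinB ε k P) {N' Nmin : ℕ} {Φ : ℝ} {g : ℤ → ℝ}
  {ν : ℕ → ℤ → ℝ}

include hB

theorem bn5_small : bn5 ε P ≤ 1 / 10 := by
  have h0 := hB.e0
  have := hB.c_le' (c := 10) (a := -(97 * ε)) (b := 0) (by norm_num) (by linarith)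
  rw [Real.rpow_zero] at this
  unfold bn5
  linarith

theorem bn5_pos : 0 < bn5 ε P := Real.rpow_pos_of_pos hB.pos _

theorem exp_bn5 : Real.exp (bn5 ε P) ≤ 4 / 3 := by
  have h1 := bn5_small hB
  have h2 := (bn5_pos hB).le
  have h3 := Real.abs_exp_sub_one_sub_id_le (x := bn5 ε P) (by rw [abs_of_nonneg h2]; linarith)
  have h4 := (abs_le.1 h3).2
  nlinarith

/-- pointwise comparison of the weighted functions -/
theorem pinF_pw (hR : Raw5 ε P k N' Nmin Φ g ν)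
    (hνle : ∀ p ∈ W5 ε P, ∀ x, ν p x ≤ Real.exp (bn5 ε P))
    (hlow : ∀ p ∈ W5 ε P, ∀ x, ν p x = 0 ∨ 1 / 20 ≤ ν p x)
    {D : ℕ} (hD : 1 ≤ D) (hlogD : Real.log D ≤ P ^ (1 - 51 * ε)) {U : Finset ℕ}
    {F : ℕ → ℤ → ℝ} (hU : U ⊆ Vn ε P D) (hFb : ∀ p ∈ U, ∀ n, 1 / 3 ≤ F p n ∧ F p n ≤ 3)
    (n : ℤ) (hn : Xn (W5 ε P) ν n + (∑ p ∈ U, Real.log (F p n)) / 2 ≤ Mc2 ε P / 2) :
    Gc (W5 ε P) (Mc2 ε P) g ν n * ∏ p ∈ U, √(F p n) ≤
      Real.exp (bn5 ε P * Real.log D) * Gc (Vn ε P D) (Mc2 ε P) g (muF U ν F) n := by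
  have h0 := hB.e0
  have h1' := hB.e1
  by_cases hz : Gc (W5 ε P) (Mc2 ε P) g ν n = 0
  · rw [hz, zero_mul]
    exact mul_nonneg (Real.exp_pos _).le (Gc_nn hR.g0 n)
  have hX : Xn (W5 ε P) ν n ≤ Mc2 ε P := by
    by_contra h
    apply hz
    unfold Gc
    rw [if_neg h]
  have hGc : Gc (W5 ε P) (Mc2 ε P) g ν n = g n * ∏ p ∈ W5 ε P, √(ν p n) := by
    unfold Gc
    rw [if_pos hX]
  have hprod : ∏ p ∈ W5 ε P, √(ν p n) ≠ 0 := by
    intro h
    apply hz
    rw [hGc, h, mul_zero]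
  have hν : ∀ p ∈ W5 ε P, 1 / 20 ≤ ν p n := by
    intro p hp
    rcases hlow p hp n with h | h
    · exfalso
      apply hprod
      apply Finset.prod_eq_zero hp
      rw [h, Real.sqrt_zero]
    · exact h
  have hVW : Vn ε P D ⊆ W5 ε P := filter_subset _ _
  have hYW : Yn ε P D ⊆ W5 ε P := filter_subset _ _
  have hYc := Yn_card hB hD
  have e6 : Real.exp (-6) ≤ 1 / 60 := by
    have h1 := pin_e3
    have h2 : Real.exp (-6) = Real.exp (-3) * Real.exp (-3) := by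
      rw [← Real.exp_add]; norm_num
    rw [h2]
    nlinarith [Real.exp_pos (-3)]
  -- the clipped logarithms are logarithms
  have hlgν : ∀ p ∈ W5 ε P, lg (ν p n) = Real.log (ν p n) / 2 := fun p hp =>
    lg_of_ge (by linarith [hν p hp])
  have hlgμ : ∀ p ∈ Vn ε P D, lg (muF U ν F p n) =
      lg (ν p n) + (if p ∈ U then Real.log (F p n) / 2 else 0) := by
    intro p hp
    have h2 := hν p (hVW hp)
    by_cases hpU : p ∈ U
    · have h3 := (hFb p hpU n).1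
      rw [muF_in hpU, if_pos hpU, hlgν p (hVW hp), lg_of_ge (by nlinarith),
        Real.log_mul (by linarith) (by linarith)]
      ring
    · rw [muF_out hpU, if_neg hpU, add_zero]
  have hXμ : Xn (Vn ε P D) (muF U ν F) n ≤ Mc2 ε P := by
    have e1 : Xn (Vn ε P D) (muF U ν F) n =
        Xn (Vn ε P D) ν n + (∑ p ∈ U, Real.log (F p n)) / 2 := by
      unfold Xn
      rw [Finset.sum_congr rfl hlgμ, Finset.sum_add_distrib, ← Finset.sum_filter]
      congr 1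
      have : (Vn ε P D).filter (fun p => p ∈ U) = U := by
        ext p
        rw [mem_filter]
        exact ⟨fun h => h.2, fun h => ⟨hU h, h⟩⟩
      rw [this, Finset.sum_div]
    have e2 : Xn (W5 ε P) ν n = Xn (Vn ε P D) ν n + Xn (Yn ε P D) ν n := by
      unfold Xn
      rw [sum_VY ε P D]
    have e3 : -(3 * (Yn ε P D).card : ℝ) ≤ Xn (Yn ε P D) ν n := by
      unfold Xn
      have : ∑ p ∈ Yn ε P D, (-3 : ℝ) ≤ ∑ p ∈ Yn ε P D, lg (ν p n) :=
        sum_le_sum fun p _ => lg_ge _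
      rw [sum_const, nsmul_eq_mul] at this
      linarith
    have e4 : 6 * P ^ (1 - 51 * ε) ≤ P ^ (1 - 49 * ε) :=
      hB.c_le' (by norm_num) (by linarith)
    unfold Mc2 at hn ⊢
    linarith
  have hGμ : Gc (Vn ε P D) (Mc2 ε P) g (muF U ν F) n =
      g n * ∏ p ∈ Vn ε P D, √(muF U ν F p n) := by
    unfold Gc
    rw [if_pos hXμ]
  rw [hGc, hGμ, prod_VY ε P D]
  have e5 : ∏ p ∈ Vn ε P D, √(muF U ν F p n) =
      (∏ p ∈ Vn ε P D, √(ν p n)) * ∏ p ∈ U, √(F p n) := by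
    have e6 : ∏ p ∈ U, √(F p n) = ∏ p ∈ Vn ε P D, (if p ∈ U then √(F p n) else 1) := by
      rw [← Finset.prod_filter]
      apply Finset.prod_congr _ fun _ _ => rfl
      ext p
      rw [mem_filter]
      exact ⟨fun h => ⟨hU h, h⟩, fun h => h.2⟩
    rw [e6, ← Finset.prod_mul_distrib]
    refine Finset.prod_congr rfl fun p hp => ?_
    by_cases hpU : p ∈ U
    · rw [muF_in hpU, if_pos hpU, Real.sqrt_mul (hR.wts.nn p n)]
    · rw [muF_out hpU, if_neg hpU, mul_one]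
  rw [e5]
  have e7 : ∏ p ∈ Yn ε P D, √(ν p n) ≤ Real.exp (bn5 ε P * Real.log D) := by
    have hb := (bn5_pos hB).le
    calc ∏ p ∈ Yn ε P D, √(ν p n) ≤ ∏ p ∈ Yn ε P D, Real.exp (bn5 ε P) := by
          refine Finset.prod_le_prod (fun _ _ => Real.sqrt_nonneg _) fun p hp => ?_
          rw [Real.sqrt_le_left (Real.exp_pos _).le]
          refine (hνle p (hYW hp) n).trans ?_
          rw [← Real.exp_nat_mul]
          apply Real.exp_le_exp.2
          push_cast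
          linarith
      _ = Real.exp ((Yn ε P D).card * bn5 ε P) := by
          rw [Finset.prod_const, ← Real.exp_nat_mul]
      _ ≤ _ := by
          apply Real.exp_le_exp.2
          rw [mul_comm]
          exact mul_le_mul_of_nonneg_left hYc hb
  have e8 : 0 ≤ g n * (∏ p ∈ Vn ε P D, √(ν p n)) * ∏ p ∈ U, √(F p n) :=
    mul_nonneg (mul_nonneg (hR.g0 n) (prod_nonneg fun _ _ => Real.sqrt_nonneg _))
      (prod_nonneg fun _ _ => Real.sqrt_nonneg _)
  calc g n * ((∏ p ∈ Vn ε P D, √(ν p n)) * ∏ p ∈ Yn ε P D, √(ν p n)) * ∏ p ∈ U, √(F p n)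
      = (g n * (∏ p ∈ Vn ε P D, √(ν p n)) * ∏ p ∈ U, √(F p n)) * ∏ p ∈ Yn ε P D, √(ν p n) := by
        ring
    _ ≤ (g n * (∏ p ∈ Vn ε P D, √(ν p n)) * ∏ p ∈ U, √(F p n)) *
        Real.exp (bn5 ε P * Real.log D) := mul_le_mul_of_nonneg_left e7 e8
    _ = _ := by ring

/-- the numeric part -/
theorem pinF_num {D M : ℕ} (hD : 1 ≤ D) (hlogD0 : 0 ≤ Real.log D) (hM : (0 : ℝ) < M)
    (hN : (0 : ℝ) < N') (hN'M : (N' : ℝ) ≤ P * M) {u z : ℝ} (hu0 : 0 ≤ u)
    (hu : u ≤ Real.exp (-(P / 4))) (hz : z ≤ P ^ (-(97.8 * ε)) * Real.log D) :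
    Real.exp (bn5 ε P * Real.log D) * ((1 + u) * ((N' * (D : ℝ) ^ k / M) ^ (eta5 ε P)) *
      Real.exp (Real.exp (-(P ^ (1 - 49.5 * ε)))) * Real.exp (1 / 8 * z)) ≤
      Real.exp (P ^ (-(96.9 * ε)) * (1 + Real.log D)) := by
  have h0 := hB.e0
  have h1' := hB.e1
  have hP := hB.pos
  have hD0 : (0 : ℝ) < D := by exact_mod_cast hD
  set T : ℝ := P ^ (-(96.9 * ε)) with hT
  have hT0 : 0 < T := by positivity
  have hη0 : 0 ≤ eta5 ε P := by unfold eta5; positivity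
  have a1 : ((N' * (D : ℝ) ^ k / M) ^ (eta5 ε P)) ≤
      Real.exp (eta5 ε P * (Real.log P + k * Real.log D)) := by
    have b1 : (N' * (D : ℝ) ^ k / M) ≤ P * (D : ℝ) ^ k := by
      rw [div_le_iff₀ hM]
      calc (N' : ℝ) * (D : ℝ) ^ k ≤ (P * M) * (D : ℝ) ^ k :=
            mul_le_mul_of_nonneg_right hN'M (by positivity)
        _ = _ := by ring
    have b2 : P * (D : ℝ) ^ k = Real.exp (Real.log P + k * Real.log D) := by
      rw [Real.exp_add, Real.exp_log hP, mul_comm (k : ℝ), Real.exp_mul, Real.exp_log hD0,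
        Real.rpow_natCast]
    calc ((N' * (D : ℝ) ^ k / M) ^ (eta5 ε P)) ≤ (P * (D : ℝ) ^ k) ^ (eta5 ε P) :=
          Real.rpow_le_rpow (by positivity) b1 hη0
      _ = _ := by
          rw [b2, ← Real.exp_mul, mul_comm]
  have a2 : (1 + u) * Real.exp (Real.exp (-(P ^ (1 - 49.5 * ε)))) ≤ Real.exp (T / 4) := by
    have b1 := fac_le hB hu0 hu
    have b2 := dl5_small hB
    have b3 := (dl5_pos hB).le
    have b4 := dl_le_one hB
    have b5 : 4 * dl5 ε P ^ 2 ≤ T / 4 := by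
      have c1 : P ^ (-(4 : ℝ)) ≤ T := hB.r_le (by linarith)
      have c2 : P ^ (-(4 : ℝ)) = (P ^ 4)⁻¹ := by
        rw [Real.rpow_neg hP.le]
        norm_cast
      have c3 : 10 ^ 6 * dl5 ε P ≤ (P ^ 4)⁻¹ := by
        rw [← one_div, le_div_iff₀ (by positivity)]
        exact b2
      rw [c2] at c1
      nlinarith
    refine b1.trans ?_
    calc 1 + 4 * dl5 ε P ^ 2 ≤ Real.exp (4 * dl5 ε P ^ 2) := by
          linarith [Real.add_one_le_exp (4 * dl5 ε P ^ 2)]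
      _ ≤ _ := Real.exp_le_exp.2 b5
  have c1 : bn5 ε P ≤ T / 4 := by
    have := hB.c_le' (c := 4) (a := -(97 * ε)) (b := -(96.9 * ε)) (by norm_num) (by linarith)
    unfold bn5
    rw [hT]
    linarith
  have c2 : eta5 ε P * Real.log P ≤ T / 4 := by
    have d1 := hB.l_le (a := -(98 * ε)) (b := -(97 * ε)) (by linarith)
    have d2 := hB.c_le' (c := 4) (a := -(97 * ε)) (b := -(96.9 * ε)) (by norm_num) (by linarith)
    unfold eta5
    rw [hT]
    linarith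
  have c3 : eta5 ε P * k ≤ T / 4 := by
    have d1 := hB.c_le (c := 4 * k) (a := -(98 * ε)) (b := -(96.9 * ε))
      (by have : (0 : ℝ) ≤ k := Nat.cast_nonneg k
          linarith) (by linarith)
    unfold eta5
    rw [hT]
    linarith
  have c4 : P ^ (-(97.8 * ε)) ≤ T / 4 := by
    have d1 := hB.c_le' (c := 4) (a := -(97.8 * ε)) (b := -(96.9 * ε)) (by norm_num)
      (by linarith)
    rw [hT]
    linarith
  have hL := hlogD0
  have e1 : bn5 ε P * Real.log D ≤ T / 4 * Real.log D := mul_le_mul_of_nonneg_right c1 hL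
  have e3 : eta5 ε P * k * Real.log D ≤ T / 4 * Real.log D := mul_le_mul_of_nonneg_right c3 hL
  have e4 : P ^ (-(97.8 * ε)) * Real.log D ≤ T / 4 * Real.log D :=
    mul_le_mul_of_nonneg_right c4 hL
  have e5 : 0 ≤ T * Real.log D := mul_nonneg hT0.le hL
  calc Real.exp (bn5 ε P * Real.log D) * ((1 + u) * ((N' * (D : ℝ) ^ k / M) ^ (eta5 ε P)) *
        Real.exp (Real.exp (-(P ^ (1 - 49.5 * ε)))) * Real.exp (1 / 8 * z))
      = Real.exp (bn5 ε P * Real.log D) *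
        (((1 + u) * Real.exp (Real.exp (-(P ^ (1 - 49.5 * ε))))) *
          ((N' * (D : ℝ) ^ k / M) ^ (eta5 ε P)) * Real.exp (1 / 8 * z)) := by ring
    _ ≤ Real.exp (bn5 ε P * Real.log D) *
        (Real.exp (T / 4) * Real.exp (eta5 ε P * (Real.log P + k * Real.log D)) *
          Real.exp (1 / 8 * z)) := by
        have hpos : (0 : ℝ) ≤ ((N' * (D : ℝ) ^ k / M) ^ (eta5 ε P)) := by positivity
        gcongr
    _ = Real.exp (bn5 ε P * Real.log D + (T / 4 + eta5 ε P * (Real.log P + k * Real.log D) +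
          1 / 8 * z)) := by
        rw [← Real.exp_add, ← Real.exp_add, ← Real.exp_add]
    _ ≤ _ := by
        apply Real.exp_le_exp.2
        nlinarith

end

/-- piece F of PIN5 -/
theorem pinF_holds : PinFStmt := by
  intro k hk ε h0 h1
  obtain ⟨P0, hP0⟩ := pin_eventually k h0 h1
  refine ⟨P0, ?_⟩
  intro P hPP N' Nmin Φ g ν hR hH hνle hzf hlow D M y x U F hD hlogD hMN hN'M hU hFper hFb hFmean
    hFsq
  have hB := hP0 P hPP
  have hP := hB.pos
  have hVW : Vn ε P D ⊆ W5 ε P := filter_subset _ _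
  have hYW : Yn ε P D ⊆ W5 ε P := filter_subset _ _
  have hD0 : (0 : ℝ) < D := by exact_mod_cast hD
  have hL0 : 0 ≤ Real.log D := Real.log_nonneg (by exact_mod_cast hD)
  have hN0 : (0 : ℝ) < N' := lt_of_lt_of_le (Real.exp_pos _) hR.N'lo
  have hM0 : (0 : ℝ) < M := by
    by_contra h
    push Not at h
    have : (M : ℝ) = 0 := le_antisymm h (Nat.cast_nonneg _)
    rw [this, mul_zero] at hN'M
    linarith
  have hΦ0 : 0 < Φ := lt_of_lt_of_le (Real.exp_pos _) hR.Φlo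
  have hsz := size_ok hB hR hD (by
    have := hB.c_le (c := 100 * k) (a := 1 - 51 * ε) (b := 1)
      (by have : (0 : ℝ) ≤ k := Nat.cast_nonneg k
          linarith) (by linarith)
    rw [Real.rpow_one] at this
    have h2 : (k : ℝ) * Real.log D ≤ k * P ^ (1 - 51 * ε) :=
      mul_le_mul_of_nonneg_left hlogD (Nat.cast_nonneg _)
    linarith) hN'M
  have hF0 : ∀ p ∈ U, ∀ n, 0 ≤ F p n := fun p hp n => by linarith [(hFb p hp n).1]
  have hW : Wts (Vn ε P D) (muF U ν F) := by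
    refine ⟨?_, ?_, ?_⟩
    · intro p n
      by_cases hp : p ∈ U
      · rw [muF_in hp]
        exact mul_nonneg (hR.wts.nn _ _) (hF0 p hp n)
      · rw [muF_out hp]
        exact hR.wts.nn _ _
    · intro p hpV n
      by_cases hp : p ∈ U
      · rw [muF_in hp, muF_in hp, hR.wts.per p (hVW hpV), hFper p hp]
      · rw [muF_out hp, muF_out hp]
        exact hR.wts.per p (hVW hpV) n
    · intro p hpV
      by_cases hp : p ∈ U
      · simp only [muF_in hp]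
        exact hFmean p hp
      · simp only [muF_out hp]
        exact hR.wts.mean p (hVW hpV)
  have h4 : ∀ p ∈ Vn ε P D, ∀ n, muF U ν F p n ≤ 4 := by
    intro p hpV n
    have h5 := (hνle p (hVW hpV) n).trans (exp_bn5 hB)
    by_cases hp : p ∈ U
    · rw [muF_in hp]
      calc ν p n * F p n ≤ 4 / 3 * 3 :=
            mul_le_mul h5 (hFb p hp n).2 (hF0 p hp n) (by norm_num)
        _ = 4 := by norm_num
    · rw [muF_out hp]
      linarith
  have hHl : Hl (Vn ε P D) (muF U ν F) ≤ V05 ε P := by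
    have a1 : ∀ p ∈ Vn ε P D, 1 - (∑ x ∈ range p, √(muF U ν F p x)) / (p : ℝ) ≤
        3 / 2 * (1 - (∑ x ∈ range p, √(ν p x)) / (p : ℝ)) +
          (if p ∈ U then 3 * ((∑ z ∈ range p, ν p z * (F p z - 1) ^ 2) / (p : ℝ)) else 0) := by
      intro p hpV
      have hnn := hl_term_nn hB (subset_refl _) hR.wts (hVW hpV)
      by_cases hp : p ∈ U
      · rw [if_pos hp]
        simp only [muF_in hp]
        exact pinF_one (pin_prime hB (hVW hpV)).pos (ν p) (F p) (hR.wts.nn p)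
          (hlow p (hVW hpV)) (hF0 p hp) (hR.wts.mean p (hVW hpV)) (hFmean p hp)
      · rw [if_neg hp, add_zero]
        simp only [muF_out hp]
        linarith
    have a2 : Hl (Vn ε P D) (muF U ν F) ≤ 3 / 2 * Hl (Vn ε P D) ν +
        3 * ∑ p ∈ U, (∑ z ∈ range p, ν p z * (F p z - 1) ^ 2) / (p : ℝ) := by
      unfold Hl
      refine (sum_le_sum a1).trans (le_of_eq ?_)
      rw [sum_add_distrib, ← mul_sum, ← sum_filter]
      congr 1
      have : (Vn ε P D).filter (fun p => p ∈ U) = U := by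
        ext p
        rw [mem_filter]
        exact ⟨fun h => h.2, fun h => ⟨hU h, h⟩⟩
      rw [this, mul_sum]
    have a3 := hl_mono hB hVW hR.wts
    have a4 := hB.c_le' (c := 6) (a := 1 - 99.5 * ε) (b := 1 - 50.5 * ε) (by norm_num)
      (by linarith)
    have a5 := hB.c_le' (c := 6) (a := 1 - 50.8 * ε) (b := 1 - 50.5 * ε) (by norm_num)
      (by linarith)
    have a6 : 0 ≤ P ^ (1 - 99.5 * ε) := by positivity
    have a7 : 0 ≤ P ^ (1 - 50.8 * ε) := by positivity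
    unfold V05
    linarith
  have hmax := hR.max D M y x (muF U ν F) hD hsz.1 (hsz.1.trans hMN) hW h4 hHl
  simp only [zf_muF fun p hp n => (hFb p hp n).1] at hmax
  set S : ℝ := ∑ n ∈ cel y M D x, Gc (Vn ε P D) (Mc2 ε P) g (muF U ν F) n with hS
  -- step 1
  have s1 : ∑ n ∈ (cel y M D x).filter (fun n => Xn (W5 ε P) ν n +
      (∑ p ∈ U, Real.log (F p n)) / 2 ≤ Mc2 ε P / 2),
        Gc (W5 ε P) (Mc2 ε P) g ν n * ∏ p ∈ U, √(F p n) ≤
      Real.exp (bn5 ε P * Real.log D) * S := by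
    rw [hS, mul_sum]
    calc _ ≤ ∑ n ∈ (cel y M D x).filter (fun n => Xn (W5 ε P) ν n +
          (∑ p ∈ U, Real.log (F p n)) / 2 ≤ Mc2 ε P / 2),
            Real.exp (bn5 ε P * Real.log D) * Gc (Vn ε P D) (Mc2 ε P) g (muF U ν F) n := by
          refine sum_le_sum fun n hn => ?_
          exact pinF_pw hB hR hνle hlow hD hlogD hU hFb n (mem_filter.1 hn).2
      _ ≤ _ := by
          refine sum_le_sum_of_subset_of_nonneg (filter_subset _ _) fun n _ _ => ?_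
          exact mul_nonneg (Real.exp_pos _).le (Gc_nn hR.g0 n)
  refine s1.trans ?_
  -- step 2
  set u : ℝ := (D : ℝ) ^ k / M with hu
  have hz : ∑ p ∈ Yn ε P D, zf ν p ≤ P ^ (-(97.8 * ε)) * Real.log D := by
    calc ∑ p ∈ Yn ε P D, zf ν p ≤ ∑ p ∈ Yn ε P D, P ^ (-(97.8 * ε)) :=
          sum_le_sum fun p hp => hzf p (hYW hp)
      _ = (Yn ε P D).card * P ^ (-(97.8 * ε)) := by rw [sum_const, nsmul_eq_mul]
      _ ≤ Real.log D * P ^ (-(97.8 * ε)) :=
          mul_le_mul_of_nonneg_right (Yn_card hB hD) (by positivity)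
      _ = _ := by ring
  have hnum := pinF_num hB (k := k) hD hL0 hM0 hN0 hN'M (u := u) (by positivity) hsz.2 hz
  have hsplit : Real.exp (1 / 8 * ∑ p ∈ W5 ε P, zf ν p) =
      Real.exp (1 / 8 * ∑ p ∈ Yn ε P D, zf ν p) * Real.exp (1 / 8 * ∑ p ∈ Vn ε P D, zf ν p) := by
    rw [← Real.exp_add, sum_VY ε P D]
    congr 1
    ring
  rw [hsplit, ← mul_assoc] at hmax
  have hS2 := le_of_mul_le_mul_right hmax (Real.exp_pos _)
  calc Real.exp (bn5 ε P * Real.log D) * S ≤ Real.exp (bn5 ε P * Real.log D) * _ :=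
        mul_le_mul_of_nonneg_left hS2 (Real.exp_pos _).le
    _ = ((M : ℝ) * Φ / D) * (Real.exp (bn5 ε P * Real.log D) *
        ((1 + u) * ((N' * (D : ℝ) ^ k / M) ^ (eta5 ε P)) *
      Real.exp (Real.exp (-(P ^ (1 - 49.5 * ε)))) *
        Real.exp (1 / 8 * ∑ p ∈ Yn ε P D, zf ν p))) := by
        ring
    _ ≤ _ := mul_le_mul_of_nonneg_left hnum (by positivity)

end Vale.Agent.P042.UU
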