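import Vale.Agent.P042.UU.PinE

set_option autoImplicit false

/-!
Theorem S5, block PIN5, part F: the inequality for tilted weights and the block.
-/

namespace Vale.Agent.P042.UU.PIN

open Polynomial Finset Filter Vale.Agent.P042.SS Vale.Agent.P042.TT

theorem hl_pt {v F : ℝ} (hv : 0 ≤ v) (hF : 0 ≤ F) :
    1 - √(v * F) ≤ (1 - 2 * √v + v) + v * (F - 1) ^ 2 + (1 - v * F) / 2 := by
  rw [Real.sqrt_mul hv]
  have h1 := Real.sq_sqrt hv
  have h2 := Real.sq_sqrt hF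
  set a := √v
  set b := √F
  have hb : 0 ≤ b := Real.sqrt_nonneg _
  rw [← h1, ← h2]
  have h3 : (1 - b) ^ 2 ≤ (b ^ 2 - 1) ^ 2 := by
    have : (b ^ 2 - 1) ^ 2 = (1 - b) ^ 2 * (1 + b) ^ 2 := by ring
    rw [this]
    have : (1 : ℝ) ≤ (1 + b) ^ 2 := by nlinarith
    nlinarith [sq_nonneg (1 - b)]
  have h4 : a ^ 2 * (1 - b) ^ 2 ≤ a ^ 2 * (b ^ 2 - 1) ^ 2 :=
    mul_le_mul_of_nonneg_left h3 (sq_nonneg _)
  nlinarith [sq_nonneg ((1 - a) - a * (1 - b))]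

/-- one prime -/
theorem hl_one {p : ℕ} (hp : 0 < p) (v F : ℕ → ℝ) (hv : ∀ x, 0 ≤ v x) (hF : ∀ x, 0 ≤ F x)
    (hm : ∑ x ∈ range p, v x = p) (hmF : ∑ x ∈ range p, v x * F x = p) :
    1 - (∑ x ∈ range p, √(v x * F x)) / p ≤ 2 * (1 - (∑ x ∈ range p, √(v x)) / p) +
      (∑ x ∈ range p, v x * (F x - 1) ^ 2) / p := by
  have hp0 : (0 : ℝ) < p := by exact_mod_cast hp
  have h1 : ∑ x ∈ range p, (1 - √(v x * F x)) ≤
      ∑ x ∈ range p, ((1 - 2 * √(v x) + v x) + v x * (F x - 1) ^ 2 + (1 - v x * F x) / 2) :=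
    sum_le_sum fun x _ => hl_pt (hv x) (hF x)
  rw [sum_sub_distrib, sum_add_distrib, sum_add_distrib, sum_add_distrib, sum_sub_distrib,
    ← mul_sum, ← sum_div, sum_sub_distrib, sum_const, card_range, nsmul_eq_mul, mul_one, hm, hmF,
    sub_self, zero_div, add_zero] at h1
  have e1 : 1 - (∑ x ∈ range p, √(v x * F x)) / p = (p - ∑ x ∈ range p, √(v x * F x)) / p := by
    field_simp
  have e2 : 2 * (1 - (∑ x ∈ range p, √(v x)) / p) + (∑ x ∈ range p, v x * (F x - 1) ^ 2) / p =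
      (p - 2 * ∑ x ∈ range p, √(v x) + p + ∑ x ∈ range p, v x * (F x - 1) ^ 2) / p := by
    field_simp
    ring
  rw [e1, e2]
  exact div_le_div_of_nonneg_right h1 hp0.le

section

variable {ε : ℝ} {k : ℕ} {P : ℝ} (hB : PinB ε k P) {N' Nmin : ℕ} {Φ : ℝ} {g : ℤ → ℝ}
  {ν : ℕ → ℤ → ℝ}

include hB

theorem card_Yn {D : ℕ} (hD : 1 ≤ D) : ((Yn ε P D).card : ℝ) ≤ Real.log D := by
  have hprime : ∀ p ∈ Yn ε P D, p.Prime := fun p hp => pin_prime hB (mem_filter.1 hp).1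
  have h1 : ∏ p ∈ Yn ε P D, p ∣ D :=
    Finset.prod_primes_dvd D (fun p hp => (hprime p hp).prime) fun p hp => (mem_filter.1 hp).2
  have h2 : ∏ p ∈ Yn ε P D, p ≤ D := Nat.le_of_dvd hD h1
  have h3 : ((∏ p ∈ Yn ε P D, p : ℕ) : ℝ) ≤ D := by exact_mod_cast h2
  rw [Nat.cast_prod] at h3
  have h4 : Real.exp ((Yn ε P D).card) ≤ ∏ p ∈ Yn ε P D, (p : ℝ) := by
    have e : Real.exp ((Yn ε P D).card) = ∏ _p ∈ Yn ε P D, Real.exp 1 := by
      rw [prod_const, ← Real.exp_nat_mul, mul_one]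
    rw [e]
    refine prod_le_prod (fun p _ => (Real.exp_pos _).le) fun p hp => ?_
    have k1 := pin_p_gt hB (mem_filter.1 hp).1
    have k2 := Real.exp_one_lt_d9
    linarith
  have hD0 : (0 : ℝ) < D := by exact_mod_cast hD
  rw [Real.le_log_iff_exp_le hD0]
  exact h4.trans h3

theorem dl_le' : dl5 ε P ≤ bn5 ε P / 10 ^ 6 := by
  have hP := hB.pos
  have h1 := dl5_small hB
  have h3 := (dl5_pos hB).le
  have h4 : P ^ (-4 : ℝ) ≤ bn5 ε P := hB.r_le (by linarith [hB.e1])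
  have h5 : P ^ (-4 : ℝ) * P ^ 4 = 1 := by
    rw [← Real.rpow_natCast, ← Real.rpow_add hP]
    norm_num
  have h7 : 10 ^ 6 * dl5 ε P * P ^ 4 ≤ P ^ (-4 : ℝ) * P ^ 4 := by rw [h5]; exact h1
  have := le_of_mul_le_mul_right h7 (by positivity)
  linarith

/-- the factors, extended by one -/
noncomputable def ff (U : Finset ℕ) (F : ℕ → ℤ → ℝ) (p : ℕ) (n : ℤ) : ℝ :=
  if p ∈ U then F p n else 1

/-- the tilted weights -/
noncomputable def mu5 (ν : ℕ → ℤ → ℝ) (U : Finset ℕ) (F : ℕ → ℤ → ℝ) (p : ℕ) (n : ℤ) : ℝ :=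
  ν p n * ff U F p n

/-- the hypotheses on the factors -/
structure KH (ε P : ℝ) (ν : ℕ → ℤ → ℝ) (D : ℕ) (U : Finset ℕ) (F : ℕ → ℤ → ℝ) : Prop where
  hU : U ⊆ Vn ε P D
  per : ∀ p ∈ U, ∀ n, F p (n + p) = F p n
  bd : ∀ p ∈ U, ∀ n, 1 / 3 ≤ F p n ∧ F p n ≤ 3
  mean : ∀ p ∈ U, ∑ z ∈ range p, ν p z * F p z = p
  sq : ∑ p ∈ U, (∑ z ∈ range p, ν p z * (F p z - 1) ^ 2) / (p : ℝ) ≤ P ^ (1 - 50.8 * ε)

omit hB in
theorem ff_bd {D : ℕ} {U : Finset ℕ} {F : ℕ → ℤ → ℝ} (hK : KH ε P ν D U F) (p : ℕ) (n : ℤ) :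
    1 / 3 ≤ ff U F p n ∧ ff U F p n ≤ 3 := by
  unfold ff
  split_ifs with h
  · exact hK.bd p h n
  · norm_num

omit hB in
theorem ff_pos {D : ℕ} {U : Finset ℕ} {F : ℕ → ℤ → ℝ} (hK : KH ε P ν D U F) (p : ℕ) (n : ℤ) :
    0 < ff U F p n := by linarith [(ff_bd hK p n).1]

theorem ff_mean (hW : Wts (W5 ε P) ν) {D : ℕ} {U : Finset ℕ} {F : ℕ → ℤ → ℝ}
    (hK : KH ε P ν D U F) : ∀ p ∈ Vn ε P D, ∑ z ∈ range p, ν p z * ff U F p z = p := by
  intro p hp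
  unfold ff
  split_ifs with h
  · exact hK.mean p h
  · simp only [mul_one]
    exact hW.mean p (mem_filter.1 hp).1

theorem mu5_wts (hW : Wts (W5 ε P) ν) {D : ℕ} {U : Finset ℕ} {F : ℕ → ℤ → ℝ}
    (hK : KH ε P ν D U F) : Wts (Vn ε P D) (mu5 ν U F) := by
  refine ⟨fun p n => mul_nonneg (hW.nn p n) (ff_pos hK p n).le, fun p hp n => ?_,
    ff_mean hB hW hK⟩
  unfold mu5 ff
  rw [hW.per p (mem_filter.1 hp).1]
  split_ifs with h
  · rw [hK.per p h]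
  · rfl

theorem mu5_le4 (hR : Raw5 ε P k N' Nmin Φ g ν) (hM : MgfAt ε P) {D : ℕ} {U : Finset ℕ}
    {F : ℕ → ℤ → ℝ} (hK : KH ε P ν D U F) : ∀ p ∈ Vn ε P D, ∀ n, mu5 ν U F p n ≤ 4 := by
  intro p hp n
  unfold mu5
  have k1 := nu_le43 hB hR hM (mem_filter.1 hp).1 n
  have k2 := (ff_bd hK p n).2
  have k3 := hR.wts.nn p n
  have k4 := ff_pos hK p n
  nlinarith

theorem mu5_hl (hR : Raw5 ε P k N' Nmin Φ g ν) (hM : MgfAt ε P) {D : ℕ} {U : Finset ℕ}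
    {F : ℕ → ℤ → ℝ} (hK : KH ε P ν D U F) : Hl (Vn ε P D) (mu5 ν U F) ≤ V05 ε P := by
  have h0 := hB.e0
  have h1' := hB.e1
  have hP := hB.pos
  have hsub : Vn ε P D ⊆ W5 ε P := filter_subset _ _
  have k1 : Hl (Vn ε P D) (mu5 ν U F) ≤
      ∑ p ∈ Vn ε P D, (2 * (1 - (∑ x ∈ range p, √(ν p x)) / p) +
        (∑ x ∈ range p, ν p x * (ff U F p x - 1) ^ 2) / p) := by
    unfold Hl
    refine sum_le_sum fun p hp => ?_
    exact hl_one (pin_prime hB (hsub hp)).pos (fun x : ℕ => ν p x) (fun x : ℕ => ff U F p x)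
      (fun x => hR.wts.nn p x) (fun x => (ff_pos hK p x).le) (hR.wts.mean p (hsub hp))
      (ff_mean hB hR.wts hK p hp)
  rw [sum_add_distrib, ← mul_sum] at k1
  have k2 : ∑ p ∈ Vn ε P D, (∑ x ∈ range p, ν p x * (ff U F p x - 1) ^ 2) / (p : ℝ) =
      ∑ p ∈ U, (∑ z ∈ range p, ν p z * (F p z - 1) ^ 2) / (p : ℝ) := by
    symm
    have : ∀ p ∈ U, (∑ z ∈ range p, ν p z * (F p z - 1) ^ 2) / (p : ℝ) =
        (∑ x ∈ range p, ν p x * (ff U F p x - 1) ^ 2) / (p : ℝ) := by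
      intro p hp
      simp only [ff, if_pos hp]
    rw [sum_congr rfl this]
    refine sum_subset hK.hU fun p _ hp => ?_
    simp [ff, if_neg hp]
  rw [k2] at k1
  have k3 : ∑ p ∈ Vn ε P D, (1 - (∑ x ∈ range p, √(ν p x)) / (p : ℝ)) ≤
      P ^ (1 - 99.5 * ε) := (hl_mono hB hsub hR.wts).trans (pin_hell hB hM hR)
  have k4 := hB.c_le' (c := 4) (a := 1 - 99.5 * ε) (b := 1 - 50.5 * ε) (by norm_num)
    (by linarith)
  have k5 := hB.c_le' (c := 4) (a := 1 - 50.8 * ε) (b := 1 - 50.5 * ε) (by norm_num)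
    (by linarith)
  have k6 : 0 ≤ P ^ (1 - 50.5 * ε) := by positivity
  have k7 := hK.sq
  unfold V05
  linarith

omit hB in
theorem mu5_zf {D : ℕ} {U : Finset ℕ} {F : ℕ → ℤ → ℝ} (hK : KH ε P ν D U F) (p : ℕ) :
    zf (mu5 ν U F) p = zf ν p := by
  unfold zf
  have : ∀ x : ℕ, (mu5 ν U F p x = 0) = (ν p x = 0) := by
    intro x
    unfold mu5
    simp [(ff_pos hK p x).ne']
  simp only [this]

theorem ge20 (hR : Raw5 ε P k N' Nmin Φ g ν) (hM : MgfAt ε P) {n : ℤ}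
    (hclip : Xn (W5 ε P) ν n ≤ Mc2 ε P) (hG : Gc (W5 ε P) (Mc2 ε P) g ν n ≠ 0) :
    ∀ p ∈ W5 ε P, 1 / 20 ≤ ν p n := by
  intro p hp
  rcases low5' hB hR hM hp n with h | h
  · exfalso
    apply hG
    unfold Gc
    rw [if_pos hclip, prod_eq_zero hp (by rw [h, Real.sqrt_zero]), mul_zero]
  · exact h

/-- the clip variable of the tilted weights -/
theorem mu5_clip {D : ℕ} {U : Finset ℕ} {F : ℕ → ℤ → ℝ} (hK : KH ε P ν D U F) (hD : 1 ≤ D)
    (hDP : Real.log D ≤ P ^ (1 - 51 * ε)) {n : ℤ} (hν20 : ∀ p ∈ W5 ε P, 1 / 20 ≤ ν p n)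
    (hcond : Xn (W5 ε P) ν n + (∑ p ∈ U, Real.log (F p n)) / 2 ≤ Mc2 ε P / 2) :
    Xn (Vn ε P D) (mu5 ν U F) n ≤ Mc2 ε P := by
  have h0 := hB.e0
  have h1' := hB.e1
  have hP := hB.pos
  have hsub : Vn ε P D ⊆ W5 ε P := filter_subset _ _
  have hY := card_Yn hB hD
  have he6 : Real.exp (-6) ≤ 1 / 64 := by
    have k1 : Real.exp (-6) = Real.exp (-3) ^ 2 := by
      rw [← Real.exp_nat_mul]
      norm_num
    rw [k1]
    have k2 := pin_e3
    have k3 := Real.exp_pos (-3)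
    nlinarith
  have hlg : ∀ p ∈ Vn ε P D, lg (mu5 ν U F p n) = lg (ν p n) + Real.log (ff U F p n) / 2 := by
    intro p hp
    have k1 := hν20 p (hsub hp)
    have k2 := (ff_bd hK p n).1
    have k3 : 1 / 60 ≤ mu5 ν U F p n := by
      unfold mu5
      nlinarith
    rw [lg_of_ge (by linarith), lg_of_ge (by linarith)]
    unfold mu5
    rw [Real.log_mul (by linarith) (ff_pos hK p n).ne']
    ring
  have hsumF : ∑ p ∈ Vn ε P D, Real.log (ff U F p n) / 2 = (∑ p ∈ U, Real.log (F p n)) / 2 := by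
    rw [← sum_div]
    congr 1
    symm
    have : ∀ p ∈ U, Real.log (F p n) = Real.log (ff U F p n) := by
      intro p hp
      simp only [ff, if_pos hp]
    rw [sum_congr rfl this]
    refine sum_subset hK.hU fun p _ hp => ?_
    simp [ff, if_neg hp]
  have hXW : Xn (W5 ε P) ν n = ∑ p ∈ Yn ε P D, lg (ν p n) + ∑ p ∈ Vn ε P D, lg (ν p n) := by
    unfold Xn Yn Vn
    rw [sum_filter_add_sum_filter_not]
  have hXY : -(3 * ((Yn ε P D).card : ℝ)) ≤ ∑ p ∈ Yn ε P D, lg (ν p n) := by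
    have : ∑ _p ∈ Yn ε P D, (-3 : ℝ) ≤ ∑ p ∈ Yn ε P D, lg (ν p n) :=
      sum_le_sum fun p _ => lg_ge _
    rw [sum_const, nsmul_eq_mul] at this
    linarith
  have e1 : Xn (Vn ε P D) (mu5 ν U F) n = ∑ p ∈ Vn ε P D, lg (ν p n) +
      (∑ p ∈ U, Real.log (F p n)) / 2 := by
    unfold Xn
    rw [sum_congr rfl hlg, sum_add_distrib, hsumF]
  have k1 := hB.c_le' (c := 6) (a := 1 - 51 * ε) (b := 1 - 49 * ε) (by norm_num)
    (by linarith)
  have k2 : Mc2 ε P = P ^ (1 - 49 * ε) := rfl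
  rw [e1]
  linarith

/-- pointwise comparison -/
theorem mu5_pt (hR : Raw5 ε P k N' Nmin Φ g ν) (hM : MgfAt ε P) {D : ℕ} {U : Finset ℕ}
    {F : ℕ → ℤ → ℝ} (hK : KH ε P ν D U F) (hD : 1 ≤ D)
    (hDP : Real.log D ≤ P ^ (1 - 51 * ε)) {n : ℤ}
    (hcond : Xn (W5 ε P) ν n + (∑ p ∈ U, Real.log (F p n)) / 2 ≤ Mc2 ε P / 2) :
    Gc (W5 ε P) (Mc2 ε P) g ν n * ∏ p ∈ U, Real.sqrt (F p n) ≤
      Real.exp (bn5 ε P / 2 * Real.log D) * Gc (Vn ε P D) (Mc2 ε P) g (mu5 ν U F) n := by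
  have hb := bn5_pos hB
  have hY := card_Yn hB hD
  by_cases hG : Gc (W5 ε P) (Mc2 ε P) g ν n = 0
  · rw [hG, zero_mul]
    exact mul_nonneg (Real.exp_pos _).le (Gc_nn hR.g0 n)
  · have hclip : Xn (W5 ε P) ν n ≤ Mc2 ε P := by
      by_contra hc
      exact hG (Gc_zero hc)
    have hν20 := ge20 hB hR hM hclip hG
    have hclip' := mu5_clip hB hK hD hDP hν20 hcond
    have hprod : ∏ p ∈ Vn ε P D, √(mu5 ν U F p n) =
        (∏ p ∈ Vn ε P D, √(ν p n)) * ∏ p ∈ U, √(F p n) := by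
      have e1 : ∏ p ∈ U, √(F p n) = ∏ p ∈ Vn ε P D, √(ff U F p n) := by
        have : ∀ p ∈ U, √(F p n) = √(ff U F p n) := by
          intro p hp
          simp only [ff, if_pos hp]
        rw [prod_congr rfl this]
        refine prod_subset hK.hU fun p _ hp => ?_
        simp [ff, if_neg hp]
      rw [e1, ← prod_mul_distrib]
      refine prod_congr rfl fun p _ => ?_
      unfold mu5
      rw [Real.sqrt_mul (hR.wts.nn p n)]
    have hprodW : ∏ p ∈ W5 ε P, √(ν p n) =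
        (∏ p ∈ Yn ε P D, √(ν p n)) * ∏ p ∈ Vn ε P D, √(ν p n) := by
      unfold Yn Vn
      rw [prod_filter_mul_prod_filter_not]
    have hprodY : ∏ p ∈ Yn ε P D, √(ν p n) ≤ Real.exp (bn5 ε P / 2 * Real.log D) := by
      calc ∏ p ∈ Yn ε P D, √(ν p n) ≤ ∏ _p ∈ Yn ε P D, Real.exp (bn5 ε P / 2) := by
            refine prod_le_prod (fun p _ => Real.sqrt_nonneg _) fun p hp => ?_
            rw [Real.sqrt_le_left (Real.exp_pos _).le, ← Real.exp_nat_mul]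
            refine (nu_le5 hB hR hM (mem_filter.1 hp).1 n).trans (Real.exp_le_exp.2 ?_)
            push_cast
            linarith
        _ = Real.exp ((Yn ε P D).card * (bn5 ε P / 2)) := by
            rw [prod_const, ← Real.exp_nat_mul]
        _ ≤ _ := Real.exp_le_exp.2 (by nlinarith)
    have hg := hR.g0 n
    have h5 : 0 ≤ g n * ((∏ p ∈ Vn ε P D, √(ν p n)) * ∏ p ∈ U, √(F p n)) :=
      mul_nonneg hg (mul_nonneg (prod_nonneg fun _ _ => Real.sqrt_nonneg _)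
        (prod_nonneg fun _ _ => Real.sqrt_nonneg _))
    unfold Gc
    rw [if_pos hclip, if_pos hclip', hprod, hprodW]
    calc g n * ((∏ p ∈ Yn ε P D, √(ν p n)) * ∏ p ∈ Vn ε P D, √(ν p n)) *
          ∏ p ∈ U, √(F p n) = (∏ p ∈ Yn ε P D, √(ν p n)) *
          (g n * ((∏ p ∈ Vn ε P D, √(ν p n)) * ∏ p ∈ U, √(F p n))) := by ring
      _ ≤ _ := mul_le_mul_of_nonneg_right hprodY h5

theorem mu5_sum (hR : Raw5 ε P k N' Nmin Φ g ν) (hM : MgfAt ε P) {D : ℕ} {U : Finset ℕ}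
    {F : ℕ → ℤ → ℝ} (hK : KH ε P ν D U F) (hD : 1 ≤ D)
    (hDP : Real.log D ≤ P ^ (1 - 51 * ε)) (M : ℕ) (y x : ℤ) :
    ∑ n ∈ (cel y M D x).filter (fun n => Xn (W5 ε P) ν n +
      (∑ p ∈ U, Real.log (F p n)) / 2 ≤ Mc2 ε P / 2),
      Gc (W5 ε P) (Mc2 ε P) g ν n * ∏ p ∈ U, Real.sqrt (F p n) ≤
      Real.exp (bn5 ε P / 2 * Real.log D) *
        ∑ n ∈ cel y M D x, Gc (Vn ε P D) (Mc2 ε P) g (mu5 ν U F) n := by
  rw [mul_sum]
  refine (sum_le_sum (g := fun n => Real.exp (bn5 ε P / 2 * Real.log D) *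
    Gc (Vn ε P D) (Mc2 ε P) g (mu5 ν U F) n) fun n hn =>
      mu5_pt hB hR hM hK hD hDP (mem_filter.1 hn).2).trans
    (sum_le_sum_of_subset_of_nonneg (filter_subset _ _) fun n _ _ =>
      mul_nonneg (Real.exp_pos _).le (Gc_nn hR.g0 n))

/-- the exponent -/
theorem fin5 (hR : Raw5 ε P k N' Nmin Φ g ν) (hM : MgfAt ε P) {D : ℕ} (hD : 1 ≤ D) :
    bn5 ε P / 2 * Real.log D + (4 * dl5 ε P ^ 2 +
      eta5 ε P * (Real.log P + k * Real.log D) + 1 / 8 * ∑ p ∈ Yn ε P D, zf ν p) ≤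
      P ^ (-(96.9 * ε)) * (1 + Real.log D) := by
  have h0 := hB.e0
  have h1' := hB.e1
  have hP := hB.pos
  have hlD : 0 ≤ Real.log D := Real.log_nonneg (by exact_mod_cast hD)
  have hb := bn5_pos hB
  have hk0 : (0 : ℝ) ≤ k := Nat.cast_nonneg k
  have hY := card_Yn hB hD
  have hYz : ∑ p ∈ Yn ε P D, zf ν p ≤ (Yn ε P D).card * bn5 ε P := by
    rw [← nsmul_eq_mul, ← sum_const]
    refine sum_le_sum fun p hp => ?_
    have := zf_le5 hB hR hM (mem_filter.1 hp).1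
    linarith
  have k1 := hB.c_le' (c := 4) (a := -(97 * ε)) (b := -(96.9 * ε)) (by norm_num) (by linarith)
  have k2 := hB.c_le (c := 4 * k) (a := -(98 * ε)) (b := -(96.9 * ε)) (by linarith)
    (by linarith)
  have k3 := hB.l_le (a := -(98 * ε)) (b := -(97 * ε)) (by linarith)
  have k4 := dl_le' hB
  have k5 := dl_le_one hB
  have k6 := (dl5_pos hB).le
  have k7 : (Yn ε P D).card * bn5 ε P ≤ Real.log D * bn5 ε P :=
    mul_le_mul_of_nonneg_right hY hb.le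
  have k8 : eta5 ε P * (k * Real.log D) ≤ 1 / 4 * P ^ (-(96.9 * ε)) * Real.log D := by
    have : eta5 ε P * k ≤ 1 / 4 * P ^ (-(96.9 * ε)) := by
      unfold eta5
      linarith
    calc eta5 ε P * (k * Real.log D) = (eta5 ε P * k) * Real.log D := by ring
      _ ≤ _ := mul_le_mul_of_nonneg_right this hlD
  have k9 : bn5 ε P * Real.log D ≤ 1 / 4 * P ^ (-(96.9 * ε)) * Real.log D := by
    refine mul_le_mul_of_nonneg_right ?_ hlD
    unfold bn5
    linarith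
  have k10 : eta5 ε P * Real.log P ≤ 1 / 4 * P ^ (-(96.9 * ε)) := by
    unfold eta5
    linarith
  have k11 : 4 * dl5 ε P ^ 2 ≤ 1 / 4 * P ^ (-(96.9 * ε)) := by
    have : 4 * dl5 ε P ^ 2 ≤ bn5 ε P := by nlinarith
    unfold bn5 at this
    linarith
  have k12 : 0 ≤ P ^ (-(96.9 * ε)) := by positivity
  have k13 : 0 ≤ P ^ (-(96.9 * ε)) * Real.log D := mul_nonneg k12 hlD
  linarith

/-- the factor `N' D^k / M` -/
theorem eta_le {D M : ℕ} (hD : 1 ≤ D) (hM0 : (0 : ℝ) < M) (hMN : (N' : ℝ) ≤ P * M) :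
    ((N' : ℝ) * (D : ℝ) ^ k / M) ^ (eta5 ε P) ≤
      Real.exp (eta5 ε P * (Real.log P + k * Real.log D)) := by
  have hP := hB.pos
  have hD0 : (0 : ℝ) < D := by exact_mod_cast hD
  have hDk : (D : ℝ) ^ k = Real.exp (k * Real.log D) := by
    rw [mul_comm, Real.exp_mul, Real.exp_log hD0, Real.rpow_natCast]
  have heta : 0 ≤ eta5 ε P := by unfold eta5; positivity
  have k1 : (N' : ℝ) * (D : ℝ) ^ k / M ≤ Real.exp (Real.log P + k * Real.log D) := by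
    rw [div_le_iff₀ hM0, Real.exp_add, Real.exp_log hP, ← hDk]
    have : (0 : ℝ) < (D : ℝ) ^ k := by positivity
    nlinarith
  calc ((N' : ℝ) * (D : ℝ) ^ k / M) ^ (eta5 ε P) ≤
      (Real.exp (Real.log P + k * Real.log D)) ^ (eta5 ε P) :=
        Real.rpow_le_rpow (by positivity) k1 heta
    _ = _ := by rw [← Real.exp_mul, mul_comm]

/-- **the inequality for tilted weights** -/
theorem klv5 (hR : Raw5 ε P k N' Nmin Φ g ν) (hM : MgfAt ε P)
    (D M : ℕ) (y x : ℤ) (U : Finset ℕ) (F : ℕ → ℤ → ℝ) (hK : KH ε P ν D U F) (hD : 1 ≤ D)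
    (hDP : Real.log D ≤ P ^ (1 - 51 * ε)) (hMN : (N' : ℝ) ≤ P * M)
    (hMN' : M ≤ N') :
    ∑ n ∈ (cel y M D x).filter (fun n => Xn (W5 ε P) ν n + (∑ p ∈ U, Real.log (F p n)) / 2 ≤
        Mc2 ε P / 2), Gc (W5 ε P) (Mc2 ε P) g ν n * ∏ p ∈ U, Real.sqrt (F p n) ≤
      (M * Φ / D) * Real.exp (P ^ (-(96.9 * ε)) * (1 + Real.log D)) := by
  have h0 := hB.e0
  have hP := hB.pos
  have hN0 := pin_N'pos hB hR
  have hΦ := pin_Φpos hB hR
  have hD0 : (0 : ℝ) < D := by exact_mod_cast hD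
  have hk0 : (0 : ℝ) ≤ k := Nat.cast_nonneg k
  have hM0 : (0 : ℝ) < M := by
    by_contra hc
    push Not at hc
    nlinarith
  have hkD : (k : ℝ) * Real.log D ≤ P / 100 := by
    have k1 := hB.c_le (c := 100 * k) (a := 1 - 51 * ε) (b := 1) (by linarith) (by linarith)
    rw [Real.rpow_one] at k1
    have k2 := mul_le_mul_of_nonneg_left hDP hk0
    linarith
  have hs := size_ok hB hR hD hkD hMN
  have hmax := hR.max D M y x (mu5 ν U F) hD hs.1 (hs.1.trans hMN') (mu5_wts hB hR.wts hK)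
    (mu5_le4 hB hR hM hK) (mu5_hl hB hR hM hK)
  rw [sum_congr rfl fun p _ => mu5_zf hK p] at hmax
  have hWs : ∑ p ∈ W5 ε P, zf ν p = ∑ p ∈ Yn ε P D, zf ν p + ∑ p ∈ Vn ε P D, zf ν p := by
    unfold Yn Vn
    rw [sum_filter_add_sum_filter_not]
  rw [hWs, mul_add (1 / 8 : ℝ), Real.exp_add, ← mul_assoc] at hmax
  have hmax2 := le_of_mul_le_mul_right hmax (Real.exp_pos _)
  have hc1 := fac_le hB (u := (D : ℝ) ^ k / M) (by positivity) hs.2
  have hc2 : (1 + (D : ℝ) ^ k / M) * Real.exp (Real.exp (-(P ^ (1 - 49.5 * ε)))) ≤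
      Real.exp (4 * dl5 ε P ^ 2) := hc1.trans (by linarith [Real.add_one_le_exp (4 * dl5 ε P ^ 2)])
  have hc3 := eta_le hB (k := k) hD hM0 hMN
  have hfin := fin5 hB hR hM hD
  refine (mu5_sum hB hR hM hK hD hDP M y x).trans ?_
  have hpos : (0 : ℝ) ≤ M / D * Φ := by positivity
  set A := (1 + (D : ℝ) ^ k / M)
  set B := ((N' : ℝ) * (D : ℝ) ^ k / M) ^ (eta5 ε P) with hBdef
  have hB0 : 0 ≤ B := Real.rpow_nonneg (by positivity) _
  set C := Real.exp (Real.exp (-(P ^ (1 - 49.5 * ε))))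
  set S := ∑ n ∈ cel y M D x, Gc (Vn ε P D) (Mc2 ε P) g (mu5 ν U F) n
  calc Real.exp (bn5 ε P / 2 * Real.log D) * S ≤
      Real.exp (bn5 ε P / 2 * Real.log D) * ((M : ℝ) / D * Φ * A * B * C *
        Real.exp (1 / 8 * ∑ p ∈ Yn ε P D, zf ν p)) :=
        mul_le_mul_of_nonneg_left hmax2 (Real.exp_pos _).le
    _ = (M / D * Φ) * (Real.exp (bn5 ε P / 2 * Real.log D) *
        ((A * C) * B * Real.exp (1 / 8 * ∑ p ∈ Yn ε P D, zf ν p))) := by ring
    _ ≤ (M / D * Φ) * (Real.exp (bn5 ε P / 2 * Real.log D) *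
        (Real.exp (4 * dl5 ε P ^ 2) *
        Real.exp (eta5 ε P * (Real.log P + k * Real.log D)) *
        Real.exp (1 / 8 * ∑ p ∈ Yn ε P D, zf ν p))) := by
        refine mul_le_mul_of_nonneg_left ?_ hpos
        refine mul_le_mul_of_nonneg_left ?_ (Real.exp_pos _).le
        refine mul_le_mul_of_nonneg_right ?_ (Real.exp_pos _).le
        exact mul_le_mul hc2 hc3 hB0 (Real.exp_pos _).le
    _ = (M / D * Φ) * Real.exp (bn5 ε P / 2 * Real.log D + (4 * dl5 ε P ^ 2 +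
      eta5 ε P * (Real.log P + k * Real.log D) + 1 / 8 * ∑ p ∈ Yn ε P D, zf ν p)) := by
        rw [← Real.exp_add, ← Real.exp_add, ← Real.exp_add]
    _ ≤ (M / D * Φ) * Real.exp (P ^ (-(96.9 * ε)) * (1 + Real.log D)) :=
        mul_le_mul_of_nonneg_left (Real.exp_le_exp.2 hfin) hpos
    _ = _ := by ring

end


/-- **Block PIN5.** -/
theorem pin5_direct (h : MGF5Stmt) : PIN5Stmt := by
  intro k _ ε h0 h1
  obtain ⟨P1, hP1⟩ := pin_eventually k h0 h1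
  obtain ⟨P2, hP2⟩ := pin_mgfAt h h0 h1
  refine ⟨max P1 P2, fun P hP N' Nmin Φ g ν hR => ?_⟩
  have hB := hP1 P ((le_max_left _ _).trans hP)
  have hM := hP2 P ((le_max_right _ _).trans hP)
  have hN0 := pin_N'pos hB hR
  have hΦ := pin_Φpos hB hR
  have hb := bn5_pos hB
  have hclip : ∀ n, Gc (W5 ε P) (Mc2 ε P) g ν n ≠ 0 → Xn (W5 ε P) ν n ≤ Mc2 ε P := by
    intro n hn
    by_contra hc
    exact hn (Gc_zero hc)
  refine
    { wts := hR.wts
      νle := fun p hp x => (nu_le5 hB hR hM hp x).trans (Real.exp_le_exp.2 (by linarith))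
      low := fun p hp x => low5' hB hR hM hp x
      hell := pin_hell hB hM hR
      N'lo := hR.N'lo
      N'hi := hR.N'hi
      Φlo := hR.Φlo
      Φhi := hR.Φhi
      G0 := fun n => Gc_nn hR.g0 n
      Gsupp := fun n hn => ?_
      Gsum := hR.Gsum
      Gle := fun n => Gc_le hR.g0 hR.g1 hR.wts.nn n
      Gclip := hclip
      Gν := fun n hn p hp hz => ?_
      marg := fun p hp x => ?_
      klv := fun D M y x U F hD hDP hMN' hMN hU hFp hF hFm hFs => ?_ }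
  · refine hR.gsupp n fun hg => hn ?_
    unfold Gc
    rw [hg, zero_mul, ite_self]
  · apply hn
    unfold Gc
    rw [if_pos (hclip n hn), prod_eq_zero hp (by rw [hz, Real.sqrt_zero]), mul_zero]
  · have hNΦ : 0 < (N' : ℝ) * Φ := by positivity
    have k1 := lw_abs' hB hR hM hp x
    have k2 := pin_fin hB
    have k3 := (dl5_pos hB).le
    have e1 : mass (Gc (W5 ε P) (Mc2 ε P) g ν) 0 N' p x - N' * Φ * ν p x / p =
        (lw ε P N' Φ g ν p x - ν p x / p) * (N' * Φ) := by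
      unfold lw
      field_simp
    rw [e1, abs_mul, abs_of_pos hNΦ]
    exact mul_le_mul_of_nonneg_right (by linarith) hNΦ.le
  · exact klv5 hB hR hM D M y x U F ⟨hU, hFp, hF, hFm, hFs⟩ hD hDP hMN hMN'

end Vale.Agent.P042.UU.PIN
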