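import Vale.Agent.P042.UU.RawA
import Vale.Agent.P042.SS.ExtA

set_option autoImplicit false

/-!
Block RAW5, part B: transport of the weights to a sub-progression.
-/

namespace Vale.Agent.P042.UU

open Polynomial Finset Vale.Agent.P042.SS Vale.Agent.P042.TT

lemma raw_prime {ε P : ℝ} {p : ℕ} (hp : p ∈ W5 ε P) : p.Prime := by
  unfold W5 Wp at hp
  exact (mem_filter.1 hp).2

lemma raw_Vn_sub (ε P : ℝ) (D : ℕ) : Vn ε P D ⊆ W5 ε P := filter_subset _ _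

/-- weights of the configuration space -/
structure RawW (ε P : ℝ) (ν : ℕ → ℤ → ℝ) : Prop where
  wts : Wts (W5 ε P) ν
  le4 : ∀ p ∈ W5 ε P, ∀ n, ν p n ≤ 4
  hell : Hl (W5 ε P) ν ≤ V05 ε P

/-- the transported weights -/
noncomputable def tw (μ : ℕ → ℤ → ℝ) (D L : ℕ) (x : ℤ) (p : ℕ) (j : ℤ) : ℝ :=
  if ¬ p ∣ D then μ p (x + L * j) else 1

lemma tw_per {μ : ℕ → ℤ → ℝ} {p : ℕ} (hμ : ∀ n, μ p (n + p) = μ p n) (D L : ℕ) (x : ℤ) (n : ℤ) :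
    tw μ D L x p (n + p) = tw μ D L x p n := by
  unfold tw
  split_ifs
  · rfl
  · apply per_congr hμ
    apply Int.ModEq.add_left
    rw [mul_add]
    have : (L : ℤ) * n + L * p ≡ L * n + 0 [ZMOD (p : ℕ)] :=
      Int.ModEq.add_left _ (Int.modEq_zero_iff_dvd.2 ⟨L, mul_comm _ _⟩)
    rwa [add_zero] at this

lemma tw_sum {μ : ℕ → ℤ → ℝ} {p : ℕ} (hp : 0 < p) (hμ : ∀ n, μ p (n + p) = μ p n) (D L : ℕ)
    (x : ℤ) (hpD : ¬ p ∣ D) (hL : Nat.Coprime L p) (φ : ℝ → ℝ) :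
    ∑ j ∈ range p, φ (tw μ D L x p j) = ∑ j ∈ range p, φ (μ p j) := by
  have h := sum_affine (f := fun n => φ (μ p n)) (p := p) (fun n => by simp only [hμ n]) hp x L hL
  refine Eq.trans ?_ h
  refine sum_congr rfl fun j _ => ?_
  unfold tw
  rw [if_pos hpD]

lemma tw_hp1 {μ : ℕ → ℤ → ℝ} {p : ℕ} (hp : 0 < p) (hμ : ∀ n, μ p (n + p) = μ p n) (D L : ℕ)
    (x : ℤ) (hpD : ¬ p ∣ D) (hL : Nat.Coprime L p) : hp1 (tw μ D L x) p = hp1 μ p := by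
  unfold hp1
  rw [tw_sum hp hμ D L x hpD hL]

lemma tw_hp1' {μ : ℕ → ℤ → ℝ} {p : ℕ} (hp : 0 < p) (D L : ℕ)
    (x : ℤ) (hpD : p ∣ D) : hp1 (tw μ D L x) p = 0 := by
  unfold hp1 tw
  have hp' : (p : ℝ) ≠ 0 := by exact_mod_cast hp.ne'
  simp [hpD, hp']

lemma tw_zf {μ : ℕ → ℤ → ℝ} {p : ℕ} (hp : 0 < p) (hμ : ∀ n, μ p (n + p) = μ p n) (D L : ℕ)
    (x : ℤ) (hpD : ¬ p ∣ D) (hL : Nat.Coprime L p) : zf (tw μ D L x) p = zf μ p := by
  have e : ∀ ν : ℕ → ℤ → ℝ, (((range p).filter (fun x : ℕ => ν p x = 0)).card : ℝ) =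
      ∑ x ∈ range p, (if ν p x = 0 then (1 : ℝ) else 0) := by
    intro ν
    rw [Finset.sum_ite, sum_const_zero, add_zero, sum_const, nsmul_eq_mul, mul_one]
  unfold zf
  rw [e, e]
  congr 1
  exact tw_sum hp hμ D L x hpD hL (fun t => if t = 0 then (1 : ℝ) else 0)

lemma tw_zf' {μ : ℕ → ℤ → ℝ} {p : ℕ} (D L : ℕ)
    (x : ℤ) (hpD : p ∣ D) : zf (tw μ D L x) p = 0 := by
  unfold zf tw
  simp [hpD]

section main
variable {ε P : ℝ} {D L : ℕ} {x : ℤ} {μ : ℕ → ℤ → ℝ}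
  (hL : ∀ p ∈ Vn ε P D, Nat.Coprime L p) (hμ : Wts (Vn ε P D) μ)

lemma mem_Vn {p : ℕ} (hp : p ∈ W5 ε P) (hpD : ¬ p ∣ D) : p ∈ Vn ε P D :=
  mem_filter.2 ⟨hp, hpD⟩

include hL hμ

lemma tw_wts : Wts (W5 ε P) (tw μ D L x) := by
  refine ⟨?_, ?_, ?_⟩
  · intro p n
    unfold tw
    split_ifs
    · exact zero_le_one
    · exact hμ.nn _ _
  · intro p hp n
    by_cases hpD : p ∣ D
    · unfold tw
      simp [hpD]
    · exact tw_per (hμ.per p (mem_Vn hp hpD)) D L x n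
  · intro p hp
    have hp0 := (raw_prime hp).pos
    by_cases hpD : p ∣ D
    · unfold tw
      simp [hpD]
    · have := tw_sum hp0 (hμ.per p (mem_Vn hp hpD)) D L x hpD (hL p (mem_Vn hp hpD)) (fun t => t)
      rw [this]
      exact hμ.mean p (mem_Vn hp hpD)

lemma tw_Hl : Hl (W5 ε P) (tw μ D L x) = Hl (Vn ε P D) μ := by
  rw [raw_Hl, raw_Hl]
  unfold Vn
  rw [Finset.sum_filter]
  refine sum_congr rfl fun p hp => ?_
  have hp0 := (raw_prime hp).pos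
  by_cases hpD : p ∣ D
  · rw [tw_hp1' hp0 D L x hpD, if_neg (not_not.2 hpD)]
  · rw [tw_hp1 hp0 (hμ.per p (mem_Vn hp hpD)) D L x hpD (hL p (mem_Vn hp hpD)), if_pos hpD]

lemma tw_sum_zf : ∑ p ∈ W5 ε P, zf (tw μ D L x) p = ∑ p ∈ Vn ε P D, zf μ p := by
  unfold Vn
  rw [Finset.sum_filter]
  refine sum_congr rfl fun p hp => ?_
  have hp0 := (raw_prime hp).pos
  by_cases hpD : p ∣ D
  · rw [tw_zf' D L x hpD, if_neg (not_not.2 hpD)]
  · rw [tw_zf hp0 (hμ.per p (mem_Vn hp hpD)) D L x hpD (hL p (mem_Vn hp hpD)), if_pos hpD]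

omit hL hμ in
lemma tw_Xn (j : ℤ) : Xn (W5 ε P) (tw μ D L x) j = Xn (Vn ε P D) μ (x + L * j) := by
  unfold Xn Vn
  rw [Finset.sum_filter]
  refine sum_congr rfl fun p hp => ?_
  unfold tw
  by_cases hpD : p ∣ D
  · rw [if_neg (not_not.2 hpD), if_neg (not_not.2 hpD), raw_lg_one]
  · rw [if_pos hpD, if_pos hpD]

omit hL hμ in
lemma tw_prod (j : ℤ) : ∏ p ∈ W5 ε P, Real.sqrt (tw μ D L x p j) =
    ∏ p ∈ Vn ε P D, Real.sqrt (μ p (x + L * j)) := by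
  unfold Vn
  rw [Finset.prod_filter]
  refine prod_congr rfl fun p hp => ?_
  unfold tw
  by_cases hpD : p ∣ D
  · rw [if_neg (not_not.2 hpD), if_neg (not_not.2 hpD), Real.sqrt_one]
  · rw [if_pos hpD, if_pos hpD]

omit hL hμ in
lemma tw_Gc (M : ℝ) (g g' : ℤ → ℝ) (j : ℤ) (hg : g' j = g (x + L * j)) :
    Gc (W5 ε P) M g' (tw μ D L x) j = Gc (Vn ε P D) M g μ (x + L * j) := by
  unfold Gc
  rw [tw_Xn, tw_prod, hg]

lemma tw_rawW (h4 : ∀ p ∈ Vn ε P D, ∀ n, μ p n ≤ 4) (hH : Hl (Vn ε P D) μ ≤ V05 ε P) :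
    RawW ε P (tw μ D L x) := by
  refine ⟨tw_wts hL hμ, ?_, ?_⟩
  · intro p hp n
    unfold tw
    split_ifs with hpD
    · norm_num
    · exact h4 p (mem_Vn hp hpD) _
  · rw [tw_Hl hL hμ]
    exact hH

end main

lemma raw_one (ε P : ℝ) (hV : 0 ≤ V05 ε P) : RawW ε P (fun _ _ => 1) := by
  refine ⟨⟨fun _ _ => zero_le_one, fun _ _ _ => rfl, fun p _ => by simp⟩, fun _ _ _ => by norm_num,
    ?_⟩
  have : Hl (W5 ε P) (fun _ _ => 1) = 0 := by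
    rw [raw_Hl]
    refine sum_eq_zero fun p hp => ?_
    have hp0 : (p : ℝ) ≠ 0 := by exact_mod_cast (raw_prime hp).pos.ne'
    unfold hp1
    simp [hp0]
  rw [this]
  exact hV

/-- value of a configuration -/
noncomputable def Vst (ε P : ℝ) (lam : ℕ → ℕ) (A : Finset ℤ) (d : ℕ) (a : ℤ) (l : ℕ)
    (ν : ℕ → ℤ → ℝ) : ℝ :=
  (l : ℝ) ^ (eta5 ε P - 1) * (∑ n ∈ Icc (1 : ℤ) l, Gc (W5 ε P) (Mc2 ε P) (gA lam A d a) ν n) *
    Real.exp (1 / 8 * ∑ p ∈ W5 ε P, zf ν p)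

/-- the function on the progression -/
noncomputable def gR (lam : ℕ → ℕ) (A : Finset ℤ) (d : ℕ) (a : ℤ) (l : ℕ) (n : ℤ) : ℝ :=
  if 1 ≤ n ∧ n ≤ l then gA lam A d a n else 0

lemma gR_nonneg (lam : ℕ → ℕ) (A : Finset ℤ) (d : ℕ) (a : ℤ) (l : ℕ) (n : ℤ) :
    0 ≤ gR lam A d a l n := by
  unfold gR
  split_ifs
  · exact gA_nonneg _ _ _ _ _
  · exact le_rfl

lemma gR_le_one (lam : ℕ → ℕ) (A : Finset ℤ) (d : ℕ) (a : ℤ) (l : ℕ) (n : ℤ) :
    gR lam A d a l n ≤ 1 := by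
  unfold gR
  split_ifs
  · exact gA_le_one _ _ _ _ _
  · exact zero_le_one

lemma gR_supp (lam : ℕ → ℕ) (A : Finset ℤ) (d : ℕ) (a : ℤ) (l : ℕ) (n : ℤ)
    (h : gR lam A d a l n ≠ 0) : (1 ≤ n ∧ n ≤ l) ∧ a + lam d * n ∈ A := by
  unfold gR gA at h
  split_ifs at h with h1 h2
  · exact ⟨h1, h2⟩
  · simp at h
  · simp at h

lemma Gc_nonneg (W : Finset ℕ) (M : ℝ) (g : ℤ → ℝ) (hg : ∀ n, 0 ≤ g n) (ν : ℕ → ℤ → ℝ) (n : ℤ) :
    0 ≤ Gc W M g ν n := by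
  unfold Gc
  split_ifs
  · exact mul_nonneg (hg n) (prod_nonneg fun _ _ => Real.sqrt_nonneg _)
  · exact le_rfl

section aux
variable {h : ℤ[X]} {lam : ℕ → ℕ} {r : ℕ → ℤ} {Hh : ℕ → ℤ[X]} {R : ℕ}

/-- the maximality in windows of residue classes -/
theorem raw_max (hA : AuxData h lam r Hh R) {N Nmin : ℕ} (A : Finset ℤ) (hNmin : 2 ≤ Nmin)
    {ε P : ℝ} (hη : 0 < eta5 ε P) (hη1 : eta5 ε P ≤ 1)
    {d : ℕ} {a : ℤ} {l : ℕ} {ν : ℕ → ℤ → ℝ} (hs : Adm lam N Nmin d a l) (δ : ℝ)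
    (hmax : ∀ (d' : ℕ) (a' : ℤ) (l' : ℕ) (ν' : ℕ → ℤ → ℝ),
        Adm lam N Nmin d' a' l' → RawW ε P ν' →
        Vst ε P lam A d' a' l' ν' ≤ Vst ε P lam A d a l ν * Real.exp δ)
    (Φ : ℝ) (hΦ0 : 0 ≤ Φ)
    (hΦ : ∑ n ∈ Icc (1 : ℤ) l, Gc (W5 ε P) (Mc2 ε P) (gA lam A d a) ν n = l * Φ)
    (D M : ℕ) (y x : ℤ) (μ : ℕ → ℤ → ℝ) (hD : 1 ≤ D) (hM : D ^ h.natDegree * Nmin ≤ M)
    (hl : D ^ h.natDegree * Nmin ≤ l) (hμ : Wts (Vn ε P D) μ)
    (h4 : ∀ p ∈ Vn ε P D, ∀ n, μ p n ≤ 4) (hH : Hl (Vn ε P D) μ ≤ V05 ε P) :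
    (∑ n ∈ cel y M D x, Gc (Vn ε P D) (Mc2 ε P) (gR lam A d a l) μ n) *
        Real.exp (1 / 8 * ∑ p ∈ Vn ε P D, zf μ p) ≤
      (M : ℝ) / D * Φ * (1 + (D : ℝ) ^ h.natDegree / M) *
        ((l * (D : ℝ) ^ h.natDegree / M) ^ (eta5 ε P)) * Real.exp δ *
        Real.exp (1 / 8 * ∑ p ∈ W5 ε P, zf ν p) := by
  classical
  obtain ⟨hd, hlmin, hs1, hs2⟩ := hs
  have hDl : D ∣ lam D := (hA.hdvd D hD).1
  have hlDd : lam D ∣ D ^ h.natDegree := (hA.hdvd D hD).2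
  have hlD : lam D ≤ D ^ h.natDegree := hA.lam_le D hD
  have hL : 1 ≤ lam D := hA.lam_pos D hD
  have hld : 1 ≤ lam d := hA.lam_pos d hd
  have hcop : ∀ p ∈ Vn ε P D, Nat.Coprime (lam D) p := by
    intro p hp
    have hpp := raw_prime (raw_Vn_sub ε P D hp)
    rw [Nat.coprime_comm, hpp.coprime_iff_not_dvd]
    intro hdv
    exact (mem_filter.1 hp).2 (hpp.dvd_of_dvd_pow (hdv.trans hlDd))
  set Gt : ℤ → ℝ := fun n => Gc (Vn ε P D) (Mc2 ε P) (gR lam A d a l) μ n with hGt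
  have hG0 : ∀ n, 0 ≤ Gt n := fun n => Gc_nonneg _ _ _ (gR_nonneg lam A d a l) _ _
  have hGs : ∀ n, Gt n ≠ 0 → 1 ≤ n ∧ n ≤ l := by
    intro n hn
    by_contra hc
    apply hn
    simp only [hGt]
    unfold Gc gR
    rw [if_neg hc]
    simp
  have hl0 : (0 : ℝ) < l := by
    have : 0 < l := by omega
    exact_mod_cast this
  have hM1 : 1 ≤ M := by
    have : 1 ≤ D ^ h.natDegree := Nat.one_le_pow _ _ hD
    have : 1 * 1 ≤ D ^ h.natDegree * Nmin := Nat.mul_le_mul this (by omega)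
    omega
  set η : ℝ := eta5 ε P with hηdef
  set Ez : ℝ := Real.exp (1 / 8 * ∑ p ∈ W5 ε P, zf ν p) with hEz
  set Ed : ℝ := Real.exp δ with hEd
  set Em : ℝ := Real.exp (1 / 8 * ∑ p ∈ Vn ε P D, zf μ p) with hEm
  have hEz0 : 0 < Ez := Real.exp_pos _
  have hEd0 : 0 < Ed := Real.exp_pos _
  have hEm0 : 0 < Em := Real.exp_pos _
  have hclass : ∀ c : ℕ, mass Gt y M (lam D) (x + D * c) * Em ≤
      ((M : ℝ) / lam D + 1) ^ (1 - η) * (l : ℝ) ^ η * (Φ * Ed * Ez) := by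
    intro c
    obtain ⟨x', m, hm1, hm2, hm3, hm4, hm5, hm6⟩ := prog_bound hG0 hGs (lam D) M Nmin hL
      ((Nat.mul_le_mul_right _ hlD).trans hM) ((Nat.mul_le_mul_right _ hlD).trans hl) y
      (x + D * c)
    have hl1 : (1 : ℤ) ≤ lam D := by exact_mod_cast hL
    have hb : ∑ j ∈ Icc (1 : ℤ) m, Gt (x' + lam D * j) =
        ∑ j ∈ Icc (1 : ℤ) m, Gc (W5 ε P) (Mc2 ε P) (gA lam A (d * D) (a + lam d * x'))
          (tw μ D (lam D) x') j := by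
      refine sum_congr rfl fun j hj => ?_
      rw [Finset.mem_Icc] at hj
      have h3 : 1 ≤ x' + lam D * j ∧ x' + lam D * j ≤ l := by
        have h4 : (lam D : ℤ) * 1 ≤ lam D * j :=
          mul_le_mul_of_nonneg_left hj.1 (by linarith only [hl1])
        have h5 : (lam D : ℤ) * j ≤ lam D * m :=
          mul_le_mul_of_nonneg_left hj.2 (by linarith only [hl1])
        constructor <;> linarith only [h4, h5, hm3, hm4]
      symm
      apply tw_Gc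
      unfold gR
      rw [if_pos h3]
      unfold gA
      have e1 : a + lam d * (x' + lam D * j) = a + lam d * x' + lam (d * D) * j := by
        rw [hA.hmul d D hd hD]
        push_cast
        ring
      rw [e1]
    rw [hb] at hm6
    have hadm : Adm lam N Nmin (d * D) (a + lam d * x') m := by
      refine ⟨Nat.mul_pos hd hD, hm1, ?_, ?_⟩
      · rw [hA.hmul d D hd hD]
        push_cast
        have h1 : (lam d : ℤ) * 1 ≤ lam d * (x' + lam D) :=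
          mul_le_mul_of_nonneg_left hm3 (Int.natCast_nonneg _)
        linarith only [h1, hs1]
      · rw [hA.hmul d D hd hD]
        push_cast
        have h1 : (lam d : ℤ) * (x' + lam D * m) ≤ lam d * l :=
          mul_le_mul_of_nonneg_left hm4 (Int.natCast_nonneg _)
        linarith only [h1, hs2]
    have h3 := hmax _ _ _ (tw μ D (lam D) x') hadm (tw_rawW hcop hμ h4 hH)
    unfold Vst at h3
    rw [tw_sum_zf hcop hμ, hΦ] at h3
    have hm0 : (0 : ℝ) < m := by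
      have : 0 < m := by omega
      exact_mod_cast this
    set Sm : ℝ := ∑ j ∈ Icc (1 : ℤ) m, Gc (W5 ε P) (Mc2 ε P) (gA lam A (d * D) (a + lam d * x'))
          (tw μ D (lam D) x') j with hSm
    have e1 : (m : ℝ) ^ (1 - η) * (m : ℝ) ^ (η - 1) = 1 := by
      rw [← Real.rpow_add hm0]
      norm_num
    have e2 : (l : ℝ) ^ (η - 1) * (l : ℝ) = (l : ℝ) ^ η := by
      rw [← Real.rpow_add_one hl0.ne']
      norm_num
    have h5 : (m : ℝ) ^ (1 - η) ≤ ((M : ℝ) / lam D + 1) ^ (1 - η) :=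
      Real.rpow_le_rpow hm0.le hm2 (by linarith only [hη1])
    have h6 : 0 ≤ (l : ℝ) ^ η := Real.rpow_nonneg hl0.le _
    have h7 : 0 ≤ (m : ℝ) ^ (1 - η) := Real.rpow_nonneg hm0.le _
    calc mass Gt y M (lam D) (x + D * c) * Em ≤ Sm * Em :=
          mul_le_mul_of_nonneg_right hm6 hEm0.le
      _ = (m : ℝ) ^ (1 - η) * ((m : ℝ) ^ (η - 1) * Sm * Em) := by
          calc Sm * Em = ((m : ℝ) ^ (1 - η) * (m : ℝ) ^ (η - 1)) * (Sm * Em) := by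
                rw [e1, one_mul]
            _ = _ := by ring
      _ ≤ (m : ℝ) ^ (1 - η) * ((l : ℝ) ^ (η - 1) * (l * Φ) * Ez * Ed) :=
          mul_le_mul_of_nonneg_left h3 h7
      _ = (m : ℝ) ^ (1 - η) * (l : ℝ) ^ η * (Φ * Ed * Ez) := by
          rw [← e2]
          ring
      _ ≤ ((M : ℝ) / lam D + 1) ^ (1 - η) * (l : ℝ) ^ η * (Φ * Ed * Ez) := by
          gcongr
  have hsum := mass_split hG0 y M D (lam D) x hD hL hDl
  have e0 : ∑ n ∈ cel y M D x, Gc (Vn ε P D) (Mc2 ε P) (gR lam A d a l) μ n = mass Gt y M D x :=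
    rfl
  rw [e0]
  have hsum2 : mass Gt y M D x * Em ≤ ∑ c ∈ range (lam D / D),
      mass Gt y M (lam D) (x + D * c) * Em := by
    rw [← sum_mul]
    exact mul_le_mul_of_nonneg_right hsum hEm0.le
  refine hsum2.trans ((Finset.sum_le_sum fun c _ => hclass c).trans ?_)
  rw [Finset.sum_const, Finset.card_range, nsmul_eq_mul]
  have e3 : ((lam D / D : ℕ) : ℝ) = (lam D : ℝ) / D := Nat.cast_div hDl (by
    have : D ≠ 0 := by omega
    exact_mod_cast this)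
  rw [e3]
  have h7 := sb_num (lam D) D M l ((D : ℝ) ^ h.natDegree) η hL hD hM1 (by exact_mod_cast hlD) hη
  calc (lam D : ℝ) / D * (((M : ℝ) / lam D + 1) ^ (1 - η) * (l : ℝ) ^ η * (Φ * Ed * Ez))
      = ((lam D : ℝ) / D * (((M : ℝ) / lam D + 1) ^ (1 - η) * (l : ℝ) ^ η)) * (Φ * Ed * Ez) := by
        ring
    _ ≤ ((M : ℝ) / D * (1 + (D : ℝ) ^ h.natDegree / M) *
        ((l * (D : ℝ) ^ h.natDegree / M) ^ η)) * (Φ * Ed * Ez) :=
        mul_le_mul_of_nonneg_right h7 (mul_nonneg (mul_nonneg hΦ0 hEd0.le) hEz0.le)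
    _ = _ := by ring

end aux

end Vale.Agent.P042.UU
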