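import Vale.Agent.P042.UU.SpecB

set_option autoImplicit false

/-!
Theorem S5: tails of the logarithm of the weights (shared lemma of the state blocks), from MGF5.
-/

namespace Vale.Agent.P042.UU

open Polynomial Finset Vale.Agent.P042.SS Vale.Agent.P042.TT

open Classical in
/-- tails of `Xn` for weights with small Hellinger deviation -/
def TAIL5Stmt : Prop :=
  ∀ ε : ℝ, 0 < ε → ε ≤ 1 / 1000 → ∃ P0 : ℝ, ∀ P : ℝ, P0 ≤ P →
  ∀ (D M : ℕ) (y x : ℤ) (ν : ℕ → ℤ → ℝ), 1 ≤ D → Real.log D ≤ P ^ (1 - 51 * ε) →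
    Real.exp (P / 2) ≤ M → Wts (Vn ε P D) ν → (∀ p ∈ Vn ε P D, ∀ n, ν p n ≤ 4) →
    Hl (Vn ε P D) ν ≤ V05 ε P →
    ∏ p ∈ Vn ε P D, ((∑ z ∈ range p, Real.exp (lg (ν p z))) / (p : ℝ)) ≤
      Real.exp (-(7 / 8 * Hl (Vn ε P D) ν)) ∧
    ∏ p ∈ Vn ε P D, ((∑ z ∈ range p, Real.exp (-2 * lg (ν p z))) / (p : ℝ)) ≤
      Real.exp (2000 * Hl (Vn ε P D) ν) ∧
    Real.exp (2000 * Hl (Vn ε P D) ν) ≤ Real.exp (P ^ (1 - 49 * ε)) ∧
    (∀ B : ℝ, 0 ≤ B →
      ∑ n ∈ (cel y M D x).filter (fun n => B ≤ Xn (Vn ε P D) ν n ∧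
          Xn (Vn ε P D) ν n ≤ 2 * Mc2 ε P), Real.exp (Xn (Vn ε P D) ν n) ≤
        Real.exp (-B) * ((M : ℝ) / D * (3 * Real.exp (Hl (Vn ε P D) ν)))) ∧
    (∀ B : ℝ, 0 ≤ B → B ≤ 2 * Mc2 ε P →
      (((cel y M D x).filter (fun n => B ≤ Xn (Vn ε P D) ν n)).card : ℝ) ≤
        Real.exp (-B) * ((M : ℝ) / D * 7))

/-! ### pointwise inequalities -/

theorem t5_exp3 : (1 : ℝ) / 21 < Real.exp (-3) ∧ Real.exp (-3) < 1 / 20 ∧
    (497 : ℝ) / 10000 < Real.exp (-3) := by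
  have h1 := Real.exp_one_gt_d9
  have h2 := Real.exp_one_lt_d9
  have h3 : Real.exp 3 = Real.exp 1 ^ 3 := by
    rw [← Real.exp_nat_mul]; norm_num
  have h4 : Real.exp (-3) = (Real.exp 3)⁻¹ := Real.exp_neg 3
  have h5 : (20 : ℝ) < Real.exp 3 := by
    rw [h3]
    calc (20 : ℝ) < 2.7182818283 ^ 3 := by norm_num
      _ < Real.exp 1 ^ 3 := by gcongr
  have h6 : Real.exp 3 < 10000 / 497 := by
    rw [h3]
    calc Real.exp 1 ^ 3 < 2.7182818286 ^ 3 := by gcongr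
      _ < 10000 / 497 := by norm_num
  have h7 : (0 : ℝ) < Real.exp 3 := Real.exp_pos 3
  have h8 : (497 : ℝ) / 10000 < Real.exp (-3) := by
    rw [h4, lt_inv_comm₀ (by norm_num) h7]
    calc Real.exp 3 < 10000 / 497 := h6
      _ = (497 / 10000 : ℝ)⁻¹ := by norm_num
  refine ⟨lt_trans (by norm_num) h8, ?_, h8⟩
  rw [h4, inv_lt_comm₀ h7 (by norm_num)]
  calc ((1 : ℝ) / 20)⁻¹ = 20 := by norm_num
    _ < Real.exp 3 := h5

theorem t5_exp_lg {t : ℝ} (ht : 0 ≤ t) :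
    Real.exp (lg t) = max (Real.sqrt t) (Real.exp (-3)) := by
  unfold lg
  by_cases h : t = 0
  · rw [if_pos h, h, Real.sqrt_zero, max_eq_right (Real.exp_pos _).le]
  · rw [if_neg h]
    have ht' : 0 < t := lt_of_le_of_ne ht (Ne.symm h)
    rw [Real.exp_monotone.map_max, Real.exp_half, Real.exp_log ht']

theorem t5_A {s : ℝ} (hs : 0 ≤ s) :
    max s (Real.exp (-3)) ≤ 1 / 16 + 7 / 8 * s + 1 / 16 * s ^ 2 := by
  obtain ⟨h1, h2, h3⟩ := t5_exp3
  rcases le_total s (Real.exp (-3)) with h | h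
  · rw [max_eq_right h]
    nlinarith
  · rw [max_eq_left h]
    nlinarith [sq_nonneg (1 - s)]

theorem t5_B {s : ℝ} (_hs : 0 ≤ s) :
    max s (Real.exp (-3)) ^ 2 ≤ 1 / 2 + (-1) * s + 3 / 2 * s ^ 2 := by
  obtain ⟨h1, h2, h3⟩ := t5_exp3
  rcases le_total s (Real.exp (-3)) with h | h
  · rw [max_eq_right h]
    nlinarith
  · rw [max_eq_left h]
    nlinarith [sq_nonneg (1 - s)]

theorem t5_C {s : ℝ} (hs : 0 ≤ s) :
    (max s (Real.exp (-3)) ^ 2)⁻¹ ≤ 1002 + (-2000) * s + 999 * s ^ 2 := by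
  obtain ⟨h1, h2, h3⟩ := t5_exp3
  rcases le_total s (Real.exp (-3)) with h | h
  · rw [max_eq_right h]
    have h4 : (Real.exp (-3) ^ 2)⁻¹ ≤ 450 := by
      rw [inv_le_comm₀ (by positivity) (by norm_num)]
      nlinarith
    nlinarith
  · rw [max_eq_left h]
    have hs0 : 0 < s := lt_of_lt_of_le (Real.exp_pos _) h
    rw [inv_le_iff_one_le_mul₀ (by positivity)]
    have h5 : 1 + s ≤ 22 * s := by nlinarith
    have h6 : (1 + s) ^ 2 ≤ 1000 * s ^ 2 := by nlinarith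
    nlinarith [mul_nonneg (sub_nonneg.2 h6) (sq_nonneg (1 - s))]

theorem t5_D {s : ℝ} (_hs : 0 ≤ s) :
    ((max s (Real.exp (-3)) ^ 2)⁻¹) ^ 2 ≤ 200003 + (-400000) * s + 199998 * s ^ 2 := by
  obtain ⟨h1, h2, h3⟩ := t5_exp3
  rcases le_total s (Real.exp (-3)) with h | h
  · rw [max_eq_right h]
    have h4 : (Real.exp (-3) ^ 2)⁻¹ ≤ 405 := by
      rw [inv_le_comm₀ (by positivity) (by norm_num)]
      nlinarith
    have h5 : 0 ≤ (Real.exp (-3) ^ 2)⁻¹ := by positivity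
    have h6 : ((Real.exp (-3) ^ 2)⁻¹) ^ 2 ≤ 405 ^ 2 := by gcongr
    nlinarith
  · rw [max_eq_left h]
    have hs0 : 0 < s := lt_of_lt_of_le (Real.exp_pos _) h
    rw [inv_pow, inv_le_iff_one_le_mul₀ (by positivity)]
    have h5 : 1 + s ≤ 21.13 * s := by nlinarith
    have h6 : (1 + s) ^ 2 ≤ 446.5 * s ^ 2 := by nlinarith
    have h7 : 1 + 2 * s ^ 2 ≤ 407 * s ^ 2 := by nlinarith
    have h8 : (1 + s) ^ 2 * (1 + 2 * s ^ 2) ≤ 200000 * (s ^ 2) ^ 2 := by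
      calc (1 + s) ^ 2 * (1 + 2 * s ^ 2) ≤ (446.5 * s ^ 2) * (407 * s ^ 2) := by gcongr
        _ ≤ 200000 * (s ^ 2) ^ 2 := by nlinarith [sq_nonneg (s ^ 2)]
    nlinarith [mul_nonneg (sub_nonneg.2 h8) (sq_nonneg (1 - s))]

/-! ### averages -/

theorem t5_avg {p : ℕ} (hp : 0 < p) (f s : ℕ → ℝ) {a b c : ℝ} (hs : ∑ z ∈ range p, s z ^ 2 = p)
    (hf : ∀ z ∈ range p, f z ≤ a + b * s z + c * s z ^ 2) :
    (∑ z ∈ range p, f z) / (p : ℝ) ≤ a + b * ((∑ z ∈ range p, s z) / p) + c := by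
  have hp' : (0 : ℝ) < p := by exact_mod_cast hp
  rw [div_le_iff₀ hp']
  calc ∑ z ∈ range p, f z ≤ ∑ z ∈ range p, (a + b * s z + c * s z ^ 2) := sum_le_sum hf
    _ = p * a + b * ∑ z ∈ range p, s z + c * p := by
        rw [sum_add_distrib, sum_add_distrib, ← mul_sum, ← mul_sum, hs, sum_const, card_range,
          nsmul_eq_mul]
    _ = (a + b * ((∑ z ∈ range p, s z) / p) + c) * p := by field_simp

theorem t5_pos {ε P : ℝ} {D p : ℕ} (hp : p ∈ Vn ε P D) : 0 < p := by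
  have h := (mem_filter.1 hp).1
  unfold W5 Wp at h
  exact (mem_filter.1 h).2.pos

/-- the product of the averages -/
theorem t5_prod {ε P : ℝ} {D : ℕ} {ν : ℕ → ℤ → ℝ} (hw : Wts (Vn ε P D) ν) (φ : ℝ → ℝ)
    {a b c k : ℝ} (h0 : ∀ t, 0 ≤ t → 0 ≤ φ t)
    (hφ : ∀ t, 0 ≤ t → φ t ≤ a + b * Real.sqrt t + c * Real.sqrt t ^ 2)
    (h1 : a + b + c = 1) (h2 : b = -k) :
    ∏ p ∈ Vn ε P D, ((∑ z ∈ range p, φ (ν p z)) / (p : ℝ)) ≤
      Real.exp (k * Hl (Vn ε P D) ν) := by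
  have h3 : ∀ p ∈ Vn ε P D, (∑ z ∈ range p, φ (ν p z)) / (p : ℝ) ≤
      Real.exp (k * (1 - (∑ z ∈ range p, Real.sqrt (ν p z)) / p)) := by
    intro p hp
    have hp0 := t5_pos hp
    have h4 := t5_avg hp0 (fun z => φ (ν p z)) (fun z => Real.sqrt (ν p z)) (a := a) (b := b)
      (c := c) (by
        rw [← hw.mean p hp]
        exact sum_congr rfl fun z _ => Real.sq_sqrt (hw.nn p z))
      (fun z _ => hφ _ (hw.nn p z))
    refine h4.trans ?_
    refine le_trans (le_of_eq ?_) (Real.add_one_le_exp _)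
    rw [h2] at h1 ⊢
    linear_combination h1
  calc ∏ p ∈ Vn ε P D, ((∑ z ∈ range p, φ (ν p z)) / (p : ℝ))
      ≤ ∏ p ∈ Vn ε P D, Real.exp (k * (1 - (∑ z ∈ range p, Real.sqrt (ν p z)) / p)) := by
        refine prod_le_prod (fun p _ => ?_) h3
        exact div_nonneg (sum_nonneg fun z _ => h0 _ (hw.nn p z)) (Nat.cast_nonneg _)
    _ = Real.exp (k * Hl (Vn ε P D) ν) := by
        rw [← Real.exp_sum, ← mul_sum]
        rfl

theorem t5_lg_le {t : ℝ} (h0 : 0 ≤ t) (h4 : t ≤ 4) : lg t ≤ 1 := by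
  unfold lg
  by_cases h : t = 0
  · rw [if_pos h]; norm_num
  · rw [if_neg h]
    refine max_le ?_ (by norm_num)
    have h0' : 0 < t := lt_of_le_of_ne h0 (Ne.symm h)
    have h5 : Real.log t ≤ Real.log 4 := Real.log_le_log h0' h4
    have h6 : Real.log 4 = 2 * Real.log 2 := by
      rw [show (4 : ℝ) = 2 ^ 2 by norm_num, Real.log_pow]; norm_num
    have h7 := Real.log_two_lt_d9
    linarith

theorem t5_lg_ge (t : ℝ) : -3 ≤ lg t := by
  unfold lg
  by_cases h : t = 0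
  · rw [if_pos h]
  · rw [if_neg h]
    exact le_max_right _ _

theorem t5_Hl_nonneg {ε P : ℝ} {D : ℕ} {ν : ℕ → ℤ → ℝ} (hw : Wts (Vn ε P D) ν) :
    0 ≤ Hl (Vn ε P D) ν := by
  unfold Hl
  refine sum_nonneg fun p hp => ?_
  have hp0 := t5_pos hp
  have h1 := t5_avg hp0 (fun z => Real.sqrt (ν p z)) (fun z => Real.sqrt (ν p z)) (a := 1 / 2)
    (b := 0) (c := 1 / 2) (by
      rw [← hw.mean p hp]
      exact sum_congr rfl fun z _ => Real.sq_sqrt (hw.nn p z))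
    (fun z _ => by nlinarith [sq_nonneg (1 - Real.sqrt (ν p z))])
  linarith

theorem t5_large {ε : ℝ} (hε : 0 < ε) (K : ℝ) : ∃ P0 : ℝ, ∀ P : ℝ, P0 ≤ P →
    K * V05 ε P ≤ P ^ (1 - 49 * ε) := by
  have h1 : Filter.Tendsto (fun P : ℝ => P ^ (1.5 * ε)) Filter.atTop Filter.atTop :=
    tendsto_rpow_atTop (by positivity)
  obtain ⟨P1, h2⟩ := Filter.eventually_atTop.1 (h1.eventually_ge_atTop K)
  refine ⟨max P1 1, fun P hP => ?_⟩
  have hP1 : P1 ≤ P := (le_max_left _ _).trans hP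
  have hP0 : 0 < P := lt_of_lt_of_le one_pos ((le_max_right _ _).trans hP)
  have h3 := h2 P hP1
  unfold V05
  calc K * P ^ (1 - 50.5 * ε) ≤ P ^ (1.5 * ε) * P ^ (1 - 50.5 * ε) := by gcongr
    _ = P ^ (1 - 49 * ε) := by
        rw [← Real.rpow_add hP0]
        congr 1
        ring

theorem tail5_of (hM : MGF5Stmt) : TAIL5Stmt := by
  classical
  intro ε hε hε1
  obtain ⟨P1, h1⟩ := hM ε hε hε1
  obtain ⟨P2, h2⟩ := t5_large hε 2000
  obtain ⟨P3, h3⟩ := t5_large hε 400000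
  refine ⟨max 0 (max P1 (max P2 P3)), ?_⟩
  intro P hP' D M y x ν hD hlogD hMP hw h4 hH
  have hP : max P1 (max P2 P3) ≤ P := (le_max_right _ _).trans hP'
  have hP0 : 0 ≤ P := (le_max_left _ _).trans hP'
  have hP1 : P1 ≤ P := (le_max_left _ _).trans hP
  have hP2 : P2 ≤ P := ((le_max_left _ _).trans (le_max_right _ _)).trans hP
  have hP3 : P3 ≤ P := ((le_max_right _ _).trans (le_max_right _ _)).trans hP
  have hH0 := t5_Hl_nonneg hw
  have hMD : (0 : ℝ) ≤ (M : ℝ) / D := by positivity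
  -- the products
  have e2 : ∀ t : ℝ, 0 ≤ t → Real.exp (2 * lg t) = max (Real.sqrt t) (Real.exp (-3)) ^ 2 := by
    intro t ht
    rw [← t5_exp_lg ht, ← Real.exp_nat_mul]
    norm_num
  have e3 : ∀ t : ℝ, 0 ≤ t →
      Real.exp (-2 * lg t) = (max (Real.sqrt t) (Real.exp (-3)) ^ 2)⁻¹ := by
    intro t ht
    rw [← e2 t ht, ← Real.exp_neg]
    congr 1
    ring
  have e4 : ∀ t : ℝ, 0 ≤ t →
      Real.exp (-2 * (2 * lg t)) = ((max (Real.sqrt t) (Real.exp (-3)) ^ 2)⁻¹) ^ 2 := by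
    intro t ht
    rw [← e3 t ht, ← Real.exp_nat_mul]
    congr 1
    push_cast
    ring
  have eA : ∏ p ∈ Vn ε P D, ((∑ z ∈ range p, Real.exp (lg (ν p z))) / (p : ℝ)) ≤
      Real.exp (-(7 / 8 * Hl (Vn ε P D) ν)) := by
    have h := t5_prod hw (fun t => Real.exp (lg t)) (a := 1 / 16) (b := 7 / 8)
      (c := 1 / 16) (k := -(7 / 8)) (fun t _ => (Real.exp_pos _).le)
      (fun t ht => by rw [t5_exp_lg ht]; exact t5_A (Real.sqrt_nonneg _)) (by norm_num)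
      (by norm_num)
    rwa [neg_mul] at h
  have eB : ∏ p ∈ Vn ε P D, ((∑ z ∈ range p, Real.exp (2 * lg (ν p z))) / (p : ℝ)) ≤
      Real.exp (Hl (Vn ε P D) ν) := by
    have h := t5_prod hw (fun t => Real.exp (2 * lg t)) (a := 1 / 2) (b := -1)
      (c := 3 / 2) (k := 1) (fun t _ => (Real.exp_pos _).le)
      (fun t ht => by rw [e2 t ht]; exact t5_B (Real.sqrt_nonneg _)) (by norm_num) rfl
    rwa [one_mul] at h
  have eC : ∏ p ∈ Vn ε P D, ((∑ z ∈ range p, Real.exp (-2 * lg (ν p z))) / (p : ℝ)) ≤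
      Real.exp (2000 * Hl (Vn ε P D) ν) :=
    t5_prod hw (fun t => Real.exp (-2 * lg t)) (a := 1002) (b := -2000)
      (c := 999) (k := 2000) (fun t _ => (Real.exp_pos _).le)
      (fun t ht => by rw [e3 t ht]; exact t5_C (Real.sqrt_nonneg _)) (by norm_num) rfl
  have eD : ∏ p ∈ Vn ε P D, ((∑ z ∈ range p, Real.exp (-2 * (2 * lg (ν p z)))) / (p : ℝ)) ≤
      Real.exp (400000 * Hl (Vn ε P D) ν) :=
    t5_prod hw (fun t => Real.exp (-2 * (2 * lg t))) (a := 200003) (b := -400000)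
      (c := 199998) (k := 400000) (fun t _ => (Real.exp_pos _).le)
      (fun t ht => by rw [e4 t ht]; exact t5_D (Real.sqrt_nonneg _)) (by norm_num) rfl
  have eE : Real.exp (2000 * Hl (Vn ε P D) ν) ≤ Real.exp (P ^ (1 - 49 * ε)) := by
    refine Real.exp_le_exp.2 (le_trans ?_ (h2 P hP2))
    exact mul_le_mul_of_nonneg_left hH (by norm_num)
  have eF : Real.exp (400000 * Hl (Vn ε P D) ν) ≤ Real.exp (P ^ (1 - 49 * ε)) := by
    refine Real.exp_le_exp.2 (le_trans ?_ (h3 P hP3))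
    exact mul_le_mul_of_nonneg_left hH (by norm_num)
  have hper : ∀ p ∈ Vn ε P D, ∀ n, lg (ν p (n + p)) = lg (ν p n) := by
    intro p hp n
    rw [hw.per p hp n]
  have hab : ∀ p ∈ Vn ε P D, ∀ n, |lg (ν p n)| ≤ 3 := by
    intro p hp n
    have h5 := t5_lg_le (hw.nn p n) (h4 p hp n)
    have h6 := t5_lg_ge (ν p n)
    rw [abs_le]
    constructor <;> linarith
  have hsm : Real.exp (-(P ^ (1 - 48.5 * ε))) ≤ 1 := by
    rw [Real.exp_le_one_iff, neg_nonpos]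
    exact Real.rpow_nonneg hP0 _
  have g1 := h1 P hP1 (Vn ε P D) (fun p n => lg (ν p n)) D M y x subset_rfl hD hlogD hMP
    (fun p hp n => hper p hp n) (fun p hp n => (hab p hp n).trans (by norm_num))
    (eC.trans eE)
  have g2 := h1 P hP1 (Vn ε P D) (fun p n => 2 * lg (ν p n)) D M y x subset_rfl hD hlogD hMP
    (fun p hp n => by
      show 2 * lg (ν p (n + p)) = 2 * lg (ν p n)
      rw [hper p hp n])
    (fun p hp n => by
      show |2 * lg (ν p n)| ≤ 8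
      rw [abs_mul, abs_two]
      linarith [hab p hp n])
    (eD.trans eF)
  refine ⟨eA, eC, eE, ?_, ?_⟩
  · intro B hB
    have g3 := g2.1 (4 * Mc2 ε P) le_rfl
    have hX : ∀ n, ∑ p ∈ Vn ε P D, 2 * lg (ν p n) = 2 * Xn (Vn ε P D) ν n := by
      intro n
      rw [← mul_sum]
      rfl
    simp only [hX] at g3
    calc ∑ n ∈ (cel y M D x).filter (fun n => B ≤ Xn (Vn ε P D) ν n ∧
          Xn (Vn ε P D) ν n ≤ 2 * Mc2 ε P), Real.exp (Xn (Vn ε P D) ν n)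
        ≤ ∑ n ∈ (cel y M D x).filter (fun n => B ≤ Xn (Vn ε P D) ν n ∧
          Xn (Vn ε P D) ν n ≤ 2 * Mc2 ε P),
            Real.exp (-B) * Real.exp (2 * Xn (Vn ε P D) ν n) := by
          refine sum_le_sum fun n hn => ?_
          have h5 := (mem_filter.1 hn).2.1
          rw [← Real.exp_add]
          exact Real.exp_le_exp.2 (by linarith)
      _ ≤ ∑ n ∈ (cel y M D x).filter (fun n => 2 * Xn (Vn ε P D) ν n ≤ 4 * Mc2 ε P),
            Real.exp (-B) * Real.exp (2 * Xn (Vn ε P D) ν n) := by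
          refine sum_le_sum_of_subset_of_nonneg ?_ fun n _ _ => by positivity
          intro n hn
          obtain ⟨h5, h6, h7⟩ := mem_filter.1 hn
          exact mem_filter.2 ⟨h5, by linarith⟩
      _ = Real.exp (-B) * ∑ n ∈ (cel y M D x).filter
            (fun n => 2 * Xn (Vn ε P D) ν n ≤ 4 * Mc2 ε P),
            Real.exp (2 * Xn (Vn ε P D) ν n) := by rw [mul_sum]
      _ ≤ Real.exp (-B) * ((M : ℝ) / D * (3 * Real.exp (Hl (Vn ε P D) ν))) := by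
          refine mul_le_mul_of_nonneg_left (g3.trans ?_) (Real.exp_pos _).le
          refine mul_le_mul_of_nonneg_left ?_ hMD
          have h5 : 1 ≤ Real.exp (Hl (Vn ε P D) ν) := Real.one_le_exp hH0
          linarith
  · intro B hB hB2
    have hMc : 0 ≤ Mc2 ε P := by linarith
    have g3 := g1.2 B hB (by linarith)
    refine g3.trans ?_
    refine mul_le_mul_of_nonneg_left ?_ (Real.exp_pos _).le
    refine mul_le_mul_of_nonneg_left ?_ hMD
    have h5 : Real.exp (-(7 / 8 * Hl (Vn ε P D) ν)) ≤ 1 := by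
      rw [Real.exp_le_one_iff]
      linarith
    linarith

end Vale.Agent.P042.UU
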