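import Vale.Agent.P042.UU.PinDefs
import Vale.Agent.P042.UU.Tail5
import Vale.Agent.P042.UU.RawB
import Vale.Agent.P042.TT.NvA

set_option autoImplicit false

/-!
# P042, Theorem S5, block PIN5: piece A and the assembly
-/

namespace Vale.Agent.P042.UU

open Polynomial Finset Vale.Agent.P042.SS Vale.Agent.P042.TT

theorem pina_Vn_one {ε P : ℝ} : Vn ε P 1 = W5 ε P := by
  unfold Vn
  apply Finset.filter_true_of_mem
  intro p hp h1
  have hpp : p.Prime := by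
    unfold W5 Wp at hp
    exact (mem_filter.1 hp).2
  exact hpp.one_lt.ne' (Nat.dvd_one.1 h1)

theorem pina_cel (N' : ℕ) : cel 0 N' 1 0 = Icc (1 : ℤ) N' := by
  unfold cel
  ext n
  simp only [mem_filter, mem_Ioc, mem_Icc]
  constructor
  · rintro ⟨⟨h1, h2⟩, -⟩
    exact ⟨by omega, by omega⟩
  · rintro ⟨h1, h2⟩
    refine ⟨⟨by omega, by omega⟩, ?_⟩
    simp only [Nat.cast_one]
    exact Int.modEq_one

/-- the weighted function is at most `exp X` -/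
theorem pina_Gc_le {ε P : ℝ} {k N' Nmin : ℕ} {Φ : ℝ} {g : ℤ → ℝ} {ν : ℕ → ℤ → ℝ}
    (hR : Raw5 ε P k N' Nmin Φ g ν) (n : ℤ) :
    Gc (W5 ε P) (Mc2 ε P) g ν n ≤ Real.exp (Xn (W5 ε P) ν n) := by
  unfold Gc
  split_ifs
  · have h1 : ∏ p ∈ W5 ε P, Real.sqrt (ν p n) ≤ Real.exp (Xn (W5 ε P) ν n) := by
      unfold Xn
      rw [Real.exp_sum]
      exact Finset.prod_le_prod (fun p _ => Real.sqrt_nonneg _)
        (fun p _ => raw_sqrt_le _ (hR.wts.nn p n))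
    have h2 : 0 ≤ ∏ p ∈ W5 ε P, Real.sqrt (ν p n) :=
      Finset.prod_nonneg fun p _ => Real.sqrt_nonneg _
    calc g n * ∏ p ∈ W5 ε P, Real.sqrt (ν p n)
        ≤ 1 * ∏ p ∈ W5 ε P, Real.sqrt (ν p n) := mul_le_mul_of_nonneg_right (hR.g1 n) h2
      _ ≤ _ := by rw [one_mul]; exact h1
  · exact (Real.exp_pos _).le

theorem pinA_of (hM : MGF5Stmt) (hT : TAIL5Stmt) : PinAStmt := by
  classical
  intro k hk ε hε hε1
  obtain ⟨P1, hM⟩ := hM ε hε hε1
  obtain ⟨P2, hT⟩ := hT ε hε hε1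
  have hev : ∀ᶠ P : ℝ in Filter.atTop, P1 ≤ P ∧ P2 ≤ P ∧ 1 ≤ P ∧
      6 * P ^ (1 - 100 * ε) ≤ P ^ (1 - 99.5 * ε) ∧
      4 * P ^ (1 - 100 * ε) ≤ P ^ (1 - 48.5 * ε) ∧
      20 * P ^ (1 - 99.5 * ε) ≤ P ^ (1 - 49 * ε) := by
    filter_upwards [Filter.eventually_ge_atTop P1, Filter.eventually_ge_atTop P2,
      Filter.eventually_ge_atTop 1,
      pow_dom (1 - 100 * ε) (1 - 99.5 * ε) 6 (by linarith),
      pow_dom (1 - 100 * ε) (1 - 48.5 * ε) 4 (by linarith),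
      pow_dom (1 - 99.5 * ε) (1 - 49 * ε) 20 (by linarith)] with P h1 h2 h3 h4 h5 h6
    exact ⟨h1, h2, h3, h4, h5, h6⟩
  obtain ⟨P0, hP0⟩ := Filter.eventually_atTop.1 hev
  refine ⟨P0, ?_⟩
  intro P hP N' Nmin Φ g ν hR
  obtain ⟨hP1, hP2, hPone, hn1, hn2, hn3⟩ := hP0 P hP
  have hPpos : 0 < P := by linarith
  set X := P ^ (1 - 100 * ε) with hX
  set Y := P ^ (1 - 99.5 * ε) with hY
  have hX1 : 1 ≤ X := Real.one_le_rpow hPone (by linarith)
  have hY1 : 1 ≤ Y := Real.one_le_rpow hPone (by linarith)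
  have hMc : Mc2 ε P = P ^ (1 - 49 * ε) := rfl
  have hMc20 : 20 * Y ≤ Mc2 ε P := by rw [hMc]; exact hn3
  -- the case `D = 1`
  have hV : Vn ε P 1 = W5 ε P := pina_Vn_one
  have hlog1 : Real.log ((1 : ℕ) : ℝ) ≤ P ^ (1 - 51 * ε) := by
    rw [Nat.cast_one, Real.log_one]
    exact Real.rpow_nonneg hPpos.le _
  have hN' : Real.exp (P / 2) ≤ (N' : ℝ) := by
    refine le_trans (Real.exp_le_exp.2 ?_) hR.N'lo
    linarith
  have hN0 : (0 : ℝ) < N' := lt_of_lt_of_le (Real.exp_pos _) hN'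
  have hTT := hT P hP2 1 N' 0 0 ν le_rfl hlog1 hN' (by rw [hV]; exact hR.wts)
    (by rw [hV]; exact hR.le4) (by rw [hV]; exact hR.hell)
  rw [hV, pina_cel] at hTT
  obtain ⟨t1, t2, t3, t4, -⟩ := hTT
  have hMM := hM P hP1 (W5 ε P) (fun p n => lg (ν p n)) 1 N' 0 0 (by rw [hV]) le_rfl hlog1 hN'
    (fun p hp n => by simp only [hR.wts.per p hp n])
    (fun p hp n => by
      rw [abs_le]
      have a1 := t5_lg_le (hR.wts.nn p n) (hR.le4 p hp n)
      have a2 := t5_lg_ge (ν p n)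
      exact ⟨by linarith, by linarith⟩)
    (t2.trans t3)
  rw [pina_cel] at hMM
  -- the total mass
  have hΦ0 : 0 < Φ := lt_of_lt_of_le (Real.exp_pos _) hR.Φlo
  have hc1 : ((1 : ℕ) : ℝ) = 1 := Nat.cast_one
  have hmass : (N' : ℝ) * Φ ≤ N' * (2 * Real.exp (-(7 / 8 * Hl (W5 ε P) ν)) +
      Real.exp (-(P ^ (1 - 48.5 * ε)))) := by
    rw [← hR.Gsum]
    have h1 := hMM.1 (Mc2 ε P) (by linarith)
    rw [hc1, div_one] at h1
    have h2 : ∑ n ∈ Icc (1 : ℤ) N', Gc (W5 ε P) (Mc2 ε P) g ν n ≤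
        ∑ n ∈ (Icc (1 : ℤ) N').filter (fun n => ∑ p ∈ W5 ε P, lg (ν p n) ≤ Mc2 ε P),
          Real.exp (∑ p ∈ W5 ε P, lg (ν p n)) := by
      rw [Finset.sum_filter]
      refine Finset.sum_le_sum fun n _ => ?_
      split_ifs with h
      · exact pina_Gc_le hR n
      · have h3 : ¬ Xn (W5 ε P) ν n ≤ Mc2 ε P := h
        unfold Gc
        rw [if_neg h3]
    refine h2.trans (h1.trans ?_)
    apply mul_le_mul_of_nonneg_left _ hN0.le
    have := t1
    linarith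
  have hmass2 : Φ ≤ 2 * Real.exp (-(7 / 8 * Hl (W5 ε P) ν)) +
      Real.exp (-(P ^ (1 - 48.5 * ε))) := le_of_mul_le_mul_left hmass hN0
  have hHl : Hl (W5 ε P) ν ≤ Y := by
    have h1 : Real.exp (-(3 * X)) ≤ Φ := hR.Φlo
    have h2 : Real.exp (-(P ^ (1 - 48.5 * ε))) ≤ Real.exp (-(3 * X)) / 2 := by
      have h3 : -(P ^ (1 - 48.5 * ε)) ≤ -(3 * X) - 1 := by linarith
      refine (Real.exp_le_exp.2 h3).trans ?_
      rw [Real.exp_sub, div_le_div_iff₀ (Real.exp_pos _) two_pos]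
      have h4 : (2 : ℝ) ≤ Real.exp 1 := by
        have := Real.add_one_le_exp (1 : ℝ)
        linarith
      exact mul_le_mul_of_nonneg_left h4 (Real.exp_pos _).le
    have h3 : Real.exp (-(3 * X)) ≤ Real.exp 2 * Real.exp (-(7 / 8 * Hl (W5 ε P) ν)) := by
      have h4 : (4 : ℝ) ≤ Real.exp 2 := by
        have h5 : (2 : ℝ) ≤ Real.exp 1 := by
          have := Real.add_one_le_exp (1 : ℝ)
          linarith
        have h6 : Real.exp 2 = Real.exp 1 * Real.exp 1 := by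
          rw [← Real.exp_add]; norm_num
        rw [h6]
        nlinarith
      have h5 := Real.exp_pos (-(7 / 8 * Hl (W5 ε P) ν))
      nlinarith
    rw [← Real.exp_add, Real.exp_le_exp] at h3
    nlinarith
  refine ⟨hHl, ?_⟩
  -- the tail
  unfold PinTl
  have hB := t4 (Mc2 ε P - 4) (by linarith)
  rw [hc1, div_one] at hB
  have h1 : ∑ n ∈ (Icc (1 : ℤ) N').filter (fun n => Mc2 ε P - 4 ≤ Xn (W5 ε P) ν n ∧
      Xn (W5 ε P) ν n ≤ Mc2 ε P), Real.exp (Xn (W5 ε P) ν n) ≤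
      ∑ n ∈ (Icc (1 : ℤ) N').filter (fun n => Mc2 ε P - 4 ≤ Xn (W5 ε P) ν n ∧
      Xn (W5 ε P) ν n ≤ 2 * Mc2 ε P), Real.exp (Xn (W5 ε P) ν n) := by
    apply Finset.sum_le_sum_of_subset_of_nonneg
    · intro n hn
      rw [mem_filter] at hn ⊢
      exact ⟨hn.1, hn.2.1, by linarith [hn.2.2]⟩
    · intro n _ _
      exact (Real.exp_pos _).le
  refine h1.trans (hB.trans ?_)
  have h2 : Real.exp (-(Mc2 ε P - 4)) * (3 * Real.exp (Hl (W5 ε P) ν)) ≤
      Real.exp (-(Mc2 ε P / 2)) * Φ := by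
    have h3 : (3 : ℝ) ≤ Real.exp 2 := by
      have := Real.add_one_le_exp (2 : ℝ)
      linarith
    calc Real.exp (-(Mc2 ε P - 4)) * (3 * Real.exp (Hl (W5 ε P) ν))
        ≤ Real.exp (-(Mc2 ε P - 4)) * (Real.exp 2 * Real.exp (Hl (W5 ε P) ν)) := by gcongr
      _ = Real.exp (-(Mc2 ε P - 4) + (2 + Hl (W5 ε P) ν)) := by
          rw [← Real.exp_add, ← Real.exp_add]
      _ ≤ Real.exp (-(Mc2 ε P / 2) + -(3 * X)) := by
          apply Real.exp_le_exp.2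
          have : X ≤ Y := by linarith
          linarith
      _ = Real.exp (-(Mc2 ε P / 2)) * Real.exp (-(3 * X)) := Real.exp_add _ _
      _ ≤ _ := mul_le_mul_of_nonneg_left hR.Φlo (Real.exp_pos _).le
  calc Real.exp (-(Mc2 ε P - 4)) * (N' * (3 * Real.exp (Hl (W5 ε P) ν)))
      = N' * (Real.exp (-(Mc2 ε P - 4)) * (3 * Real.exp (Hl (W5 ε P) ν))) := by ring
    _ ≤ N' * (Real.exp (-(Mc2 ε P / 2)) * Φ) := mul_le_mul_of_nonneg_left h2 hN0.le
    _ = _ := by ring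

/-- assembly of block PIN5 -/
theorem pin5_of (hA : PinAStmt) (hD : PinDStmt)
    (hE : PinEStmt) (hF : PinFStmt) : PIN5Stmt := by
  intro k hk ε hε hε1
  obtain ⟨PA, hA⟩ := hA k hk ε hε hε1
  obtain ⟨PD, hD⟩ := hD k hk ε hε hε1
  obtain ⟨PE, hE⟩ := hE k hk ε hε hε1
  obtain ⟨PF, hF⟩ := hF k hk ε hε hε1
  refine ⟨max (max (max PA PD) (max PE PF)) 1, ?_⟩
  intro P hP N' Nmin Φ g ν hR
  have hP1 : 1 ≤ P := (le_max_right _ _).trans hP
  have hPA : PA ≤ P := ((le_max_left _ _).trans (le_max_left _ _)).trans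
    ((le_max_left _ _).trans hP)
  have hPD : PD ≤ P := ((le_max_right _ _).trans (le_max_left _ _)).trans
    ((le_max_left _ _).trans hP)
  have hPE : PE ≤ P := ((le_max_left _ _).trans (le_max_right _ _)).trans
    ((le_max_left _ _).trans hP)
  have hPF : PF ≤ P := ((le_max_right _ _).trans (le_max_right _ _)).trans
    ((le_max_left _ _).trans hP)
  obtain ⟨hH, hTl⟩ := hA P hPA N' Nmin Φ g ν hR
  obtain ⟨hνle, hzf, hmarg⟩ := hD P hPD N' Nmin Φ g ν hR hH hTl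
  have hlow := hE P hPE N' Nmin Φ g ν hR hH hTl hνle hmarg
  have hklv := hF P hPF N' Nmin Φ g ν hR hH hνle hzf hlow
  have hΦ0 : 0 < Φ := lt_of_lt_of_le (Real.exp_pos _) hR.Φlo
  refine ⟨hR.wts, hνle, hlow, hH, hR.N'lo, hR.N'hi, hR.Φlo, hR.Φhi, ?_, ?_, hR.Gsum,
    fun n => pina_Gc_le hR n, ?_, ?_, ?_, hklv⟩
  · intro n
    unfold Gc
    split_ifs
    · exact mul_nonneg (hR.g0 n) (Finset.prod_nonneg fun p _ => Real.sqrt_nonneg _)
    · exact le_rfl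
  · intro n hn
    apply hR.gsupp n
    intro h0
    apply hn
    unfold Gc
    rw [h0, zero_mul, ite_self]
  · intro n hn
    by_contra h
    apply hn
    unfold Gc
    rw [if_neg h]
  · intro n hn p hp h0
    apply hn
    unfold Gc
    rw [Finset.prod_eq_zero hp (by rw [h0, Real.sqrt_zero]), mul_zero, ite_self]
  · intro p hp x
    refine (hmarg p hp x).trans ?_
    apply mul_le_mul_of_nonneg_right _ (by positivity)
    apply Real.exp_le_exp.2
    apply neg_le_neg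
    apply Real.rpow_le_rpow_of_exponent_le hP1
    linarith

end Vale.Agent.P042.UU
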