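import Vale.Agent.P042.UU.PinPC

set_option autoImplicit false

/-!
Theorem S5, block PIN5, piece B: mass of a residue class.
-/

namespace Vale.Agent.P042.UU

open Polynomial Finset Filter Vale.Agent.P042.SS Vale.Agent.P042.TT

namespace PB

theorem w5_prime {ε P : ℝ} {q : ℕ} (hq : q ∈ W5 ε P) : q.Prime := by
  unfold W5 Wp at hq
  exact (mem_filter.1 hq).2

theorem vn_prime_eq {ε P : ℝ} {p : ℕ} (hp : p ∈ W5 ε P) : Vn ε P p = (W5 ε P).erase p := by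
  unfold Vn
  ext q
  rw [mem_filter, mem_erase]
  constructor
  · rintro ⟨h1, h2⟩
    exact ⟨fun h => h2 (h ▸ dvd_refl _), h1⟩
  · rintro ⟨h1, h2⟩
    exact ⟨h2, fun h => h1 ((Nat.prime_dvd_prime_iff_eq (w5_prime h2) (w5_prime hp)).1 h)⟩

theorem per_modEq {f : ℤ → ℝ} {p : ℕ} (hper : ∀ n, f (n + p) = f n) {n x : ℤ}
    (h : n ≡ x [ZMOD (p : ℕ)]) : f n = f x := by
  obtain ⟨c, hc⟩ := h.symm.dvd
  have h1 : Function.Periodic f (p : ℤ) := hper
  have h2 : n = x + c * (p : ℤ) := by linarith [mul_comm (p : ℤ) c]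
  rw [h2]
  exact h1.int_mul c x

theorem gc_split {W : Finset ℕ} {ν : ℕ → ℤ → ℝ} {M : ℝ} {g : ℤ → ℝ} {p : ℕ} (hp : p ∈ W)
    (hw : ∀ q n, 0 ≤ ν q n) (hg0 : ∀ n, 0 ≤ g n) (hg1 : ∀ n, g n ≤ 1) (n : ℤ) :
    Gc W M g ν n ≤ Real.sqrt (ν p n) * Gc (W.erase p) M g ν n +
      (if M - 4 ≤ Xn W ν n ∧ Xn W ν n ≤ M then Real.exp (Xn W ν n) else 0) := by
  have hx : Xn W ν n = lg (ν p n) + Xn (W.erase p) ν n := by
    unfold Xn
    rw [← add_sum_erase W _ hp]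
  have hlg : -3 ≤ lg (ν p n) := by
    unfold lg
    split_ifs
    · exact le_refl _
    · exact le_max_right _ _
  by_cases h1 : Xn W ν n ≤ M
  · by_cases h2 : Xn (W.erase p) ν n ≤ M
    · have h3 : Gc W M g ν n = Real.sqrt (ν p n) * Gc (W.erase p) M g ν n := by
        unfold Gc
        rw [if_pos h1, if_pos h2, ← mul_prod_erase W _ hp]
        ring
      have h4 : 0 ≤ (if M - 4 ≤ Xn W ν n ∧ Xn W ν n ≤ M then Real.exp (Xn W ν n) else 0) := by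
        split_ifs
        · exact (Real.exp_pos _).le
        · exact le_refl _
      linarith
    · have h3 : M - 4 ≤ Xn W ν n := by
        have := not_le.1 h2
        linarith
      rw [if_pos ⟨h3, h1⟩]
      have h4 := PC.gc_le (W := W) (ν := ν) hw hg1 h1
      have h5 := mul_nonneg (Real.sqrt_nonneg (ν p n))
        (PC.gc_nonneg (W := W.erase p) (ν := ν) (M := M) hg0 n)
      linarith
  · rw [PC.gc_zero h1, if_neg (fun h => h1 h.2), add_zero]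
    exact mul_nonneg (Real.sqrt_nonneg (ν p n))
        (PC.gc_nonneg (W := W.erase p) (ν := ν) (M := M) hg0 n)

theorem hl_erase {W : Finset ℕ} {ν : ℕ → ℤ → ℝ} {p : ℕ} (hp : p ∈ W) (hp0 : 0 < p)
    (hle : ∀ x, ν p x ≤ 4) : Hl (W.erase p) ν ≤ Hl W ν + 1 := by
  unfold Hl
  rw [← add_sum_erase W _ hp]
  have hpp : (0 : ℝ) < p := by exact_mod_cast hp0
  have h4 : (∑ x ∈ range p, Real.sqrt (ν p x)) / (p : ℝ) ≤ 2 := by
    rw [div_le_iff₀ hpp]
    calc ∑ x ∈ range p, Real.sqrt (ν p x) ≤ ∑ x ∈ range p, (2 : ℝ) := by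
          apply sum_le_sum
          intro x _
          rw [show (2 : ℝ) = Real.sqrt 4 by
            rw [show (4 : ℝ) = 2 ^ 2 by norm_num, Real.sqrt_sq (by norm_num)]]
          exact Real.sqrt_le_sqrt (hle x)
      _ = 2 * p := by rw [sum_const, card_range, nsmul_eq_mul]; ring
  linarith

theorem ev_num {ε : ℝ} (k : ℕ) (h1 : 0 < ε) (h2 : ε ≤ 1 / 1000) : ∀ᶠ P : ℝ in atTop, 1 ≤ P ∧
    P ^ (1 - 99.5 * ε) + 1 ≤ P ^ (1 - 50.5 * ε) ∧
    (P ^ (2 : ℝ)) ^ k * (Real.exp (P / 2) + 1) ≤ Real.exp (7 / 8 * P) ∧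
    (P ^ (2 : ℝ)) ^ k / Real.exp (7 / 8 * P) + k * (P ^ (-(98 * ε)) * (2 * Real.log P)) +
      Real.exp (-(P ^ (1 - 49.5 * ε))) ≤ P ^ (-(97.9 * ε)) := by
  have e1 := PC.ev_pow (a := 1 - 99.5 * ε) (b := 1 - 50.5 * ε) 2 (by linarith)
  have e2 : Tendsto (fun P : ℝ => P ^ (1 - 99.5 * ε)) atTop atTop :=
    tendsto_rpow_atTop (by linarith)
  -- polynomial against exponential
  have e3 : ∀ᶠ P : ℝ in atTop, P ^ ((2 * k + 1 : ℕ) : ℝ) ≤ Real.exp (1 / 8 * P) := by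
    have h := isLittleO_rpow_exp_pos_mul_atTop ((2 * k + 1 : ℕ) : ℝ) (b := 1 / 8) (by norm_num)
    filter_upwards [h.bound (c := 1) one_pos, eventually_gt_atTop (0 : ℝ)] with P h3 h4
    rw [Real.norm_of_nonneg (Real.rpow_nonneg h4.le _), Real.norm_of_nonneg (Real.exp_pos _).le,
      one_mul] at h3
    exact h3
  have e4 : ∀ᶠ P : ℝ in atTop, (6 * k + 1) * Real.log P ≤ P ^ (0.1 * ε) := by
    have h := isLittleO_log_rpow_atTop (r := 0.1 * ε) (by positivity)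
    have hk : (0 : ℝ) < 1 / (6 * k + 1) := by positivity
    filter_upwards [h.bound (c := 1 / (6 * k + 1)) hk, eventually_gt_atTop (1 : ℝ)] with P h3 h4
    rw [Real.norm_of_nonneg (Real.rpow_nonneg (by linarith) _),
      Real.norm_of_nonneg (Real.log_nonneg h4.le)] at h3
    rw [one_div, inv_mul_eq_div, le_div_iff₀ (by positivity)] at h3
    linarith
  have e5 : ∀ᶠ P : ℝ in atTop, 3 * Real.exp (-(P ^ (1 - 49.5 * ε))) ≤ P ^ (-(97.9 * ε)) := by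
    have hT : Tendsto (fun P : ℝ => P ^ (1 - 49.5 * ε)) atTop atTop :=
      tendsto_rpow_atTop (by linarith)
    -- exp x ≥ x ^ 2, so exp (-x) ≤ x ^ (-2)
    filter_upwards [PC.ev_pow (a := 97.9 * ε) (b := 1 - 49.5 * ε) 3 (by linarith),
      hT.eventually_ge_atTop 1, eventually_gt_atTop (0 : ℝ)] with P h3 h4 h5
    have h6 := Real.add_one_le_exp (P ^ (1 - 49.5 * ε))
    have h7 : 3 * P ^ (97.9 * ε) ≤ Real.exp (P ^ (1 - 49.5 * ε)) := by linarith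
    rw [Real.exp_neg, Real.rpow_neg h5.le, ← div_eq_mul_inv,
      div_le_iff₀ (Real.exp_pos _), inv_mul_eq_div, le_div_iff₀ (Real.rpow_pos_of_pos h5 _)]
    exact h7
  have e6 := PC.ev_pow (a := 1 - 49.5 * ε) (b := 1) 3 (by linarith)
  filter_upwards [e1, e2.eventually_ge_atTop 1, e3, e4, e5, e6, eventually_ge_atTop (3 : ℝ)]
    with P a1 a2 a3 a4 a5 a6 a7
  have hP0 : (0 : ℝ) < P := by linarith
  have hpow : (P ^ (2 : ℝ)) ^ k * P = P ^ ((2 * k + 1 : ℕ) : ℝ) := by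
    rw [Real.rpow_natCast, show (2 : ℝ) = ((2 : ℕ) : ℝ) by norm_num, Real.rpow_natCast,
      ← pow_mul, pow_succ]
  have hk0 : 0 ≤ (P ^ (2 : ℝ)) ^ k := by positivity
  have hk1 : (P ^ (2 : ℝ)) ^ k * 3 ≤ Real.exp (1 / 8 * P) := by
    calc (P ^ (2 : ℝ)) ^ k * 3 ≤ (P ^ (2 : ℝ)) ^ k * P := mul_le_mul_of_nonneg_left a7 hk0
      _ ≤ _ := by rw [hpow]; exact a3
  refine ⟨by linarith, by linarith, ?_, ?_⟩
  · have h8 : Real.exp (P / 2) + 1 ≤ 3 * Real.exp (P / 2) := by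
      have : 1 ≤ Real.exp (P / 2) := Real.one_le_exp (by linarith)
      linarith
    calc (P ^ (2 : ℝ)) ^ k * (Real.exp (P / 2) + 1) ≤
        (P ^ (2 : ℝ)) ^ k * (3 * Real.exp (P / 2)) := mul_le_mul_of_nonneg_left h8 hk0
      _ = ((P ^ (2 : ℝ)) ^ k * 3) * Real.exp (P / 2) := by ring
      _ ≤ Real.exp (1 / 8 * P) * Real.exp (P / 2) :=
          mul_le_mul_of_nonneg_right hk1 (Real.exp_pos _).le
      _ = Real.exp (1 / 8 * P + P / 2) := by rw [Real.exp_add]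
      _ ≤ Real.exp (7 / 8 * P) := Real.exp_le_exp.2 (by linarith)
  · have h9 : (P ^ (2 : ℝ)) ^ k / Real.exp (7 / 8 * P) ≤ 1 / 3 * P ^ (-(97.9 * ε)) := by
      rw [div_le_iff₀ (Real.exp_pos _)]
      have h10 : Real.exp (1 / 8 * P) ≤ Real.exp (-(P ^ (1 - 49.5 * ε))) * Real.exp (7 / 8 * P) := by
        rw [← Real.exp_add]
        rw [Real.rpow_one] at a6
        exact Real.exp_le_exp.2 (by linarith)
      calc (P ^ (2 : ℝ)) ^ k ≤ 1 / 3 * Real.exp (1 / 8 * P) := by linarith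
        _ ≤ 1 / 3 * (Real.exp (-(P ^ (1 - 49.5 * ε))) * Real.exp (7 / 8 * P)) := by linarith
        _ ≤ 1 / 3 * (P ^ (-(97.9 * ε)) * Real.exp (7 / 8 * P)) := by
            have h11 : Real.exp (-(P ^ (1 - 49.5 * ε))) ≤ P ^ (-(97.9 * ε)) := by
              linarith [Real.exp_pos (-(P ^ (1 - 49.5 * ε)))]
            have := mul_le_mul_of_nonneg_right h11 (Real.exp_pos (7 / 8 * P)).le
            linarith
        _ = 1 / 3 * P ^ (-(97.9 * ε)) * Real.exp (7 / 8 * P) := by ring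
    have h12 : k * (P ^ (-(98 * ε)) * (2 * Real.log P)) ≤ 1 / 3 * P ^ (-(97.9 * ε)) := by
      have h13 : P ^ (-(97.9 * ε)) = P ^ (-(98 * ε)) * P ^ (0.1 * ε) := by
        rw [← Real.rpow_add hP0]; congr 1; ring
      have h14 : 0 ≤ P ^ (-(98 * ε)) := Real.rpow_nonneg hP0.le _
      have h15 : 0 ≤ Real.log P := Real.log_nonneg (by linarith)
      rw [h13]
      calc k * (P ^ (-(98 * ε)) * (2 * Real.log P)) =
          1 / 3 * (P ^ (-(98 * ε)) * ((6 * k) * Real.log P)) := by ring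
        _ ≤ 1 / 3 * (P ^ (-(98 * ε)) * P ^ (0.1 * ε)) := by
            have h16 : (6 * (k : ℝ)) * Real.log P ≤ P ^ (0.1 * ε) := by nlinarith
            have := mul_le_mul_of_nonneg_left h16 h14
            linarith
    linarith

theorem core {ε P : ℝ} {k N' Nmin : ℕ} {Φ : ℝ} {g : ℤ → ℝ} {ν : ℕ → ℤ → ℝ} (hε : 0 < ε)
    (hP : 1 ≤ P) (hR : Raw5 ε P k N' Nmin Φ g ν) (hH : Hl (W5 ε P) ν ≤ P ^ (1 - 99.5 * ε))
    (hT : PinTl ε P N' Φ ν) {p : ℕ} (hp : p ∈ W5 ε P) (x : ℤ)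
    (n1 : P ^ (1 - 99.5 * ε) + 1 ≤ P ^ (1 - 50.5 * ε))
    (n2 : (P ^ (2 : ℝ)) ^ k * (Real.exp (P / 2) + 1) ≤ Real.exp (7 / 8 * P))
    (n3 : (P ^ (2 : ℝ)) ^ k / Real.exp (7 / 8 * P) + k * (P ^ (-(98 * ε)) * (2 * Real.log P)) +
      Real.exp (-(P ^ (1 - 49.5 * ε))) ≤ P ^ (-(97.9 * ε))) :
    mass (Gc (W5 ε P) (Mc2 ε P) g ν) 0 N' p x ≤
        (N' * Φ / p) * Real.sqrt (ν p x) * Real.exp (P ^ (-(97.9 * ε)) + zf ν p / 8) +
          Real.exp (-(Mc2 ε P / 2)) * (N' * Φ) := by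
  have hpp : p.Prime := w5_prime hp
  have hp0 : (0 : ℝ) < p := by exact_mod_cast hpp.pos
  have hP0 : (0 : ℝ) < P := by linarith
  have hNpos : (0 : ℝ) < N' := lt_of_lt_of_le (Real.exp_pos _) hR.N'lo
  have hΦ : 0 < Φ := lt_of_lt_of_le (Real.exp_pos _) hR.Φlo
  have hw := hR.wts
  have hpP : (p : ℝ) ≤ P ^ (2 : ℝ) := by
    have h1 : p ≤ ⌊P ^ (2 - 190 * ε)⌋₊ := by
      have h := hp
      unfold W5 Wp at h
      exact (mem_Ioc.1 (mem_filter.1 h).1).2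
    calc (p : ℝ) ≤ (⌊P ^ (2 - 190 * ε)⌋₊ : ℝ) := by exact_mod_cast h1
      _ ≤ P ^ (2 - 190 * ε) := Nat.floor_le (Real.rpow_nonneg hP0.le _)
      _ ≤ P ^ (2 : ℝ) := Real.rpow_le_rpow_of_exponent_le hP (by linarith)
  have hpk : (p : ℝ) ^ k ≤ (P ^ (2 : ℝ)) ^ k := pow_le_pow_left₀ hp0.le hpP k
  have hle : p ^ k * Nmin ≤ N' := by
    have h2 : ((p ^ k * Nmin : ℕ) : ℝ) ≤ N' := by
      push_cast
      calc (p : ℝ) ^ k * Nmin ≤ (P ^ (2 : ℝ)) ^ k * (Real.exp (P / 2) + 1) :=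
            mul_le_mul hpk hR.Nmin_le (Nat.cast_nonneg _) (by positivity)
        _ ≤ Real.exp (7 / 8 * P) := n2
        _ ≤ N' := hR.N'lo
    exact_mod_cast h2
  have hmax := hR.max p N' 0 x ν hpp.one_lt.le hle hle
  rw [vn_prime_eq hp] at hmax
  have hmax := hmax
    ⟨hw.nn, fun q hq n => hw.per q (mem_of_mem_erase hq) n,
      fun q hq => hw.mean q (mem_of_mem_erase hq)⟩
    (fun q hq n => hR.le4 q (mem_of_mem_erase hq) n)
    (by
      have h5 := hl_erase hp hpp.pos (hR.le4 p hp)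
      unfold V05
      linarith)
  have hz : ∑ q ∈ W5 ε P, zf ν q = zf ν p + ∑ q ∈ (W5 ε P).erase p, zf ν q := by
    rw [add_sum_erase _ _ hp]
  have hz2 : Real.exp (1 / 8 * ∑ q ∈ W5 ε P, zf ν q) = Real.exp (1 / 8 * zf ν p) *
      Real.exp (1 / 8 * ∑ q ∈ (W5 ε P).erase p, zf ν q) := by
    rw [hz, mul_add, Real.exp_add]
  rw [hz2, ← mul_assoc] at hmax
  have hmax2 := le_of_mul_le_mul_right hmax (Real.exp_pos _)
  set e1 : ℝ := Real.exp (-(P ^ (1 - 49.5 * ε))) with he1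
  -- the factors
  have hf1 : 1 + (p : ℝ) ^ k / N' ≤ Real.exp ((P ^ (2 : ℝ)) ^ k / Real.exp (7 / 8 * P)) := by
    have h6 : (p : ℝ) ^ k / N' ≤ (P ^ (2 : ℝ)) ^ k / Real.exp (7 / 8 * P) :=
      div_le_div₀ (by positivity) hpk (Real.exp_pos _) hR.N'lo
    have h7 := Real.add_one_le_exp ((P ^ (2 : ℝ)) ^ k / Real.exp (7 / 8 * P))
    linarith
  have hf2 : ((N' : ℝ) * (p : ℝ) ^ k / N') ^ (eta5 ε P) ≤
      Real.exp (k * (P ^ (-(98 * ε)) * (2 * Real.log P))) := by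
    have h8 : (N' : ℝ) * (p : ℝ) ^ k / N' = (p : ℝ) ^ k := by field_simp
    rw [h8, Real.rpow_def_of_pos (by positivity)]
    apply Real.exp_le_exp.2
    unfold eta5
    rw [Real.log_pow]
    have h9 : Real.log p ≤ 2 * Real.log P := by
      calc Real.log p ≤ Real.log (P ^ (2 : ℝ)) := Real.log_le_log hp0 hpP
        _ = 2 * Real.log P := by rw [Real.log_rpow hP0]
    have h10 : 0 ≤ P ^ (-(98 * ε)) := Real.rpow_nonneg hP0.le _
    calc (k : ℝ) * Real.log p * P ^ (-(98 * ε)) ≤ k * (2 * Real.log P) * P ^ (-(98 * ε)) := by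
          gcongr
      _ = _ := by ring
  have hbig : ∑ n ∈ cel 0 N' p x, Gc ((W5 ε P).erase p) (Mc2 ε P) g ν n ≤
      (N' * Φ / p) * Real.exp (P ^ (-(97.9 * ε)) + zf ν p / 8) := by
    refine le_trans hmax2 ?_
    have h11 : (1 + (p : ℝ) ^ k / N') * ((N' * (p : ℝ) ^ k / N') ^ (eta5 ε P)) * Real.exp e1 ≤
        Real.exp (P ^ (-(97.9 * ε))) := by
      calc (1 + (p : ℝ) ^ k / N') * ((N' * (p : ℝ) ^ k / N') ^ (eta5 ε P)) * Real.exp e1 ≤
          Real.exp ((P ^ (2 : ℝ)) ^ k / Real.exp (7 / 8 * P)) *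
            Real.exp (k * (P ^ (-(98 * ε)) * (2 * Real.log P))) * Real.exp e1 := by
            gcongr
        _ = Real.exp ((P ^ (2 : ℝ)) ^ k / Real.exp (7 / 8 * P) +
            k * (P ^ (-(98 * ε)) * (2 * Real.log P)) + e1) := by
            rw [Real.exp_add, Real.exp_add]
        _ ≤ _ := Real.exp_le_exp.2 n3
    calc (N' : ℝ) / p * Φ * (1 + (p : ℝ) ^ k / N') * ((N' * (p : ℝ) ^ k / N') ^ (eta5 ε P)) *
          Real.exp e1 * Real.exp (1 / 8 * zf ν p) =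
        (N' * Φ / p) * (((1 + (p : ℝ) ^ k / N') * ((N' * (p : ℝ) ^ k / N') ^ (eta5 ε P)) *
          Real.exp e1) * Real.exp (1 / 8 * zf ν p)) := by ring
      _ ≤ (N' * Φ / p) * (Real.exp (P ^ (-(97.9 * ε))) * Real.exp (1 / 8 * zf ν p)) := by
          apply mul_le_mul_of_nonneg_left _ (by positivity)
          exact mul_le_mul_of_nonneg_right h11 (Real.exp_pos _).le
      _ = _ := by rw [← Real.exp_add]; congr 3; ring
  -- the sum over the class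
  have hcel : mass (Gc (W5 ε P) (Mc2 ε P) g ν) 0 N' p x =
      ∑ n ∈ cel 0 N' p x, Gc (W5 ε P) (Mc2 ε P) g ν n := rfl
  rw [hcel]
  have hsub : ∑ n ∈ cel 0 N' p x, (if Mc2 ε P - 4 ≤ Xn (W5 ε P) ν n ∧
      Xn (W5 ε P) ν n ≤ Mc2 ε P then Real.exp (Xn (W5 ε P) ν n) else 0) ≤
      Real.exp (-(Mc2 ε P / 2)) * (N' * Φ) := by
    refine le_trans ?_ hT
    rw [sum_filter]
    apply sum_le_sum_of_subset_of_nonneg
    · intro n hn
      unfold cel at hn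
      have h := mem_Ioc.1 (mem_filter.1 hn).1
      rw [mem_Icc]
      constructor <;> [linarith [h.1]; simpa using h.2]
    · intro n _ _
      split_ifs
      · exact (Real.exp_pos _).le
      · exact le_refl _
  calc ∑ n ∈ cel 0 N' p x, Gc (W5 ε P) (Mc2 ε P) g ν n ≤
      ∑ n ∈ cel 0 N' p x, (Real.sqrt (ν p x) * Gc ((W5 ε P).erase p) (Mc2 ε P) g ν n +
        (if Mc2 ε P - 4 ≤ Xn (W5 ε P) ν n ∧ Xn (W5 ε P) ν n ≤ Mc2 ε P then
          Real.exp (Xn (W5 ε P) ν n) else 0)) := by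
        apply sum_le_sum
        intro n hn
        unfold cel at hn
        have h := per_modEq (f := ν p) (hw.per p hp) (mem_filter.1 hn).2
        rw [← h]
        exact gc_split hp hw.nn hR.g0 hR.g1 n
    _ = Real.sqrt (ν p x) * ∑ n ∈ cel 0 N' p x, Gc ((W5 ε P).erase p) (Mc2 ε P) g ν n +
        ∑ n ∈ cel 0 N' p x, (if Mc2 ε P - 4 ≤ Xn (W5 ε P) ν n ∧ Xn (W5 ε P) ν n ≤ Mc2 ε P then
          Real.exp (Xn (W5 ε P) ν n) else 0) := by
        rw [sum_add_distrib, mul_sum]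
    _ ≤ Real.sqrt (ν p x) * ((N' * Φ / p) * Real.exp (P ^ (-(97.9 * ε)) + zf ν p / 8)) +
        Real.exp (-(Mc2 ε P / 2)) * (N' * Φ) :=
        add_le_add (mul_le_mul_of_nonneg_left hbig (Real.sqrt_nonneg _)) hsub
    _ = _ := by ring

end PB

theorem pinB_holds : PinBStmt := by
  intro k _ ε hε hε2
  obtain ⟨P0, hP0⟩ := eventually_atTop.1 (PB.ev_num k hε hε2)
  refine ⟨P0, fun P hP N' Nmin Φ g ν hR hH hT p hp x => ?_⟩
  obtain ⟨n0, n1, n2, n3⟩ := hP0 P hP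
  exact PB.core hε n0 hR hH hT hp x n1 n2 n3

end Vale.Agent.P042.UU
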