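import Vale.Agent.P042.UU.PinDefs

set_option autoImplicit false

/-!
Theorem S5, block PIN5, piece C: perturbation of the weight at one prime.
-/

namespace Vale.Agent.P042.UU

open Polynomial Finset Filter Vale.Agent.P042.SS Vale.Agent.P042.TT

namespace PC

theorem ev_pow {a b : ℝ} (C : ℝ) (h : a < b) : ∀ᶠ P : ℝ in atTop, C * P ^ a ≤ P ^ b := by
  have h1 : Tendsto (fun P : ℝ => P ^ (b - a)) atTop atTop := tendsto_rpow_atTop (by linarith)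
  filter_upwards [h1.eventually_ge_atTop C, eventually_gt_atTop (0 : ℝ)] with P h2 h3
  have h4 : P ^ b = P ^ (b - a) * P ^ a := by rw [← Real.rpow_add h3]; congr 1; ring
  rw [h4]
  exact mul_le_mul_of_nonneg_right h2 (Real.rpow_nonneg h3.le _)

theorem sqrt_le_exp_lg {t : ℝ} (ht : 0 ≤ t) : Real.sqrt t ≤ Real.exp (lg t) := by
  unfold lg
  by_cases h : t = 0
  · rw [if_pos h, h, Real.sqrt_zero]; exact (Real.exp_pos _).le
  · rw [if_neg h]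
    have ht' : 0 < t := lt_of_le_of_ne ht (Ne.symm h)
    calc Real.sqrt t = Real.exp (Real.log t / 2) := by rw [Real.exp_half, Real.exp_log ht']
      _ ≤ _ := Real.exp_le_exp.2 (le_max_left _ _)

theorem lg_mul_le {t v : ℝ} (ht : 0 ≤ t) (hv : 0 < v) (hv2 : v ≤ 2) :
    lg (t * v) ≤ lg t + 1 := by
  unfold lg
  by_cases h : t = 0
  · rw [if_pos h, h, zero_mul, if_pos rfl]; linarith
  · rw [if_neg h, if_neg (mul_ne_zero h hv.ne')]
    have ht' : 0 < t := lt_of_le_of_ne ht (Ne.symm h)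
    rw [Real.log_mul h hv.ne']
    have h1 : Real.log v ≤ 1 := by
      have := Real.log_le_sub_one_of_pos hv
      linarith
    apply max_le
    · have := le_max_left (Real.log t / 2) (-3)
      linarith
    · have := le_max_right (Real.log t / 2) (-3)
      linarith

theorem sqrt_lower {u : ℝ} (h : |u| ≤ 1) : 1 + u / 2 - u ^ 2 / 2 ≤ Real.sqrt (1 + u) := by
  obtain ⟨h1, h2⟩ := abs_le.1 h
  apply Real.le_sqrt_of_sq_le
  have h3 : 0 ≤ u ^ 2 * ((3 - u) * (1 + u)) :=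
    mul_nonneg (sq_nonneg u) (mul_nonneg (by linarith) (by linarith))
  nlinarith

/-- the perturbed weights -/
noncomputable def mu (ν : ℕ → ℤ → ℝ) (p : ℕ) (δ : ℝ) (g0 : ℤ → ℝ) (q : ℕ) (n : ℤ) : ℝ :=
  if q = p then ν q n * (1 + δ * g0 n) else ν q n

section

variable {W : Finset ℕ} {ν : ℕ → ℤ → ℝ} {p : ℕ} {δ : ℝ} {g0 : ℤ → ℝ}

theorem fac (hδ : 0 ≤ δ) (hδ2 : δ ≤ 1 / 2) (hg : ∀ n, |g0 n| ≤ 1) (n : ℤ) :
    |δ * g0 n| ≤ 1 / 2 ∧ 0 < 1 + δ * g0 n ∧ 1 + δ * g0 n ≤ 2 := by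
  have h1 : |δ * g0 n| ≤ 1 / 2 := by
    rw [abs_mul, abs_of_nonneg hδ]
    calc δ * |g0 n| ≤ 1 / 2 * 1 := mul_le_mul hδ2 (hg n) (abs_nonneg _) (by norm_num)
      _ = 1 / 2 := by norm_num
  obtain ⟨h2, h3⟩ := abs_le.1 h1
  exact ⟨h1, by linarith, by linarith⟩

theorem wts_mu (hw : Wts W ν) (hδ : 0 ≤ δ) (hδ2 : δ ≤ 1 / 2)
    (hper : ∀ n, g0 (n + p) = g0 n) (hg : ∀ n, |g0 n| ≤ 1)
    (hc : ∑ z ∈ range p, ν p z * g0 z = 0) : Wts W (mu ν p δ g0) := by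
  refine ⟨fun q n => ?_, fun q hq n => ?_, fun q hq => ?_⟩
  · unfold mu
    split_ifs with h
    · exact mul_nonneg (hw.nn q n) (fac hδ hδ2 hg n).2.1.le
    · exact hw.nn q n
  · unfold mu
    by_cases h : q = p
    · subst h
      rw [if_pos rfl, if_pos rfl, hw.per q hq n, hper n]
    · rw [if_neg h, if_neg h, hw.per q hq n]
  · unfold mu
    by_cases h : q = p
    · subst h
      simp only [if_true]
      calc ∑ x ∈ range q, ν q (x : ℤ) * (1 + δ * g0 (x : ℤ)) =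
          ∑ x ∈ range q, ν q (x : ℤ) + δ * ∑ x ∈ range q, ν q (x : ℤ) * g0 (x : ℤ) := by
            rw [mul_sum, ← sum_add_distrib]
            exact sum_congr rfl (fun x _ => by ring)
        _ = q := by rw [hw.mean q hq, hc, mul_zero, add_zero]
    · simp only [if_neg h]
      exact hw.mean q hq

theorem zf_mu (hδ : 0 ≤ δ) (hδ2 : δ ≤ 1 / 2) (hg : ∀ n, |g0 n| ≤ 1) (q : ℕ) :
    zf (mu ν p δ g0) q = zf ν q := by
  unfold zf
  have h1 : (range q).filter (fun x : ℕ => mu ν p δ g0 q x = 0) =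
      (range q).filter (fun x : ℕ => ν q x = 0) := by
    apply filter_congr
    intro x _
    unfold mu
    split_ifs with h
    · constructor
      · intro h2
        rcases mul_eq_zero.1 h2 with h3 | h3
        · exact h3
        · exact absurd h3 (fac hδ hδ2 hg x).2.1.ne'
      · intro h2
        rw [h2, zero_mul]
    · rfl
  rw [h1]

theorem hl_mu (hp : p ∈ W) (hp0 : 0 < p) (hle : ∀ x, ν p x ≤ 4) :
    Hl W (mu ν p δ g0) ≤ Hl W ν + 2 := by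
  unfold Hl
  rw [← add_sum_erase W _ hp, ← add_sum_erase W (fun p => (1 : ℝ) -
    (∑ x ∈ range p, Real.sqrt (ν p x)) / p) hp]
  have h1 : ∀ q ∈ W.erase p, (1 - (∑ x ∈ range q, Real.sqrt (mu ν p δ g0 q x)) / (q : ℝ)) =
      1 - (∑ x ∈ range q, Real.sqrt (ν q x)) / (q : ℝ) := by
    intro q hq
    have h2 : q ≠ p := ne_of_mem_erase hq
    congr 2
    exact sum_congr rfl (fun x _ => by unfold mu; rw [if_neg h2])
  rw [sum_congr rfl h1]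
  have hpp : (0 : ℝ) < p := by exact_mod_cast hp0
  have h3 : 0 ≤ (∑ x ∈ range p, Real.sqrt (mu ν p δ g0 p x)) / (p : ℝ) :=
    div_nonneg (sum_nonneg (fun _ _ => Real.sqrt_nonneg _)) hpp.le
  have h4 : (∑ x ∈ range p, Real.sqrt (ν p x)) / (p : ℝ) ≤ 2 := by
    rw [div_le_iff₀ hpp]
    calc ∑ x ∈ range p, Real.sqrt (ν p x) ≤ ∑ x ∈ range p, (2 : ℝ) := by
          apply sum_le_sum
          intro x _
          rw [show (2 : ℝ) = Real.sqrt 4 by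
            rw [show (4 : ℝ) = 2 ^ 2 by norm_num, Real.sqrt_sq (by norm_num)]]
          exact Real.sqrt_le_sqrt (hle x)
      _ = 2 * p := by rw [sum_const, card_range, nsmul_eq_mul]; ring
  linarith

theorem prod_mu (hp : p ∈ W) (hw : ∀ q n, 0 ≤ ν q n) (n : ℤ) :
    ∏ q ∈ W, Real.sqrt (mu ν p δ g0 q n) =
      (∏ q ∈ W, Real.sqrt (ν q n)) * Real.sqrt (1 + δ * g0 n) := by
  rw [← mul_prod_erase W _ hp, ← mul_prod_erase W (fun q => Real.sqrt (ν q n)) hp]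
  have h1 : ∏ q ∈ W.erase p, Real.sqrt (mu ν p δ g0 q n) =
      ∏ q ∈ W.erase p, Real.sqrt (ν q n) := by
    apply prod_congr rfl
    intro q hq
    have h2 : q ≠ p := ne_of_mem_erase hq
    unfold mu
    rw [if_neg h2]
  rw [h1]
  have h3 : Real.sqrt (mu ν p δ g0 p n) = Real.sqrt (ν p n) * Real.sqrt (1 + δ * g0 n) := by
    unfold mu
    rw [if_pos rfl, Real.sqrt_mul (hw p n)]
  rw [h3]
  ring

theorem xn_mu (hp : p ∈ W) (hw : ∀ q n, 0 ≤ ν q n) (hδ : 0 ≤ δ) (hδ2 : δ ≤ 1 / 2)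
    (hg : ∀ n, |g0 n| ≤ 1) (n : ℤ) : Xn W (mu ν p δ g0) n ≤ Xn W ν n + 1 := by
  unfold Xn
  rw [← add_sum_erase W _ hp, ← add_sum_erase W (fun q => lg (ν q n)) hp]
  have h1 : ∑ q ∈ W.erase p, lg (mu ν p δ g0 q n) = ∑ q ∈ W.erase p, lg (ν q n) := by
    apply sum_congr rfl
    intro q hq
    have h2 : q ≠ p := ne_of_mem_erase hq
    unfold mu
    rw [if_neg h2]
  rw [h1]
  have h3 : lg (mu ν p δ g0 p n) ≤ lg (ν p n) + 1 := by
    unfold mu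
    rw [if_pos rfl]
    obtain ⟨_, h4, h5⟩ := fac hδ hδ2 hg n
    exact lg_mul_le (hw p n) h4 h5
  linarith

theorem gc_nonneg {M : ℝ} {g : ℤ → ℝ} (hg : ∀ n, 0 ≤ g n) (n : ℤ) : 0 ≤ Gc W M g ν n := by
  unfold Gc
  split_ifs
  · exact mul_nonneg (hg n) (prod_nonneg (fun _ _ => Real.sqrt_nonneg _))
  · exact le_refl 0

theorem gc_le {M : ℝ} {g : ℤ → ℝ} (hw : ∀ q n, 0 ≤ ν q n) (hg1 : ∀ n, g n ≤ 1) {n : ℤ}
    (hn : Xn W ν n ≤ M) : Gc W M g ν n ≤ Real.exp (Xn W ν n) := by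
  unfold Gc
  rw [if_pos hn]
  have h1 : ∏ p ∈ W, Real.sqrt (ν p n) ≤ Real.exp (Xn W ν n) := by
    unfold Xn
    rw [Real.exp_sum]
    exact prod_le_prod (fun _ _ => Real.sqrt_nonneg _) (fun q _ => sqrt_le_exp_lg (hw q n))
  calc g n * ∏ p ∈ W, Real.sqrt (ν p n) ≤ 1 * ∏ p ∈ W, Real.sqrt (ν p n) :=
        mul_le_mul_of_nonneg_right (hg1 n) (prod_nonneg (fun _ _ => Real.sqrt_nonneg _))
    _ ≤ _ := by rw [one_mul]; exact h1

theorem gc_zero {M : ℝ} {g : ℤ → ℝ} {n : ℤ} (hn : ¬ Xn W ν n ≤ M) : Gc W M g ν n = 0 := by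
  unfold Gc
  rw [if_neg hn]

/-- the comparison of the two weighted functions -/
theorem gc_mu {M : ℝ} {g : ℤ → ℝ} (hp : p ∈ W) (hw : ∀ q n, 0 ≤ ν q n) (hδ : 0 ≤ δ)
    (hδ2 : δ ≤ 1 / 2) (hg : ∀ n, |g0 n| ≤ 1) (hg0 : ∀ n, 0 ≤ g n) (hg1 : ∀ n, g n ≤ 1) (n : ℤ) :
    Gc W M g ν n * Real.sqrt (1 + δ * g0 n) ≤ Gc W M g (mu ν p δ g0) n +
      (if M - 4 ≤ Xn W ν n ∧ Xn W ν n ≤ M then 2 * Real.exp (Xn W ν n) else 0) := by
  by_cases h1 : Xn W ν n ≤ M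
  · by_cases h2 : M - 4 ≤ Xn W ν n
    · rw [if_pos ⟨h2, h1⟩]
      have h3 := gc_nonneg (W := W) (ν := mu ν p δ g0) (M := M) hg0 n
      have h4 : Real.sqrt (1 + δ * g0 n) ≤ 2 := by
        obtain ⟨_, h5, h6⟩ := fac hδ hδ2 hg n
        rw [show (2 : ℝ) = Real.sqrt 4 by
          rw [show (4 : ℝ) = 2 ^ 2 by norm_num, Real.sqrt_sq (by norm_num)]]
        exact Real.sqrt_le_sqrt (by linarith)
      have h5 := gc_le (W := W) (ν := ν) hw hg1 h1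
      have h6 := gc_nonneg (W := W) (ν := ν) (M := M) hg0 n
      nlinarith [mul_le_mul h5 h4 (Real.sqrt_nonneg _) (Real.exp_pos (Xn W ν n)).le]
    · rw [if_neg (fun h => h2 h.1), add_zero]
      have h3 : Xn W (mu ν p δ g0) n ≤ M := by
        have := xn_mu (g0 := g0) hp hw hδ hδ2 hg n
        linarith [not_le.1 h2]
      unfold Gc
      rw [if_pos h1, if_pos h3, prod_mu hp hw, mul_assoc]
  · rw [gc_zero h1, zero_mul, if_neg (fun h => h1 h.2), add_zero]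
    exact gc_nonneg hg0 n

end

theorem ev_num {ε : ℝ} (h1 : 0 < ε) (h2 : ε ≤ 1 / 1000) : ∀ᶠ P : ℝ in atTop, 1 ≤ P ∧
    P ^ (1 - 99.5 * ε) + 2 ≤ P ^ (1 - 50.5 * ε) ∧ P ^ (1 - 49.5 * ε) ≤ 7 / 8 * P ∧
    Real.exp (P / 2) + 1 ≤ Real.exp (7 / 8 * P) ∧
    2 * P ^ (1 - 49.6 * ε) ≤ P ^ (1 - 49.5 * ε) ∧
    4 * P ^ (1 - 49.6 * ε) ≤ P ^ (1 - 49 * ε) ∧
    2 * P ^ (1 - 49.7 * ε) ≤ P ^ (1 - 49.6 * ε) ∧ 15 ≤ P ^ (1 - 49.7 * ε) ∧
    Real.exp (-(P ^ (1 - 49.6 * ε))) ≤ 1 / 2 ∧ Real.exp (-(P ^ (1 - 49.5 * ε))) ≤ 1 / 2 := by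
  have hT : Tendsto (fun P : ℝ => P ^ (1 - 49.7 * ε)) atTop atTop :=
    tendsto_rpow_atTop (by linarith)
  have e1 := ev_pow (a := 1 - 99.5 * ε) (b := 1 - 50.5 * ε) 2 (by linarith)
  have e2 := ev_pow (a := 1 - 49.5 * ε) (b := 1) 2 (by linarith)
  have e3 := ev_pow (a := 1 - 49.6 * ε) (b := 1 - 49.5 * ε) 2 (by linarith)
  have e4 := ev_pow (a := 1 - 49.6 * ε) (b := 1 - 49 * ε) 4 (by linarith)
  have e5 := ev_pow (a := 1 - 49.7 * ε) (b := 1 - 49.6 * ε) 2 (by linarith)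
  have hT2 : Tendsto (fun P : ℝ => P ^ (1 - 99.5 * ε)) atTop atTop :=
    tendsto_rpow_atTop (by linarith)
  filter_upwards [e1, e2, e3, e4, e5, hT.eventually_ge_atTop 15, hT2.eventually_ge_atTop 2,
    eventually_ge_atTop (8 : ℝ)] with P a1 a2 a3 a4 a5 a6 a7 a8
  rw [Real.rpow_one] at a2
  have hx1 : 15 ≤ P ^ (1 - 49.6 * ε) := by linarith
  have hx2 : 15 ≤ P ^ (1 - 49.5 * ε) := by linarith
  have hexp : ∀ x : ℝ, 15 ≤ x → Real.exp (-x) ≤ 1 / 2 := by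
    intro x hx
    rw [Real.exp_neg, inv_le_comm₀ (Real.exp_pos _) (by norm_num)]
    have := Real.add_one_le_exp x
    norm_num
    linarith
  refine ⟨by linarith, by linarith, by linarith, ?_, a3, a4, a5, a6, hexp _ hx1, hexp _ hx2⟩
  have h3 : Real.exp (7 / 8 * P) = Real.exp (P / 2) * Real.exp (3 / 8 * P) := by
    rw [← Real.exp_add]; congr 1; ring
  have h4 : 2 ≤ Real.exp (3 / 8 * P) := by
    have := Real.add_one_le_exp (3 / 8 * P)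
    linarith
  have h5 : 1 ≤ Real.exp (P / 2) := Real.one_le_exp (by linarith)
  rw [h3]
  nlinarith

theorem core {ε P : ℝ} {k N' Nmin : ℕ} {Φ : ℝ} {g : ℤ → ℝ} {ν : ℕ → ℤ → ℝ}
    (hR : Raw5 ε P k N' Nmin Φ g ν) (hH : Hl (W5 ε P) ν ≤ P ^ (1 - 99.5 * ε))
    (hT : PinTl ε P N' Φ ν) {p : ℕ} (hp : p ∈ W5 ε P) {g0 : ℤ → ℝ}
    (hper : ∀ n, g0 (n + p) = g0 n) (hg : ∀ n, |g0 n| ≤ 1)
    (hc : ∑ z ∈ range p, ν p z * g0 z = 0) {δ : ℝ} (hδ : 0 < δ) (hδ2 : δ ≤ 1 / 2)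
    (h4 : ∀ n, ν p n * (1 + δ * g0 n) ≤ 4)
    (n1 : P ^ (1 - 99.5 * ε) + 2 ≤ P ^ (1 - 50.5 * ε)) (n2 : P ^ (1 - 49.5 * ε) ≤ 7 / 8 * P)
    (n3 : Real.exp (P / 2) + 1 ≤ Real.exp (7 / 8 * P))
    (n4 : Real.exp (-(P ^ (1 - 49.5 * ε))) ≤ 1 / 2) :
    δ * ∑ n ∈ Icc (1 : ℤ) N', Gc (W5 ε P) (Mc2 ε P) g ν n * g0 n ≤
      (δ ^ 2 + 10 * Real.exp (-(P ^ (1 - 49.5 * ε))) + 4 * Real.exp (-(Mc2 ε P / 2))) *
        (N' * Φ) := by
  have hprime : ∀ q ∈ W5 ε P, q.Prime := by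
    intro q hq
    unfold W5 Wp at hq
    exact (mem_filter.1 hq).2
  have hV : Vn ε P 1 = W5 ε P := by
    unfold Vn
    rw [filter_true_of_mem]
    intro q hq h
    exact (hprime q hq).one_lt.ne' (Nat.dvd_one.1 h)
  have hcel : cel 0 N' 1 0 = Icc (1 : ℤ) N' := by
    unfold cel
    rw [filter_true_of_mem]
    · ext n
      simp only [mem_Ioc, mem_Icc]
      omega
    · intro n _
      exact Int.modEq_one
  have hNpos : (0 : ℝ) < N' := lt_of_lt_of_le (Real.exp_pos _) hR.N'lo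
  have hNmin : Nmin ≤ N' := by
    have : (Nmin : ℝ) ≤ N' := le_trans hR.Nmin_le (le_trans n3 hR.N'lo)
    exact_mod_cast this
  have hΦ : 0 < Φ := lt_of_lt_of_le (Real.exp_pos _) hR.Φlo
  have hw := hR.wts
  have hmax := hR.max 1 N' 0 0 (mu ν p δ g0) le_rfl (by simpa using hNmin)
    (by simpa using hNmin)
  rw [hV] at hmax
  have hmax := hmax (wts_mu hw hδ.le hδ2 hper hg hc)
    (by
      intro q hq n
      unfold mu
      split_ifs with h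
      · subst h; exact h4 n
      · exact hR.le4 q hq n)
    (by
      have h5 := hl_mu (δ := δ) (g0 := g0) hp (hprime p hp).pos (hR.le4 p hp)
      unfold V05
      linarith)
  rw [hcel] at hmax
  have hz : ∑ q ∈ W5 ε P, zf (mu ν p δ g0) q = ∑ q ∈ W5 ε P, zf ν q :=
    sum_congr rfl (fun q _ => zf_mu hδ.le hδ2 hg q)
  rw [hz] at hmax
  have hmax2 := le_of_mul_le_mul_right hmax (Real.exp_pos _)
  have hone : ((N' : ℝ) * ((1 : ℕ) : ℝ) ^ k / N') ^ (eta5 ε P) = 1 := by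
    rw [Nat.cast_one, one_pow, mul_one, div_self hNpos.ne', Real.one_rpow]
  rw [hone, Nat.cast_one, one_pow, mul_one, div_one] at hmax2
  set e1 : ℝ := Real.exp (-(P ^ (1 - 49.5 * ε))) with he1
  have he1p : 0 < e1 := Real.exp_pos _
  have hinv : 1 / (N' : ℝ) ≤ e1 := by
    rw [div_le_iff₀ hNpos]
    calc (1 : ℝ) = e1 * Real.exp (P ^ (1 - 49.5 * ε)) := by
          rw [he1, ← Real.exp_add]; simp
      _ ≤ e1 * N' := by
          apply mul_le_mul_of_nonneg_left _ he1p.le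
          exact le_trans (Real.exp_le_exp.2 n2) hR.N'lo
  have hexp1 : Real.exp e1 ≤ 1 + 2 * e1 := by
    have h5 : |Real.exp e1 - 1| ≤ 2 * |e1| :=
      Real.abs_exp_sub_one_le (by rw [abs_of_pos he1p]; linarith)
    rw [abs_of_pos he1p] at h5
    linarith [(abs_le.1 h5).2]
  have hNΦ : 0 < (N' : ℝ) * Φ := mul_pos hNpos hΦ
  have hup : ∑ n ∈ Icc (1 : ℤ) N', Gc (W5 ε P) (Mc2 ε P) g (mu ν p δ g0) n ≤
      (1 + 5 * e1) * (N' * Φ) := by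
    refine le_trans hmax2 ?_
    have h6 : (1 + 1 / (N' : ℝ)) * Real.exp e1 ≤ 1 + 5 * e1 := by
      calc (1 + 1 / (N' : ℝ)) * Real.exp e1 ≤ (1 + e1) * (1 + 2 * e1) := by
            apply mul_le_mul (by linarith) hexp1 (Real.exp_pos _).le (by linarith)
        _ ≤ 1 + 5 * e1 := by nlinarith
    calc (N' : ℝ) * Φ * (1 + 1 / (N' : ℝ)) * Real.exp e1 =
        ((1 + 1 / (N' : ℝ)) * Real.exp e1) * (N' * Φ) := by ring
      _ ≤ _ := mul_le_mul_of_nonneg_right h6 hNΦ.le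
  have hlow : ∑ n ∈ Icc (1 : ℤ) N', Gc (W5 ε P) (Mc2 ε P) g ν n * Real.sqrt (1 + δ * g0 n) ≤
      (1 + 5 * e1) * (N' * Φ) + 2 * (Real.exp (-(Mc2 ε P / 2)) * (N' * Φ)) := by
    calc ∑ n ∈ Icc (1 : ℤ) N', Gc (W5 ε P) (Mc2 ε P) g ν n * Real.sqrt (1 + δ * g0 n) ≤
        ∑ n ∈ Icc (1 : ℤ) N', (Gc (W5 ε P) (Mc2 ε P) g (mu ν p δ g0) n +
          (if Mc2 ε P - 4 ≤ Xn (W5 ε P) ν n ∧ Xn (W5 ε P) ν n ≤ Mc2 ε P then
            2 * Real.exp (Xn (W5 ε P) ν n) else 0)) :=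
          sum_le_sum (fun n _ => gc_mu hp hw.nn hδ.le hδ2 hg hR.g0 hR.g1 n)
      _ = ∑ n ∈ Icc (1 : ℤ) N', Gc (W5 ε P) (Mc2 ε P) g (mu ν p δ g0) n +
          2 * ∑ n ∈ (Icc (1 : ℤ) N').filter (fun n => Mc2 ε P - 4 ≤ Xn (W5 ε P) ν n ∧
            Xn (W5 ε P) ν n ≤ Mc2 ε P), Real.exp (Xn (W5 ε P) ν n) := by
          rw [sum_add_distrib, mul_sum, sum_filter]
      _ ≤ _ := by
          have hT' := hT
          unfold PinTl at hT'
          linarith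
  have hquad : ∑ n ∈ Icc (1 : ℤ) N', Gc (W5 ε P) (Mc2 ε P) g ν n *
      (1 + (δ * g0 n) / 2 - δ ^ 2 / 2) ≤
      ∑ n ∈ Icc (1 : ℤ) N', Gc (W5 ε P) (Mc2 ε P) g ν n * Real.sqrt (1 + δ * g0 n) := by
    apply sum_le_sum
    intro n _
    apply mul_le_mul_of_nonneg_left _ (gc_nonneg hR.g0 n)
    have h7 := sqrt_lower (u := δ * g0 n) (le_trans (fac hδ.le hδ2 hg n).1 (by norm_num))
    have h8 : (δ * g0 n) ^ 2 ≤ δ ^ 2 := by
      rw [mul_pow]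
      have h9 : g0 n ^ 2 ≤ 1 := by
        rw [← sq_abs]
        exact pow_le_one₀ (abs_nonneg _) (hg n)
      nlinarith [sq_nonneg δ]
    linarith
  have hexpand : ∑ n ∈ Icc (1 : ℤ) N', Gc (W5 ε P) (Mc2 ε P) g ν n *
      (1 + (δ * g0 n) / 2 - δ ^ 2 / 2) =
      (1 - δ ^ 2 / 2) * (N' * Φ) + δ / 2 * ∑ n ∈ Icc (1 : ℤ) N',
        Gc (W5 ε P) (Mc2 ε P) g ν n * g0 n := by
    rw [← hR.Gsum, mul_sum, mul_sum, ← sum_add_distrib]
    exact sum_congr rfl (fun n _ => by ring)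
  rw [hexpand] at hquad
  nlinarith

end PC

theorem pinC_holds : PinCStmt := by
  intro k _ ε hε hε2
  obtain ⟨P0, hP0⟩ := eventually_atTop.1 (PC.ev_num hε hε2)
  refine ⟨P0, fun P hP N' Nmin Φ g ν hR hH hT p hp g0 hper hg hc h4 => ?_⟩
  obtain ⟨n0, n1, n2, n3, n4, n5, n6, n7, n8, n9⟩ := hP0 P hP
  set δ : ℝ := Real.exp (-(P ^ (1 - 49.6 * ε))) with hδ
  have hδ0 : 0 < δ := Real.exp_pos _
  have h := PC.core hR hH hT hp hper hg hc hδ0 n8 h4 n1 n2 n3 n9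
  have hNpos : (0 : ℝ) < N' := lt_of_lt_of_le (Real.exp_pos _) hR.N'lo
  have hΦ : 0 < Φ := lt_of_lt_of_le (Real.exp_pos _) hR.Φlo
  have hNΦ : 0 < (N' : ℝ) * Φ := mul_pos hNpos hΦ
  have a1 : Real.exp (-(P ^ (1 - 49.5 * ε))) ≤ δ ^ 2 := by
    rw [hδ, ← Real.exp_nat_mul]
    apply Real.exp_le_exp.2
    push_cast
    linarith
  have a2 : Real.exp (-(Mc2 ε P / 2)) ≤ δ ^ 2 := by
    rw [hδ, ← Real.exp_nat_mul]
    apply Real.exp_le_exp.2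
    unfold Mc2
    push_cast
    linarith
  have a3 : 15 * δ ≤ Real.exp (-(P ^ (1 - 49.7 * ε))) := by
    have b1 : δ ≤ Real.exp (-(P ^ (1 - 49.7 * ε))) * Real.exp (-(P ^ (1 - 49.7 * ε))) := by
      rw [hδ, ← Real.exp_add]
      exact Real.exp_le_exp.2 (by linarith)
    have b2 : Real.exp (-(P ^ (1 - 49.7 * ε))) ≤ 1 / 15 := by
      rw [Real.exp_neg, inv_le_comm₀ (Real.exp_pos _) (by norm_num)]
      have := Real.add_one_le_exp (P ^ (1 - 49.7 * ε))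
      norm_num
      linarith
    have b3 : 0 < Real.exp (-(P ^ (1 - 49.7 * ε))) := Real.exp_pos _
    nlinarith
  have h5 : δ * ∑ n ∈ Icc (1 : ℤ) N', Gc (W5 ε P) (Mc2 ε P) g ν n * g0 n ≤
      δ * (15 * δ * (N' * Φ)) := by
    refine le_trans h ?_
    have : (δ ^ 2 + 10 * Real.exp (-(P ^ (1 - 49.5 * ε))) + 4 * Real.exp (-(Mc2 ε P / 2))) ≤
        15 * δ ^ 2 := by linarith
    calc _ ≤ 15 * δ ^ 2 * (N' * Φ) := mul_le_mul_of_nonneg_right this hNΦ.le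
      _ = δ * (15 * δ * (N' * Φ)) := by ring
  have h6 := le_of_mul_le_mul_left h5 hδ0
  exact le_trans h6 (mul_le_mul_of_nonneg_right a3 hNΦ.le)

end Vale.Agent.P042.UU
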