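import Vale.Agent.P042.UU.PinDefs

set_option autoImplicit false

/-!
Block PIN5, piece D: exact marginals, size of the weights and of the zero sets.
-/

namespace Vale.Agent.P042.UU

open Finset Vale.Agent.P042.SS Vale.Agent.P042.TT

theorem pinD_per {p : ℕ} {h : ℤ → ℝ} (hper : ∀ n, h (n + p) = h n) {n m : ℤ}
    (hnm : n ≡ m [ZMOD (p : ℕ)]) : h n = h m := by
  obtain ⟨k, hk⟩ := (Int.modEq_iff_dvd.1 hnm.symm : (p : ℤ) ∣ n - m)
  have h1 : Function.Periodic h (p : ℤ) := hper
  have h2 := (h1.int_mul k) m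
  have h3 : n = m + k * p := by linarith
  rw [h3]
  exact h2

theorem pinD_split {p : ℕ} (hp : 1 ≤ p) (G h : ℤ → ℝ) (N : ℕ) (hper : ∀ n, h (n + p) = h n) :
    ∑ n ∈ Icc (1 : ℤ) N, G n * h n = ∑ z ∈ range p, h z * mass G 0 N p z := by
  have hp0 : (0 : ℤ) < p := by exact_mod_cast hp
  have hmaps : ∀ n ∈ Icc (1 : ℤ) N, (n % p).toNat ∈ range p := by
    intro n _
    rw [Finset.mem_range]
    have h1 := Int.emod_lt_of_pos n hp0
    have h2 := Int.emod_nonneg n hp0.ne'
    omega
  rw [← Finset.sum_fiberwise_of_maps_to hmaps]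
  refine Finset.sum_congr rfl fun z hz => ?_
  unfold mass
  rw [Finset.mul_sum]
  have hset : (Icc (1 : ℤ) N).filter (fun n : ℤ => (n % (p : ℤ)).toNat = z) =
      (Ioc (0 : ℤ) (0 + (N : ℤ))).filter (fun n : ℤ => n ≡ (z : ℤ) [ZMOD (p : ℕ)]) := by
    ext n
    simp only [Finset.mem_filter, Finset.mem_Icc, Finset.mem_Ioc]
    have hzp : z < p := Finset.mem_range.1 hz
    have h1 := Int.emod_lt_of_pos n hp0
    have h2 := Int.emod_nonneg n hp0.ne'
    have h3 : ((z : ℤ)) % p = z := Int.emod_eq_of_lt (by omega) (by exact_mod_cast hzp)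
    unfold Int.ModEq
    rw [h3]
    omega
  rw [hset]
  refine Finset.sum_congr rfl fun n hn => ?_
  rw [Finset.mem_filter] at hn
  rw [pinD_per hper hn.2]
  ring

theorem pinD_single {p : ℕ} (hp : 1 ≤ p) (ν : ℤ → ℝ) (hper : ∀ n, ν (n + p) = ν n) (x : ℤ) :
    ∑ z ∈ range p, ν z * (if (z : ℤ) ≡ x [ZMOD (p : ℕ)] then 1 else 0) = ν x := by
  have hp0 : (0 : ℤ) < p := by exact_mod_cast hp
  have h1 := Int.emod_lt_of_pos x hp0
  have h2 := Int.emod_nonneg x hp0.ne'
  have hc : (((x % p).toNat : ℕ) : ℤ) = x % p := Int.toNat_of_nonneg h2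
  rw [Finset.sum_eq_single ((x % p).toNat)]
  · rw [hc, if_pos (Int.mod_modEq x p), mul_one]
    exact pinD_per hper (Int.mod_modEq x p)
  · intro z hz hne
    rw [if_neg, mul_zero]
    intro hcon
    apply hne
    have hzp : z < p := Finset.mem_range.1 hz
    have h3 : ((z : ℤ)) % p = z := Int.emod_eq_of_lt (by omega) (by exact_mod_cast hzp)
    unfold Int.ModEq at hcon
    rw [h3] at hcon
    omega
  · intro hcon
    exfalso
    apply hcon
    rw [Finset.mem_range]
    omega

/-- the one-prime situation -/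
structure PinOne (p N : ℕ) (ν G : ℤ → ℝ) (A s z δ τ τ' : ℝ) : Prop where
  hp : 1 ≤ p
  nn : ∀ n, 0 ≤ ν n
  per : ∀ n, ν (n + p) = ν n
  mean : ∑ x ∈ range p, ν x = p
  le4 : ∀ n, ν n ≤ 4
  A0 : 0 < A
  GA : ∑ n ∈ Icc (1 : ℤ) N, G n = A
  hB : ∀ x : ℤ, mass G 0 N p x ≤ (A / p) * Real.sqrt (ν x) * Real.exp (s + z / 8) + τ' * A
  hC : ∀ g0 : ℤ → ℝ, (∀ n, g0 (n + p) = g0 n) → (∀ n, |g0 n| ≤ 1) →
      ∑ z ∈ range p, ν z * g0 z = 0 → (∀ n, ν n * (1 + δ * g0 n) ≤ 4) →
      ∑ n ∈ Icc (1 : ℤ) N, G n * g0 n ≤ τ * A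
  hz : z = (((range p).filter (fun x : ℕ => ν x = 0)).card : ℝ) / p
  δ0 : 0 ≤ δ
  δ1 : δ ≤ 1 / 4
  s0 : 0 ≤ s
  s1 : s ≤ 1 / 100
  τ0 : 0 ≤ τ
  τ0' : 0 ≤ τ'
  t1 : p * (τ + p * τ') ≤ 1 / 2
  t2 : 20 * (p * (τ + τ')) ≤ s

section one

variable {p N : ℕ} {ν G : ℤ → ℝ} {A s z δ τ τ' : ℝ}

theorem PinOne.le_p (H : PinOne p N ν G A s z δ τ τ') (x : ℤ) : ν x ≤ p := by
  have h1 := pinD_single H.hp ν H.per x
  rw [← h1, ← H.mean]
  apply Finset.sum_le_sum
  intro w _
  split_ifs
  · rw [mul_one]
  · rw [mul_zero]; exact H.nn _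

theorem PinOne.z0 (H : PinOne p N ν G A s z δ τ τ') : 0 ≤ z := by
  rw [H.hz]; positivity

theorem PinOne.z1 (H : PinOne p N ν G A s z δ τ τ') : z ≤ 1 := by
  rw [H.hz]
  have hp0 : (0 : ℝ) < p := by exact_mod_cast H.hp
  rw [div_le_one hp0]
  have h1 : ((range p).filter (fun x : ℕ => ν x = 0)).card ≤ p := by
    have := Finset.card_filter_le (range p) (fun x : ℕ => ν x = 0)
    simpa using this
  exact_mod_cast h1

/-- step 1: no values `≥ 3` -/
theorem PinOne.lt3 (H : PinOne p N ν G A s z δ τ τ') (x : ℤ) : ν x < 3 := by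
  classical
  by_contra hx
  rw [not_lt] at hx
  have hp0 : (0 : ℝ) < p := by exact_mod_cast H.hp
  have hpz : (0 : ℤ) < p := by exact_mod_cast H.hp
  set ind : ℤ → ℝ := fun n => if 3 ≤ ν n then 1 else 0 with hind
  have hindper : ∀ n, ind (n + p) = ind n := by
    intro n
    simp only [hind, H.per n]
  have hind0 : ∀ n, 0 ≤ ind n := by
    intro n
    simp only [hind]
    split_ifs <;> norm_num
  have hind1 : ∀ n, ind n ≤ 1 := by
    intro n
    simp only [hind]
    split_ifs <;> norm_num
  set q : ℝ := (∑ w ∈ range p, ν w * ind w) / p with hq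
  have hqp : q * p = ∑ w ∈ range p, ν w * ind w := by
    rw [hq]; field_simp
  have hq0 : 0 ≤ q := by
    rw [hq]
    apply div_nonneg _ hp0.le
    exact Finset.sum_nonneg fun w _ => mul_nonneg (H.nn _) (hind0 _)
  have hq1 : q ≤ 1 := by
    rw [hq, div_le_one hp0, ← H.mean]
    apply Finset.sum_le_sum
    intro w _
    exact mul_le_of_le_one_right (H.nn _) (hind1 _)
  -- lower bound for `q`
  have hq3 : 3 ≤ q * p := by
    rw [hqp]
    have h1 := pinD_single H.hp (fun n => ν n * ind n) (by
      intro n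
      simp only [H.per n, hindper n]) x
    have h2 : ν x * ind x = ν x := by
      simp only [hind]
      rw [if_pos hx, mul_one]
    simp only [h2] at h1
    refine hx.trans ?_
    rw [← h1]
    apply Finset.sum_le_sum
    intro w _
    have h3 : 0 ≤ ν w * ind w := mul_nonneg (H.nn _) (hind0 _)
    split_ifs
    · rw [mul_one]
    · rw [mul_zero]; exact h3
  have hC := H.hC (fun n => q - ind n) (by
      intro n
      simp only [hindper n]) (by
      intro n
      rw [abs_le]
      constructor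
      · have := hind1 n; linarith
      · have := hind0 n; linarith) (by
      have h1 : ∑ w ∈ range p, ν w * (q - ind w) =
          q * ∑ w ∈ range p, ν w - ∑ w ∈ range p, ν w * ind w := by
        rw [Finset.mul_sum, ← Finset.sum_sub_distrib]
        exact Finset.sum_congr rfl fun w _ => by ring
      rw [h1, H.mean, hqp, sub_self]) (by
      intro n
      by_cases hn : 3 ≤ ν n
      · have h1 : ind n = 1 := by simp only [hind]; rw [if_pos hn]
        simp only [h1]
        have h2 : δ * (q - 1) ≤ 0 := mul_nonpos_of_nonneg_of_nonpos H.δ0 (by linarith)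
        have h3 := H.le4 n
        have h4 := H.nn n
        nlinarith
      · have h1 : ind n = 0 := by simp only [hind]; rw [if_neg hn]
        simp only [h1]
        rw [not_le] at hn
        have h2 : δ * (q - 0) ≤ 1 / 4 := by
          have := H.δ1
          have h5 := H.δ0
          nlinarith
        have h4 := H.nn n
        nlinarith)
  have h1 : ∑ n ∈ Icc (1 : ℤ) N, G n * (q - ind n) =
      q * A - ∑ w ∈ range p, ind w * mass G 0 N p w := by
    rw [← pinD_split H.hp G ind N hindper, ← H.GA, Finset.mul_sum, ← Finset.sum_sub_distrib]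
    exact Finset.sum_congr rfl fun n _ => by ring
  rw [h1] at hC
  -- bound of the mass of the bad classes
  have hexp : Real.exp (s + z / 8) ≤ 1.2 := by
    have h2 : s + z / 8 ≤ 0.135 := by have := H.z1; have := H.s1; linarith
    refine (Real.exp_le_exp.2 h2).trans ?_
    have h3 := Real.exp_bound' (x := 0.135) (by norm_num) (by norm_num) (n := 3) (by norm_num)
    refine h3.trans ?_
    norm_num [Finset.sum_range_succ, Nat.factorial]
  have h2 : ∑ w ∈ range p, ind w * mass G 0 N p w ≤ 0.7 * (q * A) + p * (τ' * A) := by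
    have h3 : ∀ w ∈ range p, ind w * mass G 0 N p w ≤
        0.7 * (A / p) * (ν w * ind w) + τ' * A := by
      intro w _
      have hA := H.A0
      have hτA : 0 ≤ τ' * A := mul_nonneg H.τ0' hA.le
      by_cases hn : 3 ≤ ν (w : ℤ)
      · have h4 : ind (w : ℤ) = 1 := by simp only [hind]; rw [if_pos hn]
        rw [h4, one_mul, mul_one]
        refine (H.hB w).trans ?_
        have h5 : 1.7320508 ≤ Real.sqrt (ν w) := by
          apply Real.le_sqrt_of_sq_le
          norm_num
          linarith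
        have h6 : Real.sqrt (ν w) ^ 2 = ν w := Real.sq_sqrt (H.nn _)
        have h7 : Real.sqrt (ν w) * Real.exp (s + z / 8) ≤ 0.7 * ν w := by
          have h8 : Real.sqrt (ν w) * Real.exp (s + z / 8) ≤ Real.sqrt (ν w) * 1.2 :=
            mul_le_mul_of_nonneg_left hexp (Real.sqrt_nonneg _)
          nlinarith
        have h9 : A / p * Real.sqrt (ν w) * Real.exp (s + z / 8) =
            A / p * (Real.sqrt (ν w) * Real.exp (s + z / 8)) := by ring
        have h10 : 0 ≤ A / p := by positivity
        rw [h9]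
        have h11 := mul_le_mul_of_nonneg_left h7 h10
        linarith
      · have h4 : ind (w : ℤ) = 0 := by simp only [hind]; rw [if_neg hn]
        rw [h4, zero_mul, mul_zero, mul_zero, zero_add]
        exact hτA
    refine (Finset.sum_le_sum h3).trans (le_of_eq ?_)
    rw [Finset.sum_add_distrib, ← Finset.mul_sum, ← hqp, Finset.sum_const, Finset.card_range,
      nsmul_eq_mul]
    field_simp
  have hA := H.A0
  have h3 : q * A * 0.3 ≤ (τ + p * τ') * A := by nlinarith
  have h4 : q * 0.3 ≤ τ + p * τ' := by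
    have : q * 0.3 * A ≤ (τ + p * τ') * A := by linarith
    exact le_of_mul_le_mul_right this hA
  have h5 : (p : ℝ) * (q * 0.3) ≤ p * (τ + p * τ') := mul_le_mul_of_nonneg_left h4 hp0.le
  have h6 := H.t1
  nlinarith

/-- step 2: marginals -/
theorem PinOne.marg (H : PinOne p N ν G A s z δ τ τ') (x : ℤ) :
    |mass G 0 N p x - A * ν x / p| ≤ τ * A := by
  classical
  have hp0 : (0 : ℝ) < p := by exact_mod_cast H.hp
  set ind : ℤ → ℝ := fun n => if n ≡ x [ZMOD (p : ℕ)] then 1 else 0 with hind
  have hindper : ∀ n, ind (n + p) = ind n := by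
    intro n
    have : n + p ≡ x [ZMOD (p : ℕ)] ↔ n ≡ x [ZMOD (p : ℕ)] := by
      unfold Int.ModEq
      rw [Int.add_emod_right]
    simp only [hind, this]
  have hν0 : 0 ≤ ν x / p := div_nonneg (H.nn _) hp0.le
  have hν1 : ν x / p ≤ 1 := by rw [div_le_one hp0]; exact H.le_p x
  have hind0 : ∀ n, 0 ≤ ind n := by
    intro n
    simp only [hind]
    split_ifs <;> norm_num
  have hind1 : ∀ n, ind n ≤ 1 := by
    intro n
    simp only [hind]
    split_ifs <;> norm_num
  have habs : ∀ n, |ind n - ν x / p| ≤ 1 := by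
    intro n
    rw [abs_le]
    constructor
    · have := hind0 n; linarith
    · have := hind1 n; linarith
  have hsum : ∑ w ∈ range p, ν w * (ind w - ν x / p) = 0 := by
    have h1 : ∑ w ∈ range p, ν w * (ind w - ν x / p) =
        ∑ w ∈ range p, ν w * ind w - (∑ w ∈ range p, ν w) * (ν x / p) := by
      rw [Finset.sum_mul, ← Finset.sum_sub_distrib]
      exact Finset.sum_congr rfl fun w _ => by ring
    rw [h1, H.mean]
    have h2 := pinD_single H.hp ν H.per x
    rw [h2]
    field_simp
    ring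
  have hG : ∑ n ∈ Icc (1 : ℤ) N, G n * (ind n - ν x / p) =
      mass G 0 N p x - A * ν x / p := by
    have h1 : ∑ n ∈ Icc (1 : ℤ) N, G n * (ind n - ν x / p) =
        ∑ n ∈ Icc (1 : ℤ) N, G n * ind n - (∑ n ∈ Icc (1 : ℤ) N, G n) * (ν x / p) := by
      rw [Finset.sum_mul, ← Finset.sum_sub_distrib]
      exact Finset.sum_congr rfl fun n _ => by ring
    rw [h1, H.GA]
    have h2 : ∑ n ∈ Icc (1 : ℤ) N, G n * ind n = mass G 0 N p x := by
      unfold mass
      rw [Finset.sum_filter]
      have h3 : Icc (1 : ℤ) N = Ioc (0 : ℤ) (0 + (N : ℤ)) := by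
        ext n
        simp only [Finset.mem_Icc, Finset.mem_Ioc]
        omega
      rw [h3]
      refine Finset.sum_congr rfl fun n _ => ?_
      simp only [hind]
      split_ifs <;> simp
    rw [h2]
    ring
  have hbd : ∀ t : ℝ, |t| ≤ 1 → ∀ n, ν n * (1 + δ * t) ≤ 4 := by
    intro t ht n
    have h1 := (abs_le.1 ht).2
    have h2 := H.lt3 n
    have h3 := H.nn n
    have h4 : δ * t ≤ 1 / 4 := by
      have h5 := H.δ0
      have h6 := H.δ1
      nlinarith
    nlinarith
  rw [abs_le]
  constructor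
  · have h1 := H.hC (fun n => -(ind n - ν x / p)) (by
        intro n
        simp only [hindper n]) (by
        intro n
        rw [abs_neg]
        exact habs n) (by
        have : ∑ w ∈ range p, ν w * (-(ind w - ν x / p)) =
            -∑ w ∈ range p, ν w * (ind w - ν x / p) := by
          rw [← Finset.sum_neg_distrib]
          exact Finset.sum_congr rfl fun w _ => by ring
        rw [this, hsum, neg_zero]) (by
        intro n
        exact hbd _ (by rw [abs_neg]; exact habs n) n)
    have h2 : ∑ n ∈ Icc (1 : ℤ) N, G n * (-(ind n - ν x / p)) =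
        -∑ n ∈ Icc (1 : ℤ) N, G n * (ind n - ν x / p) := by
      rw [← Finset.sum_neg_distrib]
      exact Finset.sum_congr rfl fun w _ => by ring
    rw [h2, hG] at h1
    linarith
  · have h1 := H.hC (fun n => ind n - ν x / p) (by
        intro n
        simp only [hindper n]) habs hsum (fun n => hbd _ (habs n) n)
    rw [hG] at h1
    exact h1

/-- step 3: upper bound by the size of the zero set -/
theorem PinOne.le_exp (H : PinOne p N ν G A s z δ τ τ') (x : ℤ) :
    ν x ≤ Real.exp (2 * s + z / 4 + 2 * (p * (τ + τ'))) := by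
  have hp0 : (0 : ℝ) < p := by exact_mod_cast H.hp
  have hA := H.A0
  have h1 := (abs_le.1 (H.marg x)).1
  have h2 := H.hB x
  set E : ℝ := Real.exp (s + z / 8) with hE
  set t : ℝ := Real.sqrt (ν x) with ht
  set κ : ℝ := p * (τ + τ') with hκ
  have hκ0 : 0 ≤ κ := mul_nonneg hp0.le (add_nonneg H.τ0 H.τ0')
  have ht0 : 0 ≤ t := Real.sqrt_nonneg _
  have htt : t ^ 2 = ν x := Real.sq_sqrt (H.nn _)
  have hE1 : 1 ≤ E := Real.one_le_exp (by have := H.z0; have := H.s0; linarith)
  have h3 : ν x ≤ t * E + κ := by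
    have h4 : A * ν x / p ≤ A / p * t * E + (τ + τ') * A := by linarith
    have h5 : A * ν x / p * (p / A) ≤ (A / p * t * E + (τ + τ') * A) * (p / A) :=
      mul_le_mul_of_nonneg_right h4 (by positivity)
    have h6 : A * ν x / p * (p / A) = ν x := by field_simp
    have h7 : (A / p * t * E + (τ + τ') * A) * (p / A) = t * E + κ := by
      rw [hκ]; field_simp
    rw [h6, h7] at h5
    exact h5
  have h4 : t ≤ E + κ := by
    by_contra hcon
    rw [not_le] at hcon
    have : 0 < (t - (E + κ)) * t := mul_pos (by linarith) (by linarith)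
    nlinarith
  have h5 : t ≤ E * Real.exp κ := by
    have h6 := Real.add_one_le_exp κ
    nlinarith
  have h6 : t ^ 2 ≤ (E * Real.exp κ) ^ 2 := pow_le_pow_left₀ ht0 h5 2
  rw [htt, hE, ← Real.exp_add, ← Real.exp_nat_mul] at h6
  refine h6.trans (le_of_eq ?_)
  congr 1
  push_cast
  ring

/-- step 4: the zero set -/
theorem PinOne.z_le (H : PinOne p N ν G A s z δ τ τ') : z ≤ 3 * s := by
  classical
  have hp0 : (0 : ℝ) < p := by exact_mod_cast H.hp
  set E : ℝ := Real.exp (2 * s + z / 4 + 2 * (p * (τ + τ'))) with hE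
  have hE0 : 0 < E := Real.exp_pos _
  have h1 : (p : ℝ) ≤ (p - p * z) * E := by
    calc (p : ℝ) = ∑ w ∈ range p, ν w := H.mean.symm
      _ ≤ ∑ w ∈ range p, (if ν w = 0 then 0 else E) := by
          apply Finset.sum_le_sum
          intro w _
          split_ifs with h
          · rw [h]
          · exact H.le_exp w
      _ = (p - p * z) * E := by
          have h2 : ∀ w ∈ range p, (if ν (w : ℤ) = 0 then (0 : ℝ) else E) =
              E - (if ν (w : ℤ) = 0 then E else 0) := by
            intro w _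
            split_ifs <;> ring
          rw [Finset.sum_congr rfl h2, Finset.sum_sub_distrib, Finset.sum_const, Finset.card_range,
            nsmul_eq_mul, ← Finset.sum_filter, Finset.sum_const, nsmul_eq_mul]
          have h3 : (((range p).filter (fun x : ℕ => ν x = 0)).card : ℝ) = p * z := by
            rw [H.hz]; field_simp
          rw [h3]
          ring
  have h2 : 1 ≤ (1 - z) * E := by
    have : (p : ℝ) * 1 ≤ p * ((1 - z) * E) := by
      rw [mul_one]
      refine h1.trans (le_of_eq ?_)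
      ring
    exact le_of_mul_le_mul_left this hp0
  have h3 : 1 - z ≤ Real.exp (-z) := Real.one_sub_le_exp_neg z
  have h4 : 1 ≤ Real.exp (-z) * E := h2.trans (mul_le_mul_of_nonneg_right h3 hE0.le)
  rw [hE, ← Real.exp_add, Real.one_le_exp_iff] at h4
  have h5 := H.t2
  have h6 := H.s0
  linarith

theorem PinOne.le_exp3 (H : PinOne p N ν G A s z δ τ τ') (x : ℤ) : ν x ≤ Real.exp (3 * s) := by
  refine (H.le_exp x).trans (Real.exp_le_exp.2 ?_)
  have h1 := H.z_le
  have h2 := H.t2
  have h3 := H.s0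
  linarith

end one

end Vale.Agent.P042.UU
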