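import Vale.Agent.P042.UU.SpecB

set_option autoImplicit false

/-!
Block RAW5, part A: scalar inequalities for the clipped logarithm, averages.
-/

namespace Vale.Agent.P042.UU

open Polynomial Finset Vale.Agent.P042.SS Vale.Agent.P042.TT

lemma raw_exp3 : Real.exp (-3) ≤ 1 / 16 ∧ (0.0497 : ℝ) ≤ Real.exp (-3) := by
  have h1 := Real.exp_one_gt_d9
  have h2 := Real.exp_one_lt_d9
  have e3 : Real.exp 3 = Real.exp 1 ^ 3 := by
    rw [← Real.exp_nat_mul]; norm_num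
  have hlo : (16 : ℝ) ≤ Real.exp 3 := by
    rw [e3]
    calc (16 : ℝ) ≤ 2.7 ^ 3 := by norm_num
      _ ≤ Real.exp 1 ^ 3 := pow_le_pow_left₀ (by norm_num) (by linarith) 3
  have hhi : Real.exp 3 ≤ 1 / 0.0497 := by
    rw [e3]
    calc Real.exp 1 ^ 3 ≤ 2.7182818286 ^ 3 :=
          pow_le_pow_left₀ (Real.exp_pos 1).le (by linarith) 3
      _ ≤ 1 / 0.0497 := by norm_num
  rw [Real.exp_neg]
  have hp := Real.exp_pos 3
  constructor
  · rw [one_div]
    exact inv_anti₀ (by norm_num) hlo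
  · rw [le_inv_comm₀ (by norm_num) hp, inv_eq_one_div]
    exact hhi

lemma raw_exp6 : Real.exp 6 ≤ 405 := by
  have h2 := Real.exp_one_lt_d9
  have e6 : Real.exp 6 = Real.exp 1 ^ 6 := by
    rw [← Real.exp_nat_mul]; norm_num
  rw [e6]
  calc Real.exp 1 ^ 6 ≤ 2.72 ^ 6 :=
        pow_le_pow_left₀ (Real.exp_pos 1).le (by linarith) 6
    _ ≤ 405 := by norm_num

lemma raw_exp_half (t : ℝ) (ht : 0 < t) : Real.exp (Real.log t / 2) = Real.sqrt t := by
  rw [← Real.log_sqrt ht.le, Real.exp_log (Real.sqrt_pos.2 ht)]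

lemma raw_sqrt_le (t : ℝ) (ht : 0 ≤ t) : Real.sqrt t ≤ Real.exp (lg t) := by
  unfold lg
  split_ifs with h
  · rw [h, Real.sqrt_zero]
    exact (Real.exp_pos _).le
  · have ht' : 0 < t := lt_of_le_of_ne ht (Ne.symm h)
    rw [← raw_exp_half t ht']
    exact Real.exp_le_exp.2 (le_max_left _ _)

lemma raw_exp_lg (t : ℝ) (ht : 0 ≤ t) :
    Real.exp (lg t) ≤ Real.sqrt t + (Real.sqrt t - 1) ^ 2 / 16 := by
  have h3 := raw_exp3.1
  unfold lg
  split_ifs with h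
  · rw [h, Real.sqrt_zero]
    norm_num
    linarith
  · have ht' : 0 < t := lt_of_le_of_ne ht (Ne.symm h)
    rcases le_total (-3) (Real.log t / 2) with h1 | h1
    · rw [max_eq_left h1, raw_exp_half t ht']
      have := sq_nonneg (Real.sqrt t - 1)
      linarith
    · rw [max_eq_right h1]
      have hs := Real.sqrt_nonneg t
      nlinarith [sq_nonneg (Real.sqrt t)]

lemma raw_exp_neg2 (t : ℝ) (ht : 0 ≤ t) :
    Real.exp (-2 * lg t) ≤ 1 - 2 * (Real.sqrt t - 1) + 500 * (Real.sqrt t - 1) ^ 2 := by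
  have h6 := raw_exp6
  have h3 := raw_exp3
  unfold lg
  split_ifs with h
  · rw [h, Real.sqrt_zero]
    norm_num
    linarith
  · have ht' : 0 < t := lt_of_le_of_ne ht (Ne.symm h)
    have hs : 0 < Real.sqrt t := Real.sqrt_pos.2 ht'
    rcases le_total (-3) (Real.log t / 2) with h1 | h1
    · rw [max_eq_left h1]
      have hs2 : (0.0497 : ℝ) ≤ Real.sqrt t := by
        rw [← raw_exp_half t ht']
        exact h3.2.trans (Real.exp_le_exp.2 h1)
      have e1 : Real.exp (-2 * (Real.log t / 2)) = 1 / (Real.sqrt t) ^ 2 := by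
        rw [Real.sq_sqrt ht]
        have : -2 * (Real.log t / 2) = -Real.log t := by ring
        rw [this, Real.exp_neg, Real.exp_log ht', one_div]
      rw [e1]
      set s := Real.sqrt t with hsdef
      rw [div_le_iff₀ (by positivity)]
      have h4 : 0 ≤ (s - 1) ^ 2 * (500 * s ^ 2 - 2 * s - 1) := by
        apply mul_nonneg (sq_nonneg _)
        nlinarith
      nlinarith
    · rw [max_eq_right h1]
      have hs2 : Real.sqrt t ≤ 1 / 16 := by
        rw [← raw_exp_half t ht']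
        exact (Real.exp_le_exp.2 h1).trans h3.1
      have e1 : (-2 * (-3) : ℝ) = 6 := by norm_num
      rw [e1]
      nlinarith

lemma raw_lg_bd (t : ℝ) (ht4 : t ≤ 4) (ht : 0 ≤ t) : -3 ≤ lg t ∧ lg t ≤ 1 := by
  unfold lg
  split_ifs with h
  · constructor <;> norm_num
  · have ht' : 0 < t := lt_of_le_of_ne ht (Ne.symm h)
    refine ⟨le_max_right _ _, max_le ?_ (by norm_num)⟩
    have h1 : Real.log t ≤ Real.log 4 := Real.log_le_log ht' ht4
    have h2 : Real.log 4 = 2 * Real.log 2 := by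
      rw [show (4 : ℝ) = 2 ^ 2 by norm_num, Real.log_pow]; norm_num
    have h3 := Real.log_two_lt_d9
    linarith

lemma raw_lg_one : lg 1 = 0 := by
  unfold lg
  simp

/-- one prime -/
noncomputable def hp1 (ν : ℕ → ℤ → ℝ) (p : ℕ) : ℝ := 1 - (∑ x ∈ range p, Real.sqrt (ν p x)) / p

lemma raw_sq_sum (ν : ℕ → ℤ → ℝ) (p : ℕ) (hp : 0 < p) (h0 : ∀ n, 0 ≤ ν p n)
    (hm : ∑ x ∈ range p, ν p x = p) :
    ∑ x ∈ range p, (Real.sqrt (ν p x) - 1) ^ 2 = 2 * p * hp1 ν p := by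
  have hp' : (p : ℝ) ≠ 0 := by exact_mod_cast hp.ne'
  have e : ∀ x ∈ range p, (Real.sqrt (ν p x) - 1) ^ 2 = ν p x - 2 * Real.sqrt (ν p x) + 1 := by
    intro x _
    have := Real.sq_sqrt (h0 x)
    nlinarith
  rw [sum_congr rfl e, sum_add_distrib, sum_sub_distrib, hm, ← mul_sum]
  unfold hp1
  simp only [sum_const, card_range, nsmul_eq_mul, mul_one]
  field_simp
  ring

lemma raw_h_nonneg (ν : ℕ → ℤ → ℝ) (p : ℕ) (hp : 0 < p) (h0 : ∀ n, 0 ≤ ν p n)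
    (hm : ∑ x ∈ range p, ν p x = p) : 0 ≤ hp1 ν p := by
  have h := raw_sq_sum ν p hp h0 hm
  have h1 : 0 ≤ ∑ x ∈ range p, (Real.sqrt (ν p x) - 1) ^ 2 := sum_nonneg fun x _ => sq_nonneg _
  rw [h] at h1
  have hp' : (0 : ℝ) < p := by exact_mod_cast hp
  by_contra hc
  push Not at hc
  have : 2 * (p : ℝ) * hp1 ν p < 0 := by
    apply mul_neg_of_pos_of_neg (by positivity) hc
  linarith

lemma raw_avg_exp (ν : ℕ → ℤ → ℝ) (p : ℕ) (hp : 0 < p) (h0 : ∀ n, 0 ≤ ν p n)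
    (hm : ∑ x ∈ range p, ν p x = p) :
    (∑ x ∈ range p, Real.exp (lg (ν p x))) / (p : ℝ) ≤ Real.exp (-(7 / 8 * hp1 ν p)) := by
  have hp' : (0 : ℝ) < p := by exact_mod_cast hp
  have h1 : ∑ x ∈ range p, Real.exp (lg (ν p x)) ≤
      ∑ x ∈ range p, (Real.sqrt (ν p x) + (Real.sqrt (ν p x) - 1) ^ 2 / 16) :=
    sum_le_sum fun x _ => raw_exp_lg _ (h0 x)
  rw [sum_add_distrib, ← sum_div, raw_sq_sum ν p hp h0 hm] at h1
  have h2 : ∑ x ∈ range p, Real.sqrt (ν p x) = p * (1 - hp1 ν p) := by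
    unfold hp1
    field_simp
    ring
  rw [h2] at h1
  have h3 : (∑ x ∈ range p, Real.exp (lg (ν p x))) / (p : ℝ) ≤ 1 - 7 / 8 * hp1 ν p := by
    rw [div_le_iff₀ hp']
    nlinarith
  have h4 := Real.add_one_le_exp (-(7 / 8 * hp1 ν p))
  linarith

lemma raw_avg_neg (ν : ℕ → ℤ → ℝ) (p : ℕ) (hp : 0 < p) (h0 : ∀ n, 0 ≤ ν p n)
    (hm : ∑ x ∈ range p, ν p x = p) :
    (∑ x ∈ range p, Real.exp (-2 * lg (ν p x))) / (p : ℝ) ≤ Real.exp (1002 * hp1 ν p) := by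
  have hp' : (0 : ℝ) < p := by exact_mod_cast hp
  have h1 : ∑ x ∈ range p, Real.exp (-2 * lg (ν p x)) ≤
      ∑ x ∈ range p, (3 - 2 * Real.sqrt (ν p x) + 500 * (Real.sqrt (ν p x) - 1) ^ 2) :=
    sum_le_sum fun x _ => (raw_exp_neg2 _ (h0 x)).trans (le_of_eq (by ring))
  rw [sum_add_distrib, sum_sub_distrib, ← mul_sum, ← mul_sum, raw_sq_sum ν p hp h0 hm] at h1
  have h2 : ∑ x ∈ range p, Real.sqrt (ν p x) = p * (1 - hp1 ν p) := by
    unfold hp1
    field_simp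
    ring
  rw [h2] at h1
  simp only [sum_const, card_range, nsmul_eq_mul] at h1
  have h3 : (∑ x ∈ range p, Real.exp (-2 * lg (ν p x))) / (p : ℝ) ≤ 1 + 1002 * hp1 ν p := by
    rw [div_le_iff₀ hp']
    nlinarith
  have h4 := Real.add_one_le_exp (1002 * hp1 ν p)
  linarith

lemma raw_zf (ν : ℕ → ℤ → ℝ) (p : ℕ) (hp : 0 < p) (h0 : ∀ n, 0 ≤ ν p n)
    (hm : ∑ x ∈ range p, ν p x = p) : zf ν p ≤ 2 * hp1 ν p := by
  have hp' : (0 : ℝ) < p := by exact_mod_cast hp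
  unfold zf
  rw [div_le_iff₀ hp']
  have h1 : (((range p).filter (fun x : ℕ => ν p x = 0)).card : ℝ) =
      ∑ x ∈ range p, (if ν p x = 0 then (1 : ℝ) else 0) := by
    rw [Finset.sum_ite, sum_const_zero, add_zero, sum_const, nsmul_eq_mul, mul_one]
  rw [h1]
  have h2 : ∑ x ∈ range p, (if ν p x = 0 then (1 : ℝ) else 0) ≤
      ∑ x ∈ range p, (Real.sqrt (ν p x) - 1) ^ 2 := by
    refine sum_le_sum fun x _ => ?_
    split_ifs with h
    · rw [h, Real.sqrt_zero]; norm_num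
    · exact sq_nonneg _
  rw [raw_sq_sum ν p hp h0 hm] at h2
  linarith

lemma raw_Hl (W : Finset ℕ) (ν : ℕ → ℤ → ℝ) : Hl W ν = ∑ p ∈ W, hp1 ν p := rfl

section prods
variable {W : Finset ℕ} {ν : ℕ → ℤ → ℝ} (hW : ∀ p ∈ W, p.Prime) (hν : Wts W ν)
include hW hν

lemma raw_Hl_nonneg : 0 ≤ Hl W ν :=
  sum_nonneg fun p hp => raw_h_nonneg ν p (hW p hp).pos (hν.nn p) (hν.mean p hp)

lemma raw_prod_exp : ∏ p ∈ W, ((∑ z ∈ range p, Real.exp (lg (ν p z))) / (p : ℝ)) ≤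
    Real.exp (-(7 / 8 * Hl W ν)) := by
  have h1 : ∏ p ∈ W, ((∑ z ∈ range p, Real.exp (lg (ν p z))) / (p : ℝ)) ≤
      ∏ p ∈ W, Real.exp (-(7 / 8 * hp1 ν p)) := by
    refine prod_le_prod (fun p _ => ?_) fun p hp => ?_
    · exact div_nonneg (sum_nonneg fun _ _ => (Real.exp_pos _).le) (Nat.cast_nonneg _)
    · exact raw_avg_exp ν p (hW p hp).pos (hν.nn p) (hν.mean p hp)
  refine h1.trans (le_of_eq ?_)
  rw [← Real.exp_sum, raw_Hl, mul_sum, sum_neg_distrib]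

lemma raw_prod_neg : ∏ p ∈ W, ((∑ z ∈ range p, Real.exp (-2 * lg (ν p z))) / (p : ℝ)) ≤
    Real.exp (1002 * Hl W ν) := by
  have h1 : ∏ p ∈ W, ((∑ z ∈ range p, Real.exp (-2 * lg (ν p z))) / (p : ℝ)) ≤
      ∏ p ∈ W, Real.exp (1002 * hp1 ν p) := by
    refine prod_le_prod (fun p _ => ?_) fun p hp => ?_
    · exact div_nonneg (sum_nonneg fun _ _ => (Real.exp_pos _).le) (Nat.cast_nonneg _)
    · exact raw_avg_neg ν p (hW p hp).pos (hν.nn p) (hν.mean p hp)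
  refine h1.trans (le_of_eq ?_)
  rw [← Real.exp_sum, raw_Hl, mul_sum]

lemma raw_sum_zf : ∑ p ∈ W, zf ν p ≤ 2 * Hl W ν := by
  rw [raw_Hl, mul_sum]
  exact sum_le_sum fun p hp => raw_zf ν p (hW p hp).pos (hν.nn p) (hν.mean p hp)

omit hW hν in
lemma raw_zf_nonneg (p : ℕ) : 0 ≤ zf ν p := by
  unfold zf
  positivity

end prods

end Vale.Agent.P042.UU
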