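import Vale.Agent.P042.UU.PinDefs
import Vale.Agent.P042.UU.RawA

set_option autoImplicit false

/-!
Theorem S5, block PIN5, piece E: the weights have no small positive values.
-/

namespace Vale.Agent.P042.UU

open Finset Filter Vale.Agent.P042.SS Vale.Agent.P042.TT

/-! ### numeric facts -/

lemma pe_exp_small (a c : ℝ) (ha : 0 < a) (hc : 0 < c) :
    ∀ᶠ P : ℝ in atTop, Real.exp (-(c * P ^ a)) ≤ 1 / (1000 * P ^ 2) := by
  have h := (tendsto_rpow_mul_exp_neg_mul_atTop_nhds_zero (2 / a) c hc).comp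
    (tendsto_rpow_atTop ha)
  have h1 := h.eventually (gt_mem_nhds (show (0 : ℝ) < 1 / 1000 by norm_num))
  filter_upwards [h1, eventually_gt_atTop 0] with P hP hP0
  simp only [Function.comp] at hP
  have h2 : (P ^ a) ^ (2 / a) = P ^ 2 := by
    rw [← Real.rpow_mul hP0.le, mul_div_cancel₀ _ ha.ne']
    exact_mod_cast Real.rpow_natCast P 2
  rw [h2] at hP
  have h3 : (0 : ℝ) < P ^ 2 := by positivity
  rw [le_div_iff₀ (by positivity)]
  have h4 : -c * P ^ a = -(c * P ^ a) := by ring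
  rw [h4] at hP
  nlinarith

/-- growth facts -/
structure PeNum (ε P : ℝ) : Prop where
  P1 : 1 ≤ P
  bn : bn5 ε P ≤ 1 / 10
  V0 : P ^ (1 - 99.5 * ε) + 1 ≤ V05 ε P
  nm : Real.exp (P / 2) + 1 ≤ Real.exp (7 / 8 * P)
  e1 : Real.exp (-(P ^ (1 - 49.8 * ε))) ≤ 1 / (1000 * P ^ 2)
  e2 : Real.exp (-(Mc2 ε P / 2)) ≤ 1 / (1000 * P ^ 2)
  e3 : Real.exp (-(P ^ (1 - 49.5 * ε))) ≤ 1 / (1000 * P ^ 2)
  e4 : Real.exp (-(7 / 8 * P)) ≤ 1 / (1000 * P ^ 2)

lemma pe_num (ε : ℝ) (hε : 0 < ε) (hε1 : ε ≤ 1 / 1000) : ∀ᶠ P : ℝ in atTop, PeNum ε P := by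
  have h1 := (tendsto_rpow_atTop (show 0 < 97 * ε by positivity)).eventually_ge_atTop 10
  have h2 := (tendsto_rpow_atTop (show 0 < 49 * ε by positivity)).eventually_ge_atTop 2
  have h3 := pe_exp_small (1 - 49.8 * ε) 1 (by linarith) one_pos
  have h4 := pe_exp_small (1 - 49 * ε) (1 / 2) (by linarith) (by norm_num)
  have h5 := pe_exp_small (1 - 49.5 * ε) 1 (by linarith) one_pos
  have h6 := pe_exp_small 1 (7 / 8) one_pos (by norm_num)
  filter_upwards [h1, h2, h3, h4, h5, h6, eventually_ge_atTop 4] with P h1 h2 h3 h4 h5 h6 h7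
  have hP0 : 0 < P := by linarith
  have hP1 : 1 ≤ P := by linarith
  refine ⟨hP1, ?_, ?_, ?_, ?_, ?_, ?_, ?_⟩
  · unfold bn5
    rw [Real.rpow_neg hP0.le, inv_le_comm₀ (by positivity) (by norm_num)]
    linarith
  · unfold V05
    have h8 : P ^ (1 - 50.5 * ε) = P ^ (49 * ε) * P ^ (1 - 99.5 * ε) := by
      rw [← Real.rpow_add hP0]; congr 1; ring
    have h9 : 1 ≤ P ^ (1 - 99.5 * ε) := Real.one_le_rpow hP1 (by linarith)
    rw [h8]
    nlinarith
  · have h8 : Real.exp (7 / 8 * P) = Real.exp (P / 2) * Real.exp (3 / 8 * P) := by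
      rw [← Real.exp_add]; congr 1; ring
    have h9 : 1 ≤ Real.exp (P / 2) := Real.one_le_exp (by positivity)
    have h10 : 3 / 8 * P + 1 ≤ Real.exp (3 / 8 * P) := Real.add_one_le_exp _
    rw [h8]
    nlinarith
  · rw [one_mul] at h3; exact h3
  · unfold Mc2
    have h8 : 1 / 2 * P ^ (1 - 49 * ε) = P ^ (1 - 49 * ε) / 2 := by ring
    rw [h8] at h4; exact h4
  · rw [one_mul] at h5; exact h5
  · rw [Real.rpow_one] at h6; exact h6

/-- elements of the window -/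
lemma pe_W_mem {ε P : ℝ} (hε : 0 < ε) (hP : 1 ≤ P) {p : ℕ} (hp : p ∈ W5 ε P) :
    p.Prime ∧ (p : ℝ) ≤ P ^ 2 := by
  unfold W5 Wp at hp
  rw [mem_filter, mem_Ioc] at hp
  refine ⟨hp.2, ?_⟩
  calc (p : ℝ) ≤ P ^ (2 - 190 * ε) :=
        (Nat.cast_le.2 hp.1.2).trans (Nat.floor_le (Real.rpow_nonneg (by linarith) _))
    _ ≤ P ^ (2 : ℝ) := Real.rpow_le_rpow_of_exponent_le hP (by linarith)
    _ = P ^ 2 := by exact_mod_cast Real.rpow_natCast P 2

/-- final arithmetic -/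
lemma pe_arith {u v T S m t1 t2 t3 n c Z : ℝ} (hu : 0 < u) (hu1 : u ≤ 1) (hv0 : 0 < v)
    (hv : v < 1 / 20) (hT : 0 < T) (h1 : t1 ≤ u / 1000) (h2 : t2 ≤ u / 1000)
    (h3 : t3 ≤ u / 1000) (h30 : 0 ≤ t3) (hn : n ≤ u / 1000) (hc : 1 ≤ c)
    (hm : m ≤ T * (v * u) + t1 * T) (hS : c * (T - m - t2 * T) ≤ S)
    (hmax : S * Real.exp (1 / 8 * (Z + u)) ≤ T * (1 + n) * Real.exp t3 * Real.exp (1 / 8 * Z)) :
    False := by
  have e1 : Real.exp (1 / 8 * (Z + u)) = Real.exp (1 / 8 * u) * Real.exp (1 / 8 * Z) := by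
    rw [← Real.exp_add]; congr 1; ring
  rw [e1, ← mul_assoc] at hmax
  have h4 : S * Real.exp (1 / 8 * u) ≤ T * (1 + n) * Real.exp t3 :=
    le_of_mul_le_mul_right hmax (Real.exp_pos _)
  have h5 : 1 + 1 / 8 * u ≤ Real.exp (1 / 8 * u) := by
    have := Real.add_one_le_exp (1 / 8 * u); linarith
  have h6 : Real.exp t3 ≤ 1 + 2 * t3 := by
    have h7 := Real.abs_exp_sub_one_sub_id_le (x := t3) (by rw [abs_of_nonneg h30]; linarith)
    have h8 := (abs_le.1 h7).2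
    nlinarith
  have h7 : T * (1 - u / 20 - u / 500) ≤ S := by
    have h8 : T * (1 - u / 20 - u / 500) ≤ T - m - t2 * T := by
      have h9 : T * (v * u) ≤ T * (u / 20) := by
        apply mul_le_mul_of_nonneg_left _ hT.le
        nlinarith
      nlinarith
    have h9 : 0 ≤ T * (1 - u / 20 - u / 500) := mul_nonneg hT.le (by linarith)
    have h10 : T - m - t2 * T ≤ c * (T - m - t2 * T) := by nlinarith
    linarith
  have h8 : T * (1 - u / 20 - u / 500) * (1 + 1 / 8 * u) ≤ S * Real.exp (1 / 8 * u) := by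
    have h9 : 0 ≤ T * (1 - u / 20 - u / 500) := mul_nonneg hT.le (by linarith)
    exact mul_le_mul h7 h5 (by linarith) (h9.trans h7)
  have h9 : T * (1 + n) * Real.exp t3 ≤ T * ((1 + u / 1000) * (1 + u / 500)) := by
    calc T * (1 + n) * Real.exp t3 ≤ T * (1 + u / 1000) * (1 + u / 500) := by
          apply mul_le_mul _ _ (Real.exp_pos _).le (by positivity)
          · exact mul_le_mul_of_nonneg_left (by linarith) hT.le
          · linarith
      _ = _ := by ring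
  have h10 : T * ((1 - u / 20 - u / 500) * (1 + 1 / 8 * u)) ≤
      T * ((1 + u / 1000) * (1 + u / 500)) := by
    calc _ = T * (1 - u / 20 - u / 500) * (1 + 1 / 8 * u) := by ring
      _ ≤ _ := h8.trans (h4.trans h9)
  have h11 := le_of_mul_le_mul_left h10 hT
  nlinarith

/-! ### the competitor -/

/-- the weight at `p` put to zero on the class of `x` and multiplied by `c` elsewhere -/
noncomputable def peM (ν : ℕ → ℤ → ℝ) (p : ℕ) (x : ℤ) (c : ℝ) (q : ℕ) (n : ℤ) : ℝ :=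
  if q = p then (if n ≡ x [ZMOD (p : ℕ)] then 0 else c * ν p n) else ν q n

lemma pe_mod {f : ℤ → ℝ} {p : ℕ} (hf : ∀ n, f (n + p) = f n) {n m : ℤ}
    (h : n ≡ m [ZMOD (p : ℕ)]) : f n = f m := by
  have h1 : Function.Periodic f (p : ℤ) := hf
  obtain ⟨k, hk⟩ := (Int.modEq_iff_dvd).1 h
  have h2 : m = n + k * (p : ℤ) := by linarith
  rw [h2]
  exact ((h1.int_mul k) n).symm

/-- the representative of a class -/
lemma pe_rep {p : ℕ} (hp : 0 < p) (x : ℤ) : ∃ x0 ∈ range p, ∀ z ∈ range p,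
    ((z : ℤ) ≡ x [ZMOD (p : ℕ)] ↔ z = x0) := by
  have hp' : (0 : ℤ) < p := by exact_mod_cast hp
  have h0 := Int.emod_nonneg x hp'.ne'
  have h1 := Int.emod_lt_of_pos x hp'
  refine ⟨(x % p).toNat, ?_, ?_⟩
  · rw [mem_range]; omega
  · intro z hz
    rw [mem_range] at hz
    unfold Int.ModEq
    have h2 : (z : ℤ) % p = z := Int.emod_eq_of_lt (by positivity) (by exact_mod_cast hz)
    rw [h2]
    omega

lemma pe_sum_erase {p : ℕ} {x : ℤ} {x0 : ℕ} (hx0 : x0 ∈ range p)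
    (h : ∀ z ∈ range p, ((z : ℤ) ≡ x [ZMOD (p : ℕ)] ↔ z = x0)) (F : ℕ → ℝ) :
    ∑ z ∈ range p, (if (z : ℤ) ≡ x [ZMOD (p : ℕ)] then 0 else F z) =
      ∑ z ∈ range p, F z - F x0 := by
  have h1 : ∀ z ∈ range p, (if (z : ℤ) ≡ x [ZMOD (p : ℕ)] then 0 else F z) =
      F z - (if z = x0 then F z else 0) := by
    intro z hz
    by_cases hz0 : z = x0
    · rw [if_pos ((h z hz).2 hz0), if_pos hz0]; ring
    · rw [if_neg (fun h' => hz0 ((h z hz).1 h')), if_neg hz0]; ring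
  rw [sum_congr rfl h1, sum_sub_distrib, sum_ite_eq' (range p) x0, if_pos hx0]

lemma pe_lg {c t : ℝ} (hc1 : 1 ≤ c) (hc2 : c ≤ 2) (ht : 0 ≤ t) : lg (c * t) ≤ lg t + 1 := by
  unfold lg
  by_cases h0 : t = 0
  · simp [h0]
  · have h1 : c * t ≠ 0 := mul_ne_zero (by linarith) h0
    rw [if_neg h0, if_neg h1]
    have h2 : Real.log c ≤ 1 := by
      have := Real.log_le_sub_one_of_pos (show 0 < c by linarith); linarith
    have h3 : 0 < t := lt_of_le_of_ne ht (Ne.symm h0)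
    rw [Real.log_mul (by linarith) h0]
    apply max_le
    · have := le_max_left (Real.log t / 2) (-3); linarith
    · have := le_max_right (Real.log t / 2) (-3); linarith

section comp

variable {ε P : ℝ} {W : Finset ℕ} {ν : ℕ → ℤ → ℝ} {p : ℕ} {x : ℤ} {c : ℝ}

lemma peM_self_in {n : ℤ} (h : n ≡ x [ZMOD (p : ℕ)]) : peM ν p x c p n = 0 := by
  unfold peM; rw [if_pos rfl, if_pos h]

lemma peM_self_out {n : ℤ} (h : ¬ n ≡ x [ZMOD (p : ℕ)]) : peM ν p x c p n = c * ν p n := by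
  unfold peM; rw [if_pos rfl, if_neg h]

lemma peM_ne {q : ℕ} (h : q ≠ p) (n : ℤ) : peM ν p x c q n = ν q n := by
  unfold peM; rw [if_neg h]

lemma peM_wts (hw : Wts W ν) (hpW : p ∈ W) (hp : 0 < p) (hc0 : 0 ≤ c)
    (hc : c * (p - ν p x) = p) : Wts W (peM ν p x c) := by
  obtain ⟨x0, hx0, hx⟩ := pe_rep hp x
  have hx1 : (x0 : ℤ) ≡ x [ZMOD (p : ℕ)] := (hx x0 hx0).2 rfl
  refine ⟨?_, ?_, ?_⟩
  · intro q n
    unfold peM
    split_ifs
    · exact le_refl _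
    · exact mul_nonneg hc0 (hw.nn _ _)
    · exact hw.nn _ _
  · intro q hq n
    by_cases hqp : q = p
    · subst hqp
      have h1 : (n + q ≡ x [ZMOD (q : ℕ)]) ↔ (n ≡ x [ZMOD (q : ℕ)]) := by
        unfold Int.ModEq; rw [Int.add_emod_right]
      by_cases h2 : n ≡ x [ZMOD (q : ℕ)]
      · rw [peM_self_in h2, peM_self_in (h1.2 h2)]
      · rw [peM_self_out h2, peM_self_out (fun h => h2 (h1.1 h)), hw.per q hq]
    · rw [peM_ne hqp, peM_ne hqp, hw.per q hq]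
  · intro q hq
    by_cases hqp : q = p
    · subst hqp
      have h1 : ∀ z ∈ range q, peM ν q x c q (z : ℕ) =
          if (z : ℤ) ≡ x [ZMOD (q : ℕ)] then 0 else (fun z : ℕ => c * ν q z) z := by
        intro z _
        unfold peM
        rw [if_pos rfl]
      rw [sum_congr rfl h1, pe_sum_erase hx0 hx, ← mul_sum, hw.mean q hq,
        pe_mod (hw.per q hq) hx1, ← mul_sub, hc]
    · simp only [peM_ne hqp]
      exact hw.mean q hq

lemma peM_le4 (hw : Wts W ν) (h4 : ∀ q ∈ W, ∀ n, ν q n ≤ 4)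
    (h2 : ∀ n, ν p n ≤ 2) (hc2 : c ≤ 2) :
    ∀ q ∈ W, ∀ n, peM ν p x c q n ≤ 4 := by
  intro q hq n
  unfold peM
  split_ifs
  · norm_num
  · have := h2 n
    have := hw.nn p n
    nlinarith
  · exact h4 q hq n

lemma peM_Hl (hw : Wts W ν) (hpW : p ∈ W) (hp : 0 < p) (hc1 : 1 ≤ c) (hv : ν p x ≤ 1) :
    Hl W (peM ν p x c) ≤ Hl W ν + 1 := by
  obtain ⟨x0, hx0, hx⟩ := pe_rep hp x
  have hx1 : (x0 : ℤ) ≡ x [ZMOD (p : ℕ)] := (hx x0 hx0).2 rfl
  have hp' : (1 : ℝ) ≤ p := by exact_mod_cast hp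
  unfold Hl
  rw [← add_sum_erase W _ hpW, ← add_sum_erase W (fun q => 1 - (∑ x ∈ range q,
    Real.sqrt (ν q x)) / q) hpW]
  have h1 : ∑ q ∈ W.erase p, (1 - (∑ z ∈ range q, Real.sqrt (peM ν p x c q z)) / (q : ℝ)) =
      ∑ q ∈ W.erase p, (1 - (∑ z ∈ range q, Real.sqrt (ν q z)) / (q : ℝ)) := by
    apply sum_congr rfl
    intro q hq
    simp only [peM_ne (ne_of_mem_erase hq)]
  rw [h1]
  have h2 : ∑ z ∈ range p, Real.sqrt (ν p z) - 1 ≤
      ∑ z ∈ range p, Real.sqrt (peM ν p x c p z) := by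
    have h3 : ∑ z ∈ range p, (if (z : ℤ) ≡ x [ZMOD (p : ℕ)] then 0 else
        (fun z : ℕ => Real.sqrt (ν p z)) z) ≤ ∑ z ∈ range p, Real.sqrt (peM ν p x c p z) := by
      apply sum_le_sum
      intro z _
      split_ifs with h
      · positivity
      · rw [peM_self_out h]
        apply Real.sqrt_le_sqrt
        have := hw.nn p z
        nlinarith
    rw [pe_sum_erase hx0 hx] at h3
    have h4 : Real.sqrt (ν p (x0 : ℕ)) ≤ 1 := by
      rw [pe_mod (hw.per p hpW) hx1]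
      exact Real.sqrt_le_one.2 hv
    linarith
  have h3 : (∑ z ∈ range p, Real.sqrt (ν p z)) / (p : ℝ) - 1 ≤
      (∑ z ∈ range p, Real.sqrt (peM ν p x c p z)) / (p : ℝ) := by
    rw [sub_le_iff_le_add, ← sub_le_iff_le_add', ← sub_div, div_le_iff₀ (by linarith)]
    linarith
  linarith

lemma peM_zf (hw : Wts W ν) (hpW : p ∈ W) (hp : 0 < p) (hc : 0 < c) (hv : ν p x ≠ 0) :
    ∑ q ∈ W, zf (peM ν p x c) q = ∑ q ∈ W, zf ν q + 1 / p := by
  obtain ⟨x0, hx0, hx⟩ := pe_rep hp x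
  have hx1 : (x0 : ℤ) ≡ x [ZMOD (p : ℕ)] := (hx x0 hx0).2 rfl
  rw [← add_sum_erase W _ hpW, ← add_sum_erase W (fun q => zf ν q) hpW]
  have h1 : ∑ q ∈ W.erase p, zf (peM ν p x c) q = ∑ q ∈ W.erase p, zf ν q := by
    apply sum_congr rfl
    intro q hq
    unfold zf
    simp only [peM_ne (ne_of_mem_erase hq)]
  rw [h1]
  have h2 : (range p).filter (fun z : ℕ => peM ν p x c p z = 0) =
      insert x0 ((range p).filter (fun z : ℕ => ν p z = 0)) := by
    ext z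
    simp only [mem_filter, mem_insert]
    constructor
    · rintro ⟨hz, h⟩
      by_cases hz0 : (z : ℤ) ≡ x [ZMOD (p : ℕ)]
      · exact Or.inl ((hx z hz).1 hz0)
      · rw [peM_self_out hz0] at h
        exact Or.inr ⟨hz, (mul_eq_zero.1 h).resolve_left hc.ne'⟩
    · rintro (h | ⟨hz, h⟩)
      · subst h
        exact ⟨hx0, peM_self_in hx1⟩
      · refine ⟨hz, ?_⟩
        by_cases hz0 : (z : ℤ) ≡ x [ZMOD (p : ℕ)]
        · exact peM_self_in hz0
        · rw [peM_self_out hz0, h, mul_zero]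
  have h3 : x0 ∉ (range p).filter (fun z : ℕ => ν p z = 0) := by
    rw [mem_filter]
    rintro ⟨_, h⟩
    rw [pe_mod (hw.per p hpW) hx1] at h
    exact hv h
  have h4 : zf (peM ν p x c) p = zf ν p + 1 / p := by
    unfold zf
    rw [h2, card_insert_of_notMem h3]
    push_cast
    ring
  rw [h4]
  ring

lemma peM_Xn (hw : Wts W ν) (hpW : p ∈ W) (hc1 : 1 ≤ c) (hc2 : c ≤ 2) {n : ℤ}
    (h : ¬ n ≡ x [ZMOD (p : ℕ)]) : Xn W (peM ν p x c) n ≤ Xn W ν n + 1 := by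
  unfold Xn
  rw [← add_sum_erase W _ hpW, ← add_sum_erase W (fun q => lg (ν q n)) hpW]
  have h1 : ∑ q ∈ W.erase p, lg (peM ν p x c q n) = ∑ q ∈ W.erase p, lg (ν q n) := by
    apply sum_congr rfl
    intro q hq
    rw [peM_ne (ne_of_mem_erase hq)]
  rw [h1, peM_self_out h]
  have := pe_lg hc1 hc2 (hw.nn p n)
  linarith

lemma peM_prod (hpW : p ∈ W) (hc0 : 0 ≤ c) {n : ℤ}
    (h : ¬ n ≡ x [ZMOD (p : ℕ)]) : ∏ q ∈ W, Real.sqrt (peM ν p x c q n) =
      Real.sqrt c * ∏ q ∈ W, Real.sqrt (ν q n) := by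
  rw [← mul_prod_erase W _ hpW, ← mul_prod_erase W (fun q => Real.sqrt (ν q n)) hpW]
  have h1 : ∏ q ∈ W.erase p, Real.sqrt (peM ν p x c q n) =
      ∏ q ∈ W.erase p, Real.sqrt (ν q n) := by
    apply prod_congr rfl
    intro q hq
    rw [peM_ne (ne_of_mem_erase hq)]
  rw [h1, peM_self_out h, Real.sqrt_mul hc0]
  ring

lemma pe_Gc_nonneg {M : ℝ} {g : ℤ → ℝ} (hg : ∀ n, 0 ≤ g n) (ν : ℕ → ℤ → ℝ) (n : ℤ) :
    0 ≤ Gc W M g ν n := by
  unfold Gc
  split_ifs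
  · exact mul_nonneg (hg n) (prod_nonneg fun _ _ => Real.sqrt_nonneg _)
  · exact le_refl _

lemma pe_Gc_le {M : ℝ} {g : ℤ → ℝ} (hg1 : ∀ n, g n ≤ 1) (hw : Wts W ν)
    (n : ℤ) : Gc W M g ν n ≤ Real.exp (Xn W ν n) := by
  unfold Gc
  split_ifs
  · have h1 : ∏ p ∈ W, Real.sqrt (ν p n) ≤ ∏ p ∈ W, Real.exp (lg (ν p n)) :=
      prod_le_prod (fun _ _ => Real.sqrt_nonneg _) fun p _ => raw_sqrt_le _ (hw.nn p n)
    have h2 : Real.exp (Xn W ν n) = ∏ p ∈ W, Real.exp (lg (ν p n)) := by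
      unfold Xn; rw [Real.exp_sum]
    rw [h2]
    calc g n * ∏ p ∈ W, Real.sqrt (ν p n) ≤ 1 * ∏ p ∈ W, Real.sqrt (ν p n) :=
          mul_le_mul_of_nonneg_right (hg1 n) (prod_nonneg fun _ _ => Real.sqrt_nonneg _)
      _ ≤ _ := by rw [one_mul]; exact h1
  · exact (Real.exp_pos _).le

/-- pointwise comparison -/
lemma peM_Gc {M : ℝ} {g : ℤ → ℝ} (hg : ∀ n, 0 ≤ g n) (hg1 : ∀ n, g n ≤ 1) (hw : Wts W ν)
    (hpW : p ∈ W) (hc1 : 1 ≤ c) (hc2 : c ≤ 2) (n : ℤ) :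
    Real.sqrt c * (Gc W M g ν n - (if n ≡ x [ZMOD (p : ℕ)] then Gc W M g ν n else 0) -
      (if M - 4 ≤ Xn W ν n ∧ Xn W ν n ≤ M then Real.exp (Xn W ν n) else 0)) ≤
    Gc W M g (peM ν p x c) n := by
  have hs : 0 ≤ Real.sqrt c := Real.sqrt_nonneg c
  have hG := pe_Gc_nonneg (W := W) (M := M) hg (peM ν p x c) n
  have hE : 0 ≤ (if M - 4 ≤ Xn W ν n ∧ Xn W ν n ≤ M then Real.exp (Xn W ν n) else 0) := by
    split_ifs
    · exact (Real.exp_pos _).le
    · exact le_refl _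
  by_cases h : n ≡ x [ZMOD (p : ℕ)]
  · rw [if_pos h]
    refine le_trans ?_ hG
    apply mul_nonpos_of_nonneg_of_nonpos hs
    linarith
  · rw [if_neg h]
    by_cases h1 : Xn W ν n ≤ M - 1
    · have h2 : Xn W (peM ν p x c) n ≤ M := by
        have := peM_Xn (x := x) hw hpW hc1 hc2 h
        linarith
      have h3 : Gc W M g (peM ν p x c) n = Real.sqrt c * Gc W M g ν n := by
        unfold Gc
        rw [if_pos h2, if_pos (by linarith), peM_prod hpW (by linarith) h]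
        ring
      rw [h3]
      apply mul_le_mul_of_nonneg_left _ hs
      linarith
    · push Not at h1
      refine le_trans ?_ hG
      apply mul_nonpos_of_nonneg_of_nonpos hs
      by_cases h2 : Xn W ν n ≤ M
      · rw [if_pos ⟨by linarith, h2⟩]
        have := pe_Gc_le (M := M) hg1 hw n
        linarith
      · have h3 : Gc W M g ν n = 0 := by unfold Gc; rw [if_neg h2]
        rw [h3]
        linarith

end comp

/-- **block PIN5, piece E** -/
theorem pinE_holds : PinEStmt := by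
  intro k _ ε hε hε1
  obtain ⟨P0, hP0⟩ := eventually_atTop.1 (pe_num ε hε hε1)
  refine ⟨P0, ?_⟩
  intro P hP N' Nmin Φ g ν hR hHl hTl hνle hmarg p hp x
  by_contra hcon
  push Not at hcon
  obtain ⟨hv0, hv1⟩ := hcon
  have hN := hP0 P hP
  obtain ⟨hpr, hpP⟩ := pe_W_mem hε hN.P1 hp
  have hp0 : 0 < p := hpr.pos
  have hp1 : (1 : ℝ) ≤ p := by exact_mod_cast hp0
  have hp2 : (2 : ℝ) ≤ p := by exact_mod_cast hpr.two_le
  have hvpos : 0 < ν p x := lt_of_le_of_ne (hR.wts.nn p x) (Ne.symm hv0)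
  have hN'0 : (0 : ℝ) < N' := lt_of_lt_of_le (Real.exp_pos _) hR.N'lo
  have hΦ0 : 0 < Φ := lt_of_lt_of_le (Real.exp_pos _) hR.Φlo
  -- the constant
  obtain ⟨c, hc⟩ : ∃ c : ℝ, c = p / (p - ν p x) := ⟨_, rfl⟩
  have hden : 0 < (p : ℝ) - ν p x := by linarith
  have hc1 : 1 ≤ c := by rw [hc, le_div_iff₀ hden]; linarith
  have hc2 : c ≤ 2 := by rw [hc, div_le_iff₀ hden]; linarith
  have hceq : c * (p - ν p x) = p := by rw [hc]; field_simp
  -- `Vn ε P 1`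
  have hVn : Vn ε P 1 = W5 ε P := by
    unfold Vn
    rw [filter_true_of_mem]
    intro q hq hq1
    have := (pe_W_mem hε hN.P1 hq).1
    exact this.one_lt.ne' (Nat.dvd_one.1 hq1)
  have hcel : cel 0 N' 1 0 = Icc (1 : ℤ) N' := by
    unfold cel
    ext n
    simp only [mem_filter, mem_Ioc, mem_Icc]
    constructor
    · rintro ⟨⟨h1, h2⟩, _⟩; omega
    · rintro ⟨h1, h2⟩
      exact ⟨by omega, by simpa using Int.modEq_one⟩
  -- the competitor
  have hν2 : ∀ n, ν p n ≤ 2 := by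
    intro n
    have h1 := hνle p hp n
    have h2 : Real.exp (bn5 ε P) ≤ 2 := by
      calc Real.exp (bn5 ε P) ≤ Real.exp (1 / 10) := Real.exp_le_exp.2 hN.bn
        _ ≤ 2 := by
          have h3 := Real.abs_exp_sub_one_sub_id_le (x := 1 / 10) (by rw [abs_of_pos] <;> norm_num)
          have h4 := (abs_le.1 h3).2
          norm_num at h4
          norm_num
          linarith
    linarith
  have hNmin : Nmin ≤ N' := by
    have h1 : (Nmin : ℝ) ≤ N' := hR.Nmin_le.trans (hN.nm.trans hR.N'lo)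
    exact_mod_cast h1
  have hmax := hR.max 1 N' 0 0 (peM ν p x c) le_rfl (by simpa using hNmin) (by simpa using hNmin)
    (by rw [hVn]; exact peM_wts hR.wts hp hp0 (by linarith) hceq)
    (by rw [hVn]; exact peM_le4 hR.wts hR.le4 hν2 hc2)
    (by rw [hVn]; exact (peM_Hl hR.wts hp hp0 hc1 (by linarith)).trans
          (le_trans (by linarith) hN.V0))
  rw [hVn, hcel, peM_zf hR.wts hp hp0 (by linarith) hv0] at hmax
  -- the sum
  have hsum : Real.sqrt c * (N' * Φ - mass (Gc (W5 ε P) (Mc2 ε P) g ν) 0 N' p x -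
      Real.exp (-(Mc2 ε P / 2)) * (N' * Φ)) ≤
      ∑ n ∈ Icc (1 : ℤ) N', Gc (W5 ε P) (Mc2 ε P) g (peM ν p x c) n := by
    have h1 : Real.sqrt c * (∑ n ∈ Icc (1 : ℤ) N', (Gc (W5 ε P) (Mc2 ε P) g ν n -
        (if n ≡ x [ZMOD (p : ℕ)] then Gc (W5 ε P) (Mc2 ε P) g ν n else 0) -
        (if Mc2 ε P - 4 ≤ Xn (W5 ε P) ν n ∧ Xn (W5 ε P) ν n ≤ Mc2 ε P then
          Real.exp (Xn (W5 ε P) ν n) else 0))) ≤
        ∑ n ∈ Icc (1 : ℤ) N', Gc (W5 ε P) (Mc2 ε P) g (peM ν p x c) n := by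
      rw [mul_sum]
      exact sum_le_sum fun n _ => peM_Gc hR.g0 hR.g1 hR.wts hp hc1 hc2 n
    rw [sum_sub_distrib, sum_sub_distrib, hR.Gsum, ← sum_filter, ← sum_filter] at h1
    refine le_trans ?_ h1
    apply mul_le_mul_of_nonneg_left _ (Real.sqrt_nonneg c)
    have h2 : mass (Gc (W5 ε P) (Mc2 ε P) g ν) 0 N' p x =
        ∑ n ∈ (Icc (1 : ℤ) N').filter (fun n => n ≡ x [ZMOD (p : ℕ)]),
          Gc (W5 ε P) (Mc2 ε P) g ν n := by
      unfold mass
      apply sum_congr _ fun _ _ => rfl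
      ext n
      simp only [mem_filter, mem_Ioc, mem_Icc]
      constructor
      · rintro ⟨⟨h1, h2⟩, h3⟩; exact ⟨⟨by omega, by omega⟩, h3⟩
      · rintro ⟨⟨h1, h2⟩, h3⟩; exact ⟨⟨by omega, by omega⟩, h3⟩
    have h3 := hTl
    unfold PinTl at h3
    rw [h2]
    linarith
  -- conclusion
  have hu : (1 : ℝ) / (1000 * P ^ 2) ≤ (1 / p) / 1000 := by
    rw [div_div, mul_comm (p : ℝ) 1000]
    apply one_div_le_one_div_of_le (by positivity)
    linarith
  have hm := (abs_le.1 (hmarg p hp x)).2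
  refine pe_arith (u := 1 / p) (v := ν p x) (T := N' * Φ)
    (S := ∑ n ∈ Icc (1 : ℤ) N', Gc (W5 ε P) (Mc2 ε P) g (peM ν p x c) n)
    (m := mass (Gc (W5 ε P) (Mc2 ε P) g ν) 0 N' p x)
    (t1 := Real.exp (-(P ^ (1 - 49.8 * ε)))) (t2 := Real.exp (-(Mc2 ε P / 2)))
    (t3 := Real.exp (-(P ^ (1 - 49.5 * ε)))) (n := 1 / N') (c := Real.sqrt c)
    (Z := ∑ q ∈ W5 ε P, zf ν q) (by positivity) ?_ hvpos hv1 (by positivity)
    (hN.e1.trans hu) (hN.e2.trans hu) (hN.e3.trans hu) (Real.exp_pos _).le ?_ ?_ ?_ hsum ?_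
  · rw [div_le_one (by linarith)]; exact hp1
  · refine le_trans ?_ (hN.e4.trans hu)
    rw [Real.exp_neg, one_div]
    exact inv_anti₀ (Real.exp_pos _) hR.N'lo
  · exact Real.one_le_sqrt.2 hc1
  · have h1 : N' * Φ * (ν p x * (1 / (p : ℝ))) = N' * Φ * ν p x / p := by ring
    rw [h1]
    linarith
  · simpa [hN'0.ne'] using hmax

end Vale.Agent.P042.UU
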