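import Vale.Agent.P042.TT.PsiD

set_option autoImplicit false

/-!
Staged and truncated self-bounding estimate, part A: Russo's formula along an affine path of
rates, Groenwall, one step.
-/

namespace Vale.Agent.P042.UU.Psi

open Finset Real Vale.Agent.P042.TT.Psi

variable {ι : Type} [Fintype ι] [DecidableEq ι]

lemma hasDeriv_prod2 (b d : ι → ℝ) (hbd : ∀ i, d i = 0 ∨ b i = 0) (T : Finset ι) (r : ℝ)
    (hr : r ≠ 0) :
    HasDerivAt (fun r => ∏ i ∈ T, (b i + r * d i))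
      ((∏ i ∈ T, (b i + r * d i)) * ∑ i ∈ T, (if d i = 0 then 0 else 1 / r)) r := by
  have h1 : ∀ i ∈ T, HasDerivAt (fun r => (b i + r * d i)) (d i) r := by
    intro i _
    have := ((hasDerivAt_id r).mul_const (d i)).const_add (b i)
    simpa using this
  have h2 := HasDerivAt.fun_finsetProd h1
  have h3 : (∑ i ∈ T, (∏ j ∈ T.erase i, (b j + r * d j)) • (d i)) =
      (∏ i ∈ T, (b i + r * d i)) * ∑ i ∈ T, (if d i = 0 then 0 else 1 / r) := by
    rw [mul_sum]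
    apply sum_congr rfl
    intro i hi
    rw [← mul_prod_erase T _ hi, smul_eq_mul]
    by_cases h : d i = 0
    · rw [if_pos h, h]; ring
    · rw [if_neg h, (hbd i).resolve_left h]
      field_simp
      ring
  rw [h3] at h2
  exact h2

lemma hasDeriv_prod3 (b d : ι → ℝ) (u : Finset ι) (r : ℝ) (h : ∀ i, 1 - (b i + r * d i) ≠ 0) :
    HasDerivAt (fun r => ∏ i ∈ u, (1 - (b i + r * d i)))
      ((∏ i ∈ u, (1 - (b i + r * d i))) * (- ∑ i ∈ u, d i / (1 - (b i + r * d i)))) r := by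
  have h1 : ∀ i ∈ u, HasDerivAt (fun r => (1 - (b i + r * d i))) (- d i) r := by
    intro i _
    have := (((hasDerivAt_id r).mul_const (d i)).const_add (b i)).const_sub 1
    simpa using this
  have h2 := HasDerivAt.fun_finsetProd h1
  have h3 : (∑ i ∈ u, (∏ j ∈ u.erase i, (1 - (b j + r * d j))) • (- d i)) =
      (∏ i ∈ u, (1 - (b i + r * d i))) * (- ∑ i ∈ u, d i / (1 - (b i + r * d i))) := by
    rw [← sum_neg_distrib, mul_sum]
    apply sum_congr rfl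
    intro i hi
    rw [← mul_prod_erase u _ hi, smul_eq_mul]
    have := h i
    field_simp
  rw [h3] at h2
  exact h2

lemma hasDeriv_Wr2 (b d : ι → ℝ) (hbd : ∀ i, d i = 0 ∨ b i = 0) (T : Finset ι) (r : ℝ)
    (hr : r ≠ 0) (h : ∀ i, 1 - (b i + r * d i) ≠ 0) :
    HasDerivAt (fun r => Wr (fun i => b i + r * d i) T)
      (Wr (fun i => b i + r * d i) T * (∑ i ∈ T, (if d i = 0 then 0 else 1 / r) -
        ∑ i ∈ univ \ T, d i / (1 - (b i + r * d i)))) r := by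
  unfold Wr
  have h2 := (hasDeriv_prod2 b d hbd T r hr).mul (hasDeriv_prod3 b d (univ \ T) r h)
  have h7 : (∏ i ∈ T, (b i + r * d i)) * (∏ i ∈ univ \ T, (1 - (b i + r * d i))) *
      (∑ i ∈ T, (if d i = 0 then 0 else 1 / r) -
        ∑ i ∈ univ \ T, d i / (1 - (b i + r * d i))) =
      (∏ i ∈ T, (b i + r * d i)) * (∑ i ∈ T, (if d i = 0 then 0 else 1 / r)) *
        (∏ i ∈ univ \ T, (1 - (b i + r * d i))) +
      (∏ i ∈ T, (b i + r * d i)) * ((∏ i ∈ univ \ T, (1 - (b i + r * d i))) *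
        (- ∑ i ∈ univ \ T, d i / (1 - (b i + r * d i)))) := by ring
  rw [h7]
  exact h2

/-- Russo's formula along an affine path -/
lemma russo2 (b d : ι → ℝ) (hbd : ∀ i, d i = 0 ∨ b i = 0) (Ψ : Finset ι → ℝ) (r : ℝ)
    (hr : 0 < r) (h : ∀ i, b i + r * d i < 1) :
    HasDerivAt (fun r => ∑ T, Wr (fun i => b i + r * d i) T * Ψ T)
      (∑ T, Wr (fun i => b i + r * d i) T * ∑ i ∈ univ \ T,
        d i / (1 - (b i + r * d i)) * (Ψ (insert i T) - Ψ T)) r := by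
  have hne : ∀ i, 1 - (b i + r * d i) ≠ 0 := fun i => by linarith [h i]
  have h1 : HasDerivAt (fun r => ∑ T, Wr (fun i => b i + r * d i) T * Ψ T)
      (∑ T, (Wr (fun i => b i + r * d i) T * (∑ i ∈ T, (if d i = 0 then 0 else 1 / r) -
        ∑ i ∈ univ \ T, d i / (1 - (b i + r * d i)))) * Ψ T) r :=
    HasDerivAt.fun_sum (fun T _ => (hasDeriv_Wr2 b d hbd T r hr.ne' hne).mul_const (Ψ T))
  convert h1 using 1
  have h2 := exch (fun i => b i + r * d i) h (fun T i => (if d i = 0 then 0 else 1 / r) * Ψ T)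
  have h4 : ∀ T, Wr (fun i => b i + r * d i) T * (∑ i ∈ T, (if d i = 0 then 0 else 1 / r) -
        ∑ i ∈ univ \ T, d i / (1 - (b i + r * d i))) * Ψ T =
      Wr (fun i => b i + r * d i) T * (∑ i ∈ T, (if d i = 0 then 0 else 1 / r) * Ψ T) -
      Wr (fun i => b i + r * d i) T * ((∑ i ∈ univ \ T, d i / (1 - (b i + r * d i))) * Ψ T) := by
    intro T
    rw [← sum_mul]
    ring
  rw [sum_congr rfl (fun T _ => h4 T), sum_sub_distrib, h2, ← sum_sub_distrib]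
  apply sum_congr rfl
  intro T _
  rw [← mul_sub, sum_mul, ← sum_sub_distrib]
  congr 1
  apply sum_congr rfl
  intro i _
  by_cases h0 : d i = 0
  · rw [if_pos h0, h0]; ring
  · rw [if_neg h0]
    have hb := (hbd i).resolve_left h0
    have := hne i
    rw [hb] at this ⊢
    simp only [zero_add] at this ⊢
    field_simp

/-- Groenwall along an affine path -/
lemma gronwall2 (b d : ι → ℝ) (hbd : ∀ i, d i = 0 ∨ b i = 0) (Ψ : Finset ι → ℝ) (A : ℝ)
    (hd : ∀ i, 0 ≤ d i) (hs1 : ∀ i, b i + d i < 1)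
    (hA : ∀ r : ℝ, 0 < r → r < 1 →
      ∑ T, Wr (fun i => b i + r * d i) T * ∑ i ∈ univ \ T,
        d i / (1 - (b i + r * d i)) * (Ψ (insert i T) - Ψ T) ≤
      A * (∑ T, Wr (fun i => b i + r * d i) T * Ψ T + 1)) :
    ∑ T, Wr (fun i => b i + d i) T * Ψ T + 1 ≤ (∑ T, Wr b T * Ψ T + 1) * exp A := by
  set E : ℝ → ℝ := fun r => ∑ T, Wr (fun i => b i + r * d i) T * Ψ T with hE
  have hcont : Continuous E := by
    rw [hE]; unfold Wr; fun_prop
  set g : ℝ → ℝ := fun r => (E r + 1) * exp (-(A * r)) with hg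
  have hgc : Continuous g := by
    rw [hg]; fun_prop
  have hrs : ∀ r : ℝ, 0 < r → r < 1 → ∀ i, b i + r * d i < 1 := by
    intro r h0 h1 i
    nlinarith [hd i, hs1 i]
  have hgd : ∀ r : ℝ, 0 < r → r < 1 → HasDerivAt g
      ((∑ T, Wr (fun i => b i + r * d i) T * ∑ i ∈ univ \ T,
        d i / (1 - (b i + r * d i)) * (Ψ (insert i T) - Ψ T)) * exp (-(A * r)) +
        (E r + 1) * (exp (-(A * r)) * (-A))) r := by
    intro r h0 h1
    have a1 := (russo2 b d hbd Ψ r h0 (hrs r h0 h1)).add_const 1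
    have a2 : HasDerivAt (fun r : ℝ => exp (-(A * r))) (exp (-(A * r)) * (-A)) r := by
      have := (((hasDerivAt_id r).const_mul A).neg).exp
      simpa using this
    exact a1.mul a2
  have hanti : AntitoneOn g (Set.Icc 0 1) := by
    apply antitoneOn_of_deriv_nonpos (convex_Icc 0 1) hgc.continuousOn
    · intro r hr
      rw [interior_Icc] at hr
      exact (hgd r hr.1 hr.2).differentiableAt.differentiableWithinAt
    · intro r hr
      rw [interior_Icc] at hr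
      rw [(hgd r hr.1 hr.2).deriv]
      have := hA r hr.1 hr.2
      have he := exp_pos (-(A * r))
      have h3 : (E r + 1) = ∑ T, Wr (fun i => b i + r * d i) T * Ψ T + 1 := rfl
      rw [h3]
      nlinarith
  have h1 := hanti (Set.left_mem_Icc.mpr zero_le_one) (Set.right_mem_Icc.mpr zero_le_one)
    zero_le_one
  have hE0 : E 0 = ∑ T, Wr b T * Ψ T := by simp [hE]
  have hE1 : E 1 = ∑ T, Wr (fun i => b i + d i) T * Ψ T := by simp [hE]
  simp only [hg, hE0, hE1, mul_zero, neg_zero, exp_zero, mul_one] at h1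
  have he := exp_pos A
  calc ∑ T, Wr (fun i => b i + d i) T * Ψ T + 1
      = ((∑ T, Wr (fun i => b i + d i) T * Ψ T + 1) * exp (-A)) * exp A := by
        rw [mul_assoc, ← exp_add]; simp
    _ ≤ (∑ T, Wr b T * Ψ T + 1) * exp A := mul_le_mul_of_nonneg_right h1 he.le

/-- abstract self-bounding step, derivative rates `d` -/
lemma step_le2 (s : ι → ℝ) (σ d : ι → ℝ) (s0 s1 τ A0 b1 ε1 u c e0 : ℝ) (Ps : Finset ι → ℝ)
    (K L : Finset ι → ι → ℝ)
    (hs : ∀ i, 0 ≤ s i ∧ s i ≤ s0) (hs00 : 0 ≤ s0) (hσ : ∀ i, 0 ≤ σ i ∧ σ i ≤ s i)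
    (hσ4 : ∀ i, σ i ≤ 1 / 4) (hd : ∀ i, 0 ≤ d i ∧ d i ≤ s1) (hs1 : 0 ≤ s1)
    (hτ : 0 < τ) (hA0 : 0 ≤ A0) (hb1 : 0 ≤ b1) (hε1 : 0 ≤ ε1) (he0 : 0 < e0)
    (hu : 1 ≤ u) (hc0 : 0 ≤ c) (hc2 : c ≤ 2 * u) (hPs : ∀ T, 0 ≤ Ps T)
    (hK : ∀ T, ∀ i ∈ univ \ T, 0 ≤ K T i)
    (hPi : ∀ T, ∀ i ∈ univ \ T, Ps (insert i T) ≤ Ps T + c * K T i)
    (hL : ∀ T, ∀ i ∈ univ \ T, L (insert i T) i ≤ u * (K T i + ε1 * Ps T))
    (hklv : ∀ T, τ * ∑ i ∈ univ \ T, K T i ≤ A0 * Ps T + ∑ i ∈ T, (b1 * Ps T + L T i) + e0)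
    (hsm : s0 * u * (1 + 2 * b1) ≤ τ / 4) :
    ∑ T, Wr σ T * ∑ i ∈ univ \ T, d i / (1 - σ i) * (Ps (insert i T) - Ps T) ≤
      3 * c * s1 * (A0 + e0 + (b1 + ε1) * u * ∑ i, s i) / τ *
        (∑ T, Wr σ T * Ps T + 1) := by
  have hSs : 0 ≤ ∑ i, s i := sum_nonneg (fun i _ => (hs i).1)
  obtain ⟨Ss, hSsd⟩ : ∃ Ss, Ss = ∑ i, s i := ⟨_, rfl⟩
  rw [← hSsd] at hSs ⊢
  obtain ⟨Kb, hKb⟩ : ∃ Kb, Kb = A0 + e0 + (b1 + ε1) * u * Ss := ⟨_, rfl⟩
  rw [← hKb]
  have hu0 : 0 ≤ u := by linarith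
  have hX : 0 ≤ (b1 + ε1) * u * Ss := by positivity
  have hKb0 : 0 < Kb := by linarith
  have hWn : ∀ T, 0 ≤ Wr σ T := fun T => Wr_nonneg _ (fun i => (hσ i).1)
    (fun i => by linarith [hσ4 i]) T
  obtain ⟨E, hE⟩ : ∃ E, E = ∑ T, Wr σ T * Ps T := ⟨_, rfl⟩
  obtain ⟨Q, hQ⟩ : ∃ Q, Q = ∑ T, Wr σ T * ∑ i ∈ univ \ T, K T i := ⟨_, rfl⟩
  rw [← hE]
  have hE0 : 0 ≤ E := by
    rw [hE]; exact sum_nonneg (fun T _ => mul_nonneg (hWn T) (hPs T))
  have hQ0 : 0 ≤ Q := by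
    rw [hQ]; exact sum_nonneg (fun T _ => mul_nonneg (hWn T) (sum_nonneg (hK T)))
  -- step 1
  have st1 : ∑ T, Wr σ T * ∑ i ∈ univ \ T,
      d i / (1 - σ i) * (Ps (insert i T) - Ps T) ≤ 4 / 3 * s1 * c * Q := by
    rw [hQ, mul_sum]
    apply sum_le_sum
    intro T _
    rw [mul_left_comm]
    apply mul_le_mul_of_nonneg_left _ (hWn T)
    rw [mul_sum]
    apply sum_le_sum
    intro i hi
    have h1 := hPi T i hi
    have h2 := hK T i hi
    have h3 : d i / (1 - σ i) ≤ 4 / 3 * s1 := by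
      rw [div_le_iff₀ (by linarith [hσ4 i])]
      nlinarith [hσ4 i, (hd i).1, (hd i).2]
    calc d i / (1 - σ i) * (Ps (insert i T) - Ps T)
        ≤ d i / (1 - σ i) * (c * K T i) :=
          mul_le_mul_of_nonneg_left (by linarith)
            (div_nonneg (hd i).1 (by linarith [hσ4 i]))
      _ ≤ (4 / 3 * s1) * (c * K T i) :=
          mul_le_mul_of_nonneg_right h3 (mul_nonneg hc0 h2)
      _ = _ := by ring
  -- step 2
  have e4 : ∑ T, Wr σ T * ∑ i ∈ univ \ T, σ i / (1 - σ i) *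
      (b1 * Ps (insert i T) + L (insert i T) i) ≤
      4 / 3 * ((b1 + ε1) * u * Ss) * E + 4 / 3 * (s0 * u * (1 + 2 * b1)) * Q := by
    have e5 : 4 / 3 * ((b1 + ε1) * u * Ss) * E + 4 / 3 * (s0 * u * (1 + 2 * b1)) * Q =
        ∑ T, Wr σ T * (Ss * (4 / 3 * ((b1 + ε1) * u) * Ps T) +
          4 / 3 * (s0 * u * (1 + 2 * b1)) * ∑ i ∈ univ \ T, K T i) := by
      rw [hE, hQ, mul_sum, mul_sum, ← sum_add_distrib]
      apply sum_congr rfl
      intro T _
      ring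
    rw [e5]
    apply sum_le_sum
    intro T _
    apply mul_le_mul_of_nonneg_left _ (hWn T)
    have f1 : ∀ i ∈ univ \ T, σ i / (1 - σ i) *
        (b1 * Ps (insert i T) + L (insert i T) i) ≤
        s i * (4 / 3 * ((b1 + ε1) * u) * Ps T) + 4 / 3 * (s0 * u * (1 + 2 * b1)) * K T i :=
      fun i hi => scal_le (s i) s0 (σ i) b1 ε1 u c (Ps T) _ (K T i) _ (hs i).1 (hs i).2
        (hσ i).1 (hσ i).2 (hσ4 i) hb1 hε1 hu hc2 (hPs T) (hK T i hi) (hPi T i hi) (hL T i hi)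
    have f2 := sum_le_sum f1
    rw [sum_add_distrib, ← sum_mul, ← mul_sum] at f2
    have f3 : ∑ i ∈ univ \ T, s i ≤ Ss := by
      rw [hSsd]
      exact sum_le_sum_of_subset_of_nonneg (sdiff_subset) (fun i _ _ => (hs i).1)
    have f4 : 0 ≤ 4 / 3 * ((b1 + ε1) * u) * Ps T := by
      have h4 := hPs T
      positivity
    have f5 := mul_le_mul_of_nonneg_right f3 f4
    linarith
  have st2 : τ * Q ≤ A0 * E + (4 / 3 * ((b1 + ε1) * u * Ss) * E +
      4 / 3 * (s0 * u * (1 + 2 * b1)) * Q) + e0 := by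
    have hWs : ∑ T, Wr σ T = 1 := Wr_sum _
    have e1 : τ * Q ≤ ∑ T, Wr σ T * (A0 * Ps T + ∑ i ∈ T, (b1 * Ps T + L T i) + e0) := by
      rw [hQ, mul_sum]
      apply sum_le_sum
      intro T _
      rw [mul_left_comm]
      exact mul_le_mul_of_nonneg_left (hklv T) (hWn T)
    have e2 : ∑ T, Wr σ T * (A0 * Ps T + ∑ i ∈ T, (b1 * Ps T + L T i) + e0) =
        A0 * E + ∑ T, Wr σ T * ∑ i ∈ T, (b1 * Ps T + L T i) + e0 := by
      have : ∀ T, Wr σ T * (A0 * Ps T + ∑ i ∈ T, (b1 * Ps T + L T i) + e0) =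
        A0 * (Wr σ T * Ps T) + Wr σ T * ∑ i ∈ T, (b1 * Ps T + L T i) + Wr σ T * e0 := by
        intro T; ring
      rw [sum_congr rfl (fun T _ => this T), sum_add_distrib, sum_add_distrib, ← mul_sum,
        ← sum_mul, hWs, hE]
      ring
    have e3 := exch σ (fun i => by linarith [hσ4 i]) (fun T i => b1 * Ps T + L T i)
    rw [e2, e3] at e1
    linarith
  -- step 3
  have st3 : Q ≤ 2 * Kb * (E + 1) / τ := by
    rw [le_div_iff₀ hτ]
    have g1 : 4 / 3 * (s0 * u * (1 + 2 * b1)) * Q ≤ 4 / 3 * (τ / 4) * Q := by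
      apply mul_le_mul_of_nonneg_right _ hQ0
      linarith
    have g2 : A0 * E + 4 / 3 * ((b1 + ε1) * u * Ss) * E + e0 ≤ 4 / 3 * (Kb * (E + 1)) := by
      rw [hKb]
      nlinarith [mul_nonneg hA0 hE0, mul_nonneg hX hE0, mul_nonneg he0.le hE0]
    nlinarith
  -- step 4
  refine st1.trans ?_
  calc 4 / 3 * s1 * c * Q ≤ 4 / 3 * s1 * c * (2 * Kb * (E + 1) / τ) := by
        apply mul_le_mul_of_nonneg_left st3; positivity
    _ = 8 / 3 * (c * s1 * Kb / τ * (E + 1)) := by ring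
    _ ≤ 3 * (c * s1 * Kb / τ * (E + 1)) := by
        have : 0 ≤ c * s1 * Kb / τ * (E + 1) := by positivity
        linarith
    _ = _ := by ring

end Vale.Agent.P042.UU.Psi
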