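import Vale.Agent.P042.UU.PsiA

set_option autoImplicit false
set_option linter.unusedSectionVars false

/-!
Staged and truncated self-bounding estimate, part B: the estimate for a density.
-/

namespace Vale.Agent.P042.UU.Psi

open Finset Real Vale.Agent.P042.TT.Psi

variable {ι : Type} [Fintype ι] [DecidableEq ι] {X : ι → Type} [∀ i, Fintype (X i)]

/-- integrated form of the class bound, with an error term -/
lemma klv_int2 (p : ∀ i, X i → ℝ) (hp : ∀ i z, 0 ≤ p i z) (hp1 : ∀ i, ∑ z, p i z = 1)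
    (F : (∀ i, X i) → ℝ) (hF : ∀ x, 0 ≤ F x) (θ : ℝ) (hθ : 0 < θ)
    (ℓ : ∀ i, X i → ℝ) (τ A0 b1 : ℝ) (hτ : 0 < τ)
    (T : Finset ι) (err : (∀ i, X i) → ℝ)
    (hklv : ∀ x, cexp p T F x * ∑ i ∈ univ \ T, KLc p F T i x ≤ 1 / τ * (cexp p T F x *
      (A0 + b1 * (T.card : ℝ) + ∑ i ∈ T, ℓ i (x i) - log (cexp p T F x))) + err x)
    (herr : ex p (fun x => cexp p T F x ^ θ * err x) ≤ 1 / τ) :
    τ * ∑ i ∈ univ \ T, KK p F θ T i ≤
      A0 * Psi p F θ T + ∑ i ∈ T, (b1 * Psi p F θ T + LL p F θ ℓ T i) + 2 := by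
  have h1 : τ * ∑ i ∈ univ \ T, KK p F θ T i =
      ex p (fun x => τ * ∑ i ∈ univ \ T, cexp p T F x ^ (1 + θ) * KLc p F T i x) := by
    rw [ex_smul]
    congr 1
    unfold KK
    rw [ex_sum]
  have h2 : A0 * Psi p F θ T + ∑ i ∈ T, (b1 * Psi p F θ T + LL p F θ ℓ T i) + 1 +
      τ * ex p (fun x => cexp p T F x ^ θ * err x) =
      ex p (fun x => A0 * cexp p T F x ^ (1 + θ) +
        ∑ i ∈ T, (b1 * cexp p T F x ^ (1 + θ) + cexp p T F x ^ (1 + θ) * ℓ i (x i)) + 1 +
        τ * (cexp p T F x ^ θ * err x)) := by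
    rw [ex_add, ex_add, ex_add, ex_smul, ex_smul, ex_const p hp1, ex_sum]
    congr 3
    apply sum_congr rfl
    intro i _
    rw [ex_add, ex_smul]
    rfl
  have h3 : τ * ex p (fun x => cexp p T F x ^ θ * err x) ≤ 1 := by
    have := mul_le_mul_of_nonneg_left herr hτ.le
    rwa [mul_one_div_cancel hτ.ne'] at this
  have h4 : τ * ∑ i ∈ univ \ T, KK p F θ T i ≤
      A0 * Psi p F θ T + ∑ i ∈ T, (b1 * Psi p F θ T + LL p F θ ℓ T i) + 1 +
      τ * ex p (fun x => cexp p T F x ^ θ * err x) := by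
    rw [h1, h2]
    apply ex_mono p hp
    intro x
    rcases (cexp_nonneg p hp F hF T x).eq_or_lt with h | h
    · rw [← h, Real.zero_rpow (by linarith), Real.zero_rpow hθ.ne']
      simp
    · have hk := hklv x
      have hc : 0 ≤ cexp p T F x ^ θ := Real.rpow_nonneg h.le _
      have e1 : cexp p T F x ^ (1 + θ) = cexp p T F x ^ θ * cexp p T F x := by
        rw [add_comm, Real.rpow_add h, Real.rpow_one]
      have hm := mul_le_mul_of_nonneg_left hk hc
      have hm2 := mul_le_mul_of_nonneg_left hm hτ.le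
      have hlog := pow_mul_log_le (cexp p T F x) θ h.le hθ.le
      have hlog2 : cexp p T F x ^ (1 + θ) * (- log (cexp p T F x)) ≤ 1 :=
        (mul_le_mul_of_nonneg_left (le_max_left _ _) (Real.rpow_nonneg h.le _)).trans hlog
      have e2 : τ * ∑ i ∈ univ \ T, cexp p T F x ^ (1 + θ) * KLc p F T i x =
          τ * (cexp p T F x ^ θ * (cexp p T F x * ∑ i ∈ univ \ T, KLc p F T i x)) := by
        rw [e1, ← mul_sum]; ring
      have e3 : τ * (cexp p T F x ^ θ * (1 / τ * (cexp p T F x *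
        (A0 + b1 * (T.card : ℝ) + ∑ i ∈ T, ℓ i (x i) - log (cexp p T F x))) + err x)) =
        cexp p T F x ^ (1 + θ) *
          (A0 + b1 * (T.card : ℝ) + ∑ i ∈ T, ℓ i (x i) - log (cexp p T F x)) +
          τ * (cexp p T F x ^ θ * err x) := by
        rw [e1]; field_simp
      have e4 : ∑ i ∈ T, (b1 * cexp p T F x ^ (1 + θ) + cexp p T F x ^ (1 + θ) * ℓ i (x i)) =
          cexp p T F x ^ (1 + θ) * (b1 * (T.card : ℝ) + ∑ i ∈ T, ℓ i (x i)) := by
        rw [sum_add_distrib, sum_const, ← mul_sum, nsmul_eq_mul]; ring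
      rw [e2, e4]
      rw [e3] at hm2
      linarith
  linarith

/-- the staged, truncated self-bounding estimate -/
theorem psi_core2 (p : ∀ i, X i → ℝ) (hp : ∀ i z, 0 ≤ p i z) (hp1 : ∀ i, ∑ z, p i z = 1)
    (F : (∀ i, X i) → ℝ) (hF : ∀ x, 0 ≤ F x) (θ U : ℝ) (hθ : 0 < θ) (hθ1 : θ ≤ 1)
    (hU1 : 1 ≤ U) (hU : ∀ i z, p i z = 0 ∨ 1 ≤ U * p i z)
    (s : ι → ℝ) (s0 τ A0 b1 ε1 : ℝ) (ℓ : ∀ i, X i → ℝ) (blk : ι → ℕ) (J : ℕ) (sb : ℕ → ℝ)
    (D : ℕ) (err : Finset ι → (∀ i, X i) → ℝ)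
    (hs : ∀ i, 0 ≤ s i ∧ s i ≤ sb (blk i)) (hs00 : 0 ≤ s0) (hs0 : s0 ≤ 1 / 4)
    (hsb : ∀ j, 0 ≤ sb j ∧ sb j ≤ s0) (hblk : ∀ i, s i ≠ 0 → blk i < J) (hτ : 0 < τ)
    (hA0 : 0 ≤ A0) (hb1 : 0 ≤ b1) (hε1 : 0 ≤ ε1) (hℓ : ∀ i z, 0 ≤ ℓ i z)
    (hε : ∀ i, ∑ z, p i z * (exp (ℓ i z) - 1) ≤ ε1)
    (hklv : ∀ T x, T.card < D → cexp p T F x * ∑ i ∈ univ \ T, KLc p F T i x ≤
      1 / τ * (cexp p T F x * (A0 + b1 * (T.card : ℝ) + ∑ i ∈ T, ℓ i (x i) -
        log (cexp p T F x))) + err T x)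
    (herr : ∀ T : Finset ι, T.card < D →
      ex p (fun x => cexp p T F x ^ θ * err T x) ≤ 1 / τ)
    (hsm : s0 * U ^ θ * (1 + 2 * b1) ≤ τ / 4) :
    ∑ T, Wr s T * (if T.card ≤ D then Psi p F θ T else 0) + 1 ≤ ((ex p F) ^ (1 + θ) + 1) *
      exp (3 * (θ * (1 + θ) * U ^ θ) / τ * ∑ j ∈ range J, sb j *
        (A0 + 2 + (b1 + ε1) * U ^ θ * ∑ i ∈ univ.filter (fun i => blk i ≤ j), s i)) := by
  have hUθ : 1 ≤ U ^ θ := Real.one_le_rpow hU1 hθ.le
  have hPsi0 : Psi p F θ ∅ = (ex p F) ^ (1 + θ) := by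
    unfold Psi
    simp only [cexp_empty]
    rw [ex_const p hp1]
  rw [← hPsi0]
  have hc0 : 0 ≤ θ * (1 + θ) * U ^ θ := by positivity
  have hc2 : θ * (1 + θ) * U ^ θ ≤ 2 * U ^ θ := by
    apply mul_le_mul_of_nonneg_right _ (by linarith)
    nlinarith
  obtain ⟨Ps, hPs⟩ : ∃ Ps : Finset ι → ℝ, Ps = fun T => if T.card ≤ D then Psi p F θ T else 0 :=
    ⟨_, rfl⟩
  obtain ⟨K, hK⟩ : ∃ K : Finset ι → ι → ℝ,
      K = fun T i => if T.card < D then KK p F θ T i else 0 := ⟨_, rfl⟩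
  obtain ⟨L, hL⟩ : ∃ L : Finset ι → ι → ℝ,
      L = fun T i => if T.card ≤ D then LL p F θ ℓ T i else 0 := ⟨_, rfl⟩
  have hP0 := Psi_nonneg p hp F hF θ
  have hLL0 : ∀ T i, 0 ≤ LL p F θ ℓ T i := fun T i =>
    ex_nonneg p hp _ (fun x => mul_nonneg (Real.rpow_nonneg (cexp_nonneg p hp F hF T x) _)
      (hℓ i _))
  have hPs0 : ∀ T, 0 ≤ Ps T := by
    intro T
    simp only [hPs]
    split_ifs
    · exact hP0 T
    · exact le_refl _
  have hL0 : ∀ T i, 0 ≤ L T i := by
    intro T i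
    simp only [hL]
    split_ifs
    · exact hLL0 T i
    · exact le_refl _
  have hKn : ∀ T, ∀ i ∈ univ \ T, 0 ≤ K T i := by
    intro T i hi
    simp only [hK]
    split_ifs
    · exact KK_nonneg p hp hp1 F hF θ hθ T i (by simpa using hi)
    · exact le_refl _
  have hPi : ∀ T, ∀ i ∈ univ \ T,
      Ps (insert i T) ≤ Ps T + (θ * (1 + θ) * U ^ θ) * K T i := by
    intro T i hi
    have hi' : i ∉ T := by simpa using hi
    by_cases h : T.card < D
    · have e1 : Ps (insert i T) = Psi p F θ (insert i T) := by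
        simp only [hPs]; rw [if_pos]; rw [card_insert_of_notMem hi']; omega
      have e2 : Ps T = Psi p F θ T := by simp only [hPs]; rw [if_pos]; omega
      have e3 : K T i = KK p F θ T i := by simp only [hK]; rw [if_pos h]
      rw [e1, e2, e3]
      exact Psi_insert p hp hp1 F hF θ U hθ hθ1 hU1 hU T i hi'
    · have e1 : Ps (insert i T) = 0 := by
        simp only [hPs]; rw [if_neg]; rw [card_insert_of_notMem hi']; omega
      rw [e1]
      exact add_nonneg (hPs0 T) (mul_nonneg hc0 (hKn T i hi))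
  have hLi : ∀ T, ∀ i ∈ univ \ T, L (insert i T) i ≤ U ^ θ * (K T i + ε1 * Ps T) := by
    intro T i hi
    have hi' : i ∉ T := by simpa using hi
    by_cases h : T.card < D
    · have e1 : L (insert i T) i = LL p F θ ℓ (insert i T) i := by
        simp only [hL]; rw [if_pos]; rw [card_insert_of_notMem hi']; omega
      have e2 : Ps T = Psi p F θ T := by simp only [hPs]; rw [if_pos]; omega
      have e3 : K T i = KK p F θ T i := by simp only [hK]; rw [if_pos h]
      rw [e1, e2, e3]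
      exact LL_insert p hp hp1 F hF θ U hθ hU1 hU ℓ hℓ ε1 hε T i hi'
    · have e1 : L (insert i T) i = 0 := by
        simp only [hL]; rw [if_neg]; rw [card_insert_of_notMem hi']; omega
      rw [e1]
      exact mul_nonneg (by linarith) (add_nonneg (hKn T i hi) (mul_nonneg hε1 (hPs0 T)))
  have hkl : ∀ T, τ * ∑ i ∈ univ \ T, K T i ≤
      A0 * Ps T + ∑ i ∈ T, (b1 * Ps T + L T i) + 2 := by
    intro T
    by_cases h : T.card < D
    · have e2 : Ps T = Psi p F θ T := by simp only [hPs]; rw [if_pos]; omega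
      have e3 : ∀ i, K T i = KK p F θ T i := by intro i; simp only [hK]; rw [if_pos h]
      have e4 : ∀ i, L T i = LL p F θ ℓ T i := by intro i; simp only [hL]; rw [if_pos]; omega
      simp only [e2, e3, e4]
      exact klv_int2 p hp hp1 F hF θ hθ ℓ τ A0 b1 hτ T (err T) (fun x => hklv T x h)
        (herr T h)
    · have e3 : ∀ i, K T i = 0 := by intro i; simp only [hK]; rw [if_neg h]
      simp only [e3]
      have : 0 ≤ ∑ i ∈ T, (b1 * Ps T + L T i) := sum_nonneg fun i _ =>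
        add_nonneg (mul_nonneg hb1 (hPs0 T)) (hL0 T i)
      have h5 := mul_nonneg hA0 (hPs0 T)
      simp
      linarith
  -- rates of the first stages
  obtain ⟨sj, hsj⟩ : ∃ sj : ℕ → ι → ℝ, sj = fun j i => if blk i < j then s i else 0 := ⟨_, rfl⟩
  have hs4 : ∀ i, s i ≤ s0 := fun i => (hs i).2.trans (hsb _).2
  have hstage : ∀ j, ∑ T, Wr (sj (j + 1)) T * Ps T + 1 ≤ (∑ T, Wr (sj j) T * Ps T + 1) *
      exp (3 * (θ * (1 + θ) * U ^ θ) / τ * (sb j *
        (A0 + 2 + (b1 + ε1) * U ^ θ * ∑ i ∈ univ.filter (fun i => blk i ≤ j), s i))) := by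
    intro j
    obtain ⟨d, hd⟩ : ∃ d : ι → ℝ, d = fun i => if blk i = j then s i else 0 := ⟨_, rfl⟩
    have hbd : ∀ i, d i = 0 ∨ sj j i = 0 := by
      intro i
      simp only [hd, hsj]
      by_cases h : blk i = j
      · right; rw [if_neg]; omega
      · left; rw [if_neg h]
    have hsum : (fun i => sj j i + d i) = sj (j + 1) := by
      funext i
      simp only [hd, hsj]
      by_cases h : blk i = j
      · rw [if_pos h, if_neg (by omega), if_pos (by omega)]; ring
      · by_cases h2 : blk i < j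
        · rw [if_pos h2, if_neg h, if_pos (by omega)]; ring
        · rw [if_neg h2, if_neg h, if_neg (by omega)]; ring
    have hd0 : ∀ i, 0 ≤ d i ∧ d i ≤ sb j := by
      intro i
      simp only [hd]
      by_cases h : blk i = j
      · rw [if_pos h]; exact ⟨(hs i).1, h ▸ (hs i).2⟩
      · rw [if_neg h]; exact ⟨le_refl _, (hsb j).1⟩
    have hsj0 : ∀ i, 0 ≤ sj j i ∧ sj j i ≤ s i := by
      intro i
      simp only [hsj]
      split_ifs
      · exact ⟨(hs i).1, le_refl _⟩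
      · exact ⟨le_refl _, (hs i).1⟩
    have hsj1 : ∀ i, 0 ≤ sj (j + 1) i ∧ sj (j + 1) i ≤ s i := by
      intro i
      simp only [hsj]
      split_ifs
      · exact ⟨(hs i).1, le_refl _⟩
      · exact ⟨le_refl _, (hs i).1⟩
    have hle : ∀ i, sj j i + d i ≤ s i := by
      intro i
      have := congrFun hsum i
      rw [this]
      exact (hsj1 i).2
    have hSum : ∑ i, sj (j + 1) i = ∑ i ∈ univ.filter (fun i => blk i ≤ j), s i := by
      rw [sum_filter]
      apply sum_congr rfl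
      intro i _
      simp only [hsj]
      by_cases h : blk i ≤ j
      · rw [if_pos h, if_pos (by omega)]
      · rw [if_neg h, if_neg (by omega)]
    have g := gronwall2 (sj j) d hbd Ps (3 * (θ * (1 + θ) * U ^ θ) / τ * (sb j *
        (A0 + 2 + (b1 + ε1) * U ^ θ * ∑ i ∈ univ.filter (fun i => blk i ≤ j), s i)))
      (fun i => (hd0 i).1) (fun i => by linarith [hle i, hs4 i]) ?_
    · rw [hsum] at g
      exact g
    · intro r hr0 hr1
      have hσ : ∀ i, 0 ≤ sj j i + r * d i ∧ sj j i + r * d i ≤ sj (j + 1) i := by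
        intro i
        refine ⟨add_nonneg (hsj0 i).1 (mul_nonneg hr0.le (hd0 i).1), ?_⟩
        have := congrFun hsum i
        rw [← this]
        nlinarith [(hd0 i).1]
      have h := step_le2 (sj (j + 1)) (fun i => sj j i + r * d i) d s0 (sb j) τ A0 b1 ε1 (U ^ θ)
        (θ * (1 + θ) * U ^ θ) 2 Ps K L (fun i => ⟨(hsj1 i).1, (hsj1 i).2.trans (hs4 i)⟩) hs00
        hσ (fun i => by
          have h1 := (hσ i).2
          have h2 := (hsj1 i).2
          have h3 := hs4 i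
          show sj j i + r * d i ≤ 1 / 4
          linarith) hd0 (hsb j).1 hτ hA0 hb1 hε1 (by norm_num) hUθ hc0 hc2
        hPs0 hKn hPi hLi hkl hsm
      rw [hSum] at h
      refine h.trans (le_of_eq ?_)
      ring
  have hall : ∀ j, ∑ T, Wr (sj j) T * Ps T + 1 ≤ (Psi p F θ ∅ + 1) *
      exp (3 * (θ * (1 + θ) * U ^ θ) / τ * ∑ j ∈ range j, sb j *
        (A0 + 2 + (b1 + ε1) * U ^ θ * ∑ i ∈ univ.filter (fun i => blk i ≤ j), s i)) := by
    intro j
    induction j with
    | zero =>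
      have e0 : ∑ T, Wr (sj 0) T * Ps T = Ps ∅ := by
        rw [sum_eq_single ∅]
        · simp [Wr, hsj]
        · intro T _ hT
          obtain ⟨i, hi⟩ := nonempty_iff_ne_empty.mpr hT
          unfold Wr
          rw [prod_eq_zero hi (by simp [hsj])]
          simp
        · intro h; exact absurd (mem_univ _) h
      rw [e0]
      have e1 : Ps ∅ = Psi p F θ ∅ := by simp [hPs]
      rw [e1]
      simp
    | succ j ih =>
      refine (hstage j).trans ?_
      rw [sum_range_succ, mul_add (3 * (θ * (1 + θ) * U ^ θ) / τ), exp_add]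
      refine (mul_le_mul_of_nonneg_right ih (exp_pos _).le).trans (le_of_eq ?_)
      rw [mul_assoc]
  have hfin := hall J
  have hsJ : sj J = s := by
    funext i
    simp only [hsj]
    by_cases h : s i = 0
    · rw [h]; simp
    · rw [if_pos (hblk i h)]
  rw [hsJ] at hfin
  simp only [hPs] at hfin
  exact hfin

end Vale.Agent.P042.UU.Psi
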