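import Vale.Agent.P042.UU.RawB

set_option autoImplicit false

/-!
Block RAW5: existence of the near extremal state.
-/

namespace Vale.Agent.P042.UU

open Polynomial Finset Pointwise Filter Asymptotics Vale.Agent.P042.SS Vale.Agent.P042.TT

lemma raw_pow_ev (a b C D : ℝ) (h : a < b) (hD : 0 < D) :
    ∀ᶠ P : ℝ in atTop, C * P ^ a ≤ D * P ^ b := by
  have h1 : Tendsto (fun P : ℝ => P ^ (b - a)) atTop atTop :=
    tendsto_rpow_atTop (by linarith)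
  filter_upwards [h1.eventually_ge_atTop (|C| / D), eventually_gt_atTop 0] with P h2 h3
  have h4 : P ^ b = P ^ (b - a) * P ^ a := by
    rw [← Real.rpow_add h3]; congr 1; ring
  have h5 : 0 < P ^ a := Real.rpow_pos_of_pos h3 a
  rw [h4, ← mul_assoc]
  apply mul_le_mul_of_nonneg_right _ h5.le
  rw [div_le_iff₀ hD] at h2
  calc C ≤ |C| := le_abs_self C
    _ ≤ P ^ (b - a) * D := h2
    _ = D * P ^ (b - a) := by ring

lemma raw_const_ev (b C D : ℝ) (h : 0 < b) (hD : 0 < D) :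
    ∀ᶠ P : ℝ in atTop, C ≤ D * P ^ b := by
  filter_upwards [raw_pow_ev 0 b C D h hD] with P h1
  simpa using h1

/-- numeric facts -/
structure RawNum (ε P : ℝ) : Prop where
  ge : 100 ≤ P
  b : 1002 * P ^ (1 - 50.5 * ε) ≤ P ^ (1 - 49 * ε)
  c : P ^ (1 - 50.5 * ε) / 4 + P ^ (1 - 100 * ε) + 4 ≤ P ^ (1 - 48.5 * ε)
  e : 10 ≤ P ^ (1 - 100 * ε)
  f : 2 * P ^ (1 - 2 * ε) + 1 ≤ P ^ (1 - 1.9 * ε)
  g : 2 * P ^ (1 - 2 * ε) ≤ P / 8

lemma raw_num (ε : ℝ) (hε : 0 < ε) (hε1 : ε ≤ 1 / 1000) :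
    ∃ P0 : ℝ, ∀ P : ℝ, P0 ≤ P → RawNum ε P := by
  have key : ∀ᶠ P : ℝ in atTop, RawNum ε P := by
    filter_upwards [eventually_ge_atTop (100 : ℝ),
      raw_pow_ev (1 - 50.5 * ε) (1 - 49 * ε) 1002 1 (by linarith) one_pos,
      raw_pow_ev (1 - 50.5 * ε) (1 - 48.5 * ε) 1 1 (by linarith) one_pos,
      raw_pow_ev (1 - 100 * ε) (1 - 48.5 * ε) 4 1 (by linarith) one_pos,
      raw_const_ev (1 - 48.5 * ε) 16 1 (by linarith) one_pos,
      raw_const_ev (1 - 100 * ε) 10 1 (by linarith) one_pos,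
      raw_pow_ev (1 - 2 * ε) (1 - 1.9 * ε) 4 1 (by linarith) one_pos,
      raw_const_ev (1 - 1.9 * ε) 2 1 (by linarith) one_pos,
      raw_pow_ev (1 - 2 * ε) 1 2 (1 / 8) (by linarith) (by norm_num)]
      with P h0 h1 h2 h3 h4 h5 h6 h7 h8
    rw [one_mul] at h1 h2 h3 h4 h5 h6 h7
    refine ⟨h0, h1, ?_, h5, ?_, ?_⟩
    · rw [one_mul] at h2
      linarith
    · linarith
    · rw [Real.rpow_one] at h8
      linarith
  exact eventually_atTop.1 key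

lemma raw_cel_one (l : ℕ) : cel 0 l 1 0 = Icc (1 : ℤ) l := by
  unfold cel
  ext n
  simp only [mem_filter, mem_Ioc, mem_Icc]
  constructor
  · rintro ⟨⟨h1, h2⟩, -⟩
    constructor <;> omega
  · rintro ⟨h1, h2⟩
    refine ⟨⟨by omega, by omega⟩, ?_⟩
    simp [Int.modEq_one]

/-- upper bound for the mass of a clipped weight -/
lemma raw_upper (hM : MGF5Stmt) (ε : ℝ) (hε : 0 < ε) (hε1 : ε ≤ 1 / 1000) :
    ∃ P0 : ℝ, ∀ P : ℝ, P0 ≤ P → ∀ (l : ℕ) (g : ℤ → ℝ) (ν : ℕ → ℤ → ℝ),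
      Real.exp (P / 2) ≤ l → (∀ n, 0 ≤ g n) → (∀ n, g n ≤ 1) → RawW ε P ν →
      ∑ n ∈ Icc (1 : ℤ) l, Gc (W5 ε P) (Mc2 ε P) g ν n ≤
        l * (2 * Real.exp (-(7 / 8 * Hl (W5 ε P) ν)) + Real.exp (-(P ^ (1 - 48.5 * ε)))) := by
  obtain ⟨P1, hP1⟩ := hM ε hε hε1
  obtain ⟨P2, hP2⟩ := raw_num ε hε hε1
  refine ⟨max P1 P2, fun P hP l g ν hl hg0 hg1 hν => ?_⟩
  have hn := hP2 P ((le_max_right _ _).trans hP)
  have hPpos : 0 < P := by linarith [hn.ge]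
  have hWp : ∀ p ∈ W5 ε P, p.Prime := fun p hp => raw_prime hp
  have hsub : W5 ε P ⊆ Vn ε P 1 := by
    intro p hp
    refine mem_filter.2 ⟨hp, fun h => ?_⟩
    have := (hWp p hp).one_lt
    have := Nat.le_of_dvd one_pos h
    omega
  have hneg : ∏ p ∈ W5 ε P, ((∑ z ∈ range p, Real.exp (-2 * lg (ν p z))) / (p : ℝ)) ≤
      Real.exp (P ^ (1 - 49 * ε)) := by
    refine (raw_prod_neg hWp hν.wts).trans (Real.exp_le_exp.2 ?_)
    have h1 := hν.hell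
    unfold V05 at h1
    linarith [hn.b]
  have key := (hP1 P ((le_max_left _ _).trans hP) (W5 ε P) (fun p n => lg (ν p n)) 1 l 0 0 hsub
    le_rfl (by simp only [Nat.cast_one, Real.log_one]; exact Real.rpow_nonneg hPpos.le _) hl
    (fun p hp n => by simp only [hν.wts.per p hp n])
    (fun p hp n => by
      obtain ⟨h1, h2⟩ := raw_lg_bd (ν p n) (hν.le4 p hp n) (hν.wts.nn p n)
      rw [abs_le]
      constructor <;> linarith) hneg).1 (Mc2 ε P) (by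
        have hMc : 0 ≤ Mc2 ε P := Real.rpow_nonneg hPpos.le _
        linarith)
  rw [raw_cel_one, Nat.cast_one, div_one, Finset.sum_filter] at key
  have hle : ∑ n ∈ Icc (1 : ℤ) l, Gc (W5 ε P) (Mc2 ε P) g ν n ≤
      ∑ n ∈ Icc (1 : ℤ) l, (if ∑ p ∈ W5 ε P, lg (ν p n) ≤ Mc2 ε P then
        Real.exp (∑ p ∈ W5 ε P, lg (ν p n)) else 0) := by
    refine sum_le_sum fun n _ => ?_
    unfold Gc Xn
    by_cases hc : ∑ p ∈ W5 ε P, lg (ν p n) ≤ Mc2 ε P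
    · rw [if_pos hc, if_pos hc, Real.exp_sum]
      have h1 : ∏ p ∈ W5 ε P, Real.sqrt (ν p n) ≤ ∏ p ∈ W5 ε P, Real.exp (lg (ν p n)) :=
        prod_le_prod (fun _ _ => Real.sqrt_nonneg _) fun p _ => raw_sqrt_le _ (hν.wts.nn p n)
      have h2 : 0 ≤ ∏ p ∈ W5 ε P, Real.sqrt (ν p n) := prod_nonneg fun _ _ => Real.sqrt_nonneg _
      calc g n * ∏ p ∈ W5 ε P, Real.sqrt (ν p n) ≤ 1 * ∏ p ∈ W5 ε P, Real.sqrt (ν p n) :=
            mul_le_mul_of_nonneg_right (hg1 n) h2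
        _ ≤ _ := by rw [one_mul]; exact h1
    · rw [if_neg hc, if_neg hc]
  refine hle.trans (key.trans ?_)
  apply mul_le_mul_of_nonneg_left _ (Nat.cast_nonneg l)
  have := raw_prod_exp hWp hν.wts
  linarith

/-- crude bound -/
lemma raw_crude {ε P : ℝ} {lam : ℕ → ℕ} {A : Finset ℤ} {d : ℕ} {a : ℤ} {l N : ℕ}
    {ν : ℕ → ℤ → ℝ} (hν : RawW ε P ν) (hl : 1 ≤ l) (hlN : l ≤ N) (hη : 0 ≤ eta5 ε P) :
    Vst ε P lam A d a l ν ≤ (N : ℝ) ^ (eta5 ε P) * 2 ^ (W5 ε P).card *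
      Real.exp (1 / 8 * (W5 ε P).card) := by
  have hl0 : (0 : ℝ) < l := by exact_mod_cast hl
  unfold Vst
  have h1 : ∑ n ∈ Icc (1 : ℤ) l, Gc (W5 ε P) (Mc2 ε P) (gA lam A d a) ν n ≤
      l * 2 ^ (W5 ε P).card := by
    have h2 : ∀ n ∈ Icc (1 : ℤ) l, Gc (W5 ε P) (Mc2 ε P) (gA lam A d a) ν n ≤
        2 ^ (W5 ε P).card := by
      intro n _
      unfold Gc
      split_ifs
      · have h3 : ∏ p ∈ W5 ε P, Real.sqrt (ν p n) ≤ ∏ _p ∈ W5 ε P, (2 : ℝ) := by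
          refine prod_le_prod (fun _ _ => Real.sqrt_nonneg _) fun p hp => ?_
          rw [Real.sqrt_le_left (by norm_num)]
          have := hν.le4 p hp n
          linarith
        rw [prod_const] at h3
        have h4 : 0 ≤ ∏ p ∈ W5 ε P, Real.sqrt (ν p n) := prod_nonneg fun _ _ => Real.sqrt_nonneg _
        calc _ ≤ 1 * ∏ p ∈ W5 ε P, Real.sqrt (ν p n) :=
              mul_le_mul_of_nonneg_right (gA_le_one _ _ _ _ _) h4
          _ ≤ _ := by rw [one_mul]; exact h3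
      · positivity
    have h5 := sum_le_sum h2
    rw [sum_const, nsmul_eq_mul] at h5
    have h6 : ((Icc (1 : ℤ) l).card : ℝ) = l := by simp
    rwa [h6] at h5
  have h2 : ∑ p ∈ W5 ε P, zf ν p ≤ (W5 ε P).card := by
    have : ∀ p ∈ W5 ε P, zf ν p ≤ 1 := by
      intro p hp
      have hp0 : (0 : ℝ) < p := by exact_mod_cast (raw_prime hp).pos
      unfold zf
      rw [div_le_one hp0]
      have := card_filter_le (range p) (fun x : ℕ => ν p x = 0)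
      rw [card_range] at this
      exact_mod_cast this
    have h3 := sum_le_sum this
    simpa using h3
  have e2 : (l : ℝ) ^ (eta5 ε P - 1) * (l : ℝ) = (l : ℝ) ^ (eta5 ε P) := by
    rw [← Real.rpow_add_one hl0.ne']
    norm_num
  have h3 : (l : ℝ) ^ (eta5 ε P) ≤ (N : ℝ) ^ (eta5 ε P) :=
    Real.rpow_le_rpow hl0.le (by exact_mod_cast hlN) hη
  have h4 : 0 ≤ (l : ℝ) ^ (eta5 ε P - 1) := Real.rpow_nonneg hl0.le _
  calc _ ≤ (l : ℝ) ^ (eta5 ε P - 1) * (l * 2 ^ (W5 ε P).card) *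
        Real.exp (1 / 8 * (W5 ε P).card) := by
        apply mul_le_mul (mul_le_mul_of_nonneg_left h1 h4) _ (Real.exp_pos _).le (by positivity)
        apply Real.exp_le_exp.2
        linarith
    _ = (l : ℝ) ^ (eta5 ε P) * 2 ^ (W5 ε P).card * Real.exp (1 / 8 * (W5 ε P).card) := by
        rw [← e2]; ring
    _ ≤ _ := by gcongr

/-- value of the initial configuration -/
lemma raw_init {h : ℤ[X]} {lam : ℕ → ℕ} {r : ℕ → ℤ} {Hh : ℕ → ℤ[X]} {R : ℕ}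
    (hA : AuxData h lam r Hh R) {ε P : ℝ} (hMc : 0 ≤ Mc2 ε P) (N : ℕ) (A : Finset ℤ)
    (hAN : A ⊆ Icc (1 : ℤ) N) :
    Vst ε P lam A 1 0 N (fun _ _ => 1) = (N : ℝ) ^ (eta5 ε P - 1) * A.card := by
  classical
  have hinit : ∑ n ∈ Icc (1 : ℤ) N, Gc (W5 ε P) (Mc2 ε P) (gA lam A 1 0) (fun _ _ => 1) n =
      A.card := by
    have e1 : ∀ n : ℤ, Gc (W5 ε P) (Mc2 ε P) (gA lam A 1 0) (fun _ _ => 1) n =
        gA lam A 1 0 n := by
      intro n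
      unfold Gc Xn
      simp only [raw_lg_one, sum_const_zero, if_pos hMc, Real.sqrt_one, prod_const_one, mul_one]
    simp only [e1]
    unfold gA
    simp only [aux_lam_one hA, Nat.cast_one, zero_add, one_mul]
    rw [Finset.sum_ite_mem, Finset.inter_eq_right.2 hAN]
    simp
  have hzf0 : ∑ p ∈ W5 ε P, zf (fun _ _ => 1 : ℕ → ℤ → ℝ) p = 0 := by
    refine sum_eq_zero fun p _ => ?_
    unfold zf
    simp
  unfold Vst
  rw [hinit, hzf0, mul_zero, Real.exp_zero, mul_one]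

/-- near maximiser -/
lemma raw_near {h : ℤ[X]} {lam : ℕ → ℕ} {r : ℕ → ℤ} {Hh : ℕ → ℤ[X]} {R : ℕ}
    (hA : AuxData h lam r Hh R) {ε P : ℝ} (hMc : 0 ≤ Mc2 ε P) (hV0 : 0 ≤ V05 ε P)
    (hη : 0 < eta5 ε P) {N Nmin : ℕ} (hN1 : 1 ≤ N) (hNmin2 : 2 ≤ Nmin) (hNN : Nmin ≤ N)
    (A : Finset ℤ) (hAN : A ⊆ Icc (1 : ℤ) N) (hcard0 : (0 : ℝ) < A.card) (δ : ℝ) (hδ0 : 0 < δ) :
    ∃ (d : ℕ) (a : ℤ) (l : ℕ) (ν : ℕ → ℤ → ℝ), Adm lam N Nmin d a l ∧ RawW ε P ν ∧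
      ∀ (d' : ℕ) (a' : ℤ) (l' : ℕ) (ν' : ℕ → ℤ → ℝ),
        Adm lam N Nmin d' a' l' → RawW ε P ν' →
        Vst ε P lam A d' a' l' ν' ≤ Vst ε P lam A d a l ν * Real.exp δ := by
  have hNr : (0 : ℝ) < N := by exact_mod_cast hN1
  have hone := raw_one ε P hV0
  have hadm0 : Adm lam N Nmin 1 0 N := Adm.zero hA hNN
  have hVinit := raw_init hA hMc N A hAN
  have hVpos : 0 < Vst ε P lam A 1 0 N (fun _ _ => 1) := by
    rw [hVinit]
    have := Real.rpow_pos_of_pos hNr (eta5 ε P - 1)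
    positivity
  set SS0 : Set ℝ := {v | ∃ (d : ℕ) (a : ℤ) (l : ℕ) (ν : ℕ → ℤ → ℝ), Adm lam N Nmin d a l ∧
    RawW ε P ν ∧ v = Vst ε P lam A d a l ν} with hSS0
  have hbdd : BddAbove SS0 := by
    refine ⟨(N : ℝ) ^ (eta5 ε P) * 2 ^ (W5 ε P).card * Real.exp (1 / 8 * (W5 ε P).card), ?_⟩
    rintro v ⟨d, a, l, ν, h1, h2, rfl⟩
    obtain ⟨-, hb2, -, -, -⟩ := h1.bounds hA hNmin2
    have hl1 : 1 ≤ l := by
      have := h1.2.1
      omega
    exact raw_crude h2 hl1 hb2 hη.le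
  have hmem0 : Vst ε P lam A 1 0 N (fun _ _ => 1) ∈ SS0 := ⟨1, 0, N, _, hadm0, hone, rfl⟩
  have hsup0 : 0 < sSup SS0 := lt_of_lt_of_le hVpos (le_csSup hbdd hmem0)
  have hlt : sSup SS0 * Real.exp (-δ) < sSup SS0 := by
    have h1 : Real.exp (-δ) < 1 := by
      rw [Real.exp_lt_one_iff]
      linarith
    nlinarith
  obtain ⟨v, ⟨d, a, l, ν, hs, hν, rfl⟩, hv⟩ := exists_lt_of_lt_csSup ⟨_, hmem0⟩ hlt
  refine ⟨d, a, l, ν, hs, hν, ?_⟩
  intro d' a' l' ν' h1 h2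
  have h3 : Vst ε P lam A d' a' l' ν' ≤ sSup SS0 := le_csSup hbdd ⟨d', a', l', ν', h1, h2, rfl⟩
  have h4 : sSup SS0 = sSup SS0 * Real.exp (-δ) * Real.exp δ := by
    rw [mul_assoc, ← Real.exp_add]; simp
  rw [h4] at h3
  exact h3.trans (mul_le_mul_of_nonneg_right hv.le (Real.exp_pos _).le)

lemma raw_log12 : Real.log 12 ≤ 2.5 := by
  rw [Real.log_le_iff_le_exp (by norm_num)]
  have h1 : Real.exp 2.5 = Real.exp 1 ^ 2 * Real.exp 0.5 := by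
    rw [← Real.exp_nat_mul, ← Real.exp_add]; norm_num
  have h2 := Real.exp_one_gt_d9
  have h3 : (1.648 : ℝ) ≤ Real.exp 0.5 := by
    have e : Real.exp 1 = Real.exp 0.5 ^ 2 := by
      rw [← Real.exp_nat_mul]; norm_num
    rw [e] at h2
    by_contra hc
    push Not at hc
    have := Real.exp_pos 0.5
    nlinarith only [h2, hc, this]
  rw [h1]
  have h4 : (7.38 : ℝ) ≤ Real.exp 1 ^ 2 := by nlinarith only [h2]
  nlinarith only [h3, h4]

/-- bound for the Hellinger deviation -/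
lemma raw_numH (x1 H Φ t u V : ℝ) (_hH0 : 0 ≤ H) (hHV : H ≤ V)
    (ht : t = Real.exp (-u)) (hΦup : Φ ≤ 2 * Real.exp (-(7 / 8 * H)) + t)
    (hcmp2 : Real.exp (-x1) ≤ 3 * Φ * Real.exp (H / 4)) (hc : V / 4 + x1 + 4 ≤ u) :
    H ≤ 1.6 * x1 + 4 := by
  have h1 : 3 * t * Real.exp (H / 4) ≤ Real.exp (-x1) / 2 := by
    have h2 : 3 * t * Real.exp (H / 4) ≤ Real.exp (2 + -u + V / 4) := by
      rw [Real.exp_add, Real.exp_add, ht]
      have h3 : (3 : ℝ) ≤ Real.exp 2 := by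
        have := Real.add_one_le_exp (2 : ℝ)
        linarith only [this]
      have h4 : Real.exp (H / 4) ≤ Real.exp (V / 4) := by
        apply Real.exp_le_exp.2
        linarith only [hHV]
      gcongr
    refine h2.trans ?_
    have h7 : Real.exp (-x1) / 2 = Real.exp (-x1 + -Real.log 2) := by
      rw [Real.exp_add, Real.exp_neg (Real.log 2), Real.exp_log (by norm_num)]
      ring
    rw [h7]
    apply Real.exp_le_exp.2
    have h8 := Real.log_two_lt_d9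
    linarith only [h8, hc]
  have h2 : Real.exp (-x1) ≤ 12 * Real.exp (-(5 / 8 * H)) := by
    have h3 : 3 * Φ * Real.exp (H / 4) ≤
        6 * Real.exp (-(5 / 8 * H)) + 3 * t * Real.exp (H / 4) := by
      have h4 : Real.exp (-(7 / 8 * H)) * Real.exp (H / 4) = Real.exp (-(5 / 8 * H)) := by
        rw [← Real.exp_add]; congr 1; ring
      have h5 := mul_le_mul_of_nonneg_right hΦup (Real.exp_pos (H / 4)).le
      calc 3 * Φ * Real.exp (H / 4) = 3 * (Φ * Real.exp (H / 4)) := by ring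
        _ ≤ 3 * ((2 * Real.exp (-(7 / 8 * H)) + t) * Real.exp (H / 4)) := by
            linarith only [h5]
        _ = 6 * (Real.exp (-(7 / 8 * H)) * Real.exp (H / 4)) + 3 * t * Real.exp (H / 4) := by
            ring
        _ = _ := by rw [h4]
    linarith only [h1, h3, hcmp2]
  have h3 := Real.log_le_log (Real.exp_pos _) h2
  rw [Real.log_exp, Real.log_mul (by norm_num) (Real.exp_pos _).ne', Real.log_exp] at h3
  have h4 := raw_log12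
  linarith only [h3, h4]

lemma raw_numΦ (x1 H Φ : ℝ) (hx10 : 10 ≤ x1) (hΦ0 : 0 ≤ Φ) (hHx : H ≤ 1.6 * x1 + 4)
    (hcmp2 : Real.exp (-x1) ≤ 3 * Φ * Real.exp (H / 4)) : Real.exp (-(3 * x1)) ≤ Φ := by
  have hexpH : Real.exp (H / 4) ≤ Real.exp (0.4 * x1 + 1) :=
    Real.exp_le_exp.2 (by linarith only [hHx])
  have h1 : Real.exp (-x1) ≤ 3 * Φ * Real.exp (0.4 * x1 + 1) :=
    hcmp2.trans (mul_le_mul_of_nonneg_left hexpH (by positivity))
  have h2 : Real.exp (-x1) * Real.exp (-(0.4 * x1 + 1)) ≤ 3 * Φ := by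
    have h3 := mul_le_mul_of_nonneg_right h1 (Real.exp_pos (-(0.4 * x1 + 1))).le
    rw [mul_assoc (3 * Φ), ← Real.exp_add (0.4 * x1 + 1)] at h3
    simpa using h3
  rw [← Real.exp_add] at h2
  have h4 : 3 * Real.exp (-(3 * x1)) ≤ Real.exp (-x1 + -(0.4 * x1 + 1)) := by
    have h5 : (3 : ℝ) ≤ Real.exp 2 := by
      have := Real.add_one_le_exp (2 : ℝ)
      linarith only [this]
    calc 3 * Real.exp (-(3 * x1)) ≤ Real.exp 2 * Real.exp (-(3 * x1)) :=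
          mul_le_mul_of_nonneg_right h5 (Real.exp_pos _).le
      _ = Real.exp (2 + -(3 * x1)) := by rw [Real.exp_add]
      _ ≤ _ := Real.exp_le_exp.2 (by linarith only [hx10])
  linarith only [h2, h4]

lemma raw_numN (ε P x1 H Φ Nη lη ll : ℝ) (hPpos : 0 < P) (hx10 : 10 ≤ x1)
    (hx1 : x1 = P ^ (1 - 100 * ε)) (hΦ3 : Φ ≤ 3)
    (hHx : H ≤ 1.6 * x1 + 4) (hNη : 0 < Nη) (hlη : 0 < lη)
    (hcmp : Real.exp (-x1) * Nη ≤ lη * (3 * Φ * Real.exp (H / 4)))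
    (hlogN : Real.log Nη = eta5 ε P * P) (hlogl : Real.log lη = eta5 ε P * ll) :
    P - 2 * P ^ (1 - 2 * ε) ≤ ll := by
  have hexpH : Real.exp (H / 4) ≤ Real.exp (0.4 * x1 + 1) :=
    Real.exp_le_exp.2 (by linarith only [hHx])
  have h1 : Nη ≤ lη * Real.exp (2 * x1) := by
    have h2 : 3 * Φ * Real.exp (H / 4) ≤ Real.exp (3 + (0.4 * x1 + 1)) := by
      rw [Real.exp_add]
      have h3 : (9 : ℝ) ≤ Real.exp 3 := by
        have e3 : Real.exp 3 = Real.exp 1 ^ 3 := by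
          rw [← Real.exp_nat_mul]; norm_num
        have h4 := Real.exp_one_gt_d9
        rw [e3]
        calc (9 : ℝ) ≤ 2.7 ^ 3 := by norm_num
          _ ≤ Real.exp 1 ^ 3 := pow_le_pow_left₀ (by norm_num) (by linarith only [h4]) 3
      apply mul_le_mul (by linarith only [hΦ3, h3]) hexpH (Real.exp_pos _).le (Real.exp_pos _).le
    have h5 := hcmp.trans (mul_le_mul_of_nonneg_left h2 hlη.le)
    have h6 := mul_le_mul_of_nonneg_right h5 (Real.exp_pos x1).le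
    have h7 : Real.exp (-x1) * Nη * Real.exp x1 = Nη := by
      calc _ = (Real.exp (-x1) * Real.exp x1) * Nη := by ring
        _ = _ := by rw [← Real.exp_add]; simp
    rw [h7, mul_assoc, ← Real.exp_add] at h6
    refine h6.trans (mul_le_mul_of_nonneg_left (Real.exp_le_exp.2 ?_) hlη.le)
    linarith only [hx10]
  have h2 := Real.log_le_log hNη h1
  rw [Real.log_mul hlη.ne' (Real.exp_pos _).ne', Real.log_exp, hlogN, hlogl] at h2
  have h3 : eta5 ε P * (P - ll) ≤ 2 * x1 := by linarith only [h2]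
  have h4 : P ^ (98 * ε) * eta5 ε P = 1 := by
    unfold eta5
    rw [← Real.rpow_add hPpos]
    simp
  have h5 : 0 < P ^ (98 * ε) := Real.rpow_pos_of_pos hPpos _
  have h6 := mul_le_mul_of_nonneg_left h3 h5.le
  rw [← mul_assoc, h4, one_mul] at h6
  have h7 : P ^ (98 * ε) * (2 * x1) = 2 * P ^ (1 - 2 * ε) := by
    rw [hx1]
    have : P ^ (1 - 2 * ε) = P ^ (98 * ε) * P ^ (1 - 100 * ε) := by
      rw [← Real.rpow_add hPpos]; congr 1; ring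
    rw [this]; ring
  rw [h7] at h6
  linarith only [h6]

lemma raw_numd (ε P : ℝ) (d l N : ℝ) (hl2 : 2 ≤ l) (hd : 0 ≤ d) (h1 : d * (l - 1) ≤ N)
    (hNexp : N = Real.exp P) (hlow1 : Real.exp (P - 2 * P ^ (1 - 2 * ε)) ≤ l)
    (hf : 2 * P ^ (1 - 2 * ε) + 1 ≤ P ^ (1 - 1.9 * ε)) : d ≤ Real.exp (P ^ (1 - 1.9 * ε)) := by
  have h2 : l / 2 ≤ l - 1 := by linarith only [hl2]
  have h4 : d * (l / 2) ≤ N := (mul_le_mul_of_nonneg_left h2 hd).trans h1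
  rw [hNexp] at h4
  have h5 : Real.exp P = Real.exp (2 * P ^ (1 - 2 * ε)) * Real.exp (P - 2 * P ^ (1 - 2 * ε)) := by
    rw [← Real.exp_add]; congr 1; ring
  have h6 : Real.exp P ≤ Real.exp (2 * P ^ (1 - 2 * ε)) * l := by
    rw [h5]
    exact mul_le_mul_of_nonneg_left hlow1 (Real.exp_pos _).le
  have h7 : d * l ≤ (2 * Real.exp (2 * P ^ (1 - 2 * ε))) * l := by linarith only [h4, h6]
  have h8 := le_of_mul_le_mul_right h7 (by linarith only [hl2])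
  refine h8.trans ?_
  have h9 : (2 : ℝ) ≤ Real.exp 1 := by
    have := Real.add_one_le_exp (1 : ℝ)
    linarith only [this]
  calc 2 * Real.exp (2 * P ^ (1 - 2 * ε)) ≤ Real.exp 1 * Real.exp (2 * P ^ (1 - 2 * ε)) :=
        mul_le_mul_of_nonneg_right h9 (Real.exp_pos _).le
    _ = Real.exp (1 + 2 * P ^ (1 - 2 * ε)) := by rw [Real.exp_add]
    _ ≤ _ := Real.exp_le_exp.2 (by linarith only [hf])

/-- comparison with the initial configuration -/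
lemma raw_cmp {h : ℤ[X]} {lam : ℕ → ℕ} {r : ℕ → ℤ} {Hh : ℕ → ℤ[X]} {R : ℕ}
    (hA : AuxData h lam r Hh R) {ε P : ℝ} (hMc : 0 ≤ Mc2 ε P) (hV0 : 0 ≤ V05 ε P)
    {N Nmin : ℕ} (hN1 : 1 ≤ N) (hNN : Nmin ≤ N)
    (A : Finset ℤ) (hAN : A ⊆ Icc (1 : ℤ) N) (δ x1 : ℝ) (hexpδ : Real.exp δ ≤ 3)
    (hcard : Real.exp (-x1) * N ≤ A.card) (d : ℕ) (a : ℤ) (l : ℕ) (ν : ℕ → ℤ → ℝ)
    (hν : RawW ε P ν) (hl0 : (0 : ℝ) < l) (Φ : ℝ) (hΦ0 : 0 ≤ Φ)
    (hΦ : ∑ n ∈ Icc (1 : ℤ) l, Gc (W5 ε P) (Mc2 ε P) (gA lam A d a) ν n = l * Φ)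
    (hmax : ∀ (d' : ℕ) (a' : ℤ) (l' : ℕ) (ν' : ℕ → ℤ → ℝ),
        Adm lam N Nmin d' a' l' → RawW ε P ν' →
        Vst ε P lam A d' a' l' ν' ≤ Vst ε P lam A d a l ν * Real.exp δ) :
    Real.exp (-x1) * (N : ℝ) ^ (eta5 ε P) ≤
      (l : ℝ) ^ (eta5 ε P) * (3 * Φ * Real.exp (Hl (W5 ε P) ν / 4)) := by
  have hNr : (0 : ℝ) < N := by exact_mod_cast hN1
  have hWp : ∀ p ∈ W5 ε P, p.Prime := fun p hp => raw_prime hp
  have hzf : ∑ p ∈ W5 ε P, zf ν p ≤ 2 * Hl (W5 ε P) ν := raw_sum_zf hWp hν.wts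
  have h1 := hmax 1 0 N _ (Adm.zero hA hNN) (raw_one ε P hV0)
  rw [raw_init hA hMc N A hAN] at h1
  unfold Vst at h1
  rw [hΦ] at h1
  have e1 : ∀ t : ℝ, 0 < t → t ^ (eta5 ε P - 1) * t = t ^ (eta5 ε P) := fun t ht => by
    rw [← Real.rpow_add_one ht.ne']
    norm_num
  have hN1' : 0 ≤ (N : ℝ) ^ (eta5 ε P - 1) := Real.rpow_nonneg hNr.le _
  have hl1' : 0 ≤ (l : ℝ) ^ (eta5 ε P) := Real.rpow_nonneg hl0.le _
  calc Real.exp (-x1) * (N : ℝ) ^ (eta5 ε P) =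
      (N : ℝ) ^ (eta5 ε P - 1) * (Real.exp (-x1) * N) := by rw [← e1 N hNr]; ring
    _ ≤ (N : ℝ) ^ (eta5 ε P - 1) * A.card := mul_le_mul_of_nonneg_left hcard hN1'
    _ ≤ (l : ℝ) ^ (eta5 ε P - 1) * (l * Φ) * Real.exp (1 / 8 * ∑ p ∈ W5 ε P, zf ν p) *
        Real.exp δ := h1
    _ = (l : ℝ) ^ (eta5 ε P) * (Φ * Real.exp (1 / 8 * ∑ p ∈ W5 ε P, zf ν p) *
        Real.exp δ) := by rw [← e1 l hl0]; ring
    _ ≤ (l : ℝ) ^ (eta5 ε P) * (Φ * Real.exp (Hl (W5 ε P) ν / 4) * 3) := by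
        have : Real.exp (1 / 8 * ∑ p ∈ W5 ε P, zf ν p) ≤ Real.exp (Hl (W5 ε P) ν / 4) :=
          Real.exp_le_exp.2 (by linarith only [hzf])
        gcongr
    _ = _ := by ring

/-- the property of the set -/
lemma raw_free {h : ℤ[X]} {lam : ℕ → ℕ} {r : ℕ → ℤ} {Hh : ℕ → ℤ[X]} {R : ℕ}
    (hA : AuxData h lam r Hh R) (A : Finset ℤ) (hfree : DiffFree h A) (d : ℕ) (hd : 1 ≤ d)
    (a : ℤ) (l : ℕ) (n m : ℤ) (hn : gR lam A d a l n ≠ 0) (hm : gR lam A d a l m ≠ 0)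
    (x : ℕ) (hx : 1 ≤ x) (hxe : n - m = (Hh d).eval (x : ℤ)) : n = m := by
  classical
  set B : Finset ℤ := (Icc (1 : ℤ) l).filter (fun n => a + lam d * n ∈ A) with hB
  have hfree1 : DiffFree (Hh 1) A := by
    rw [aux_H_one hA]
    exact hfree
  have h5 : DiffFree (Hh (1 * d)) B := hA.diffFree_sub 1 d le_rfl hd A hfree1 a B
    (fun j hj => (Finset.mem_filter.1 hj).2)
  rw [one_mul] at h5
  have hmem : ∀ n, gR lam A d a l n ≠ 0 → n ∈ B := fun n hn => by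
    obtain ⟨h6, h7⟩ := gR_supp lam A d a l n hn
    exact Finset.mem_filter.2 ⟨Finset.mem_Icc.2 h6, h7⟩
  have h6 : n - m ∈ ((B : Set ℤ) - (B : Set ℤ)) ∩
      {y : ℤ | ∃ n : ℕ, 1 ≤ n ∧ (Hh d).eval (n : ℤ) = y} :=
    ⟨Set.sub_mem_sub (Finset.mem_coe.2 (hmem n hn)) (Finset.mem_coe.2 (hmem m hm)),
      x, hx, hxe.symm⟩
  have h7 := h5 h6
  rw [Set.mem_singleton_iff] at h7
  linarith only [h7]

lemma raw_Nmin {P : ℝ} (hPge : 100 ≤ P) {N : ℕ} (hNexp : (N : ℝ) = Real.exp P) :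
    2 ≤ ⌈Real.exp (P / 2)⌉₊ ∧ ⌈Real.exp (P / 2)⌉₊ ≤ N := by
  have hNminle : (⌈Real.exp (P / 2)⌉₊ : ℝ) ≤ Real.exp (P / 2) + 1 :=
    (Nat.ceil_lt_add_one (Real.exp_pos _).le).le
  have hNminge : Real.exp (P / 2) ≤ ⌈Real.exp (P / 2)⌉₊ := Nat.le_ceil _
  have h3 := Real.add_one_le_exp (P / 2)
  constructor
  · have h1 : (2 : ℝ) ≤ ⌈Real.exp (P / 2)⌉₊ := by linarith only [hNminge, h3, hPge]
    exact_mod_cast h1
  · have h1 : (⌈Real.exp (P / 2)⌉₊ : ℝ) ≤ N := by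
      refine hNminle.trans ?_
      rw [hNexp]
      have h2 : Real.exp P = Real.exp (P / 2) * Real.exp (P / 2) := by
        rw [← Real.exp_add]; congr 1; ring
      have h4 : 2 ≤ Real.exp (P / 2) := by linarith only [h3, hPge]
      rw [h2]
      nlinarith only [h4]
    exact_mod_cast h1

theorem raw5_of (hM : MGF5Stmt) : RAW5Stmt := by
  intro h lam r Hh R hA hk ε hε hε1
  obtain ⟨P1, hP1⟩ := raw_upper hM ε hε hε1
  obtain ⟨P2, hP2⟩ := raw_num ε hε hε1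
  refine ⟨max P1 P2, fun P hP N hN1 hN A hAN hfree hcard => ?_⟩
  have hn := hP2 P ((le_max_right _ _).trans hP)
  have hup := hP1 P ((le_max_left _ _).trans hP)
  have hPge := hn.ge
  have hPpos : 0 < P := by linarith only [hPge]
  have hNr : (0 : ℝ) < N := by exact_mod_cast hN1
  have hNexp : (N : ℝ) = Real.exp P := by rw [← hN, Real.exp_log hNr]
  obtain ⟨x1, hx1⟩ : ∃ x1 : ℝ, x1 = P ^ (1 - 100 * ε) := ⟨_, rfl⟩
  have hx10 : 10 ≤ x1 := hx1 ▸ hn.e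
  rw [← hx1] at hcard
  obtain ⟨hNmin2, hNN⟩ := raw_Nmin hPge hNexp
  have hNminle : (⌈Real.exp (P / 2)⌉₊ : ℝ) ≤ Real.exp (P / 2) + 1 :=
    (Nat.ceil_lt_add_one (Real.exp_pos _).le).le
  have hNminge : Real.exp (P / 2) ≤ ⌈Real.exp (P / 2)⌉₊ := Nat.le_ceil _
  generalize ⌈Real.exp (P / 2)⌉₊ = Nmin at hNmin2 hNN hNminle hNminge
  have hη : 0 < eta5 ε P := Real.rpow_pos_of_pos hPpos _
  have hη1 : eta5 ε P ≤ 1 :=
    Real.rpow_le_one_of_one_le_of_nonpos (by linarith only [hPge]) (by linarith only [hε])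
  have hV0 : 0 ≤ V05 ε P := Real.rpow_nonneg hPpos.le _
  have hMc : 0 ≤ Mc2 ε P := Real.rpow_nonneg hPpos.le _
  obtain ⟨δ, hδ⟩ : ∃ δ : ℝ, δ = Real.exp (-(P ^ (1 - 49.5 * ε))) := ⟨_, rfl⟩
  have hδ0 : 0 < δ := hδ ▸ Real.exp_pos _
  have hδ1 : δ ≤ 1 := by
    rw [hδ, Real.exp_le_one_iff, neg_nonpos]
    exact Real.rpow_nonneg hPpos.le _
  have hexpδ : Real.exp δ ≤ 3 := by
    have h1 := Real.exp_one_lt_d9
    exact (Real.exp_le_exp.2 hδ1).trans (by linarith only [h1])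
  have hcard0 : (0 : ℝ) < A.card := lt_of_lt_of_le (by positivity) hcard
  obtain ⟨d, a, l, ν, hs, hν, hmax⟩ := raw_near hA hMc hV0 hη hN1 hNmin2 hNN A hAN hcard0 δ hδ0
  have hd : 1 ≤ d := hs.1
  have hlmin : Nmin ≤ l := hs.2.1
  obtain ⟨hb1, hb2, -, -, -⟩ := hs.bounds hA hNmin2
  have hlpos : 0 < l := by omega
  have hl0 : (0 : ℝ) < l := by exact_mod_cast hlpos
  have hlexp : Real.exp (P / 2) ≤ l := hNminge.trans (by exact_mod_cast hlmin)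
  obtain ⟨Φ, hΦdef⟩ : ∃ Φ : ℝ, Φ =
    (∑ n ∈ Icc (1 : ℤ) l, Gc (W5 ε P) (Mc2 ε P) (gA lam A d a) ν n) / l := ⟨_, rfl⟩
  have hΦ : ∑ n ∈ Icc (1 : ℤ) l, Gc (W5 ε P) (Mc2 ε P) (gA lam A d a) ν n = l * Φ := by
    rw [hΦdef]
    field_simp
  have hΦ0 : 0 ≤ Φ := by
    rw [hΦdef]
    exact div_nonneg (sum_nonneg fun n _ => Gc_nonneg _ _ _ (gA_nonneg lam A d a) _ _) hl0.le
  have hWp : ∀ p ∈ W5 ε P, p.Prime := fun p hp => raw_prime hp
  have hH0 : 0 ≤ Hl (W5 ε P) ν := raw_Hl_nonneg hWp hν.wts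
  have hΦup : Φ ≤ 2 * Real.exp (-(7 / 8 * Hl (W5 ε P) ν)) + Real.exp (-(P ^ (1 - 48.5 * ε))) := by
    have h1 := hup l (gA lam A d a) ν hlexp (gA_nonneg lam A d a) (gA_le_one lam A d a) hν
    rw [hΦ] at h1
    exact le_of_mul_le_mul_left h1 hl0
  have hΦ3 : Φ ≤ 3 := by
    have h1 : Real.exp (-(7 / 8 * Hl (W5 ε P) ν)) ≤ 1 := by
      rw [Real.exp_le_one_iff]; linarith only [hH0]
    have h2 : Real.exp (-(P ^ (1 - 48.5 * ε))) ≤ 1 := by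
      rw [Real.exp_le_one_iff, neg_nonpos]
      exact Real.rpow_nonneg hPpos.le _
    linarith only [h1, h2, hΦup]
  have hcmp := raw_cmp hA hMc hV0 hN1 hNN A hAN δ x1 hexpδ hcard d a l ν hν hl0 Φ hΦ0 hΦ hmax
  have hNη : 0 < (N : ℝ) ^ (eta5 ε P) := Real.rpow_pos_of_pos hNr _
  have hlη : 0 < (l : ℝ) ^ (eta5 ε P) := Real.rpow_pos_of_pos hl0 _
  have hlN : (l : ℝ) ^ (eta5 ε P) ≤ (N : ℝ) ^ (eta5 ε P) :=
    Real.rpow_le_rpow hl0.le (by exact_mod_cast hb2) hη.le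
  have hcmp2 : Real.exp (-x1) ≤ 3 * Φ * Real.exp (Hl (W5 ε P) ν / 4) := by
    have h1 : Real.exp (-x1) * (N : ℝ) ^ (eta5 ε P) ≤
        (3 * Φ * Real.exp (Hl (W5 ε P) ν / 4)) * (N : ℝ) ^ (eta5 ε P) := by
      refine hcmp.trans ?_
      rw [mul_comm]
      exact mul_le_mul_of_nonneg_left hlN (by positivity)
    exact le_of_mul_le_mul_right h1 hNη
  have hHx := raw_numH x1 (Hl (W5 ε P) ν) Φ _ _ (V05 ε P) hH0 hν.hell rfl hΦup hcmp2
    (by unfold V05; rw [hx1]; exact hn.c)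
  have hΦlo := raw_numΦ x1 (Hl (W5 ε P) ν) Φ hx10 hΦ0 hHx hcmp2
  have hlow := raw_numN ε P x1 (Hl (W5 ε P) ν) Φ _ _ (Real.log l) hPpos hx10 hx1 hΦ3 hHx hNη hlη
    hcmp (by rw [Real.log_rpow hNr, hN]) (by rw [Real.log_rpow hl0])
  have hlow1 : Real.exp (P - 2 * P ^ (1 - 2 * ε)) ≤ l := by
    rw [← Real.exp_log hl0]
    exact Real.exp_le_exp.2 hlow
  have hN'lo : Real.exp (7 / 8 * P) ≤ l := by
    refine le_trans (Real.exp_le_exp.2 ?_) hlow1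
    have := hn.g
    linarith only [this]
  have hN'hi : (l : ℝ) ≤ Real.exp P := by
    rw [← hNexp]; exact_mod_cast hb2
  have hGeq : ∀ n ∈ Icc (1 : ℤ) l, Gc (W5 ε P) (Mc2 ε P) (gR lam A d a l) ν n =
      Gc (W5 ε P) (Mc2 ε P) (gA lam A d a) ν n := by
    intro n hn
    rw [Finset.mem_Icc] at hn
    unfold Gc gR
    rw [if_pos hn]
  refine ⟨d, l, Nmin, Φ, gR lam A d a l, ν, hd, ?_, ⟨hν.wts, hν.le4, hν.hell,
    gR_nonneg lam A d a l, gR_le_one lam A d a l, fun n hn => (gR_supp lam A d a l n hn).1, hN'lo,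
    hN'hi, hNminle, hx1 ▸ hΦlo, hΦ3, ?_, ?_⟩, ?_⟩
  · refine raw_numd ε P d l N (by exact_mod_cast hNmin2.trans hlmin) (Nat.cast_nonneg _) ?_ hNexp
      hlow1 hn.f
    have h2 : ((d : ℤ) * (l - 1) : ℤ) ≤ N := by linarith only [hb1]
    have h3 : (((d : ℤ) * (l - 1) : ℤ) : ℝ) ≤ ((N : ℤ) : ℝ) := by exact_mod_cast h2
    push_cast at h3
    exact h3
  · rw [Finset.sum_congr rfl hGeq, hΦ]
  · intro D M y x μ hD hM hl hμ h4 hHl
    have := raw_max hA A hNmin2 hη hη1 hs δ hmax Φ hΦ0 hΦ D M y x μ hD hM hl hμ h4 hHl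
    rw [hδ] at this
    exact this
  · intro n m hn hm x hx hxe
    exact raw_free hA A hfree d hd a l n m hn hm x hx hxe

end Vale.Agent.P042.UU
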