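import Vale.Agent.P042.UU.RestJ5

set_option autoImplicit false

/-!
Block REST5, part K (helper315): the small part of a row.
-/

namespace Vale.Agent.P042.UU.RestE

open Finset Filter Vale.Agent.P042.SS Vale.Agent.P042.SS.UNC Vale.Agent.P042.TT Vale.Agent.P042.TT.TotB
  Vale.Agent.P042.UU.TotC

variable {ε P : ℝ}

/-- the small part of a row -/
theorem row_small {k E K p0 : ℕ} {kap : ℕ → ℕ → ℝ} (hkap : KapOK k E K p0 kap) (hε : 0 < ε)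
    (hε1 : ε ≤ 1 / 1000) (hP1 : 1 ≤ P) (n6 : 6 ≤ P ^ (4 * ε)) (nk : (k : ℝ) ≤ P ^ (ε / 4))
    (np0 : (p0 : ℝ) ≤ P ^ (2 - 190 * ε)) (n4 : 4 * P ^ (95.2 * ε) ≤ P ^ (95.5 * ε))
    {CS : ℝ} (hCS : 0 < CS) (nS : CS * P ^ (-(0.3 * ε)) ≤ Real.log 2)
    (hEWS : EWS5Stmt) {N' : ℕ} {Φ : ℝ} {G : ℤ → ℝ} {ν : ℕ → ℤ → ℝ} (hSt : St5 ε P k N' Φ G ν) (y : ℤ)
    (M : ℕ) {a : ℕ} (ha1 : 1 ≤ a) (ha3 : ∀ p ∈ a.primeFactors, p ∈ W5 ε P)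
    (hla : Real.log a ≤ P ^ (95.2 * ε)) {BD : ℝ}
    (hX : ∑ i ∈ (Ib ⌊P ^ (190 * ε)⌋₊ (8 * E) (Q5 ε P)).filter (fun i => i.1 ∉ W5 ε P),
        kap i.1 i.2 * (i.2 * Real.log i.1) ≤ P ^ (95.1 * ε))
    (hS : ∀ D : ℕ, 1 ≤ D → Real.log D ≤ P ^ (1 - 92 * ε) → (∀ p ∈ Vn ε P a, Nat.Coprime p D) →
      ∑ d ∈ D.divisors, ∑ z ∈ (QZ5 ε P (8 * E) (Q5 ε P)).filter (fun z => Nat.Coprime z D),
        zR5 ε P z * En2 ε P ν G y M a (d * z) ≤ CS * (D : ℝ) ^ (CS * bc5 ε P) * (M * Φ) ^ 2)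
    (hD : ∀ D : ℕ, 1 ≤ D → Real.log D ≤ P ^ (95.5 * ε) → (∀ p ∈ Vn ε P a, Nat.Coprime p D) →
      ∑ d ∈ D.divisors.erase 1, En1 ε P ν G y M a d ≤ BD) :
    ∑ b ∈ (E05 ε P (Q5 ε P)).filter (fun b : ℕ => Real.log b ≤ P ^ (95.2 * ε) ∧ a * b ≠ 1),
        kapProd kap b * En1 ε P ν G y M a (a * b) ≤
      4 * (P ^ (-(ε / 4)) * (2 * CS * (M * Φ) ^ 2)) + 2 * BD := by
  have hP0 : 0 < P := by linarith
  have hM0 : 0 ≤ (M * Φ) ^ 2 := sq_nonneg _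
  have hlm0 : 0 < P ^ (95.2 * ε) := Real.rpow_pos_of_pos hP0 _
  refine small_fix (J' := 8 * E) (V := Vn ε P a) (F1 := En1 ε P ν G y M a) (F2 := En2 ε P ν G y M a)
    (X0 := P ^ (95.1 * ε))
    (L1 := P ^ (95.5 * ε)) (B0 := 2 * CS * (M * Φ) ^ 2) (BD := BD) hε hε1 hP1 rfl ha1 ha3 hkap.nn hkap.le1
    (fun n => (En1_facts hEWS hε hε1 hP1 n6 hSt y M a n).1)
    (fun n => (En1_facts hEWS hε hε1 hP1 n6 hSt y M a n).2) ?_ hD hlm0.le (Real.rpow_pos_of_pos hP0 _) ?_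
    hla hX (by positivity)
    (Real.rpow_le_one_of_one_le_of_nonpos hP1 (by linarith)) ?_
  · intro D hD1 hDl hDc
    refine (hS D hD1 (hDl.trans (Real.rpow_le_rpow_of_exponent_le hP1 (by linarith))) hDc).trans ?_
    calc CS * (D : ℝ) ^ (CS * bc5 ε P) * (M * Φ) ^ 2 ≤ CS * 2 * (M * Φ) ^ 2 := by
          apply mul_le_mul_of_nonneg_right _ hM0
          exact mul_le_mul_of_nonneg_left (pow_D_le hCS hP0 nS hD1 hDl) hCS.le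
      _ = _ := by ring
  · have h1 : P ^ (95.1 * ε) ≤ P ^ (95.2 * ε) := Real.rpow_le_rpow_of_exponent_le hP1 (by linarith)
    linarith
  · intro p j hp hpw hj1 _
    exact kap_le_zr5 hkap hε hε1 hP1 nk np0 hp hpw hj1

end Vale.Agent.P042.UU.RestE
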