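import Vale.Agent.P042.UU.RestF5
import Vale.Agent.P042.UU.RestK5

set_option autoImplicit false

/-!
Block REST5 (helper315): the moduli `q ≠ 1`.
-/

namespace Vale.Agent.P042.UU

open Finset Filter Vale.Agent.P042.SS Vale.Agent.P042.SS.UNC Vale.Agent.P042.TT Vale.Agent.P042.TT.TotB
  Vale.Agent.P042.UU.TotC Vale.Agent.P042.UU.RestE

/-- final numerics -/
lemma rest5_fin (CY CS CT ε : ℝ) (hε : 0 < ε) (hε1 : ε ≤ 1 / 1000) :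
    ∀ᶠ P : ℝ in atTop, 16 * CY * CS * P ^ (-(ε / 4)) + 4 * CY * P ^ (-(0.3 * ε)) +
      (2 * CT * CY + 8 * CT) * P ^ (-1 : ℝ) ≤ P ^ (-(ε / 10)) := by
  filter_upwards [ev_rpow (4 * (16 * CY * CS)) (a := -(ε / 10)) (b := -(ε / 4)) (by linarith),
    ev_rpow (4 * (4 * CY)) (a := -(ε / 10)) (b := -(0.3 * ε)) (by linarith),
    ev_rpow (4 * (2 * CT * CY + 8 * CT)) (a := -(ε / 10)) (b := (-1 : ℝ)) (by linarith),
    eventually_gt_atTop (0 : ℝ)] with P h1 h2 h3 h4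
  have := Real.rpow_pos_of_pos h4 (-(ε / 10))
  linarith

/-- the core of the argument at a fixed `P` -/
theorem rest5_core {k E K p0 : ℕ} {kap : ℕ → ℕ → ℝ} {ε P t' CT CS cY Cc t1 CY : ℝ} (hE : 1 ≤ E)
    (hkap : KapOK k E K p0 kap) (hε : 0 < ε) (hε1 : ε ≤ 1 / 1000) (hEWS : EWS5Stmt)
    (ht'0 : 0 < t') (hCT : 0 < CT) (hCS : 0 < CS) (hcY : 0 < cY) (ht1 : t1 = ε / (50 * E))
    (hCY : CY = Real.exp (cY * 2))
    (hP1 : 1 ≤ P) (n6 : 6 ≤ P ^ (4 * ε)) (nk : (k : ℝ) ≤ P ^ (ε / 4))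
    (np0 : (p0 : ℝ) ≤ P ^ (2 - 190 * ε)) (nc : Cc * P ^ (95.01 * ε) ≤ P ^ (95.1 * ε))
    (n4 : 4 * P ^ (95.2 * ε) ≤ P ^ (95.5 * ε)) (nS : CS * P ^ (-(0.3 * ε)) ≤ Real.log 2)
    (n03 : P ^ (-(0.3 * ε)) ≤ Real.log 2)
    (nT : CT * P ^ (-(95.8 * ε)) ≤ P ^ (-(95.5 * ε))) (nt1 : 4 * P ^ (-(95.5 * ε)) ≤ t1)
    (nt' : 4 * P ^ (-(95.5 * ε)) ≤ t') (n8 : P ^ (8 * E * (2 * P ^ (-(95.5 * ε)))) ≤ 2)
    (nT6 : CT * P ^ (-(0.6 * ε)) ≤ 1)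
    (x1 : Real.exp (-(t' / 8 * P ^ (95.2 * ε)) + P ^ ε) ≤ P ^ (-1 : ℝ))
    (x2 : Real.exp (-(t1 / 4 * P ^ (95.2 * ε)) + P ^ ε) ≤ P ^ (-1 : ℝ))
    (x3 : cY * P ^ (0.16 * ε) ≤ P ^ ε) (x4 : 3 * P ≤ Real.exp (P ^ ε))
    (x5 : 2 * P ^ (1 - 95 * ε) ≤ P ^ (1 - 94 * ε)) (x6 : P ^ (95.2 * ε) ≤ P ^ (1 - 94 * ε))
    (hY : ∀ t : ℝ, 0 ≤ t → t ≤ 1 / (50 * (E : ℝ)) → ∀ Q : ℕ,
      ∑ h ∈ QY5 ε P Q, kapProd kap h * (h : ℝ) ^ t ≤ Real.exp (cY * P ^ (8 * E * t)))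
    (hcost : ∀ (Q : ℕ) (I : Finset (ℕ × ℕ)), I ⊆ Ib ⌊P ^ (190 * ε)⌋₊ (8 * E) Q →
      ∑ i ∈ I, pc5 (ε / (2000 * E)) kap i * (i.2 * Real.log i.1) ≤ Cc * P ^ (95.01 * ε))
    {N' : ℕ} {Φ : ℝ} {G : ℤ → ℝ} {ν : ℕ → ℤ → ℝ} (hSt : St5 ε P k N' Φ G ν) (y : ℤ) (M : ℕ) {BD : ℝ}
    (hBD0 : 0 ≤ BD)
    (hS : ∀ a D : ℕ, 1 ≤ D → Real.log D ≤ P ^ (1 - 92 * ε) → (∀ p ∈ Vn ε P a, Nat.Coprime p D) →
      ∑ d ∈ D.divisors, ∑ z ∈ (QZ5 ε P (8 * E) (Q5 ε P)).filter (fun z => Nat.Coprime z D),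
        zR5 ε P z * En2 ε P ν G y M a (d * z) ≤ CS * (D : ℝ) ^ (CS * bc5 ε P) * (M * Φ) ^ 2)
    (hD : ∀ a D : ℕ, 1 ≤ D → Real.log D ≤ P ^ (95.5 * ε) → (∀ p ∈ Vn ε P a, Nat.Coprime p D) →
      ∑ d ∈ D.divisors.erase 1, En1 ε P ν G y M a d ≤ BD)
    (hT : ∀ a : ℕ, 1 ≤ a → (∀ p ∈ a.primeFactors, p ∈ W5 ε P) → Real.log a ≤ P ^ (1 - 95 * ε) → ∀ l : ℝ,
      P ^ (95.1 * ε) ≤ l → l ≤ P ^ (1 - 94 * ε) →
      ∑ b ∈ (E05 ε P (Q5 ε P)).filter (fun b : ℕ => Real.log b ≤ l),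
        (b : ℝ) ^ t' * (kapProd kap b * En2 ε P ν G y M a (a * b)) ≤
      (CT * Real.exp (CT * bc5 ε P * Real.log a) * (M * Φ) ^ 2) * Real.exp (CT * bc5 ε P * l)) :
    ∑ q ∈ (EV5 ε P (Q5 ε P)).erase 1, (q : ℝ) ^ (P ^ (-(95.5 * ε))) * kapProd kap q *
      ∑ a ∈ (range q).filter (Nat.Coprime q),
        ews (t6 ε P) (u5 ε P) (Vn ε P q) ν G y M 1 0 ((a : ℝ) / q) ≤
      2 * CY * (4 * (P ^ (-(ε / 4)) * (2 * CS * (M * Φ) ^ 2)) + 2 * BD) +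
        2 * CT * CY * P ^ (-1 : ℝ) * (M * Φ) ^ 2 + 8 * CT * P ^ (-1 : ℝ) * (M * Φ) ^ 2 := by
  have hER : (1 : ℝ) ≤ E := by exact_mod_cast hE
  have hP0 : 0 < P := by linarith
  have hM0 : 0 ≤ (M * Φ) ^ 2 := sq_nonneg _
  have ht10 : 0 < t1 := by rw [ht1]; positivity
  have ht1E : t1 ≤ 1 / (50 * (E : ℝ)) := by
    rw [ht1]
    exact div_le_div_of_nonneg_right (by linarith) (by positivity)
  have hlm0 : 0 < P ^ (95.2 * ε) := Real.rpow_pos_of_pos hP0 _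
  have hδ0 : 0 < P ^ (-(95.5 * ε)) := Real.rpow_pos_of_pos hP0 _
  have hβe : bc5 ε P = P ^ (-(95.8 * ε)) := rfl
  have hu0 : 0 ≤ P ^ (-1 : ℝ) := by positivity
  have hu1 : P ^ (-1 : ℝ) ≤ 1 := Real.rpow_le_one_of_one_le_of_nonpos hP1 (by norm_num)
  have hF1n : ∀ a n, 0 ≤ En1 ε P ν G y M a n := fun a n => (En1_facts hEWS hε hε1 hP1 n6 hSt y M a n).1
  have hF12 : ∀ a n, En1 ε P ν G y M a n ≤ 2 * En2 ε P ν G y M a n := fun a n =>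
    (En1_facts hEWS hε hε1 hP1 n6 hSt y M a n).2
  have hF2n : ∀ a n, 0 ≤ En2 ε P ν G y M a n := fun a n => by linarith [hF1n a n, hF12 a n]
  have hBs0 : 0 ≤ 4 * (P ^ (-(ε / 4)) * (2 * CS * (M * Φ) ^ 2)) + 2 * BD := by positivity
  have hQ : ∀ q : ℕ, 1 ≤ q → q ≤ Q5 ε P → Real.log q ≤ P ^ (1 - 95 * ε) := by
    intro q hq1 hq2
    have h1 : (q : ℝ) ≤ Real.exp (P ^ (1 - 95 * ε)) := by
      refine le_trans (Nat.cast_le.2 hq2) ?_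
      exact Nat.floor_le (Real.exp_pos _).le
    have h2 : (0 : ℝ) < q := by exact_mod_cast hq1
    rw [Real.log_le_iff_le_exp h2]
    exact h1
  have hcX := cost_kap hkap hε hP1 ((hcost (Q5 ε P) _ (filter_subset _ _)).trans nc)
  have hA0 : ∀ a : ℕ, 0 ≤ CT * Real.exp (CT * bc5 ε P * Real.log a) * (M * Φ) ^ 2 := fun a => by positivity
  have hlarge : ∀ a ∈ QY5 ε P (Q5 ε P),
      ∑ b ∈ (E05 ε P (Q5 ε P)).filter (fun b : ℕ => P ^ (95.2 * ε) / 2 < Real.log b),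
        (b : ℝ) ^ (P ^ (-(95.5 * ε))) * (kapProd kap b * En2 ε P ν G y M a (a * b)) ≤
        (CT * Real.exp (CT * bc5 ε P * Real.log a) * (M * Φ) ^ 2) * P ^ (-1 : ℝ) := by
    intro a ha
    obtain ⟨ha1, ha2, ha3⟩ := QY5_pos ha
    exact row_large hkap.nn (hF2n a) hε hε1 hP1 (hA0 a) ht'0 nT nt' hQ x4 x5 x1
      (hT a ha1 ha3 (hQ a ha1 ha2))
  have hall : ∀ a ∈ QY5 ε P (Q5 ε P),
      ∑ b ∈ E05 ε P (Q5 ε P), (b : ℝ) ^ (P ^ (-(95.5 * ε))) * (kapProd kap b * En2 ε P ν G y M a (a * b)) ≤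
        (CT * Real.exp (CT * bc5 ε P * Real.log a) * (M * Φ) ^ 2) * 4 := by
    intro a ha
    obtain ⟨ha1, ha2, ha3⟩ := QY5_pos ha
    exact row_all hkap.nn (hF2n a) hε hP1 (hA0 a) hβe nT6 nt' hu1 x6
      (hT a ha1 ha3 (hQ a ha1 ha2)) (hlarge a ha)
  have hδl : Real.exp (P ^ (-(95.5 * ε)) * P ^ (95.2 * ε)) ≤ 2 := by
    have h1 : P ^ (-(95.5 * ε)) * P ^ (95.2 * ε) ≤ Real.log 2 := by
      refine le_trans (le_of_eq ?_) n03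
      rw [← Real.rpow_add hP0]
      congr 1
      ring
    calc Real.exp (P ^ (-(95.5 * ε)) * P ^ (95.2 * ε)) ≤ Real.exp (Real.log 2) := Real.exp_le_exp.2 h1
      _ = 2 := Real.exp_log (by norm_num)
  have hka : ∀ a, 0 ≤ kapProd kap a := kapProd_nonneg' hkap.nn
  have hY1 : ∑ a ∈ QY5 ε P (Q5 ε P), kapProd kap a * (a : ℝ) ^ (2 * P ^ (-(95.5 * ε))) ≤ CY := by
    refine (hY (2 * P ^ (-(95.5 * ε))) (by positivity) (by linarith) (Q5 ε P)).trans ?_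
    rw [hCY]
    exact Real.exp_le_exp.2 (mul_le_mul_of_nonneg_left n8 hcY.le)
  have hY0 : ∑ a ∈ QY5 ε P (Q5 ε P), kapProd kap a ≤ CY := by
    refine le_trans (sum_le_sum fun a ha => ?_) hY1
    have h1 : (1 : ℝ) ≤ (a : ℝ) ^ (2 * P ^ (-(95.5 * ε))) :=
      Real.one_le_rpow (by exact_mod_cast (QY5_pos ha).1) (by positivity)
    have := hka a
    nlinarith
  have hYl : ∑ a ∈ (QY5 ε P (Q5 ε P)).filter (fun a : ℕ => P ^ (95.2 * ε) / 2 < Real.log a),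
      kapProd kap a * (a : ℝ) ^ (2 * P ^ (-(95.5 * ε))) ≤ P ^ (-1 : ℝ) := by
    have h1 : 8 * (E : ℝ) * t1 = 0.16 * ε := by
      rw [ht1]
      field_simp
      norm_num
    have h2 := hY t1 ht10.le ht1E (Q5 ε P)
    rw [h1] at h2
    refine (QY_large hkap.nn hlm0 ht10 nt1 h2).trans (le_trans (Real.exp_le_exp.2 ?_) x2)
    linarith
  refine (main_le hkap.nn hF1n).trans ?_
  refine double_sum (W := fun a => (a : ℝ) ^ (P ^ (-(95.5 * ε))) * kapProd kap a)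
    (A := fun a => CT * Real.exp (CT * bc5 ε P * Real.log a) * (M * Φ) ^ 2)
    hA0 hCT.le hM0 hu0 hBs0 hY0 hY1 hYl ?_ ?_
  · intro a ha
    exact WA_le (QY5_pos ha).1 (hka a) (by positivity) nT
  · intro a ha
    obtain ⟨ha1, ha2, ha3⟩ := QY5_pos ha
    exact row (ε := ε) (P := P) (Q := Q5 ε P) hkap.nn ha1 (hF1n a) (hF12 a) hδ0.le hδl hBs0
      (fun hla => row_small hkap hε hε1 hP1 n6 nk np0 n4 hCS nS hEWS hSt y M ha1 ha3 hla hcX (hS a) (hD a))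
      (hlarge a ha) (hall a ha)

theorem rest5_of (hSUM : SUM5Stmt) (hTOT : TOT5Stmt) (hEWS : EWS5Stmt) : REST5Stmt := by
  intro k E K p0 kap ε hk hE hkap hε hε1
  obtain ⟨t', CT, PT, ht'0, ht'1, hCT, hT⟩ := hTOT k E K p0 kap ε hk hE hkap hε hε1
  obtain ⟨CS, PS, hCS, hS⟩ := hSUM k (8 * E) ε hk (by omega) hε hε1
  obtain ⟨PD, hD⟩ := RestE.restd5_of hSUM hEWS k ε hk hε hε1
  obtain ⟨cY, hcY, PY, hY⟩ := sum_QY k E K p0 kap hE hkap hε hε1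
  obtain ⟨Cc, hCc, hcost⟩ := cost_pc5 hk hE hkap hε hε1
  have hER : (1 : ℝ) ≤ E := by exact_mod_cast hE
  have ht10 : 0 < ε / (50 * E) := by positivity
  obtain ⟨P1, hnum⟩ := eventually_atTop.1 (rest5_num CS CT t' cY (ε / (50 * E)) Cc ε k p0 E hE hε hε1
    ht'0 ht10)
  obtain ⟨P2, hfin2⟩ := eventually_atTop.1 (rest5_fin (Real.exp (cY * 2)) CS CT ε hε hε1)
  refine ⟨8 * Real.exp (cY * 2), max PT (max PS (max PD (max PY (max P1 P2)))), by positivity, ?_⟩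
  intro P hP N' Φ G ν hSt M y hMN hNM
  simp only [max_le_iff] at hP
  obtain ⟨gT, gS, gD, gY, g1, g2⟩ := hP
  obtain ⟨⟨hP1, n6, nk, np0, nc⟩, ⟨n4, nS, n03, nT, nt1, nt', n8, nT6⟩, ⟨x1, x2, x3, x4, x5, x6⟩⟩ := hnum P g1
  have hf := hfin2 P g2
  have hP0 : 0 < P := by linarith
  have hM0 : 0 ≤ (M * Φ) ^ 2 := sq_nonneg _
  have hmm0 : 0 ≤ mass G y M 1 0 * |Φ * cnt N' y M - mass G y M 1 0| :=
    mul_nonneg (rd_mass_nonneg hSt.G0 y M 1 0) (abs_nonneg _)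
  have hmain := rest5_core (BD := P ^ (-(0.3 * ε)) * (M * Φ) ^ 2 +
      2 * (mass G y M 1 0 * |Φ * cnt N' y M - mass G y M 1 0|)) hE hkap hε hε1 hEWS ht'0 hCT hCS hcY rfl rfl
    hP1 n6 nk np0 nc n4 nS n03 nT nt1 nt' n8 nT6 x1 x2 x3 x4 x5 x6 (hY P gY) (hcost P hP1) hSt y M
    (by positivity)
    (fun a D hD1 hDl hDc => hS P gS N' Φ G ν hSt (Vn ε P a) D M y (Vn_sub a) hMN hNM hD1 hDl hDc)
    (fun a D hD1 hDl hDc => hD P gD N' Φ G ν hSt (Vn ε P a) D M y (Vn_sub a) hMN hNM hD1 hDl hDc)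
    (fun a ha1 ha3 hal l hl1 hl2 => by
      refine le_trans (le_of_eq (sum_congr rfl fun b _ => ?_))
        ((hT P gT N' Φ G ν hSt a M y l hMN hNM ha1 ha3 hal hl1 hl2).trans (le_of_eq ?_))
      · unfold En2
        rw [mul_assoc]
      · rw [mul_add, Real.exp_add]
        ring)
  refine hmain.trans ?_
  have e2 := mul_le_mul_of_nonneg_right hf hM0
  linarith

end Vale.Agent.P042.UU
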