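import Vale.Agent.P042.UU.MomA
import Vale.Agent.P042.TT.FacW
import Vale.Agent.P042.TT.RestB

set_option autoImplicit false

/-!
Theorem S5, block REST5: factorisation of the exceptional moduli, and the abstract estimate
for the small moduli.
-/

namespace Vale.Agent.P042.UU

open Finset Filter Vale.Agent.P042.SS Vale.Agent.P042.TT

/-- smooth moduli -/
noncomputable def QS5 (ε P : ℝ) (X : ℕ) : Finset ℕ :=
  (Icc 1 X).filter (fun s => ∀ p ∈ s.primeFactors, p ≤ ⌊P ^ (190 * ε)⌋₊)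

/-- the high moduli: window primes with exponent at least two, and exponents beyond `J'` -/
noncomputable def QH5 (ε P : ℝ) (J' X : ℕ) : Finset ℕ :=
  (Icc 1 X).filter (fun h => ∀ p ∈ h.primeFactors, ⌊P ^ (190 * ε)⌋₊ < p ∧
    ((p ∈ W5 ε P ∧ 2 ≤ h.factorization p) ∨ J' < h.factorization p))

noncomputable def f5S (ε P : ℝ) (q : ℕ) : ℕ := fpart (fun p => p ≤ ⌊P ^ (190 * ε)⌋₊) q

noncomputable def f5H (ε P : ℝ) (J' q : ℕ) : ℕ :=
  fpart (fun p => ⌊P ^ (190 * ε)⌋₊ < p ∧ (p ≤ ⌊P ^ (2 - 190 * ε)⌋₊ ∨ J' < q.factorization p)) q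

noncomputable def f5Z (ε P : ℝ) (J' q : ℕ) : ℕ :=
  fpart (fun p => ⌊P ^ (190 * ε)⌋₊ < p ∧
    ¬ (p ≤ ⌊P ^ (2 - 190 * ε)⌋₊ ∨ J' < q.factorization p)) q

lemma rest5_W {ε P : ℝ} {p : ℕ} : p ∈ W5 ε P ↔
    (⌊P ^ (190 * ε)⌋₊ < p ∧ p ≤ ⌊P ^ (2 - 190 * ε)⌋₊) ∧ p.Prime := by
  unfold W5 Wp
  rw [mem_filter, mem_Ioc]

lemma rest5_mul {ε P : ℝ} {J' q : ℕ} (hq : q ≠ 0) :
    f5S ε P q * f5H ε P J' q * f5Z ε P J' q = q := by
  refine Nat.eq_of_factorization_eq (mul_ne_zero (mul_ne_zero (fac_fpart_pos _ q).ne'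
    (fac_fpart_pos _ q).ne') (fac_fpart_pos _ q).ne') hq fun p => ?_
  unfold f5S f5H f5Z
  rw [Nat.factorization_mul (mul_ne_zero (fac_fpart_pos _ q).ne' (fac_fpart_pos _ q).ne')
    (fac_fpart_pos _ q).ne', Nat.factorization_mul (fac_fpart_pos _ q).ne'
    (fac_fpart_pos _ q).ne', Finsupp.add_apply, Finsupp.add_apply, fac_fpart_factorization,
    fac_fpart_factorization, fac_fpart_factorization]
  by_cases hp : p ∈ q.primeFactors
  · simp only [mem_filter, hp, true_and]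
    by_cases h1 : p ≤ ⌊P ^ (190 * ε)⌋₊
    · have h2 : ¬ ⌊P ^ (190 * ε)⌋₊ < p := not_lt.2 h1
      rw [if_pos h1, if_neg (fun h => h2 h.1), if_neg (fun h => h2 h.1)]
      rfl
    · have h2 : ⌊P ^ (190 * ε)⌋₊ < p := not_le.1 h1
      by_cases h3 : p ≤ ⌊P ^ (2 - 190 * ε)⌋₊ ∨ J' < q.factorization p
      · rw [if_neg h1, if_pos ⟨h2, h3⟩, if_neg (fun h => h.2 h3), zero_add, add_zero]
      · rw [if_neg h1, if_neg (fun h => h3 h.2), if_pos ⟨h2, h3⟩, zero_add, zero_add]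
  · have h0 : q.factorization p = 0 := by
      rw [← Nat.support_factorization, Finsupp.mem_support_iff, not_not] at hp
      exact hp
    simp [hp, h0]

lemma rest5_EV_pos {ε P : ℝ} {Q q : ℕ} (hq : q ∈ EV5 ε P Q) : 0 < q ∧ q ≤ Q := by
  unfold EV5 at hq
  rw [mem_filter, mem_Icc] at hq
  exact hq.1

lemma rest5_S_mem {ε P : ℝ} {X q : ℕ} (hq : q ∈ EV5 ε P X) : f5S ε P q ∈ QS5 ε P X := by
  obtain ⟨h0, hX⟩ := rest5_EV_pos hq
  have h1 := fac_fpart_dvd (fun p => p ≤ ⌊P ^ (190 * ε)⌋₊) q h0.ne'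
  unfold QS5
  rw [mem_filter, mem_Icc]
  refine ⟨⟨fac_fpart_pos _ q, (Nat.le_of_dvd h0 h1).trans hX⟩, fun p hp => ?_⟩
  unfold f5S at hp
  rw [fac_fpart_primeFactors] at hp
  exact (mem_filter.1 hp).2

lemma rest5_H_mem {ε P : ℝ} {J' X q : ℕ} (hq : q ∈ EV5 ε P X) :
    f5H ε P J' q ∈ QH5 ε P J' X := by
  obtain ⟨h0, hX⟩ := rest5_EV_pos hq
  unfold QH5
  rw [mem_filter, mem_Icc]
  refine ⟨⟨fac_fpart_pos _ q, (Nat.le_of_dvd h0 (fac_fpart_dvd _ q h0.ne')).trans hX⟩,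
    fun p hp => ?_⟩
  unfold f5H at hp ⊢
  rw [fac_fpart_primeFactors] at hp
  rw [fac_fpart_factorization, if_pos hp]
  have hp' := (mem_filter.1 hp).2
  have hpq := (mem_filter.1 hp).1
  have hpp := Nat.prime_of_mem_primeFactors hpq
  refine ⟨hp'.1, ?_⟩
  rcases hp'.2 with h | h
  · left
    have hW : p ∈ W5 ε P := rest5_W.2 ⟨⟨hp'.1, h⟩, hpp⟩
    refine ⟨hW, ?_⟩
    have h2 := (mem_filter.1 hq).2 p hW
    have h3 : q.factorization p ≠ 0 := by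
      rw [← Nat.support_factorization, Finsupp.mem_support_iff] at hpq
      exact hpq
    omega
  · exact Or.inr h

lemma rest5_Z_mem {ε P : ℝ} {J' X q : ℕ} (hq : q ∈ EV5 ε P X) :
    f5Z ε P J' q ∈ QZ5 ε P J' X := by
  obtain ⟨h0, hX⟩ := rest5_EV_pos hq
  unfold QZ5
  rw [mem_filter, mem_Icc]
  refine ⟨⟨fac_fpart_pos _ q, (Nat.le_of_dvd h0 (fac_fpart_dvd _ q h0.ne')).trans hX⟩,
    fun p hp => ?_⟩
  unfold f5Z at hp ⊢
  rw [fac_fpart_primeFactors] at hp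
  rw [fac_fpart_factorization, if_pos hp]
  have hp' := (mem_filter.1 hp).2.2
  push Not at hp'
  exact hp'

lemma rest5_QS_pos {ε P : ℝ} {X s : ℕ} (hs : s ∈ QS5 ε P X) : 1 ≤ s ∧ s ≤ X := by
  unfold QS5 at hs
  rw [mem_filter, mem_Icc] at hs
  exact hs.1

lemma rest5_QH_pos {ε P : ℝ} {J' X h : ℕ} (hh : h ∈ QH5 ε P J' X) : 1 ≤ h ∧ h ≤ X := by
  unfold QH5 at hh
  rw [mem_filter, mem_Icc] at hh
  exact hh.1

lemma rest5_QZ_pos {ε P : ℝ} {J' X z : ℕ} (hz : z ∈ QZ5 ε P J' X) : 1 ≤ z ∧ z ≤ X := by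
  unfold QZ5 at hz
  rw [mem_filter, mem_Icc] at hz
  exact hz.1

lemma rest5_floor {ε P : ℝ} (hP : 1 ≤ P) (hε : ε ≤ 1 / 1000) :
    ⌊P ^ (190 * ε)⌋₊ ≤ ⌊P ^ (2 - 190 * ε)⌋₊ :=
  Nat.floor_le_floor (Real.rpow_le_rpow_of_exponent_le hP (by linarith))

lemma rest5_cop_sh {ε P : ℝ} {J' X X' s h : ℕ} (hs : s ∈ QS5 ε P X) (hh : h ∈ QH5 ε P J' X') :
    Nat.Coprime s h :=
  fac_coprime_of (by have := rest5_QS_pos hs; omega) (by have := rest5_QH_pos hh; omega)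
    fun p h1 h2 => absurd ((mem_filter.1 hs).2 p h1) (not_le.2 ((mem_filter.1 hh).2 p h2).1)

lemma rest5_cop_sz {ε P : ℝ} (hP : 1 ≤ P) (hε : ε ≤ 1 / 1000) {J' X X' s z : ℕ}
    (hs : s ∈ QS5 ε P X) (hz : z ∈ QZ5 ε P J' X') : Nat.Coprime s z :=
  fac_coprime_of (by have := rest5_QS_pos hs; omega) (by have := rest5_QZ_pos hz; omega)
    fun p h1 h2 => absurd ((mem_filter.1 hs).2 p h1) (not_le.2
      (lt_of_le_of_lt (rest5_floor hP hε) ((mem_filter.1 hz).2 p h2).1))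

lemma rest5_cop_hz {ε P : ℝ} {J' q : ℕ} : Nat.Coprime (f5Z ε P J' q) (f5H ε P J' q) := by
  refine fac_coprime_of (fac_fpart_pos _ q).ne' (fac_fpart_pos _ q).ne' fun p h1 h2 => ?_
  unfold f5Z at h1
  unfold f5H at h2
  rw [fac_fpart_primeFactors, mem_filter] at h1 h2
  exact h1.2.2 h2.2.2

/-- the window primes not dividing `q` -/
lemma rest5_Vn {ε P : ℝ} {J' q : ℕ} (hq : q ≠ 0) : Vn ε P q = Vn ε P (f5H ε P J' q) := by
  unfold Vn
  refine filter_congr fun p hp => ?_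
  have hW := rest5_W.1 hp
  refine not_congr ⟨fun h => ?_, fun h => h.trans (fac_fpart_dvd _ q hq)⟩
  have h1 : p ∈ q.primeFactors := Nat.mem_primeFactors.2 ⟨hW.2, h, hq⟩
  have h2 : p ∈ (f5H ε P J' q).primeFactors := by
    unfold f5H
    rw [fac_fpart_primeFactors, mem_filter]
    exact ⟨h1, hW.1.1, Or.inl hW.1.2⟩
  exact Nat.dvd_of_mem_primeFactors h2

/-- **the sum over the exceptional moduli is at most the triple sum** -/
theorem rest5_sum (ε P : ℝ) (J' X : ℕ) (F : ℕ → ℕ → ℝ) (hF : ∀ h q, 0 ≤ F h q) :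
    ∑ q ∈ EV5 ε P X, F (f5H ε P J' q) q ≤ ∑ h ∈ QH5 ε P J' X, ∑ s ∈ QS5 ε P X,
      ∑ z ∈ (QZ5 ε P J' X).filter (fun z => Nat.Coprime z h), F h (s * h * z) := by
  have h1 : ∑ h ∈ QH5 ε P J' X, ∑ s ∈ QS5 ε P X,
      ∑ z ∈ (QZ5 ε P J' X).filter (fun z => Nat.Coprime z h), F h (s * h * z) =
      ∑ t ∈ ((QH5 ε P J' X) ×ˢ ((QS5 ε P X) ×ˢ (QZ5 ε P J' X))).filter
        (fun t => Nat.Coprime t.2.2 t.1), F t.1 (t.2.1 * t.1 * t.2.2) := by
    rw [sum_filter, sum_product]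
    refine sum_congr rfl fun h _ => ?_
    rw [sum_product]
    refine sum_congr rfl fun s _ => ?_
    rw [sum_filter]
  rw [h1]
  set φ : ℕ → ℕ × ℕ × ℕ := fun q => (f5H ε P J' q, f5S ε P q, f5Z ε P J' q) with hφ
  have h2 : ∑ q ∈ EV5 ε P X, F (f5H ε P J' q) q =
      ∑ t ∈ (EV5 ε P X).image φ, F t.1 (t.2.1 * t.1 * t.2.2) := by
    rw [sum_image]
    · refine sum_congr rfl fun q hq => ?_
      rw [hφ]
      simp only
      rw [rest5_mul (rest5_EV_pos hq).1.ne']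
    · intro q hq q' hq' he
      have e1 := rest5_mul (ε := ε) (P := P) (J' := J') (rest5_EV_pos hq).1.ne'
      have e2 := rest5_mul (ε := ε) (P := P) (J' := J') (rest5_EV_pos hq').1.ne'
      rw [hφ] at he
      simp only [Prod.mk.injEq] at he
      rw [← e1, ← e2, he.1, he.2.1, he.2.2]
  rw [h2]
  refine sum_le_sum_of_subset_of_nonneg ?_ fun t _ _ => hF _ _
  intro t ht
  rw [mem_image] at ht
  obtain ⟨q, hq, rfl⟩ := ht
  rw [mem_filter, mem_product, mem_product]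
  exact ⟨⟨rest5_H_mem hq, rest5_S_mem hq, rest5_Z_mem hq⟩, rest5_cop_hz⟩

/-- multiplicativity of the weight -/
theorem rest5_weight {ε P : ℝ} (hP : 1 ≤ P) (hε : ε ≤ 1 / 1000) {J' X s h z : ℕ}
    (kap : ℕ → ℕ → ℝ) (hs : s ∈ QS5 ε P X) (hh : h ∈ QH5 ε P J' X) (hz : z ∈ QZ5 ε P J' X)
    (hzh : Nat.Coprime z h) :
    kapProd kap (s * h * z) = kapProd kap s * kapProd kap h * kapProd kap z := by
  have hs0 : s ≠ 0 := by have := rest5_QS_pos hs; omega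
  have hh0 : h ≠ 0 := by have := rest5_QH_pos hh; omega
  have hz0 : z ≠ 0 := by have := rest5_QZ_pos hz; omega
  have c1 := rest5_cop_sh hs hh
  have c2 : Nat.Coprime (s * h) z :=
    Nat.Coprime.mul_left (rest5_cop_sz hP hε hs hz) hzh.symm
  rw [fac_kapProd_mul kap (mul_ne_zero hs0 hh0) hz0 c2, fac_kapProd_mul kap hs0 hh0 c1]

end Vale.Agent.P042.UU
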