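import Vale.Agent.P042.UU.Rest5A

set_option autoImplicit false

/-!
Theorem S5, block REST5: the small moduli, abstract form.
-/

namespace Vale.Agent.P042.UU

open Finset Filter Vale.Agent.P042.SS Vale.Agent.P042.TT

lemma rest5_kapProd_nonneg {kap : ℕ → ℕ → ℝ} (h0 : ∀ p j, 0 ≤ kap p j) (q : ℕ) :
    0 ≤ kapProd kap q := prod_nonneg (fun _ _ => h0 _ _)

lemma rest5_kapProd_one (kap : ℕ → ℕ → ℝ) : kapProd kap 1 = 1 := by
  unfold kapProd; simp

lemma rest5_one_QZ {ε P : ℝ} {J' X : ℕ} (hX : 1 ≤ X) : 1 ∈ QZ5 ε P J' X := by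
  unfold QZ5
  rw [mem_filter, mem_Icc]
  exact ⟨⟨le_rfl, hX⟩, fun p hp => by simp at hp⟩

lemma rest5_QZ_mono {ε P : ℝ} {J' X X' : ℕ} (h : X ≤ X') : QZ5 ε P J' X ⊆ QZ5 ε P J' X' := by
  intro q hq
  unfold QZ5 at hq ⊢
  rw [mem_filter, mem_Icc] at hq ⊢
  exact ⟨⟨hq.1.1, hq.1.2.trans h⟩, hq.2⟩

/-- the small moduli, everything abstract -/
theorem rest5_small_abs {ε P : ℝ} (hP : 1 ≤ P) (hε : ε ≤ 1 / 1000) (J' X Q : ℕ)
    (hX : 1 ≤ X) (hXQ : X ≤ Q)
    (kap : ℕ → ℕ → ℝ) (h0 : ∀ p j, 0 ≤ kap p j) (h1 : ∀ p j, kap p j ≤ 1)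
    (X0 L1 B0 BD δ Ch : ℝ) (hX0 : 0 < X0) (hB0 : 0 ≤ B0) (hBD : 0 ≤ BD) (hδ : 0 ≤ δ)
    (zr : ℕ → ℝ) (hzr : ∀ z, 0 ≤ zr z)
    (hcost : ∀ I : Finset (ℕ × ℕ), (∀ i ∈ I, i.1.Prime ∧ 1 ≤ i.2 ∧
      i.1 ≤ ⌊P ^ (190 * ε)⌋₊) → ∑ i ∈ I, kap i.1 i.2 * (i.2 * Real.log i.1) ≤ X0)
    (hL : 2 * Real.log X + 2 * X0 ≤ L1)
    (F1 F2 : Finset ℕ → ℕ → ℝ) (hF1 : ∀ V ⊆ W5 ε P, ∀ n, 0 ≤ F1 V n)
    (hF12 : ∀ V ⊆ W5 ε P, ∀ n, F1 V n ≤ F2 V n)
    (hwt : ∀ z ∈ QZ5 ε P J' X, z ≠ 1 → kapProd kap z ≤ δ * zr z)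
    (hh : ∑ h ∈ QH5 ε P J' X, kapProd kap h ≤ Ch)
    (hS : ∀ V ⊆ W5 ε P, ∀ D : ℕ, 1 ≤ D → Real.log D ≤ L1 → (∀ p ∈ V, Nat.Coprime p D) →
      ∑ d ∈ D.divisors, ∑ z ∈ (QZ5 ε P J' Q).filter (fun z => Nat.Coprime z D),
        zr z * F2 V (d * z) ≤ B0)
    (hD : ∀ V ⊆ W5 ε P, ∀ D : ℕ, 1 ≤ D → Real.log D ≤ L1 → (∀ p ∈ V, Nat.Coprime p D) →
      ∑ d ∈ D.divisors.erase 1, F1 V d ≤ BD) :
    ∑ q ∈ (EV5 ε P X).erase 1, kapProd kap q * F1 (Vn ε P q) q ≤
      Ch * (2 * (δ * B0) + 2 * BD) := by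
  classical
  set w : ℕ := ⌊P ^ (190 * ε)⌋₊ with hw
  set f : ℕ → ℕ → ℝ := fun h q => kapProd kap q * F1 (Vn ε P h) q with hf
  have hf0 : ∀ h q, 0 ≤ f h q := fun h q =>
    mul_nonneg (rest5_kapProd_nonneg h0 q) (hF1 _ (filter_subset _ _) _)
  set F' : ℕ → ℕ → ℝ := fun h q => if q = 1 then 0 else f h q with hF'
  have hF'0 : ∀ h q, 0 ≤ F' h q := by
    intro h q; simp only [hF']; split_ifs
    · exact le_refl _
    · exact hf0 h q
  have hF'f : ∀ h q, F' h q ≤ f h q := by
    intro h q; simp only [hF']; split_ifs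
    · exact hf0 h q
    · exact le_refl _
  have hlX : 0 ≤ Real.log X := Real.log_natCast_nonneg _
  -- reduce to the triple sum
  have e1 : ∑ q ∈ (EV5 ε P X).erase 1, kapProd kap q * F1 (Vn ε P q) q =
      ∑ q ∈ (EV5 ε P X).erase 1, F' (f5H ε P J' q) q := by
    apply sum_congr rfl
    intro q hq
    simp only [hF', hf]
    rw [if_neg (ne_of_mem_erase hq),
      rest5_Vn (J' := J') (rest5_EV_pos (mem_of_mem_erase hq)).1.ne']
  have e2 : ∑ q ∈ (EV5 ε P X).erase 1, F' (f5H ε P J' q) q ≤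
      ∑ q ∈ EV5 ε P X, F' (f5H ε P J' q) q :=
    sum_le_sum_of_subset_of_nonneg (erase_subset _ _) (fun q _ _ => hF'0 _ q)
  have e3 := rest5_sum ε P J' X F' hF'0
  rw [e1]
  refine e2.trans (e3.trans ?_)
  set QZe := (QZ5 ε P J' X).erase 1 with hQZe
  have h1Z : 1 ∈ QZ5 ε P J' X := rest5_one_QZ hX
  -- the estimate for fixed `h`
  have key : ∀ h ∈ QH5 ε P J' X, ∑ s ∈ QS5 ε P X,
      ∑ z ∈ (QZ5 ε P J' X).filter (fun z => Nat.Coprime z h), F' h (s * h * z) ≤
      kapProd kap h * (2 * (δ * B0) + 2 * BD) := by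
    intro h hh
    have hhp := rest5_QH_pos hh
    have hg0 : 0 ≤ kapProd kap h := rest5_kapProd_nonneg h0 h
    have hVsub : Vn ε P h ⊆ W5 ε P := filter_subset _ _
    have hVw : ∀ p ∈ Vn ε P h, p.Prime ∧ w < p := fun p hp =>
      ⟨(rest5_W.1 (hVsub hp)).2, (rest5_W.1 (hVsub hp)).1.1⟩
    have hVh : ∀ p ∈ Vn ε P h, Nat.Coprime p h := fun p hp =>
      (Nat.Prime.coprime_iff_not_dvd (hVw p hp).1).2 (mem_filter.1 hp).2
    have hlh : Real.log h ≤ Real.log X := by
      apply Real.log_le_log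
      · exact_mod_cast hhp.1
      · exact_mod_cast hhp.2
    have hLh : Real.log X + 2 * X0 + Real.log h ≤ L1 := by linarith
    have hF2 : ∀ n, 0 ≤ F2 (Vn ε P h) n := fun n =>
      (hF1 _ hVsub n).trans (hF12 _ hVsub n)
    have hzQ : ∀ z ∈ QZ5 ε P J' Q, 1 ≤ z ∧ ∀ p ∈ z.primeFactors, w < p := fun z hz =>
      ⟨(rest5_QZ_pos hz).1, fun p hp => lt_of_le_of_lt (rest5_floor hP hε)
        ((mem_filter.1 hz).2 p hp).1⟩
    have e4 : ∀ s ∈ QS5 ε P X,
        ∑ z ∈ (QZ5 ε P J' X).filter (fun z => Nat.Coprime z h), F' h (s * h * z) ≤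
        ∑ z ∈ QZe.filter (fun z => Nat.Coprime z h), f h (s * h * z) + F' h (s * h) := by
      intro s _
      have : (QZ5 ε P J' X).filter (fun z => Nat.Coprime z h) =
          insert 1 (QZe.filter (fun z => Nat.Coprime z h)) := by
        ext z
        simp only [mem_filter, mem_insert, hQZe, mem_erase]
        constructor
        · rintro ⟨a, b⟩
          by_cases hz : z = 1
          · exact Or.inl hz
          · exact Or.inr ⟨⟨hz, a⟩, b⟩
        · rintro (a | ⟨⟨_, b⟩, c⟩)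
          · subst a; exact ⟨h1Z, Nat.coprime_one_left h⟩
          · exact ⟨b, c⟩
      rw [this, sum_insert (by simp [hQZe]), mul_one, add_comm]
      exact add_le_add (sum_le_sum (fun z _ => hF'f _ _)) (le_refl _)
    refine (sum_le_sum e4).trans ?_
    rw [sum_add_distrib, mul_add]
    refine add_le_add ?_ ?_
    · -- z ≠ 1
      have e7 := rest_fix kap h0 h1 w X X0 hX0 hcost (Vn ε P h) hVw (F2 (Vn ε P h)) hF2
        (fun z => kapProd kap z) zr QZe (QZ5 ε P J' Q) δ B0 L1
        ((erase_subset _ _).trans (rest5_QZ_mono hXQ)) hzQ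
        (fun z _ => rest5_kapProd_nonneg h0 z)
        (fun z _ => hzr z) hδ
        (fun z hz => hwt z (mem_of_mem_erase hz) (ne_of_mem_erase hz))
        (hS _ hVsub) h hhp.1 hVh hLh
      refine le_trans ?_ (mul_le_mul_of_nonneg_left e7 hg0)
      rw [mul_sum]
      apply sum_le_sum
      intro s hs
      rw [mul_sum, mul_sum]
      apply sum_le_sum
      intro z hz
      rw [mem_filter] at hz
      have e8 := rest5_weight hP hε kap hs hh (mem_of_mem_erase hz.1) hz.2
      simp only [hf]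
      rw [e8]
      have e9 := hF12 _ hVsub (s * h * z)
      have e10 : 0 ≤ kapProd kap s * kapProd kap h * kapProd kap z :=
        mul_nonneg (mul_nonneg (rest5_kapProd_nonneg h0 s) hg0) (rest5_kapProd_nonneg h0 z)
      refine (mul_le_mul_of_nonneg_left e9 e10).trans (le_of_eq ?_)
      ring
    · -- z = 1
      have e7 := rest_rms_gen kap h0 h1 w X X0 hX0 hcost
        (fun s => if s * h = 1 then 0 else F1 (Vn ε P h) (s * h)) BD
        (by
          intro s
          split_ifs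
          · exact le_refl _
          · exact hF1 _ hVsub _)
        (by
          intro D hD1 hDs hDl
          have hDh1 : 1 ≤ D * h := Nat.one_le_iff_ne_zero.mpr (by
            have := hhp.1
            positivity)
          have hcop : ∀ p ∈ Vn ε P h, Nat.Coprime p (D * h) := by
            intro p hp
            refine Nat.Coprime.mul_right ?_ (hVh p hp)
            rw [Nat.Prime.coprime_iff_not_dvd (hVw p hp).1]
            intro hd
            have := hDs p (Nat.mem_primeFactors.mpr ⟨(hVw p hp).1, hd, by omega⟩)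
            have := (hVw p hp).2
            omega
          have hlog : Real.log ((D * h : ℕ) : ℝ) ≤ L1 := by
            have h2 : (0 : ℝ) < D := by exact_mod_cast hD1
            have h3 : (0 : ℝ) < h := by exact_mod_cast hhp.1
            push_cast
            rw [Real.log_mul h2.ne' h3.ne']
            linarith
          have h2 := hD _ hVsub (D * h) hDh1 hlog hcop
          refine le_trans ?_ h2
          have hinj : Set.InjOn (fun s : ℕ => s * h) (D.divisors : Set ℕ) := by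
            intro a _ b _ hab
            exact Nat.eq_of_mul_eq_mul_right (by omega) hab
          have h5 : ∑ s ∈ D.divisors, (if s * h = 1 then 0 else F1 (Vn ε P h) (s * h)) =
              ∑ d ∈ D.divisors.image (fun s => s * h),
                (if d = 1 then 0 else F1 (Vn ε P h) d) := by
            rw [sum_image hinj]
          rw [h5]
          have h6 : ∑ d ∈ D.divisors.image (fun s => s * h),
              (if d = 1 then 0 else F1 (Vn ε P h) d) ≤
              ∑ d ∈ (D * h).divisors, (if d = 1 then 0 else F1 (Vn ε P h) d) := by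
            apply sum_le_sum_of_subset_of_nonneg
            · intro d hd
              rw [mem_image] at hd
              obtain ⟨s, hs, rfl⟩ := hd
              rw [Nat.mem_divisors] at hs ⊢
              exact ⟨Nat.mul_dvd_mul_right hs.1 h, by omega⟩
            · intro d _ _
              split_ifs
              · exact le_rfl
              · exact hF1 _ hVsub _
          refine h6.trans (le_of_eq ?_)
          have h1D : 1 ∈ (D * h).divisors := Nat.one_mem_divisors.mpr (by omega)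
          rw [← insert_erase h1D, sum_insert (by simp), if_pos rfl, zero_add,
            erase_insert (by simp)]
          apply sum_congr rfl
          intro s hs
          rw [if_neg (ne_of_mem_erase hs)])
      refine le_trans ?_ (mul_le_mul_of_nonneg_left e7 hg0)
      unfold QS5
      rw [mul_sum]
      apply sum_le_sum
      intro s hs
      simp only [hF', hf]
      by_cases hs1 : s * h = 1
      · simp [hs1]
      · rw [if_neg hs1, if_neg hs1]
        have e8 := rest5_weight hP hε kap (s := s) hs hh h1Z (Nat.coprime_one_left h)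
        rw [mul_one, rest5_kapProd_one, mul_one] at e8
        rw [e8]
        exact le_of_eq (by ring)
  refine (sum_le_sum key).trans ?_
  rw [← sum_mul]
  exact mul_le_mul_of_nonneg_right hh (by positivity)

end Vale.Agent.P042.UU
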