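import Vale.Agent.P042.UU.MomA
import Vale.Agent.P042.TT.FacW
import Vale.Agent.P042.SS.Cost

set_option autoImplicit false

/-!
Theorem S5, block REST5: the sum over the high part of the moduli.
-/

namespace Vale.Agent.P042.UU

open Finset Filter Vale.Agent.P042.SS Vale.Agent.P042.TT

/-- multiplicative weight with a Rankin factor -/
theorem rest5_wt (kap : ℕ → ℕ → ℝ) {z : ℕ} (hz : z ≠ 0) (t : ℝ) :
    kapProd kap z * (z : ℝ) ^ t = ∏ p ∈ z.primeFactors,
      (kap p (z.factorization p) * (p : ℝ) ^ (z.factorization p * t)) := by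
  rw [facw_rpow hz t]
  unfold kapProd
  rw [← prod_mul_distrib]

/-- growth facts for the high part -/
structure RhBig5 (ε E P : ℝ) : Prop where
  P4 : 4 ≤ P
  lg1 : 1 ≤ ε * Real.log P
  lg2 : (16 * E) * Real.log P ≤ P ^ ε
  tE : (50 * E) * P ^ (-ε) ≤ P ^ (0 : ℝ)

theorem rh5_big (ε E : ℝ) (hε : 0 < ε) : ∀ᶠ P : ℝ in atTop, RhBig5 ε E P := by
  filter_upwards [eventually_ge_atTop 4,
    (Real.tendsto_log_atTop.const_mul_atTop hε).eventually_ge_atTop 1,
    mom5_log_dom (16 * E) ε hε, mom5_pow_dom (-ε) 0 (50 * E) (by linarith)]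
    with P h1 h2 h3 h4
  exact ⟨h1, h2, h3, h4⟩

/-- **the sum over the high part** -/
theorem rest5_high (k E K p0 : ℕ) (kap : ℕ → ℕ → ℝ) (hk : 1 ≤ k) (hE : 1 ≤ E)
    (hK : KapOK k E K p0 kap) (ε : ℝ) (hε : 0 < ε) (hε1 : ε ≤ 1 / 1000) :
    ∃ C P0 : ℝ, 0 < C ∧ ∀ P : ℝ, P0 ≤ P → ∀ t : ℝ, 0 ≤ t → t ≤ P ^ (-ε) →
    ∀ Hs : Finset ℕ, (∀ h ∈ Hs, h ≠ 0 ∧ ∀ p ∈ h.primeFactors,
      (p ∈ W5 ε P ∧ 2 ≤ h.factorization p) ∨ 4 * E < h.factorization p) →
    ∑ h ∈ Hs, kapProd kap h * (h : ℝ) ^ t ≤ C := by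
  classical
  obtain ⟨S, hS0, hS⟩ := facw_geo E hE
  obtain ⟨C2, hC2, hcost⟩ := cost2_holds k E K p0 kap hk hE hK
  have hsumT : Summable (fun n : ℕ => (n : ℝ) ^ (-3.92 : ℝ)) :=
    Real.summable_nat_rpow.2 (by norm_num)
  set T : ℝ := ∑' n : ℕ, (n : ℝ) ^ (-3.92 : ℝ) with hT
  have hTle : ∀ s : Finset ℕ, ∑ n ∈ s, (n : ℝ) ^ (-3.92 : ℝ) ≤ T := fun s =>
    hsumT.sum_le_tsum s (fun n _ => by positivity)
  have hT0 : 0 ≤ T := tsum_nonneg (fun n => by positivity)
  obtain ⟨P1, hP1⟩ := eventually_atTop.1 (rh5_big ε E hε)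
  refine ⟨Real.exp (2 * (C2 * 4 / ε) + 32 * K * S * T), P1, Real.exp_pos _,
    fun P hP t ht0 ht Hs hHs => ?_⟩
  have hB := hP1 P hP
  have hP4 := hB.P4
  have hPp : 0 < P := by linarith
  have hPone : 1 ≤ P := by linarith
  have hER : (1 : ℝ) ≤ E := by exact_mod_cast hE
  have hlP : 0 < Real.log P := Real.log_pos (by linarith)
  set Pr : Finset ℕ := Hs.biUnion Nat.primeFactors with hPr
  set Js : Finset ℕ := Hs.biUnion (fun h => h.primeFactors.image h.factorization) with hJs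
  -- allowed items
  set A : Finset (ℕ × ℕ) := (Pr ×ˢ Js).filter (fun i => i.1 ∈ W5 ε P ∧ 2 ≤ i.2 ∧ i.2 ≤ 4 * E)
    with hA
  set g : ℕ → ℕ → ℝ := fun p j => if (p ∈ W5 ε P ∧ 2 ≤ j ∧ j ≤ 4 * E) ∨ 4 * E < j then
    kap p j * (p : ℝ) ^ (j * t) else 0 with hg
  have hg0 : ∀ p j, 0 ≤ g p j := by
    intro p j
    have := hK.nn p j
    rw [hg]
    simp only
    split_ifs
    · positivity
    · exact le_rfl
  have hPrp : ∀ p ∈ Pr, p.Prime := by
    intro p hp
    rw [hPr, mem_biUnion] at hp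
    obtain ⟨h, hh, hp⟩ := hp
    exact Nat.prime_of_mem_primeFactors hp
  have hJ0 : 0 ∉ Js := by
    intro h0
    rw [hJs, mem_biUnion] at h0
    obtain ⟨h, hh, hj⟩ := h0
    rw [mem_image] at hj
    obtain ⟨p, hp, hj⟩ := hj
    rw [← Nat.support_factorization, Finsupp.mem_support_iff] at hp
    exact hp hj
  have hmain := facw_euler Pr Js g hg0 hJ0 Hs (fun h hh => ⟨(hHs h hh).1, fun p hp =>
    ⟨mem_biUnion.2 ⟨h, hh, hp⟩, mem_biUnion.2 ⟨h, hh, mem_image_of_mem _ hp⟩⟩⟩)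
  have hwt : ∀ h ∈ Hs, kapProd kap h * (h : ℝ) ^ t =
      ∏ p ∈ h.primeFactors, g p (h.factorization p) := by
    intro h hh
    rw [rest5_wt kap (hHs h hh).1 t]
    refine prod_congr rfl fun p hp => ?_
    rw [hg]
    simp only
    rw [if_pos]
    rcases (hHs h hh).2 p hp with h1 | h1
    · by_cases h2 : 4 * E < h.factorization p
      · exact Or.inr h2
      · exact Or.inl ⟨h1.1, h1.2, by omega⟩
    · exact Or.inr h1
  rw [sum_congr rfl hwt]
  refine hmain.trans ?_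
  have a1 : ∏ p ∈ Pr, (1 + ∑ j ∈ Js, g p j) ≤ Real.exp (∑ p ∈ Pr, ∑ j ∈ Js, g p j) := by
    rw [Real.exp_sum]
    refine prod_le_prod (fun p _ => ?_) fun p _ => ?_
    · have := sum_nonneg (s := Js) fun j _ => hg0 p j
      linarith
    · have := Real.add_one_le_exp (∑ j ∈ Js, g p j)
      linarith
  refine a1.trans (Real.exp_le_exp.2 ?_)
  -- splitting into the two kinds of items
  have hsplit : ∀ p ∈ Pr, ∑ j ∈ Js, g p j ≤
      ∑ j ∈ Js, (if (p, j) ∈ A then kap p j * (p : ℝ) ^ (j * t) else 0) +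
      ∑ j ∈ Js.filter (fun j => 4 * E < j), 2 * kap p j * (p : ℝ) ^ (j * t) := by
    intro p hp
    rw [sum_filter, ← sum_add_distrib]
    refine sum_le_sum fun j hj => ?_
    have h0 := hK.nn p j
    have h00 : 0 ≤ kap p j * (p : ℝ) ^ (j * t) := by positivity
    rw [hg]
    simp only
    by_cases h1 : 4 * E < j
    · rw [if_pos (Or.inr h1), if_pos h1]
      split_ifs <;> linarith
    · rw [if_neg h1, add_zero]
      by_cases h2 : p ∈ W5 ε P ∧ 2 ≤ j ∧ j ≤ 4 * E
      · rw [if_pos (Or.inl h2), if_pos]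
        rw [hA, mem_filter, mem_product]
        exact ⟨⟨hp, hj⟩, h2⟩
      · rw [if_neg (by tauto)]
        split_ifs
        · exact h00
        · exact le_rfl
  refine (sum_le_sum hsplit).trans ?_
  rw [sum_add_distrib]
  refine add_le_add ?_ ?_
  · -- window items
    have e1 : ∑ p ∈ Pr, ∑ j ∈ Js, (if (p, j) ∈ A then kap p j * (p : ℝ) ^ (j * t) else 0) =
        ∑ i ∈ A, kap i.1 i.2 * (i.1 : ℝ) ^ (i.2 * t) := by
      rw [← sum_product' Pr Js
        (fun p j => if (p, j) ∈ A then kap p j * (p : ℝ) ^ (j * t) else 0)]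
      rw [← sum_filter (s := Pr ×ˢ Js) (p := fun x => (x.1, x.2) ∈ A)
        (f := fun x => kap x.1 x.2 * (x.1 : ℝ) ^ (x.2 * t))]
      refine sum_congr ?_ fun _ _ => rfl
      ext i
      rw [mem_filter]
      constructor
      · exact fun h => h.2
      · intro h
        exact ⟨(mem_filter.1 h).1, h⟩
    rw [e1]
    have hAI : ∀ i ∈ A, i.1.Prime ∧ 2 ≤ i.2 ∧ i.1 ≤ ⌊P ^ (2 : ℝ)⌋₊ := by
      intro i hi
      rw [hA, mem_filter] at hi
      have h1 := mom5_W_mem hPp.le hi.2.1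
      refine ⟨h1.1, hi.2.2.1, Nat.le_floor (h1.2.2.trans ?_)⟩
      exact Real.rpow_le_rpow_of_exponent_le hPone (by linarith)
    have hc := hcost _ A hAI
    have hlY : Real.log ((⌊P ^ (2 : ℝ)⌋₊ : ℝ) + 1) ≤ 3 * Real.log P := by
      have h1 : (⌊P ^ (2 : ℝ)⌋₊ : ℝ) ≤ P ^ (2 : ℝ) := Nat.floor_le (by positivity)
      have h2 : (⌊P ^ (2 : ℝ)⌋₊ : ℝ) + 1 ≤ P ^ (3 : ℝ) := by
        have h3 : P ^ (3 : ℝ) = P * P ^ (2 : ℝ) := by
          rw [show (3 : ℝ) = 1 + 2 by norm_num, Real.rpow_add hPp, Real.rpow_one]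
        have h4 : 1 ≤ P ^ (2 : ℝ) := Real.one_le_rpow hPone (by norm_num)
        have h5 : 4 * P ^ (2 : ℝ) ≤ P * P ^ (2 : ℝ) :=
          mul_le_mul_of_nonneg_right hP4 (by positivity)
        rw [h3]
        linarith
      have h3 := Real.log_le_log (by positivity) h2
      rwa [Real.log_rpow hPp] at h3
    have e2 : ∀ i ∈ A, kap i.1 i.2 * (i.1 : ℝ) ^ (i.2 * t) ≤
        2 / (ε * Real.log P) * (kap i.1 i.2 * (i.2 * Real.log i.1)) := by
      intro i hi
      rw [hA, mem_filter] at hi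
      obtain ⟨hpr, hlo, hhi⟩ := mom5_W_mem hPp.le hi.2.1
      have hi0 : (0 : ℝ) < (i.1 : ℝ) := by exact_mod_cast hpr.pos
      have h0 := hK.nn i.1 i.2
      have hj1 : (1 : ℝ) ≤ (i.2 : ℝ) := by
        have : 1 ≤ i.2 := by have := hi.2.2.1; omega
        exact_mod_cast this
      have hj4 : (i.2 : ℝ) ≤ 4 * E := by exact_mod_cast hi.2.2.2
      have hlogi : ε * Real.log P ≤ Real.log i.1 := by
        have h2 := Real.log_lt_log (by positivity) hlo
        rw [Real.log_rpow hPp] at h2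
        nlinarith
      have hlogi2 : Real.log i.1 ≤ 2 * Real.log P := by
        have h2 := Real.log_le_log hi0 hhi
        rw [Real.log_rpow hPp] at h2
        nlinarith
      have hlogi0 : 0 ≤ Real.log i.1 := by nlinarith
      have h3 : (i.1 : ℝ) ^ (i.2 * t) ≤ 2 := by
        rw [Real.rpow_def_of_pos hi0]
        have h4 : Real.log i.1 * (i.2 * t) ≤ 1 / 2 := by
          calc Real.log i.1 * (i.2 * t) ≤ (2 * Real.log P) * (4 * E * P ^ (-ε)) := by
                gcongr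
            _ = (16 * E * Real.log P) * P ^ (-ε) / 2 := by ring
            _ ≤ P ^ ε * P ^ (-ε) / 2 := by
                have := hB.lg2
                gcongr
            _ = 1 / 2 := by rw [← Real.rpow_add hPp]; simp
        have h5 := Real.exp_le_exp.2 h4
        have h6 : Real.exp (1 / 2 : ℝ) ≤ 2 := by
          have h7 := Real.exp_one_lt_d9
          have h8 : Real.exp (1 / 2 : ℝ) * Real.exp (1 / 2 : ℝ) = Real.exp 1 := by
            rw [← Real.exp_add]; norm_num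
          nlinarith [Real.exp_pos (1 / 2 : ℝ)]
        linarith
      have hd : 0 < ε * Real.log P := by positivity
      have h7 : 1 ≤ (i.2 * Real.log i.1) / (ε * Real.log P) := by
        rw [le_div_iff₀ hd]
        nlinarith
      calc kap i.1 i.2 * (i.1 : ℝ) ^ (i.2 * t) ≤ kap i.1 i.2 * 2 := by gcongr
        _ ≤ kap i.1 i.2 * 2 * ((i.2 * Real.log i.1) / (ε * Real.log P)) :=
          le_mul_of_one_le_right (by positivity) h7
        _ = _ := by ring
    refine (sum_le_sum e2).trans ?_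
    rw [← mul_sum]
    have hd : 0 < ε * Real.log P := by positivity
    calc 2 / (ε * Real.log P) * ∑ i ∈ A, kap i.1 i.2 * (i.2 * Real.log i.1)
        ≤ 2 / (ε * Real.log P) * (C2 * (4 * Real.log P)) := by
          refine mul_le_mul_of_nonneg_left (hc.trans ?_) (by positivity)
          refine mul_le_mul_of_nonneg_left ?_ hC2.le
          have h1 : 1 ≤ Real.log P := by
            have := hB.lg1
            nlinarith
          linarith
      _ = 2 * (C2 * 4 / ε) := by field_simp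
  · -- high exponents
    have ht50 : t ≤ 1 / (50 * (E : ℝ)) := by
      have h1 := hB.tE
      rw [Real.rpow_zero] at h1
      rw [le_div_iff₀ (by positivity)]
      calc t * (50 * (E : ℝ)) ≤ P ^ (-ε) * (50 * (E : ℝ)) := by gcongr
        _ = 50 * E * P ^ (-ε) := by ring
        _ ≤ 1 := h1
    have e1 : ∀ p ∈ Pr, ∑ j ∈ Js.filter (fun j => 4 * E < j), 2 * kap p j * (p : ℝ) ^ (j * t) ≤
        32 * K * S * (p : ℝ) ^ (-3.92 : ℝ) := fun p hp =>
      facw_high hE hK.pw hS ht50 (hPrp p hp) fun j hj => (mem_filter.1 hj).2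
    refine (sum_le_sum e1).trans ?_
    rw [← mul_sum]
    exact mul_le_mul_of_nonneg_left (hTle Pr) (by positivity)

end Vale.Agent.P042.UU
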