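import Vale.Agent.P042.UU.Restd5

set_option autoImplicit false

/-!
Theorem S5, block REST5, sharp part, continued.
-/

namespace Vale.Agent.P042.UU

open Polynomial Finset Filter Vale.Agent.P042.SS Vale.Agent.P042.TT

theorem rd5_deg {C ε P : ℝ} (hε : 0 < ε) (hε1 : ε ≤ 1 / 1000) (hB : RdBig5 C ε P)
    {V : Finset ℕ} (hV : V ⊆ W5 ε P) :
    2 * ∑ p ∈ V, t5 ε P p + (u5 ε P : ℝ) ≤ (dT5 ε P : ℝ) := by
  have hP1' : 1 ≤ P := by linarith [hB.P1000]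
  have hP0 : 0 < P := by linarith
  have h3 : ∑ p ∈ V, t5 ε P p ≤ 2 * P ^ (1 - 57 * ε) := by
    calc ∑ p ∈ V, t5 ε P p = P ^ (38 * ε) * ∑ p ∈ V, (p : ℝ) ^ (-(1 / 2) : ℝ) := by
          rw [mul_sum]
          rfl
      _ ≤ P ^ (38 * ε) * (2 * P ^ (1 - 95 * ε)) := by
          gcongr
          exact one5_sum_window hP1' hV
      _ = 2 * (P ^ (38 * ε) * P ^ (1 - 95 * ε)) := by ring
      _ = 2 * P ^ (1 - 57 * ε) := by
          rw [← Real.rpow_add hP0]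
          congr 2
          ring
  have h4 : (u5 ε P : ℝ) ≤ P ^ (1 - 57 * ε) := by
    unfold u5
    refine (Nat.floor_le (by positivity)).trans ?_
    exact Real.rpow_le_rpow_of_exponent_le hP1' (by linarith)
  have h5 : 1 ≤ P ^ (1 - 57 * ε) := Real.one_le_rpow hP1' (by linarith)
  have h7 : P ^ (1 - 53 * ε) - 1 < (dT5 ε P : ℝ) := by
    unfold dT5
    linarith [Nat.lt_floor_add_one (P ^ (1 - 53 * ε))]
  have h8 := hB.dT
  linarith

/-- the energies at the true rates are dominated by the total energies -/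
theorem rd5_ews_totd (hE : EWS5Stmt) {C ε P : ℝ} (hε : 0 < ε) (hε1 : ε ≤ 1 / 1000)
    (hB : RdBig5 C ε P) {k N' : ℕ} {Φ : ℝ} {G : ℤ → ℝ} {ν : ℕ → ℤ → ℝ}
    (hS : Sb5 ε P k N' Φ G ν) {V : Finset ℕ} (hV : V ⊆ W5 ε P) (y : ℤ) (M : ℕ) (θ : ℝ) :
    ews (t6 ε P) (u5 ε P) V ν G y M 1 0 θ ≤ ‖Fc G y M 1 0 θ‖ ^ 2 +
      P ^ (-(8 * ε)) * (2 * totd (t5 ε P) (dT5 ε P) V ν G y M 1 0 θ) ∧
    ews (t6 ε P) (u5 ε P) V ν G y M 1 0 θ ≤
      2 * totd (t5 ε P) (dT5 ε P) V ν G y M 1 0 θ ∧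
    0 ≤ ews (t6 ε P) (u5 ε P) V ν G y M 1 0 θ := by
  have hP1' : 1 ≤ P := by linarith [hB.P1000]
  have hP0 : 0 < P := by linarith
  have ht : ∀ p ∈ V, 0 ≤ t5 ε P p ∧ t5 ε P p ≤ 1 := fun p hp =>
    ⟨one5_t5_nonneg hP1' p, one5_t5_le hε hP1' (hV hp)⟩
  have hprime : ∀ p ∈ V, p.Prime := fun p hp => (one5_W5 (hV hp)).1
  have hwts : Wts V ν := one5_wts hS.wts hV
  have hGν : ∀ n, G n ≠ 0 → ∀ p ∈ V, ν p n ≠ 0 := fun n hn p hp => hS.Gν n hn p (hV hp)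
  obtain ⟨_, h3⟩ := hE V ν G y M 1 0 θ (t5 ε P) (dT5 ε P) (u5 ε P) hprime hwts hGν ht
  have h4 := h3 (rd5_deg hε hε1 hB hV)
  obtain ⟨hnn, hempty, _⟩ := ew_holds V ν G y M 1 0 θ hprime hwts hGν
  set F := V.powerset.filter (fun U => U.card ≤ u5 ε P) with hF
  have hem : ∅ ∈ F := by
    rw [hF, mem_filter]
    exact ⟨empty_mem_powerset _, by simp⟩
  have hsplit : ∀ t : ℕ → ℝ, ews t (u5 ε P) V ν G y M 1 0 θ =
      ‖Fc G y M 1 0 θ‖ ^ 2 + ∑ U ∈ F.erase ∅, (∏ p ∈ U, t p) * ew ν G y M 1 0 θ U := by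
    intro t
    unfold ews
    rw [← add_sum_erase F _ hem, prod_empty, one_mul, hempty]
  have hterm0 : ∀ U ∈ F.erase ∅, 0 ≤ (∏ p ∈ U, t5 ε P p) * ew ν G y M 1 0 θ U := by
    intro U hU
    rw [mem_erase, hF, mem_filter, mem_powerset] at hU
    exact mul_nonneg (prod_nonneg fun p hp => (ht p (hU.2.1 hp)).1) (hnn U hU.2.1)
  have h5 : ∑ U ∈ F.erase ∅, (∏ p ∈ U, t6 ε P p) * ew ν G y M 1 0 θ U ≤
      P ^ (-(8 * ε)) * ∑ U ∈ F.erase ∅, (∏ p ∈ U, t5 ε P p) * ew ν G y M 1 0 θ U := by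
    rw [mul_sum]
    refine sum_le_sum fun U hU => ?_
    have hU' := hU
    rw [mem_erase, hF, mem_filter, mem_powerset] at hU'
    obtain ⟨hne, hUV, _⟩ := hU'
    have h6 : ∏ p ∈ U, t6 ε P p = (P ^ (-(8 * ε))) ^ U.card * ∏ p ∈ U, t5 ε P p := by
      rw [← prod_const, ← prod_mul_distrib]
      exact prod_congr rfl fun p _ => one5_t6 hP1' p
    have h7 : (P ^ (-(8 * ε))) ^ U.card ≤ P ^ (-(8 * ε)) := by
      have h8 : P ^ (-(8 * ε)) ≤ 1 := Real.rpow_le_one_of_one_le_of_nonpos hP1' (by linarith)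
      have h9 : U.card ≠ 0 := by
        rw [Ne, card_eq_zero]
        exact hne
      exact pow_le_of_le_one (by positivity) h8 h9
    rw [h6, mul_assoc]
    exact mul_le_mul_of_nonneg_right h7 (hterm0 U hU)
  have h50 : 0 ≤ ∑ U ∈ F.erase ∅, (∏ p ∈ U, t5 ε P p) * ew ν G y M 1 0 θ U :=
    sum_nonneg hterm0
  have h60 : 0 ≤ ∑ U ∈ F.erase ∅, (∏ p ∈ U, t6 ε P p) * ew ν G y M 1 0 θ U := by
    refine sum_nonneg fun U hU => ?_
    rw [mem_erase, hF, mem_filter, mem_powerset] at hU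
    refine mul_nonneg (prod_nonneg fun p hp => ?_) (hnn U hU.2.1)
    unfold t6
    positivity
  have h7 := hsplit (t5 ε P)
  have h8 := hsplit (t6 ε P)
  have h9 : 0 ≤ ‖Fc G y M 1 0 θ‖ ^ 2 := sq_nonneg _
  have h10 : P ^ (-(8 * ε)) ≤ 1 := Real.rpow_le_one_of_one_le_of_nonpos hP1' (by linarith)
  have h11 : 0 ≤ P ^ (-(8 * ε)) := by positivity
  refine ⟨?_, ?_, ?_⟩
  · have h12 : P ^ (-(8 * ε)) * ∑ U ∈ F.erase ∅, (∏ p ∈ U, t5 ε P p) * ew ν G y M 1 0 θ U ≤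
        P ^ (-(8 * ε)) * (2 * totd (t5 ε P) (dT5 ε P) V ν G y M 1 0 θ) :=
      mul_le_mul_of_nonneg_left (by linarith) h11
    linarith
  · have h12 : P ^ (-(8 * ε)) * ∑ U ∈ F.erase ∅, (∏ p ∈ U, t5 ε P p) * ew ν G y M 1 0 θ U ≤
        1 * ∑ U ∈ F.erase ∅, (∏ p ∈ U, t5 ε P p) * ew ν G y M 1 0 θ U :=
      mul_le_mul_of_nonneg_right h10 h50
    linarith
  · linarith

/-- SUM5 without the part coprime to the smooth numbers -/
theorem rd5_sum {C ε P : ℝ} (hε : 0 < ε) (hP1 : 1 ≤ P)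
    {k N' : ℕ} {Φ : ℝ} {G : ℤ → ℝ} {ν : ℕ → ℤ → ℝ} (hS : Sb5 ε P k N' Φ G ν) {V : Finset ℕ}
    (hV : V ⊆ W5 ε P) {D M : ℕ} {y : ℤ} {J' : ℕ} {B : ℝ}
    (hsum : ∑ d ∈ D.divisors, ∑ q ∈ (QZ5 ε P J' (Q5 ε P)).filter (fun q => Nat.Coprime q D),
      zR5 ε P q * ∑ a ∈ (range (d * q)).filter (Nat.Coprime (d * q)),
        totd (t5 ε P) (dT5 ε P) V ν G y M 1 0 ((a : ℝ) / ((d * q : ℕ) : ℝ)) ≤ B) :
    ∑ d ∈ D.divisors, ∑ a ∈ (range d).filter (Nat.Coprime d),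
        totd (t5 ε P) (dT5 ε P) V ν G y M 1 0 ((a : ℝ) / d) ≤ B := by
  have ht : ∀ p ∈ V, 0 ≤ t5 ε P p ∧ t5 ε P p ≤ 1 := fun p hp =>
    ⟨one5_t5_nonneg hP1 p, one5_t5_le hε hP1 (hV hp)⟩
  refine le_trans (sum_le_sum fun d _ => ?_) hsum
  have h4 : (1 : ℕ) ∈ (QZ5 ε P J' (Q5 ε P)).filter (fun q => Nat.Coprime q D) := by
    rw [mem_filter]
    refine ⟨?_, Nat.coprime_one_left D⟩
    unfold QZ5
    rw [mem_filter, mem_Icc]
    refine ⟨⟨le_rfl, ?_⟩, ?_⟩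
    · unfold Q5
      exact Nat.le_floor (by
        push_cast
        exact Real.one_le_exp (by positivity))
    · intro p hp
      simp at hp
  refine le_trans ?_ (single_le_sum (f := fun q : ℕ => zR5 ε P q *
    ∑ a ∈ (range (d * q)).filter (Nat.Coprime (d * q)),
        totd (t5 ε P) (dT5 ε P) V ν G y M 1 0 ((a : ℝ) / ((d * q : ℕ) : ℝ)))
    (fun q _ => mul_nonneg (one5_zR5_nonneg hP1 q)
      (sum_nonneg fun a _ => one5_totd_nonneg ht hS.wts.nn _ _ _ _ _ _ _)) h4)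
  have h6 : zR5 ε P 1 = 1 := by simp [zR5]
  simp only [h6, one_mul, mul_one]
  exact le_rfl

theorem restd5_of (hSum : SUM5Stmt) (hE : EWS5Stmt) : RESTD5Stmt := by
  intro k ε hk hε hε1
  obtain ⟨C, P0, hC, hsum⟩ := hSum k 1 ε hk le_rfl hε hε1
  obtain ⟨P1, hP1⟩ := Filter.eventually_atTop.1 (rd5_big C ε hε hε1)
  refine ⟨max P0 P1, fun P hP N' Φ G ν hS V D M y hV hM hN hD hDl hc => ?_⟩
  have hPP0 : P0 ≤ P := (le_max_left _ _).trans hP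
  have hB := hP1 P ((le_max_right _ _).trans hP)
  have hSb := hS.toSb5
  have hPone : 1 ≤ P := by linarith [hB.P1000]
  have hPpos : 0 < P := by linarith
  have hD0 : (0 : ℝ) < D := by exact_mod_cast hD
  have hX0 : 0 ≤ (M * Φ) ^ 2 := sq_nonneg _
  have hDl' : Real.log D ≤ P ^ (1 - 92 * ε) := by
    have := hB.lgD
    linarith
  have hs2 := rd5_sum (C := C) hε hPone hSb hV (hsum P hPP0 N' Φ G ν hS V D M y hV hM hN hD hDl' hc)
  have hwD := fun r => rd5_win hε hε1 hB hSb D M y r hD hDl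
  have hw1 := rd5_win hε hε1 hB hSb 1 M y 0 le_rfl
    (by rw [Nat.cast_one, Real.log_one]; positivity)
  rw [Nat.cast_one, div_one, div_one] at hw1
  have hkey := rd5_first hε hB hSb hD hN hwD hw1
  rw [← rd_erase G y M D hD] at hkey
  -- splitting
  have hsplit : ∑ d ∈ D.divisors.erase 1, ∑ a ∈ (range d).filter (Nat.Coprime d),
      ews (t6 ε P) (u5 ε P) V ν G y M 1 0 ((a : ℝ) / d) ≤
      ∑ d ∈ D.divisors.erase 1, ∑ a ∈ (range d).filter (Nat.Coprime d),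
        ‖Fc G y M 1 0 ((a : ℝ) / d)‖ ^ 2 +
      P ^ (-(8 * ε)) * (2 * ∑ d ∈ D.divisors, ∑ a ∈ (range d).filter (Nat.Coprime d),
        totd (t5 ε P) (dT5 ε P) V ν G y M 1 0 ((a : ℝ) / d)) := by
    have ht : ∀ p ∈ V, 0 ≤ t5 ε P p ∧ t5 ε P p ≤ 1 := fun p hp =>
      ⟨one5_t5_nonneg hPone p, one5_t5_le hε hPone (hV hp)⟩
    have h1 : ∑ d ∈ D.divisors.erase 1, ∑ a ∈ (range d).filter (Nat.Coprime d),
        totd (t5 ε P) (dT5 ε P) V ν G y M 1 0 ((a : ℝ) / d) ≤ ∑ d ∈ D.divisors,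
          ∑ a ∈ (range d).filter (Nat.Coprime d),
            totd (t5 ε P) (dT5 ε P) V ν G y M 1 0 ((a : ℝ) / d) :=
      sum_le_sum_of_subset_of_nonneg (erase_subset _ _)
        fun d _ _ => sum_nonneg fun a _ => one5_totd_nonneg ht hSb.wts.nn _ _ _ _ _ _ _
    have h2 : ∑ d ∈ D.divisors.erase 1, ∑ a ∈ (range d).filter (Nat.Coprime d),
        ews (t6 ε P) (u5 ε P) V ν G y M 1 0 ((a : ℝ) / d) ≤
        ∑ d ∈ D.divisors.erase 1, ∑ a ∈ (range d).filter (Nat.Coprime d),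
          (‖Fc G y M 1 0 ((a : ℝ) / d)‖ ^ 2 +
            P ^ (-(8 * ε)) * (2 * totd (t5 ε P) (dT5 ε P) V ν G y M 1 0 ((a : ℝ) / d))) :=
      sum_le_sum fun d _ => sum_le_sum fun a _ => (rd5_ews_totd hE hε hε1 hB hSb hV y M _).1
    refine h2.trans ?_
    simp only [sum_add_distrib, ← mul_sum]
    have := mul_le_mul_of_nonneg_left h1 (show 0 ≤ P ^ (-(8 * ε)) * 2 by positivity)
    linarith
  have hDC : (D : ℝ) ^ (C * bc5 ε P) ≤ 3 := by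
    have h1 : (D : ℝ) ^ (C * bc5 ε P) = Real.exp (Real.log D * (C * bc5 ε P)) :=
      Real.rpow_def_of_pos hD0 _
    have h2 : Real.log D * (C * bc5 ε P) ≤ 1 := by
      have h3 : 0 ≤ Real.log D := Real.log_nonneg (by exact_mod_cast hD)
      have h4 := hB.C1
      rw [Real.rpow_zero] at h4
      calc Real.log D * (C * bc5 ε P) ≤ P ^ (95.5 * ε) * (C * P ^ (-(95.8 * ε))) := by
            unfold bc5
            gcongr
        _ = C * (P ^ (95.5 * ε) * P ^ (-(95.8 * ε))) := by ring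
        _ = C * P ^ (-(0.3 * ε)) := by
            rw [← Real.rpow_add hPpos]
            congr 2; ring
        _ ≤ 1 := h4
    rw [h1]
    refine (Real.exp_le_exp.2 h2).trans ?_
    have := Real.exp_one_lt_d9
    linarith
  have hs3 : ∑ d ∈ D.divisors, ∑ a ∈ (range d).filter (Nat.Coprime d),
      totd (t5 ε P) (dT5 ε P) V ν G y M 1 0 ((a : ℝ) / d) ≤ 3 * C * (M * Φ) ^ 2 := by
    refine hs2.trans (mul_le_mul_of_nonneg_right ?_ hX0)
    calc C * (D : ℝ) ^ (C * bc5 ε P) ≤ C * 3 := mul_le_mul_of_nonneg_left hDC hC.le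
      _ = 3 * C := by ring
  have hsecond : P ^ (-(8 * ε)) * (2 * ∑ d ∈ D.divisors, ∑ a ∈ (range d).filter (Nat.Coprime d),
        totd (t5 ε P) (dT5 ε P) V ν G y M 1 0 ((a : ℝ) / d)) ≤
        P ^ (-(0.3 * ε)) / 2 * (M * Φ) ^ 2 := by
    have h7 := hB.C2
    calc P ^ (-(8 * ε)) * (2 * ∑ d ∈ D.divisors, ∑ a ∈ (range d).filter (Nat.Coprime d),
        totd (t5 ε P) (dT5 ε P) V ν G y M 1 0 ((a : ℝ) / d))
        ≤ P ^ (-(8 * ε)) * (2 * (3 * C * (M * Φ) ^ 2)) := by gcongr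
      _ = (12 * C * P ^ (-(8 * ε))) / 2 * (M * Φ) ^ 2 := by ring
      _ ≤ _ := by gcongr
  have hfirst2 : 2 * P ^ (-(0.4 * ε)) * (M * Φ) ^ 2 ≤ P ^ (-(0.3 * ε)) / 2 * (M * Φ) ^ 2 := by
    refine mul_le_mul_of_nonneg_right ?_ hX0
    have := hB.e3
    linarith
  linarith

end Vale.Agent.P042.UU
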