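import Vale.Agent.P042.UU.Rest5B
import Vale.Agent.P042.UU.Rest5H
import Vale.Agent.P042.UU.Restd5B

set_option autoImplicit false

/-!
Theorem S5, block REST5: the small moduli.
-/

namespace Vale.Agent.P042.UU

open Finset Filter Vale.Agent.P042.SS Vale.Agent.P042.TT

/-- growth facts -/
structure RsBig5 (k p0 : ℕ) (Cc C Ch ε P : ℝ) : Prop where
  P1 : 1 ≤ P
  kk : k * P ^ (0 : ℝ) ≤ P ^ (ε / 4)
  kk2 : k * P ^ (ε / 4) ≤ P ^ (0.18 : ℝ)
  p0le : p0 * P ^ (0 : ℝ) ≤ P ^ (1.8 : ℝ)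
  L1 : 8 * P ^ (95.1 * ε) ≤ P ^ (95.4 * ε)
  Lc : (8 * Cc) * P ^ (95 * ε) ≤ P ^ (95.4 * ε)
  LD : 1 * P ^ (95.4 * ε) ≤ P ^ (1 - 92 * ε)
  C1 : C * P ^ (-(0.4 * ε)) ≤ P ^ (0 : ℝ)
  f1 : (48 * Ch * C) * P ^ (-(ε / 4)) ≤ P ^ (-(ε / 5))
  f2 : (8 * Ch) * P ^ (-(0.3 * ε)) ≤ P ^ (-(ε / 5))

theorem rs5_big (k p0 : ℕ) (Cc C Ch ε : ℝ) (hε : 0 < ε) (hε1 : ε ≤ 1 / 1000) :
    ∀ᶠ P : ℝ in atTop, RsBig5 k p0 Cc C Ch ε P := by
  filter_upwards [eventually_ge_atTop 1,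
    mom5_pow_dom 0 (ε / 4) k (by linarith),
    mom5_pow_dom (ε / 4) 0.18 k (by linarith),
    mom5_pow_dom 0 1.8 p0 (by norm_num),
    mom5_pow_dom (95.1 * ε) (95.4 * ε) 8 (by linarith),
    mom5_pow_dom (95 * ε) (95.4 * ε) (8 * Cc) (by linarith),
    mom5_pow_dom (95.4 * ε) (1 - 92 * ε) 1 (by linarith),
    mom5_pow_dom (-(0.4 * ε)) 0 C (by linarith),
    mom5_pow_dom (-(ε / 4)) (-(ε / 5)) (48 * Ch * C) (by linarith),
    mom5_pow_dom (-(0.3 * ε)) (-(ε / 5)) (8 * Ch) (by linarith)]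
    with P h1 h2 h3 h4 h5 h6 h7 h8 h9 h10
  exact ⟨h1, h2, h3, h4, h5, h6, h7, h8, h9, h10⟩

/-- comparison of the weights of the `z`-part, with a gain -/
theorem rest5_wt1 {k E K p0 : ℕ} {kap : ℕ → ℕ → ℝ}
    (hK : KapOK k E K p0 kap) {Cc C Ch ε P : ℝ} (hε : 0 < ε) (hε1 : ε ≤ 1 / 1000)
    (hB : RsBig5 k p0 Cc C Ch ε P) {J' X z : ℕ} (hz : z ∈ QZ5 ε P J' X) (hz1 : z ≠ 1) :
    kapProd kap z ≤ P ^ (-(ε / 4)) * zR5 ε P z := by
  have hP1 := hB.P1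
  have hP0 : 0 < P := by linarith
  have hkk := hB.kk
  have hp00 := hB.p0le
  rw [Real.rpow_zero, mul_one] at hkk hp00
  have hzr0 : ∀ p j, 0 ≤ zr5 ε P p j := by
    intro p j
    unfold zr5
    split_ifs <;> positivity
  have h1 : kapProd kap z ≤
      ∏ p ∈ z.primeFactors, (P ^ (-(ε / 4)) * zr5 ε P p (z.factorization p)) := by
    unfold kapProd
    refine prod_le_prod (fun p _ => hK.nn p _) fun p hp => ?_
    have hpp := Nat.prime_of_mem_primeFactors hp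
    have hw := ((mem_filter.1 hz).2 p hp).1
    have hpw : P ^ (2 - 190 * ε) < p := Nat.lt_of_floor_lt hw
    have h18 : P ^ (1.8 : ℝ) < p := by
      refine lt_of_le_of_lt (Real.rpow_le_rpow_of_exponent_le hP1 ?_) hpw
      linarith
    have hp0 : p0 < p := by
      have : (p0 : ℝ) < p := lt_of_le_of_lt hp00 h18
      exact_mod_cast this
    have hpR : (0 : ℝ) < p := by exact_mod_cast hpp.pos
    have hpR1 : (1 : ℝ) ≤ p := by exact_mod_cast hpp.one_lt.le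
    by_cases hj : z.factorization p = 1
    · rw [hj]
      unfold zr5
      rw [if_pos rfl]
      have hk1 := hK.one p hpp hp0
      have hs : (k : ℝ) / Real.sqrt p = k * (p : ℝ) ^ (-(1 / 2) : ℝ) := by
        rw [Real.sqrt_eq_rpow, Real.rpow_neg hpR.le, div_eq_mul_inv]
      rw [hs] at hk1
      have e2 : P ^ (-(ε / 4)) * (P ^ (ε / 2) * (p : ℝ) ^ (-(1 / 2) + ε / 10 : ℝ)) =
          P ^ (ε / 4) * (p : ℝ) ^ (-(1 / 2) + ε / 10 : ℝ) := by
        rw [← mul_assoc, ← Real.rpow_add hP0]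
        congr 2; ring
      rw [e2]
      calc kap p 1 ≤ k * (p : ℝ) ^ (-(1 / 2) : ℝ) := hk1
        _ ≤ P ^ (ε / 4) * (p : ℝ) ^ (-(1 / 2) + ε / 10 : ℝ) := by
            refine mul_le_mul hkk ?_ (by positivity) (by positivity)
            exact Real.rpow_le_rpow_of_exponent_le hpR1 (by linarith)
    · have hj2 : 2 ≤ z.factorization p := by
        have h3 : z.factorization p ≠ 0 := by
          rw [← Nat.support_factorization, Finsupp.mem_support_iff] at hp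
          exact hp
        omega
      unfold zr5
      rw [if_neg hj]
      have hk2 := hK.two p _ hpp hp0 hj2
      have h3 : (k : ℝ) * P ^ (ε / 4) ≤ (p : ℝ) ^ (0.1 : ℝ) := by
        calc (k : ℝ) * P ^ (ε / 4) ≤ P ^ (0.18 : ℝ) := hB.kk2
          _ = (P ^ (1.8 : ℝ)) ^ (0.1 : ℝ) := by rw [← Real.rpow_mul hP0.le]; norm_num
          _ ≤ (p : ℝ) ^ (0.1 : ℝ) := Real.rpow_le_rpow (by positivity) h18.le (by norm_num)
      have h4 : (k : ℝ) ≤ P ^ (-(ε / 4)) * (p : ℝ) ^ (0.1 : ℝ) := by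
        calc (k : ℝ) = P ^ (-(ε / 4)) * (k * P ^ (ε / 4)) := by
              rw [mul_left_comm, ← Real.rpow_add hP0]; simp
          _ ≤ _ := mul_le_mul_of_nonneg_left h3 (by positivity)
      calc kap p (z.factorization p) ≤ k / p := hk2
        _ = k * (p : ℝ) ^ (-1 : ℝ) := by rw [Real.rpow_neg_one, div_eq_mul_inv]
        _ ≤ (P ^ (-(ε / 4)) * (p : ℝ) ^ (0.1 : ℝ)) * (p : ℝ) ^ (-1 : ℝ) := by gcongr
        _ = P ^ (-(ε / 4)) * (p : ℝ) ^ (-0.9 : ℝ) := by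
            rw [mul_assoc, ← Real.rpow_add hpR]
            norm_num
  refine h1.trans ?_
  rw [prod_mul_distrib, prod_const]
  unfold zR5
  refine mul_le_mul_of_nonneg_right ?_ (prod_nonneg fun _ _ => hzr0 _ _)
  have h2 : P ^ (-(ε / 4)) ≤ 1 := Real.rpow_le_one_of_one_le_of_nonpos hP1 (by linarith)
  have h3 : z.primeFactors.card ≠ 0 := by
    rw [card_ne_zero]
    refine Nat.nonempty_primeFactors.2 ?_
    have := (rest5_QZ_pos hz).1
    omega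
  exact pow_le_of_le_one (by positivity) h2 h3

/-- the small moduli -/
theorem rest5_small (hSUM : SUM5Stmt) (hE5 : EWS5Stmt) (k E K p0 : ℕ) (kap : ℕ → ℕ → ℝ)
    (ε : ℝ) (hk : 1 ≤ k) (hE : 1 ≤ E) (hK : KapOK k E K p0 kap) (hε : 0 < ε)
    (hε1 : ε ≤ 1 / 1000) :
    ∃ C P0 : ℝ, 0 < C ∧ ∀ P : ℝ, P0 ≤ P →
    ∀ (N' : ℕ) (Φ : ℝ) (G : ℤ → ℝ) (ν : ℕ → ℤ → ℝ), St5 ε P k N' Φ G ν →
    ∀ (M : ℕ) (y : ℤ), M ≤ N' → N' ≤ 32 * M → ∀ X : ℕ, 1 ≤ X →
      Real.log X ≤ 2 * P ^ (95.1 * ε) → X ≤ Q5 ε P →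
    ∑ q ∈ (EV5 ε P X).erase 1, kapProd kap q *
      ∑ a ∈ (range q).filter (Nat.Coprime q),
        ews (t6 ε P) (u5 ε P) (Vn ε P q) ν G y M 1 0 ((a : ℝ) / q) ≤
      P ^ (-(ε / 5)) * (M * Φ) ^ 2 +
        C * (mass G y M 1 0 * |Φ * cnt N' y M - mass G y M 1 0|) := by
  obtain ⟨C, P1, hC, hsum⟩ := hSUM k (4 * E) ε hk (by omega) hε hε1
  obtain ⟨Ch, P2, hCh, hhigh⟩ := rest5_high k E K p0 kap hk hE hK ε hε hε1
  obtain ⟨Cc, hCc, hcost⟩ := cost_holds k E K p0 kap hk hE hK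
  obtain ⟨P3, hrd⟩ := restd5_of hSUM hE5 k ε hk hε hε1
  obtain ⟨P4, hP4⟩ := eventually_atTop.1 (rs5_big k p0 Cc C Ch ε hε hε1)
  obtain ⟨P5, hP5⟩ := eventually_atTop.1 (rd5_big C ε hε hε1)
  refine ⟨4 * Ch, max (max P1 P2) (max P3 (max P4 P5)), by positivity, ?_⟩
  intro P hP N' Φ G ν hSt M y hM hN X hX hlX hXQ
  have hPP1 : P1 ≤ P := (le_max_left _ _).trans ((le_max_left _ _).trans hP)
  have hPP2 : P2 ≤ P := (le_max_right _ _).trans ((le_max_left _ _).trans hP)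
  have hPP3 : P3 ≤ P := (le_max_left _ _).trans ((le_max_right _ _).trans hP)
  have hPP4 : P4 ≤ P :=
    (le_max_left _ _).trans ((le_max_right _ _).trans ((le_max_right _ _).trans hP))
  have hPP5 : P5 ≤ P :=
    (le_max_right _ _).trans ((le_max_right _ _).trans ((le_max_right _ _).trans hP))
  have hB := hP4 P hPP4
  have hBd := hP5 P hPP5
  have hP1 := hB.P1
  have hP0 : 0 < P := by linarith
  have hSb := hSt.toSb5
  have hX0 : (0 : ℝ) ≤ (M * Φ) ^ 2 := sq_nonneg _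
  have hmass0 : 0 ≤ mass G y M 1 0 := rd_mass_nonneg hSb.G0 y M 1 0
  have hmm0 : 0 ≤ mass G y M 1 0 * |Φ * cnt N' y M - mass G y M 1 0| :=
    mul_nonneg hmass0 (abs_nonneg _)
  have hlX0 : 0 ≤ Real.log X := Real.log_natCast_nonneg _
  have hsq : Real.sqrt (⌊P ^ (190 * ε)⌋₊ : ℝ) + 1 ≤ 2 * P ^ (95 * ε) := by
    have h1 : Real.sqrt (⌊P ^ (190 * ε)⌋₊ : ℝ) ≤ P ^ (95 * ε) := by
      rw [Real.sqrt_le_left (by positivity)]
      refine (Nat.floor_le (by positivity)).trans (le_of_eq ?_)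
      rw [← Real.rpow_natCast, ← Real.rpow_mul hP0.le]
      congr 1; push_cast; ring
    have h2 : 1 ≤ P ^ (95 * ε) := Real.one_le_rpow hP1 (by linarith)
    linarith
  -- the cost
  have hX00 : 0 < Cc * (Real.sqrt (⌊P ^ (190 * ε)⌋₊ : ℝ) + 1) := by positivity
  have hL : 2 * Real.log X + 2 * (Cc * (Real.sqrt (⌊P ^ (190 * ε)⌋₊ : ℝ) + 1)) ≤
      P ^ (95.4 * ε) := by
    have h1 := hB.L1
    have h2 := hB.Lc
    have h3 : Cc * (Real.sqrt (⌊P ^ (190 * ε)⌋₊ : ℝ) + 1) ≤ Cc * (2 * P ^ (95 * ε)) :=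
      mul_le_mul_of_nonneg_left hsq hCc.le
    have h4 : 0 ≤ P ^ (95.4 * ε) := by positivity
    linarith
  have hDC : ∀ D : ℕ, 1 ≤ D → Real.log D ≤ P ^ (95.4 * ε) →
      (D : ℝ) ^ (C * bc5 ε P) ≤ 3 := by
    intro D hD hDl
    have hD0 : (0 : ℝ) < D := by exact_mod_cast hD
    rw [Real.rpow_def_of_pos hD0]
    have h2 : Real.log D * (C * bc5 ε P) ≤ 1 := by
      have h3 : 0 ≤ Real.log D := Real.log_nonneg (by exact_mod_cast hD)
      have h4 := hB.C1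
      rw [Real.rpow_zero] at h4
      calc Real.log D * (C * bc5 ε P) ≤ P ^ (95.4 * ε) * (C * P ^ (-(95.8 * ε))) := by
            unfold bc5
            gcongr
        _ = C * (P ^ (95.4 * ε) * P ^ (-(95.8 * ε))) := by ring
        _ = C * P ^ (-(0.4 * ε)) := by
            rw [← Real.rpow_add hP0]
            congr 2; ring
        _ ≤ 1 := h4
    refine (Real.exp_le_exp.2 h2).trans ?_
    have := Real.exp_one_lt_d9
    linarith
  have habs := rest5_small_abs hP1 hε1 (4 * E) X (Q5 ε P) hX hXQ kap hK.nn hK.le1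
    (Cc * (Real.sqrt (⌊P ^ (190 * ε)⌋₊ : ℝ) + 1)) (P ^ (95.4 * ε)) (6 * C * (M * Φ) ^ 2)
    (P ^ (-(0.3 * ε)) * (M * Φ) ^ 2 +
        2 * (mass G y M 1 0 * |Φ * cnt N' y M - mass G y M 1 0|))
    (P ^ (-(ε / 4))) Ch hX00 (by positivity) (by positivity) (by positivity)
    (zR5 ε P) (one5_zR5_nonneg hP1) (hcost _) hL
    (fun V n => ∑ a ∈ (range n).filter (Nat.Coprime n),
      ews (t6 ε P) (u5 ε P) V ν G y M 1 0 ((a : ℝ) / n))
    (fun V n => 2 * ∑ a ∈ (range n).filter (Nat.Coprime n),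
      totd (t5 ε P) (dT5 ε P) V ν G y M 1 0 ((a : ℝ) / n))
    (fun V hV n => sum_nonneg fun a _ => (rd5_ews_totd hE5 hε hε1 hBd hSb hV y M _).2.2)
    (fun V hV n => by
      rw [mul_sum]
      exact sum_le_sum fun a _ => (rd5_ews_totd hE5 hε hε1 hBd hSb hV y M _).2.1)
    (fun z hz hz1 => rest5_wt1 hK hε hε1 hB hz hz1)
    ?_ ?_ ?_
  · refine habs.trans ?_
    have h1 := hB.f1
    have h2 := hB.f2
    calc Ch * (2 * (P ^ (-(ε / 4)) * (6 * C * (M * Φ) ^ 2)) +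
          2 * (P ^ (-(0.3 * ε)) * (M * Φ) ^ 2 +
            2 * (mass G y M 1 0 * |Φ * cnt N' y M - mass G y M 1 0|)))
        = ((48 * Ch * C) * P ^ (-(ε / 4)) / 4 + (8 * Ch) * P ^ (-(0.3 * ε)) / 4) *
            (M * Φ) ^ 2 +
          4 * Ch * (mass G y M 1 0 * |Φ * cnt N' y M - mass G y M 1 0|) := by ring
      _ ≤ (P ^ (-(ε / 5)) / 4 + P ^ (-(ε / 5)) / 4) * (M * Φ) ^ 2 +
          4 * Ch * (mass G y M 1 0 * |Φ * cnt N' y M - mass G y M 1 0|) := by gcongr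
      _ ≤ _ := by
          have h3 : 0 ≤ P ^ (-(ε / 5)) * (M * Φ) ^ 2 := by positivity
          linarith
  · -- high part
    have h1 := hhigh P hPP2 0 le_rfl (by positivity) (QH5 ε P (4 * E) X) (fun h hh => by
      refine ⟨by have := (rest5_QH_pos hh).1; omega, fun p hp => ?_⟩
      exact ((mem_filter.1 hh).2 p hp).2)
    simpa using h1
  · -- SUM5
    intro V hV D hD hDl hcop
    have h1 := hsum P hPP1 N' Φ G ν hSt V D M y hV hM hN hD (by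
      have := hB.LD
      linarith) hcop
    have h2 : ∑ d ∈ D.divisors, ∑ z ∈ (QZ5 ε P (4 * E) (Q5 ε P)).filter
        (fun z => Nat.Coprime z D), zR5 ε P z * (2 * ∑ a ∈ (range (d * z)).filter
          (Nat.Coprime (d * z)), totd (t5 ε P) (dT5 ε P) V ν G y M 1 0
            ((a : ℝ) / ((d * z : ℕ) : ℝ))) =
        2 * ∑ d ∈ D.divisors, ∑ z ∈ (QZ5 ε P (4 * E) (Q5 ε P)).filter
          (fun z => Nat.Coprime z D), zR5 ε P z * ∑ a ∈ (range (d * z)).filter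
            (Nat.Coprime (d * z)), totd (t5 ε P) (dT5 ε P) V ν G y M 1 0
              ((a : ℝ) / ((d * z : ℕ) : ℝ)) := by
      rw [mul_sum]
      refine sum_congr rfl fun d _ => ?_
      rw [mul_sum]
      refine sum_congr rfl fun z _ => ?_
      ring
    rw [h2]
    calc 2 * _ ≤ 2 * (C * (D : ℝ) ^ (C * bc5 ε P) * (M * Φ) ^ 2) :=
          mul_le_mul_of_nonneg_left h1 (by norm_num)
      _ ≤ 2 * (C * 3 * (M * Φ) ^ 2) := by
          have := hDC D hD hDl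
          gcongr
      _ = _ := by ring
  · -- RESTD5
    intro V hV D hD hDl hcop
    exact hrd P hPP3 N' Φ G ν hSt V D M y hV hM hN hD (hDl.trans
      (Real.rpow_le_rpow_of_exponent_le hP1 (by linarith))) hcop

end Vale.Agent.P042.UU
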