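import Vale.Agent.P042.UU.Tot5
import Vale.Agent.P042.UU.MomA

set_option autoImplicit false

/-!
Theorem S5, block REST5: the moduli with a large part outside the window.
-/

namespace Vale.Agent.P042.UU

open Finset Filter Vale.Agent.P042.SS Vale.Agent.P042.TT Vale.Agent.P042.UU.TotC

/-- growth facts -/
structure RyBig5 (ε C t' P : ℝ) : Prop where
  P4 : 4 ≤ P
  g1 : 2 * P ^ (1 - 95 * ε) ≤ P ^ (1 - 94 * ε)
  g2 : 4 * P ^ (-(95.5 * ε)) ≤ t'
  g3 : 8 * C * P ^ (-(95.8 * ε)) ≤ t'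
  g4 : Real.log P + Real.log C + P ^ (95 * ε) ≤ t' / 2 * P ^ (95.1 * ε)

theorem ry5_big (ε C t' : ℝ) (hε : 0 < ε) (ht' : 0 < t') :
    ∀ᶠ P : ℝ in atTop, RyBig5 ε C t' P := by
  have ht0 : (t' : ℝ) ≠ 0 := ht'.ne'
  filter_upwards [eventually_ge_atTop 4, mom5_pow_dom (1 - 95 * ε) (1 - 94 * ε) 2 (by linarith),
    mom5_pow_dom (-(95.5 * ε)) 0 (4 / t') (by linarith),
    mom5_pow_dom (-(95.8 * ε)) 0 (8 * C / t') (by linarith),
    mom5_log_dom (6 / t') (95.1 * ε) (by linarith),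
    mom5_pow_dom 0 (95.1 * ε) (6 / t' * Real.log C) (by linarith),
    mom5_pow_dom (95 * ε) (95.1 * ε) (6 / t') (by linarith)]
    with P h1 h2 h3 h4 h5 h6 h7
  rw [Real.rpow_zero] at h3 h4 h6
  refine ⟨h1, h2, ?_, ?_, ?_⟩
  · have := mul_le_mul_of_nonneg_left h3 ht'.le
    calc 4 * P ^ (-(95.5 * ε)) = t' * (4 / t' * P ^ (-(95.5 * ε))) := by field_simp
      _ ≤ t' * 1 := this
      _ = t' := mul_one _
  · have := mul_le_mul_of_nonneg_left h4 ht'.le
    calc 8 * C * P ^ (-(95.8 * ε)) = t' * (8 * C / t' * P ^ (-(95.8 * ε))) := by field_simp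
      _ ≤ t' * 1 := this
      _ = t' := mul_one _
  · have e1 : Real.log P = t' / 6 * (6 / t' * Real.log P) := by field_simp
    have e2 : Real.log C = t' / 6 * (6 / t' * Real.log C * 1) := by field_simp
    have e3 : P ^ (95 * ε) = t' / 6 * (6 / t' * P ^ (95 * ε)) := by field_simp
    have a1 := mul_le_mul_of_nonneg_left h5 (by positivity : (0 : ℝ) ≤ t' / 6)
    have a2 := mul_le_mul_of_nonneg_left h6 (by positivity : (0 : ℝ) ≤ t' / 6)
    have a3 := mul_le_mul_of_nonneg_left h7 (by positivity : (0 : ℝ) ≤ t' / 6)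
    rw [← e1] at a1
    rw [← e2] at a2
    rw [← e3] at a3
    linarith

/-- **the moduli with a large part outside the window** -/
theorem rest5_dyad (hTOT : TOT5Stmt) (k E K p0 : ℕ) (kap : ℕ → ℕ → ℝ) (ε : ℝ) (hk : 1 ≤ k)
    (hE : 1 ≤ E) (hK : KapOK k E K p0 kap) (hε : 0 < ε) (hε1 : ε ≤ 1 / 1000) :
    ∃ C P0 : ℝ, 0 < C ∧ ∀ P : ℝ, P0 ≤ P → ∀ (N' : ℕ) (Φ : ℝ) (G : ℤ → ℝ) (ν : ℕ → ℤ → ℝ),
      St5 ε P k N' Φ G ν → ∀ (qY M : ℕ) (y : ℤ), M ≤ N' → N' ≤ 32 * M → 1 ≤ qY →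
      (∀ p ∈ qY.primeFactors, p ∈ W5 ε P) → Real.log qY ≤ P ^ (1 - 95 * ε) →
      ∑ q ∈ (E05 ε P (Q5 ε P)).filter (fun q : ℕ => P ^ (95.1 * ε) < Real.log q),
        (q : ℝ) ^ (P ^ (-(95.5 * ε))) * kapProd kap q *
          ∑ a ∈ (range (qY * q)).filter (Nat.Coprime (qY * q)),
            totd (t5 ε P) (dT5 ε P) (Vn ε P qY) ν G y M 1 0 ((a : ℝ) / ((qY * q : ℕ) : ℝ)) ≤
        Real.exp (-(P ^ (95 * ε))) * Real.exp (C * bc5 ε P * Real.log qY) * (M * Φ) ^ 2 := by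
  obtain ⟨t', C0, P1, ht', -, hC0, hT⟩ := hTOT k E K p0 kap ε hk hE hK hε hε1
  obtain ⟨P2, hP2⟩ := eventually_atTop.1 (ry5_big ε C0 t' hε ht')
  refine ⟨C0, max P1 P2, hC0, ?_⟩
  intro P hP N' Φ G ν hS qY M y hM1 hM2 hq1 hqp hqY
  have hB := hP2 P ((le_max_right _ _).trans hP)
  have hT' := hT P ((le_max_left _ _).trans hP) N' Φ G ν hS qY M y
  have hP4 := hB.P4
  have hP0 : 0 < P := by linarith
  have hP1 : 1 ≤ P := by linarith
  set l1 : ℝ := P ^ (95.1 * ε) with hl1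
  set θ : ℝ := P ^ (-(95.5 * ε)) with hθ
  set F : ℕ → ℝ := fun q => kapProd kap q *
    ∑ a ∈ (range (qY * q)).filter (Nat.Coprime (qY * q)),
      totd (t5 ε P) (dT5 ε P) (Vn ε P qY) ν G y M 1 0 ((a : ℝ) / ((qY * q : ℕ) : ℝ)) with hF
  have hVW : Vn ε P qY ⊆ W5 ε P := filter_subset _ _
  have hF0 : ∀ q, 0 ≤ F q := fun q => mul_nonneg (kapProd_nonneg hK.nn q)
    (sum_nonneg fun a _ => totd_nonneg (fun p _ => t5_nonneg hP0.le p)
      (fun p hp => t5_le_one hε hP1 (hVW hp)) _ hS.wts.nn G y M 1 0 _)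
  have hl10 : 1 ≤ l1 := Real.one_le_rpow hP1 (by linarith)
  have hl1p : 0 < l1 := by linarith
  have hbc : 0 ≤ bc5 ε P := Real.rpow_nonneg hP0.le _
  have hX0 : 0 ≤ (M * Φ) ^ 2 := sq_nonneg _
  set B : Finset ℕ := (E05 ε P (Q5 ε P)).filter (fun q : ℕ => l1 < Real.log q) with hBdef
  have hmem : ∀ q ∈ B, 1 ≤ q ∧ q ≤ Q5 ε P ∧ l1 < Real.log q ∧ Real.log q ≤ P ^ (1 - 95 * ε) := by
    intro q hq
    rw [hBdef, mem_filter] at hq
    have h1 := hq.1
    unfold E05 at h1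
    rw [mem_filter, mem_Icc] at h1
    refine ⟨h1.1.1, h1.1.2, hq.2, ?_⟩
    have h2 : (q : ℝ) ≤ Real.exp (P ^ (1 - 95 * ε)) :=
      le_trans (by exact_mod_cast h1.1.2) (Nat.floor_le (Real.exp_pos _).le)
    have h3 : (0 : ℝ) < q := by exact_mod_cast h1.1.1
    rw [← Real.log_exp (P ^ (1 - 95 * ε))]
    exact Real.log_le_log h3 h2
  set jj : ℕ → ℕ := fun q => ⌈Real.log q / l1⌉₊ - 1 with hjj
  have hjmem : ∀ q ∈ B, (1 ≤ jj q) ∧ (jj q : ℝ) * l1 < Real.log q ∧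
      Real.log q ≤ ((jj q : ℝ) + 1) * l1 := by
    intro q hq
    obtain ⟨-, -, h1, -⟩ := hmem q hq
    have h2 : 1 < Real.log q / l1 := (one_lt_div hl1p).2 h1
    have h3 : 1 < ⌈Real.log q / l1⌉₊ := by
      rw [Nat.lt_ceil]
      exact_mod_cast h2
    have h4 : ((jj q : ℕ) : ℝ) = (⌈Real.log q / l1⌉₊ : ℝ) - 1 := by
      rw [hjj]
      simp only
      rw [Nat.cast_sub h3.le]
      push_cast
      ring
    have h5 : Real.log q / l1 ≤ (⌈Real.log q / l1⌉₊ : ℝ) := Nat.le_ceil _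
    have h6 : (⌈Real.log q / l1⌉₊ : ℝ) < Real.log q / l1 + 1 := Nat.ceil_lt_add_one (by linarith)
    refine ⟨by rw [hjj]; simp only; omega, ?_, ?_⟩
    · rw [h4, ← lt_div_iff₀ hl1p]
      linarith
    · rw [h4, ← div_le_iff₀ hl1p]
      linarith
  have hJ : ∀ q ∈ B, jj q ∈ Icc 1 ⌊P⌋₊ := by
    intro q hq
    obtain ⟨h1, h2, -⟩ := hjmem q hq
    obtain ⟨-, -, -, h4⟩ := hmem q hq
    rw [mem_Icc]
    refine ⟨h1, Nat.le_floor ?_⟩
    have h5 : P ^ (1 - 95 * ε) ≤ P ^ (1 : ℝ) := Real.rpow_le_rpow_of_exponent_le hP1 (by linarith)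
    rw [Real.rpow_one] at h5
    have h6 : (jj q : ℝ) * 1 ≤ (jj q : ℝ) * l1 := mul_le_mul_of_nonneg_left hl10 (Nat.cast_nonneg _)
    linarith
  have hLHS : ∑ q ∈ B, (q : ℝ) ^ θ * kapProd kap q *
      ∑ a ∈ (range (qY * q)).filter (Nat.Coprime (qY * q)),
        totd (t5 ε P) (dT5 ε P) (Vn ε P qY) ν G y M 1 0 ((a : ℝ) / ((qY * q : ℕ) : ℝ)) =
      ∑ q ∈ B, (q : ℝ) ^ θ * F q := by
    refine sum_congr rfl fun q _ => ?_
    rw [hF]
    ring
  rw [hLHS, ← sum_fiberwise_of_maps_to hJ]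
  set R : ℝ := C0 * Real.exp (C0 * bc5 ε P * Real.log qY) * (M * Φ) ^ 2 *
    Real.exp (-(t' / 2 * l1)) with hR
  have hR0 : 0 ≤ R := by positivity
  have hfib : ∀ j ∈ Icc 1 ⌊P⌋₊, ∑ q ∈ B.filter (fun q => jj q = j), (q : ℝ) ^ θ * F q ≤ R := by
    intro j hj
    rcases (B.filter (fun q => jj q = j)).eq_empty_or_nonempty with h0 | ⟨q0, hq0⟩
    · rw [h0, sum_empty]
      exact hR0
    · rw [mem_filter] at hq0
      have hj1 : (1 : ℝ) ≤ j := by
        rw [mem_Icc] at hj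
        exact_mod_cast hj.1
      have hup : (j : ℝ) * l1 ≤ P ^ (1 - 95 * ε) := by
        obtain ⟨-, h2, -⟩ := hjmem q0 hq0.1
        obtain ⟨-, -, -, h4⟩ := hmem q0 hq0.1
        rw [hq0.2] at h2
        linarith
      have h2j : ((j : ℝ) + 1) * l1 ≤ 2 * ((j : ℝ) * l1) := by nlinarith
      have hTj := hT' (((j : ℝ) + 1) * l1) hM1 hM2 hq1 hqp hqY (by nlinarith)
        (by linarith [hB.g1])
      have hterm : ∀ q ∈ B.filter (fun q => jj q = j), (q : ℝ) ^ θ * F q ≤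
          Real.exp (-((t' - θ) * ((j : ℝ) * l1))) * ((q : ℝ) ^ t' * F q) := by
        intro q hq
        rw [mem_filter] at hq
        obtain ⟨h1, -, -, -⟩ := hmem q hq.1
        obtain ⟨-, h2, -⟩ := hjmem q hq.1
        rw [hq.2] at h2
        have hq0' : (0 : ℝ) < q := by exact_mod_cast h1
        have hre : Real.exp (-((t' - θ) * ((j : ℝ) * l1))) * ((q : ℝ) ^ t' * F q) =
            (Real.exp (-((t' - θ) * ((j : ℝ) * l1))) * (q : ℝ) ^ t') * F q := by ring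
        rw [hre]
        refine mul_le_mul_of_nonneg_right ?_ (hF0 q)
        rw [Real.rpow_def_of_pos hq0', Real.rpow_def_of_pos hq0', ← Real.exp_add]
        apply Real.exp_le_exp.2
        have h3 : 0 ≤ t' - θ := by
          have := hB.g2
          have h4 : 0 ≤ θ := Real.rpow_nonneg hP0.le _
          linarith
        nlinarith
      refine (sum_le_sum hterm).trans ?_
      rw [← mul_sum]
      have hsub : ∑ q ∈ B.filter (fun q => jj q = j), (q : ℝ) ^ t' * F q ≤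
          ∑ q ∈ (E05 ε P (Q5 ε P)).filter (fun q : ℕ => Real.log q ≤ ((j : ℝ) + 1) * l1),
            (q : ℝ) ^ t' * F q := by
        refine sum_le_sum_of_subset_of_nonneg ?_ fun q _ _ =>
          mul_nonneg (Real.rpow_nonneg (Nat.cast_nonneg _) _) (hF0 q)
        intro q hq
        rw [mem_filter] at hq ⊢
        have h1 := hq.1
        rw [hBdef, mem_filter] at h1
        refine ⟨h1.1, ?_⟩
        have h2 := (hjmem q hq.1).2.2
        rw [hq.2] at h2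
        exact h2
      have hTj' : ∑ q ∈ (E05 ε P (Q5 ε P)).filter (fun q : ℕ => Real.log q ≤ ((j : ℝ) + 1) * l1),
            (q : ℝ) ^ t' * F q ≤
          C0 * Real.exp (C0 * bc5 ε P * (((j : ℝ) + 1) * l1 + Real.log qY)) * (M * Φ) ^ 2 := by
        refine le_trans (le_of_eq ?_) hTj
        refine sum_congr rfl fun q _ => ?_
        rw [hF]
        ring
      calc _ ≤ Real.exp (-((t' - θ) * ((j : ℝ) * l1))) *
            (C0 * Real.exp (C0 * bc5 ε P * (((j : ℝ) + 1) * l1 + Real.log qY)) * (M * Φ) ^ 2) :=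
            mul_le_mul_of_nonneg_left (hsub.trans hTj') (Real.exp_pos _).le
        _ = C0 * (M * Φ) ^ 2 * Real.exp (-((t' - θ) * ((j : ℝ) * l1)) +
              C0 * bc5 ε P * (((j : ℝ) + 1) * l1 + Real.log qY)) := by
            rw [Real.exp_add]
            ring
        _ ≤ C0 * (M * Φ) ^ 2 * Real.exp (C0 * bc5 ε P * Real.log qY + -(t' / 2 * l1)) := by
            refine mul_le_mul_of_nonneg_left (Real.exp_le_exp.2 ?_) (by positivity)
            have a1 : C0 * bc5 ε P * (((j : ℝ) + 1) * l1) ≤ C0 * bc5 ε P * (2 * ((j : ℝ) * l1)) :=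
              mul_le_mul_of_nonneg_left h2j (by positivity)
            have a2 : 8 * C0 * bc5 ε P ≤ t' := hB.g3
            have a3 : 4 * θ ≤ t' := hB.g2
            have a4 : l1 ≤ (j : ℝ) * l1 := by nlinarith
            have a5 : 0 ≤ (j : ℝ) * l1 := by positivity
            have a6 : 4 * θ * ((j : ℝ) * l1) ≤ t' * ((j : ℝ) * l1) :=
              mul_le_mul_of_nonneg_right a3 a5
            have a7 : 8 * C0 * bc5 ε P * ((j : ℝ) * l1) ≤ t' * ((j : ℝ) * l1) :=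
              mul_le_mul_of_nonneg_right a2 a5
            have a8 : t' * l1 ≤ t' * ((j : ℝ) * l1) := mul_le_mul_of_nonneg_left a4 ht'.le
            linarith
        _ = R := by
            rw [hR, Real.exp_add]
            ring
  refine (sum_le_sum hfib).trans ?_
  rw [sum_const, Nat.card_Icc, Nat.add_sub_cancel, nsmul_eq_mul]
  have hfl : ((⌊P⌋₊ : ℕ) : ℝ) ≤ P := Nat.floor_le hP0.le
  calc ((⌊P⌋₊ : ℕ) : ℝ) * R ≤ P * R := mul_le_mul_of_nonneg_right hfl hR0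
    _ = (Real.exp (Real.log P) * Real.exp (Real.log C0) * Real.exp (-(t' / 2 * l1))) *
          Real.exp (C0 * bc5 ε P * Real.log qY) * (M * Φ) ^ 2 := by
        rw [Real.exp_log hP0, Real.exp_log hC0, hR]
        ring
    _ ≤ Real.exp (-(P ^ (95 * ε))) * Real.exp (C0 * bc5 ε P * Real.log qY) * (M * Φ) ^ 2 := by
        refine mul_le_mul_of_nonneg_right (mul_le_mul_of_nonneg_right ?_ (Real.exp_pos _).le) hX0
        rw [← Real.exp_add, ← Real.exp_add]
        apply Real.exp_le_exp.2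
        have := hB.g4
        rw [← hl1] at this
        linarith

end Vale.Agent.P042.UU
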