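import Vale.Agent.P042.UU.Rest5C

set_option autoImplicit false

/-!
Theorem S5, block REST5: the large moduli, splitting off the window primes.
-/

namespace Vale.Agent.P042.UU

open Finset Filter Vale.Agent.P042.SS Vale.Agent.P042.TT

/-- moduli composed of window primes with exponents at least two -/
noncomputable def QY5 (ε P : ℝ) (X : ℕ) : Finset ℕ :=
  (Icc 1 X).filter (fun h => ∀ p ∈ h.primeFactors, p ∈ W5 ε P ∧ 2 ≤ h.factorization p)

noncomputable def g5Y (ε P : ℝ) (q : ℕ) : ℕ := fpart (fun p => p ∈ W5 ε P) q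

noncomputable def g5E (ε P : ℝ) (q : ℕ) : ℕ := fpart (fun p => p ∉ W5 ε P) q

lemma rest5_gmul {ε P : ℝ} {q : ℕ} (hq : q ≠ 0) : g5Y ε P q * g5E ε P q = q := by
  refine Nat.eq_of_factorization_eq (mul_ne_zero (fac_fpart_pos _ q).ne'
    (fac_fpart_pos _ q).ne') hq fun p => ?_
  unfold g5Y g5E
  rw [Nat.factorization_mul (fac_fpart_pos _ q).ne'
    (fac_fpart_pos _ q).ne', Finsupp.add_apply, fac_fpart_factorization,
    fac_fpart_factorization]
  by_cases hp : p ∈ q.primeFactors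
  · simp only [mem_filter, hp, true_and]
    by_cases h1 : p ∈ W5 ε P
    · rw [if_pos h1, if_neg (fun h => h h1)]; rfl
    · rw [if_neg h1, if_pos h1, zero_add]
  · have h0 : q.factorization p = 0 := by
      rw [← Nat.support_factorization, Finsupp.mem_support_iff, not_not] at hp
      exact hp
    simp [hp, h0]

lemma rest5_gY_mem {ε P : ℝ} {X q : ℕ} (hq : q ∈ EV5 ε P X) : g5Y ε P q ∈ QY5 ε P X := by
  obtain ⟨h0, hX⟩ := rest5_EV_pos hq
  unfold QY5
  rw [mem_filter, mem_Icc]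
  refine ⟨⟨fac_fpart_pos _ q, (Nat.le_of_dvd h0 (fac_fpart_dvd _ q h0.ne')).trans hX⟩,
    fun p hp => ?_⟩
  unfold g5Y at hp ⊢
  rw [fac_fpart_primeFactors] at hp
  rw [fac_fpart_factorization, if_pos hp]
  have hW := (mem_filter.1 hp).2
  have hpq := (mem_filter.1 hp).1
  refine ⟨hW, ?_⟩
  have h2 := (mem_filter.1 hq).2 p hW
  have h3 : q.factorization p ≠ 0 := by
    rw [← Nat.support_factorization, Finsupp.mem_support_iff] at hpq
    exact hpq
  omega

lemma rest5_gE_mem {ε P : ℝ} {X q : ℕ} (hq : q ∈ EV5 ε P X) : g5E ε P q ∈ E05 ε P X := by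
  obtain ⟨h0, hX⟩ := rest5_EV_pos hq
  unfold E05
  rw [mem_filter, mem_Icc]
  refine ⟨⟨fac_fpart_pos _ q, (Nat.le_of_dvd h0 (fac_fpart_dvd _ q h0.ne')).trans hX⟩,
    fun p hp hd => ?_⟩
  have h1 : p ∈ (g5E ε P q).primeFactors :=
    Nat.mem_primeFactors.2 ⟨(rest5_W.1 hp).2, hd, (fac_fpart_pos _ q).ne'⟩
  unfold g5E at h1
  rw [fac_fpart_primeFactors, mem_filter] at h1
  exact h1.2 hp

lemma rest5_g_cop {ε P : ℝ} {X X' a b : ℕ} (ha : a ∈ QY5 ε P X) (hb : b ∈ E05 ε P X') :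
    Nat.Coprime a b := by
  unfold QY5 at ha
  unfold E05 at hb
  rw [mem_filter, mem_Icc] at ha hb
  refine fac_coprime_of (by omega) (by omega) fun p h1 h2 => ?_
  exact hb.2 p (ha.2 p h1).1 (Nat.dvd_of_mem_primeFactors h2)

/-- the window primes not dividing `q` -/
lemma rest5_gVn {ε P : ℝ} {q : ℕ} (hq : q ≠ 0) : Vn ε P q = Vn ε P (g5Y ε P q) := by
  unfold Vn
  refine filter_congr fun p hp => ?_
  have hW := rest5_W.1 hp
  refine not_congr ⟨fun h => ?_, fun h => h.trans (fac_fpart_dvd _ q hq)⟩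
  have h1 : p ∈ q.primeFactors := Nat.mem_primeFactors.2 ⟨hW.2, h, hq⟩
  have h2 : p ∈ (g5Y ε P q).primeFactors := by
    unfold g5Y
    rw [fac_fpart_primeFactors, mem_filter]
    exact ⟨h1, hp⟩
  exact Nat.dvd_of_mem_primeFactors h2

theorem rest5_gsum (ε P : ℝ) (X : ℕ) (F : ℕ → ℕ → ℝ) (hF : ∀ h q, 0 ≤ F h q) :
    ∑ q ∈ EV5 ε P X, F (g5Y ε P q) (g5E ε P q) ≤ ∑ a ∈ QY5 ε P X, ∑ b ∈ E05 ε P X, F a b := by
  rw [← sum_product' (QY5 ε P X) (E05 ε P X) F]
  set φ : ℕ → ℕ × ℕ := fun q => (g5Y ε P q, g5E ε P q) with hφ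
  have h2 : ∑ q ∈ EV5 ε P X, F (g5Y ε P q) (g5E ε P q) =
      ∑ t ∈ (EV5 ε P X).image φ, F t.1 t.2 := by
    rw [sum_image]
    intro q hq q' hq' he
    have e1 := rest5_gmul (ε := ε) (P := P) (rest5_EV_pos hq).1.ne'
    have e2 := rest5_gmul (ε := ε) (P := P) (rest5_EV_pos hq').1.ne'
    rw [hφ] at he
    simp only [Prod.mk.injEq] at he
    rw [← e1, ← e2, he.1, he.2]
  rw [h2]
  refine sum_le_sum_of_subset_of_nonneg ?_ fun t _ _ => hF _ _
  intro t ht
  rw [mem_image] at ht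
  obtain ⟨q, hq, rfl⟩ := ht
  rw [mem_product]
  exact ⟨rest5_gY_mem hq, rest5_gE_mem hq⟩

/-- splitting the sum over the large moduli, abstract form: `T V n` are the energies -/
theorem rest5_large_abs {ε P : ℝ} (Q : ℕ) (kap : ℕ → ℕ → ℝ)
    (h0 : ∀ p j, 0 ≤ kap p j) (th l1 t2 : ℝ) (ht2 : 0 ≤ t2)
    (T : Finset ℕ → ℕ → ℝ) (hT : ∀ V ⊆ W5 ε P, ∀ n, 0 ≤ T V n) (B1 B2 c Ch : ℝ)
    (hB1 : 0 ≤ B1) (hB2 : 0 ≤ B2)
    (h1 : ∀ a ∈ QY5 ε P Q, ∑ b ∈ (E05 ε P Q).filter (fun b : ℕ => l1 < Real.log b),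
      (b : ℝ) ^ th * kapProd kap b * T (Vn ε P a) (a * b) ≤ B1 * (a : ℝ) ^ c)
    (h2 : ∀ a ∈ QY5 ε P Q, ∑ b ∈ (E05 ε P Q).filter (fun b : ℕ => Real.log b ≤ l1),
      (b : ℝ) ^ th * kapProd kap b * T (Vn ε P a) (a * b) ≤ B2 * (a : ℝ) ^ c)
    (hh : ∑ a ∈ QY5 ε P Q, kapProd kap a * (a : ℝ) ^ (th + c + t2) ≤ Ch) :
    ∑ q ∈ (EV5 ε P Q).filter (fun q : ℕ => 2 * l1 < Real.log q),
      (q : ℝ) ^ th * kapProd kap q * T (Vn ε P q) q ≤
      Ch * (B1 + B2 * Real.exp (-(t2 * l1))) := by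
  classical
  set f : ℕ → ℕ → ℝ := fun a b => if 2 * l1 < Real.log (a * b : ℕ) ∧ a ∈ QY5 ε P Q ∧
    b ∈ E05 ε P Q then ((a : ℝ) ^ th * kapProd kap a) *
      ((b : ℝ) ^ th * kapProd kap b * T (Vn ε P a) (a * b)) else 0 with hf
  have hf0 : ∀ a b, 0 ≤ f a b := by
    intro a b
    simp only [hf]
    split_ifs
    · have e1 := rest5_kapProd_nonneg h0 a
      have e2 := rest5_kapProd_nonneg h0 b
      have e3 := hT (Vn ε P a) (filter_subset _ _) (a * b)
      positivity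
    · exact le_rfl
  have e1 : ∑ q ∈ (EV5 ε P Q).filter (fun q : ℕ => 2 * l1 < Real.log q),
      (q : ℝ) ^ th * kapProd kap q * T (Vn ε P q) q =
      ∑ q ∈ (EV5 ε P Q).filter (fun q : ℕ => 2 * l1 < Real.log q),
        f (g5Y ε P q) (g5E ε P q) := by
    refine sum_congr rfl fun q hq => ?_
    rw [mem_filter] at hq
    have hq0 := (rest5_EV_pos hq.1).1.ne'
    have hY := rest5_gY_mem hq.1
    have hE := rest5_gE_mem hq.1
    have hm := rest5_gmul (ε := ε) (P := P) hq0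
    have hc := rest5_g_cop hY hE
    have hY0 : g5Y ε P q ≠ 0 := (fac_fpart_pos _ q).ne'
    have hE0 : g5E ε P q ≠ 0 := (fac_fpart_pos _ q).ne'
    simp only [hf]
    rw [if_pos (by rw [hm]; exact ⟨hq.2, hY, hE⟩), hm, ← rest5_gVn hq0]
    have e2 : kapProd kap q = kapProd kap (g5Y ε P q) * kapProd kap (g5E ε P q) := by
      conv_lhs => rw [← hm]
      exact fac_kapProd_mul kap hY0 hE0 hc
    have e3 : (q : ℝ) ^ th = (g5Y ε P q : ℝ) ^ th * (g5E ε P q : ℝ) ^ th := by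
      conv_lhs => rw [← hm]
      push_cast
      rw [Real.mul_rpow (Nat.cast_nonneg _) (Nat.cast_nonneg _)]
    rw [e2, e3]
    ring
  rw [e1]
  refine (sum_le_sum_of_subset_of_nonneg (filter_subset _ _) fun q _ _ => hf0 _ _).trans ?_
  refine (rest5_gsum ε P Q f hf0).trans ?_
  have key : ∀ a ∈ QY5 ε P Q, ∑ b ∈ E05 ε P Q, f a b ≤
      (kapProd kap a * (a : ℝ) ^ (th + c + t2)) * (B1 + B2 * Real.exp (-(t2 * l1))) := by
    intro a ha
    have ha1 : 1 ≤ a := by
      unfold QY5 at ha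
      rw [mem_filter, mem_Icc] at ha
      exact ha.1.1
    have ha0 : (0 : ℝ) < a := by exact_mod_cast ha1
    have ha1' : (1 : ℝ) ≤ a := by exact_mod_cast ha1
    have hla : 0 ≤ Real.log a := Real.log_nonneg ha1'
    have hka := rest5_kapProd_nonneg h0 a
    have hath : 0 ≤ (a : ℝ) ^ th * kapProd kap a := by positivity
    have hterm : ∀ b ∈ E05 ε P Q, 0 ≤ (b : ℝ) ^ th * kapProd kap b * T (Vn ε P a) (a * b) := by
      intro b _
      have e2 := rest5_kapProd_nonneg h0 b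
      have e3 := hT (Vn ε P a) (filter_subset _ _) (a * b)
      positivity
    rw [← sum_filter_add_sum_filter_not (E05 ε P Q) (fun b : ℕ => l1 < Real.log b)]
    have hs1 : ∑ b ∈ (E05 ε P Q).filter (fun b : ℕ => l1 < Real.log b), f a b ≤
        ((a : ℝ) ^ th * kapProd kap a) * (B1 * (a : ℝ) ^ c) := by
      refine le_trans ?_ (mul_le_mul_of_nonneg_left (h1 a ha) hath)
      rw [mul_sum]
      refine sum_le_sum fun b hb => ?_
      simp only [hf]
      split_ifs
      · exact le_rfl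
      · exact mul_nonneg hath (hterm b (mem_filter.1 hb).1)
    have hs2 : ∑ b ∈ (E05 ε P Q).filter (fun b : ℕ => ¬ l1 < Real.log b), f a b ≤
        ((a : ℝ) ^ th * kapProd kap a) *
          (B2 * (a : ℝ) ^ c * ((a : ℝ) ^ t2 * Real.exp (-(t2 * l1)))) := by
      have hfe : (E05 ε P Q).filter (fun b : ℕ => ¬ l1 < Real.log b) =
          (E05 ε P Q).filter (fun b : ℕ => Real.log b ≤ l1) :=
        filter_congr fun b _ => not_lt
      rw [hfe]
      by_cases hla1 : l1 < Real.log a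
      · have h3 : 1 ≤ (a : ℝ) ^ t2 * Real.exp (-(t2 * l1)) := by
          rw [Real.rpow_def_of_pos ha0, ← Real.exp_add]
          apply Real.one_le_exp
          nlinarith
        have h4 : ∑ b ∈ (E05 ε P Q).filter (fun b : ℕ => Real.log b ≤ l1), f a b ≤
            ((a : ℝ) ^ th * kapProd kap a) * (B2 * (a : ℝ) ^ c) := by
          refine le_trans ?_ (mul_le_mul_of_nonneg_left (h2 a ha) hath)
          rw [mul_sum]
          refine sum_le_sum fun b hb => ?_
          simp only [hf]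
          split_ifs
          · exact le_rfl
          · exact mul_nonneg hath (hterm b (mem_filter.1 hb).1)
        refine h4.trans (mul_le_mul_of_nonneg_left ?_ hath)
        exact le_mul_of_one_le_right (by positivity) h3
      · refine le_trans (le_of_eq (sum_eq_zero fun b hb => ?_)) ?_
        · simp only [hf]
          rw [if_neg]
          rintro ⟨h3, -, h5⟩
          have hb' := mem_filter.1 hb
          have hb0 : (0 : ℝ) < b := by
            have : 1 ≤ b := by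
              unfold E05 at h5
              rw [mem_filter, mem_Icc] at h5
              exact h5.1.1
            exact_mod_cast this
          push_cast at h3
          rw [Real.log_mul ha0.ne' hb0.ne'] at h3
          push Not at hla1
          linarith [hb'.2]
        · positivity
    refine (add_le_add hs1 hs2).trans ?_
    have e4 : (a : ℝ) ^ (th + c + t2) = (a : ℝ) ^ th * (a : ℝ) ^ c * (a : ℝ) ^ t2 := by
      rw [Real.rpow_add ha0, Real.rpow_add ha0]
    have e5 : 1 ≤ (a : ℝ) ^ t2 := Real.one_le_rpow ha1' ht2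
    rw [e4]
    have e6 : ((a : ℝ) ^ th * kapProd kap a) * (B1 * (a : ℝ) ^ c) ≤
        ((a : ℝ) ^ th * kapProd kap a) * (B1 * (a : ℝ) ^ c) * (a : ℝ) ^ t2 :=
      le_mul_of_one_le_right (by positivity) e5
    refine (add_le_add_left e6 _).trans (le_of_eq ?_)
    ring
  refine (sum_le_sum key).trans ?_
  rw [← sum_mul]
  exact mul_le_mul_of_nonneg_right hh (by positivity)

end Vale.Agent.P042.UU
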