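import Vale.Agent.P042.UU.Rest5E

set_option autoImplicit false

/-!
Theorem S5, block REST5: assembly from the estimate of the very large moduli.
-/

namespace Vale.Agent.P042.UU

open Finset Filter Vale.Agent.P042.SS Vale.Agent.P042.TT

/-- the sum over the moduli prime to the window with `log q > P^{95.1 ε}` -/
def RestDyadStmt : Prop :=
  ∀ (k E K p0 : ℕ) (kap : ℕ → ℕ → ℝ) (ε : ℝ), 1 ≤ k → 1 ≤ E → KapOK k E K p0 kap →
  0 < ε → ε ≤ 1 / 1000 → ∃ C P0 : ℝ, 0 < C ∧ ∀ P : ℝ, P0 ≤ P →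
  ∀ (N' : ℕ) (Φ : ℝ) (G : ℤ → ℝ) (ν : ℕ → ℤ → ℝ), St5 ε P k N' Φ G ν →
  ∀ (qY M : ℕ) (y : ℤ), M ≤ N' → N' ≤ 32 * M → 1 ≤ qY →
    (∀ p ∈ qY.primeFactors, p ∈ W5 ε P) → Real.log qY ≤ P ^ (1 - 95 * ε) →
    ∑ q ∈ (E05 ε P (Q5 ε P)).filter (fun q : ℕ => P ^ (95.1 * ε) < Real.log q),
      (q : ℝ) ^ (P ^ (-(95.5 * ε))) * kapProd kap q *
      ∑ a ∈ (range (qY * q)).filter (Nat.Coprime (qY * q)),
        totd (t5 ε P) (dT5 ε P) (Vn ε P qY) ν G y M 1 0 ((a : ℝ) / ((qY * q : ℕ) : ℝ)) ≤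
      Real.exp (-(P ^ (95 * ε))) * Real.exp (C * bc5 ε P * Real.log qY) * (M * Φ) ^ 2

/-- growth facts -/
structure RlBig5 (C1 C2 Ch ε P : ℝ) : Prop where
  P1 : 1 ≤ P
  th : 2 * P ^ (-(0.4 * ε)) ≤ P ^ (0 : ℝ)
  C2l : C2 * P ^ (-(0.7 * ε)) ≤ P ^ (0 : ℝ)
  ex : 3 * P ^ (-(90 * ε)) ≤ P ^ (-ε)
  c1 : C1 * P ^ (-(95.8 * ε)) ≤ P ^ (-(90 * ε))
  c2 : C2 * P ^ (-(95.8 * ε)) ≤ P ^ (-(90 * ε))
  l0 : 1 * P ^ (95.1 * ε) ≤ P ^ (1 - 94 * ε)
  fin : (64 * Ch * (1 + C2)) * Real.exp (-(P ^ (5.1 * ε))) ≤ P ^ (-(ε / 5))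
  l1 : 2 * P ^ (95.1 * ε) ≤ P ^ (1 - 95 * ε)
  q : 4 * P ^ (-(ε / 5)) ≤ P ^ (-(ε / 10))

theorem rest5_exp_dom (a b c : ℝ) (ha : 0 < a) : ∀ᶠ P : ℝ in atTop,
    c * Real.exp (-(P ^ a)) ≤ P ^ (-b) := by
  have h1 := mom5_log_dom (2 * (|b| + 1)) a ha
  have h2 := mom5_pow_dom 0 a (2 * Real.log (|c| + 1)) ha
  filter_upwards [h1, h2, eventually_ge_atTop 1] with P h1 h2 hP
  rw [Real.rpow_zero, mul_one] at h2
  have hP0 : 0 < P := by linarith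
  have hc1 : 0 < |c| + 1 := by positivity
  have hlP : 0 ≤ Real.log P := Real.log_nonneg hP
  calc c * Real.exp (-(P ^ a)) ≤ (|c| + 1) * Real.exp (-(P ^ a)) := by
        refine mul_le_mul_of_nonneg_right ?_ (Real.exp_pos _).le
        linarith [le_abs_self c]
    _ = Real.exp (Real.log (|c| + 1) + -(P ^ a)) := by
        rw [Real.exp_add, Real.exp_log hc1]
    _ ≤ Real.exp (Real.log P * (-b)) := by
        refine Real.exp_le_exp.2 ?_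
        have h3 : b ≤ |b| := le_abs_self b
        nlinarith
    _ = P ^ (-b) := by rw [Real.rpow_def_of_pos hP0]

theorem rl5_big (C1 C2 Ch ε : ℝ) (hε : 0 < ε) (hε1 : ε ≤ 1 / 1000) :
    ∀ᶠ P : ℝ in atTop, RlBig5 C1 C2 Ch ε P := by
  filter_upwards [eventually_ge_atTop 1,
    mom5_pow_dom (-(0.4 * ε)) 0 2 (by linarith),
    mom5_pow_dom (-(0.7 * ε)) 0 C2 (by linarith),
    mom5_pow_dom (-(90 * ε)) (-ε) 3 (by linarith),
    mom5_pow_dom (-(95.8 * ε)) (-(90 * ε)) C1 (by linarith),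
    mom5_pow_dom (-(95.8 * ε)) (-(90 * ε)) C2 (by linarith),
    mom5_pow_dom (95.1 * ε) (1 - 94 * ε) 1 (by linarith),
    rest5_exp_dom (5.1 * ε) (ε / 5) (64 * Ch * (1 + C2)) (by linarith),
    mom5_pow_dom (95.1 * ε) (1 - 95 * ε) 2 (by linarith),
    mom5_pow_dom (-(ε / 5)) (-(ε / 10)) 4 (by linarith)]
    with P h1 h2 h3 h4 h5 h6 h7 h8 h9 h10
  exact ⟨h1, h2, h3, h4, h5, h6, h7, h8, h9, h10⟩

/-- total energies -/
noncomputable def T5 (ε P : ℝ) (ν : ℕ → ℤ → ℝ) (G : ℤ → ℝ) (y : ℤ) (M : ℕ) (V : Finset ℕ)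
    (n : ℕ) : ℝ :=
  ∑ a ∈ (range n).filter (Nat.Coprime n),
    totd (t5 ε P) (dT5 ε P) V ν G y M 1 0 ((a : ℝ) / (n : ℝ))

theorem T5_nonneg {ε P : ℝ} (hε : 0 < ε) (hP : 1 ≤ P) {k N' : ℕ} {Φ : ℝ} {G : ℤ → ℝ}
    {ν : ℕ → ℤ → ℝ} (hS : Sb5 ε P k N' Φ G ν) {V : Finset ℕ} (hV : V ⊆ W5 ε P) (y : ℤ)
    (M n : ℕ) : 0 ≤ T5 ε P ν G y M V n :=
  sum_nonneg fun a _ =>
    one5_totd_nonneg (fun p hp => ⟨one5_t5_nonneg hP p, one5_t5_le hε hP (hV hp)⟩)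
      hS.wts.nn _ _ _ _ _ _ _

theorem rest5_Ql {ε P : ℝ} {n : ℕ} (hn : 1 ≤ n) (hnQ : n ≤ Q5 ε P) :
    Real.log n ≤ P ^ (1 - 95 * ε) := by
  have hn0 : (0 : ℝ) < n := by exact_mod_cast hn
  rw [Real.log_le_iff_le_exp hn0]
  exact (Nat.cast_le.2 hnQ).trans (Nat.floor_le (Real.exp_pos _).le)

/-- very large `b` -/
theorem rest5_b1 {ε P C1 c X1 MP : ℝ} {kap : ℕ → ℕ → ℝ} {T : ℕ → ℝ} {a : ℕ} (ha : 1 ≤ a)
    {A : Finset ℕ} {th : ℝ} (hcC1 : C1 * bc5 ε P ≤ c) (hMP : 0 ≤ MP) (hX1 : 0 ≤ X1)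
    (h1 : ∑ b ∈ A, (b : ℝ) ^ th * kapProd kap b * T b ≤
      X1 * Real.exp (C1 * bc5 ε P * Real.log a) * MP) :
    ∑ b ∈ A, (b : ℝ) ^ th * kapProd kap b * (2 * T b) ≤ 2 * X1 * MP * (a : ℝ) ^ c := by
  have ha0 : (0 : ℝ) < a := by exact_mod_cast ha
  have hla : 0 ≤ Real.log a := Real.log_nonneg (by exact_mod_cast ha)
  have h2 : ∑ b ∈ A, (b : ℝ) ^ th * kapProd kap b * (2 * T b) =
      2 * ∑ b ∈ A, (b : ℝ) ^ th * kapProd kap b * T b := by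
    rw [mul_sum]
    refine sum_congr rfl fun b _ => ?_
    ring
  rw [h2]
  have h3 : Real.exp (C1 * bc5 ε P * Real.log a) ≤ (a : ℝ) ^ c := by
    rw [Real.rpow_def_of_pos ha0]
    refine Real.exp_le_exp.2 ?_
    rw [mul_comm (Real.log (a : ℝ))]
    exact mul_le_mul_of_nonneg_right hcC1 hla
  calc 2 * ∑ b ∈ A, (b : ℝ) ^ th * kapProd kap b * T b
      ≤ 2 * (X1 * Real.exp (C1 * bc5 ε P * Real.log a) * MP) :=
        mul_le_mul_of_nonneg_left h1 (by norm_num)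
    _ ≤ 2 * (X1 * (a : ℝ) ^ c * MP) := by gcongr
    _ = _ := by ring

/-- `b` not very large -/
theorem rest5_b2 {ε P C1 C2 Ch c MP t' : ℝ} {kap : ℕ → ℕ → ℝ} (hK : ∀ p j, 0 ≤ kap p j)
    (hB : RlBig5 C1 C2 Ch ε P) (hC2 : 0 < C2) (ht' : 0 < t') {T : ℕ → ℝ}
    (hT : ∀ b, 0 ≤ T b) {a : ℕ} (ha : 1 ≤ a)
    {A : Finset ℕ} (hA : ∀ b ∈ A, 1 ≤ b ∧ Real.log b ≤ P ^ (95.1 * ε))
    (hcC2 : C2 * bc5 ε P ≤ c) (hMP : 0 ≤ MP)
    (h1 : ∑ b ∈ A, (b : ℝ) ^ t' * kapProd kap b * T b ≤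
      C2 * Real.exp (C2 * bc5 ε P * (P ^ (95.1 * ε) + Real.log a)) * MP) :
    ∑ b ∈ A, (b : ℝ) ^ (P ^ (-(95.5 * ε))) * kapProd kap b * (2 * T b) ≤
      12 * C2 * MP * (a : ℝ) ^ c := by
  have hP1 := hB.P1
  have hP0 : 0 < P := by linarith
  have ha0 : (0 : ℝ) < a := by exact_mod_cast ha
  have hla : 0 ≤ Real.log a := Real.log_nonneg (by exact_mod_cast ha)
  have h2 : ∑ b ∈ A, (b : ℝ) ^ (P ^ (-(95.5 * ε))) * kapProd kap b * (2 * T b) ≤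
      4 * ∑ b ∈ A, (b : ℝ) ^ t' * kapProd kap b * T b := by
    rw [mul_sum]
    refine sum_le_sum fun b hb => ?_
    obtain ⟨hb1, hbl⟩ := hA b hb
    have hb0 : (0 : ℝ) < b := by exact_mod_cast hb1
    have h3 : (b : ℝ) ^ (P ^ (-(95.5 * ε))) ≤ 2 * (b : ℝ) ^ t' := by
      have h4 : (b : ℝ) ^ (P ^ (-(95.5 * ε))) ≤ 2 := by
        rw [Real.rpow_def_of_pos hb0]
        have h5 : Real.log b * P ^ (-(95.5 * ε)) ≤ 1 / 2 := by
          calc Real.log b * P ^ (-(95.5 * ε)) ≤ P ^ (95.1 * ε) * P ^ (-(95.5 * ε)) := by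
                gcongr
            _ = P ^ (-(0.4 * ε)) := by rw [← Real.rpow_add hP0]; congr 1; ring
            _ ≤ 1 / 2 := by
                have := hB.th
                rw [Real.rpow_zero] at this
                linarith
        have h6 := Real.exp_le_exp.2 h5
        have h7 := Real.exp_one_lt_d9
        have h8 : Real.exp (1 / 2 : ℝ) * Real.exp (1 / 2 : ℝ) = Real.exp 1 := by
          rw [← Real.exp_add]; norm_num
        nlinarith [Real.exp_pos (1 / 2 : ℝ)]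
      have h5 : 1 ≤ (b : ℝ) ^ t' := Real.one_le_rpow (by exact_mod_cast hb1) ht'.le
      linarith
    have h4 := hT b
    have h5 := rest5_kapProd_nonneg hK b
    have h6 : 0 ≤ kapProd kap b * (2 * T b) := by positivity
    calc (b : ℝ) ^ (P ^ (-(95.5 * ε))) * kapProd kap b * (2 * T b)
        = (b : ℝ) ^ (P ^ (-(95.5 * ε))) * (kapProd kap b * (2 * T b)) := by ring
      _ ≤ (2 * (b : ℝ) ^ t') * (kapProd kap b * (2 * T b)) :=
          mul_le_mul_of_nonneg_right h3 h6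
      _ = _ := by ring
  refine h2.trans ?_
  have h3 : Real.exp (C2 * bc5 ε P * (P ^ (95.1 * ε) + Real.log a)) ≤ 3 * (a : ℝ) ^ c := by
    rw [mul_add, Real.exp_add]
    refine mul_le_mul ?_ ?_ (Real.exp_pos _).le (by norm_num)
    · have h4 : C2 * bc5 ε P * P ^ (95.1 * ε) ≤ 1 := by
        unfold bc5
        calc C2 * P ^ (-(95.8 * ε)) * P ^ (95.1 * ε) =
              C2 * (P ^ (-(95.8 * ε)) * P ^ (95.1 * ε)) := by ring
          _ = C2 * P ^ (-(0.7 * ε)) := by rw [← Real.rpow_add hP0]; congr 2; ring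
          _ ≤ 1 := by
              have := hB.C2l
              rwa [Real.rpow_zero] at this
      have h5 := Real.exp_le_exp.2 h4
      have h6 := Real.exp_one_lt_d9
      linarith
    · rw [Real.rpow_def_of_pos ha0]
      refine Real.exp_le_exp.2 ?_
      rw [mul_comm (Real.log (a : ℝ))]
      exact mul_le_mul_of_nonneg_right hcC2 hla
  calc 4 * ∑ b ∈ A, (b : ℝ) ^ t' * kapProd kap b * T b
      ≤ 4 * (C2 * Real.exp (C2 * bc5 ε P * (P ^ (95.1 * ε) + Real.log a)) *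
        MP) := mul_le_mul_of_nonneg_left h1 (by norm_num)
    _ ≤ 4 * (C2 * (3 * (a : ℝ) ^ c) * MP) := by gcongr
    _ = _ := by ring

/-- final comparison -/
theorem rest5_lfin {ε P C1 C2 Ch MP : ℝ} (hB : RlBig5 C1 C2 Ch ε P) (hε : 0 < ε)
    (hC2 : 0 < C2) (hCh : 0 < Ch) (hMP : 0 ≤ MP) :
    Ch * (2 * Real.exp (-(P ^ (95 * ε))) * MP + 12 * C2 * MP *
      Real.exp (-(P ^ (-(90 * ε)) * P ^ (95.1 * ε)))) ≤ P ^ (-(ε / 5)) * MP := by
  have hP1 := hB.P1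
  have hP0 : 0 < P := by linarith
  have e1 : P ^ (-(90 * ε)) * P ^ (95.1 * ε) = P ^ (5.1 * ε) := by
    rw [← Real.rpow_add hP0]; congr 1; ring
  rw [e1]
  have e2 : Real.exp (-(P ^ (95 * ε))) ≤ Real.exp (-(P ^ (5.1 * ε))) := by
    refine Real.exp_le_exp.2 (neg_le_neg ?_)
    exact Real.rpow_le_rpow_of_exponent_le hP1 (by linarith)
  have e3 := hB.fin
  have e4 := Real.exp_pos (-(P ^ (5.1 * ε)))
  calc Ch * (2 * Real.exp (-(P ^ (95 * ε))) * MP +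
        12 * C2 * MP * Real.exp (-(P ^ (5.1 * ε))))
      ≤ Ch * (2 * Real.exp (-(P ^ (5.1 * ε))) * MP +
        12 * C2 * MP * Real.exp (-(P ^ (5.1 * ε)))) := by gcongr
    _ = (Ch * (2 + 12 * C2)) * Real.exp (-(P ^ (5.1 * ε))) * MP := by ring
    _ ≤ (64 * Ch * (1 + C2)) * Real.exp (-(P ^ (5.1 * ε))) * MP := by
        refine mul_le_mul_of_nonneg_right (mul_le_mul_of_nonneg_right ?_ e4.le) hMP
        nlinarith
    _ ≤ P ^ (-(ε / 5)) * MP := mul_le_mul_of_nonneg_right e3 hMP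

/-- the large moduli, total energies -/
theorem rest5_large (hTOT : TOT5Stmt) (hDy : RestDyadStmt)
    (k E K p0 : ℕ) (kap : ℕ → ℕ → ℝ)
    (ε : ℝ) (hk : 1 ≤ k) (hE : 1 ≤ E) (hK : KapOK k E K p0 kap) (hε : 0 < ε)
    (hε1 : ε ≤ 1 / 1000) :
    ∃ P0 : ℝ, ∀ P : ℝ, P0 ≤ P →
    ∀ (N' : ℕ) (Φ : ℝ) (G : ℤ → ℝ) (ν : ℕ → ℤ → ℝ), St5 ε P k N' Φ G ν →
    ∀ (M : ℕ) (y : ℤ), M ≤ N' → N' ≤ 32 * M →
    ∑ q ∈ (EV5 ε P (Q5 ε P)).filter (fun q : ℕ => 2 * P ^ (95.1 * ε) < Real.log q),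
      (q : ℝ) ^ (P ^ (-(95.5 * ε))) * kapProd kap q * (2 * T5 ε P ν G y M (Vn ε P q) q) ≤
      P ^ (-(ε / 5)) * (M * Φ) ^ 2 := by
  obtain ⟨C1, P1, hC1, hdy⟩ := hDy k E K p0 kap ε hk hE hK hε hε1
  obtain ⟨t', C2, P2, ht', ht'1, hC2, htot⟩ := hTOT k E K p0 kap ε hk hE hK hε hε1
  obtain ⟨Ch, P3, hCh, hhigh⟩ := rest5_high k E K p0 kap hk hE hK ε hε hε1
  obtain ⟨P4, hP4⟩ := eventually_atTop.1 (rl5_big C1 C2 Ch ε hε hε1)
  refine ⟨max (max P1 P2) (max P3 P4), ?_⟩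
  intro P hP N' Φ G ν hSt M y hM hN
  have hPP1 : P1 ≤ P := (le_max_left _ _).trans ((le_max_left _ _).trans hP)
  have hPP2 : P2 ≤ P := (le_max_right _ _).trans ((le_max_left _ _).trans hP)
  have hPP3 : P3 ≤ P := (le_max_left _ _).trans ((le_max_right _ _).trans hP)
  have hPP4 : P4 ≤ P := (le_max_right _ _).trans ((le_max_right _ _).trans hP)
  have hB := hP4 P hPP4
  have hP1 := hB.P1
  have hP0 : 0 < P := by linarith
  have hSb := hSt.toSb5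
  have hMP : (0 : ℝ) ≤ (M * Φ) ^ 2 := sq_nonneg _
  -- the constant exponent
  obtain ⟨c, hc⟩ : ∃ c : ℝ, c = max C1 C2 * bc5 ε P := ⟨_, rfl⟩
  have hbc0 : 0 ≤ bc5 ε P := by unfold bc5; positivity
  have hcC1 : C1 * bc5 ε P ≤ c := by
    rw [hc]; exact mul_le_mul_of_nonneg_right (le_max_left _ _) hbc0
  have hcC2 : C2 * bc5 ε P ≤ c := by
    rw [hc]; exact mul_le_mul_of_nonneg_right (le_max_right _ _) hbc0
  have hc0 : 0 ≤ c := le_trans (mul_nonneg hC1.le hbc0) hcC1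
  have hc90 : c ≤ P ^ (-(90 * ε)) := by
    rw [hc]
    rcases max_cases C1 C2 with ⟨h, -⟩ | ⟨h, -⟩ <;> rw [h]
    · exact hB.c1
    · exact hB.c2
  have hth90 : P ^ (-(95.5 * ε)) ≤ P ^ (-(90 * ε)) :=
    Real.rpow_le_rpow_of_exponent_le hP1 (by linarith)
  have hQY : ∀ a ∈ QY5 ε P (Q5 ε P), 1 ≤ a ∧ a ≤ Q5 ε P ∧
      ∀ p ∈ a.primeFactors, p ∈ W5 ε P ∧ 2 ≤ a.factorization p := by
    intro a ha
    unfold QY5 at ha
    rw [mem_filter, mem_Icc] at ha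
    exact ⟨ha.1.1, ha.1.2, ha.2⟩
  have habs := rest5_large_abs (ε := ε) (P := P) (Q5 ε P) kap hK.nn (P ^ (-(95.5 * ε)))
    (P ^ (95.1 * ε)) (P ^ (-(90 * ε))) (by positivity)
    (fun V n => 2 * T5 ε P ν G y M V n)
    (fun V hV n => mul_nonneg (by norm_num) (T5_nonneg hε hP1 hSb hV y M n))
    (2 * Real.exp (-(P ^ (95 * ε))) * (M * Φ) ^ 2) (12 * C2 * (M * Φ) ^ 2) c Ch
    (by positivity) (by positivity)
    (fun a ha => rest5_b1 (T := fun b => T5 ε P ν G y M (Vn ε P a) (a * b)) (hQY a ha).1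
      hcC1 hMP (Real.exp_pos _).le (hdy P hPP1 N' Φ G ν hSt a M y hM hN (hQY a ha).1
        (fun p hp => ((hQY a ha).2.2 p hp).1) (rest5_Ql (hQY a ha).1 (hQY a ha).2.1)))
    (fun a ha => rest5_b2 (T := fun b => T5 ε P ν G y M (Vn ε P a) (a * b)) hK.nn hB hC2 ht'
      (fun b => T5_nonneg hε hP1 hSb (filter_subset _ _) y M _) (hQY a ha).1
      (fun b hb => by
        have hb' := mem_filter.1 hb
        have h2 := hb'.1
        unfold E05 at h2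
        rw [mem_filter, mem_Icc] at h2
        exact ⟨h2.1.1, hb'.2⟩) hcC2 hMP
      (htot P hPP2 N' Φ G ν hSt a M y (P ^ (95.1 * ε)) hM hN (hQY a ha).1
        (fun p hp => ((hQY a ha).2.2 p hp).1) (rest5_Ql (hQY a ha).1 (hQY a ha).2.1) le_rfl
        (by have := hB.l0; linarith)))
    (hhigh P hPP3 (P ^ (-(95.5 * ε)) + c + P ^ (-(90 * ε))) (by positivity)
      (by have := hB.ex; linarith) _ (fun h hh =>
        ⟨by have := (hQY h hh).1; omega, fun p hp => Or.inl ((hQY h hh).2.2 p hp)⟩))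
  exact habs.trans (rest5_lfin hB hε hC2 hCh hMP)

/-- the moduli that are not large -/
theorem rest5_few {ε P C1 C2 Ch B : ℝ} {kap : ℕ → ℕ → ℝ} (hB : RlBig5 C1 C2 Ch ε P)
    {X : ℕ} (hX : X = ⌊Real.exp (2 * P ^ (95.1 * ε))⌋₊) {E : ℕ → ℝ}
    (hE : ∀ q, 0 ≤ kapProd kap q * E q)
    (h1 : ∑ q ∈ (EV5 ε P X).erase 1, kapProd kap q * E q ≤ B) :
    ∑ q ∈ ((EV5 ε P (Q5 ε P)).erase 1).filter
      (fun q : ℕ => ¬ 2 * P ^ (95.1 * ε) < Real.log q),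
      (q : ℝ) ^ (P ^ (-(95.5 * ε))) * kapProd kap q * E q ≤ 3 * B := by
  have hP1 := hB.P1
  have hP0 : 0 < P := by linarith
  have h5 : ∀ q ∈ ((EV5 ε P (Q5 ε P)).erase 1).filter
      (fun q : ℕ => ¬ 2 * P ^ (95.1 * ε) < Real.log q), q ∈ (EV5 ε P X).erase 1 ∧
      (q : ℝ) ^ (P ^ (-(95.5 * ε))) ≤ 3 := by
    intro q hq
    rw [mem_filter, mem_erase] at hq
    obtain ⟨⟨hq1, hqE⟩, hql⟩ := hq
    push Not at hql
    have hq0 := (rest5_EV_pos hqE).1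
    have hqR : (0 : ℝ) < q := by exact_mod_cast hq0
    refine ⟨?_, ?_⟩
    · rw [mem_erase]
      refine ⟨hq1, ?_⟩
      have hqE' := hqE
      unfold EV5 at hqE' ⊢
      rw [mem_filter, mem_Icc] at hqE' ⊢
      refine ⟨⟨hqE'.1.1, ?_⟩, hqE'.2⟩
      rw [hX]
      refine Nat.le_floor ?_
      rwa [← Real.log_le_iff_le_exp hqR]
    · rw [Real.rpow_def_of_pos hqR]
      have h5 : Real.log q * P ^ (-(95.5 * ε)) ≤ 1 := by
        calc Real.log q * P ^ (-(95.5 * ε)) ≤ (2 * P ^ (95.1 * ε)) * P ^ (-(95.5 * ε)) := by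
              gcongr
          _ = 2 * (P ^ (95.1 * ε) * P ^ (-(95.5 * ε))) := by ring
          _ = 2 * P ^ (-(0.4 * ε)) := by rw [← Real.rpow_add hP0]; congr 2; ring
          _ ≤ 1 := by
              have := hB.th
              rwa [Real.rpow_zero] at this
      have h6 := Real.exp_le_exp.2 h5
      have h7 := Real.exp_one_lt_d9
      linarith
  refine le_trans ?_ (mul_le_mul_of_nonneg_left h1 (by norm_num : (0 : ℝ) ≤ 3))
  rw [mul_sum]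
  calc ∑ q ∈ ((EV5 ε P (Q5 ε P)).erase 1).filter
        (fun q : ℕ => ¬ 2 * P ^ (95.1 * ε) < Real.log q),
        (q : ℝ) ^ (P ^ (-(95.5 * ε))) * kapProd kap q * E q
      ≤ ∑ q ∈ ((EV5 ε P (Q5 ε P)).erase 1).filter
        (fun q : ℕ => ¬ 2 * P ^ (95.1 * ε) < Real.log q), 3 * (kapProd kap q * E q) := by
        refine sum_le_sum fun q hq => ?_
        rw [mul_assoc]
        exact mul_le_mul_of_nonneg_right (h5 q hq).2 (hE q)
    _ ≤ _ := sum_le_sum_of_subset_of_nonneg (fun q hq => (h5 q hq).1)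
        fun q _ _ => mul_nonneg (by norm_num) (hE q)

/-- **Block REST5** from the estimate of the very large moduli -/
theorem rest5b_of_dyad (hSUM : SUM5Stmt) (hTOT : TOT5Stmt) (hE5 : EWS5Stmt)
    (hDy : RestDyadStmt) : REST5Stmt := by
  intro k E K p0 kap ε hk hE hK hε hε1
  obtain ⟨C, P1, hC, hsmall⟩ := rest5_small hSUM hE5 k E K p0 kap ε hk hE hK hε hε1
  obtain ⟨P2, hlarge⟩ := rest5_large hTOT hDy k E K p0 kap ε hk hE hK hε hε1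
  obtain ⟨P4, hP4⟩ := eventually_atTop.1 (rl5_big C C C ε hε hε1)
  obtain ⟨P5, hP5⟩ := eventually_atTop.1 (rd5_big C ε hε hε1)
  refine ⟨3 * C, max (max P1 P2) (max P4 P5), by positivity, ?_⟩
  intro P hP N' Φ G ν hSt M y hM hN
  have hPP1 : P1 ≤ P := (le_max_left _ _).trans ((le_max_left _ _).trans hP)
  have hPP2 : P2 ≤ P := (le_max_right _ _).trans ((le_max_left _ _).trans hP)
  have hPP4 : P4 ≤ P := (le_max_left _ _).trans ((le_max_right _ _).trans hP)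
  have hPP5 : P5 ≤ P := (le_max_right _ _).trans ((le_max_right _ _).trans hP)
  have hB := hP4 P hPP4
  have hBd := hP5 P hPP5
  have hP1 := hB.P1
  have hP0 : 0 < P := by linarith
  have hSb := hSt.toSb5
  have hMP : (0 : ℝ) ≤ (M * Φ) ^ 2 := sq_nonneg _
  obtain ⟨X, hX⟩ : ∃ X : ℕ, X = ⌊Real.exp (2 * P ^ (95.1 * ε))⌋₊ := ⟨_, rfl⟩
  have hX1 : 1 ≤ X := by
    rw [hX]
    exact Nat.le_floor (by
      push_cast
      exact Real.one_le_exp (by positivity))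
  have hXl : Real.log X ≤ 2 * P ^ (95.1 * ε) := by
    have h0 : (0 : ℝ) < X := by exact_mod_cast hX1
    rw [Real.log_le_iff_le_exp h0, hX]
    exact Nat.floor_le (Real.exp_pos _).le
  have hXQ : X ≤ Q5 ε P := by
    rw [hX]
    unfold Q5
    exact Nat.floor_le_floor (Real.exp_le_exp.2 hB.l1)
  have h1 := hsmall P hPP1 N' Φ G ν hSt M y hM hN X hX1 hXl hXQ
  have h2 := hlarge P hPP2 N' Φ G ν hSt M y hM hN
  have hnn : ∀ q : ℕ, 0 ≤ kapProd kap q * ∑ a ∈ (range q).filter (Nat.Coprime q),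
        ews (t6 ε P) (u5 ε P) (Vn ε P q) ν G y M 1 0 ((a : ℝ) / q) := fun q =>
    mul_nonneg (rest5_kapProd_nonneg hK.nn q) (sum_nonneg fun a _ =>
      (rd5_ews_totd hE5 hε hε1 hBd hSb (filter_subset _ _) y M _).2.2)
  have h4 := rest5_few hB hX hnn h1
  rw [← sum_filter_add_sum_filter_not ((EV5 ε P (Q5 ε P)).erase 1)
    (fun q : ℕ => 2 * P ^ (95.1 * ε) < Real.log q)]
  have h3 : ∑ q ∈ ((EV5 ε P (Q5 ε P)).erase 1).filter
      (fun q : ℕ => 2 * P ^ (95.1 * ε) < Real.log q),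
      (q : ℝ) ^ (P ^ (-(95.5 * ε))) * kapProd kap q *
      ∑ a ∈ (range q).filter (Nat.Coprime q),
        ews (t6 ε P) (u5 ε P) (Vn ε P q) ν G y M 1 0 ((a : ℝ) / q) ≤
      P ^ (-(ε / 5)) * (M * Φ) ^ 2 := by
    refine le_trans ?_ h2
    refine (sum_le_sum_of_subset_of_nonneg (filter_subset_filter _ (erase_subset _ _))
      fun q _ _ => ?_).trans (sum_le_sum fun q _ => mul_le_mul_of_nonneg_left ?_
        (mul_nonneg (by positivity) (rest5_kapProd_nonneg hK.nn q)))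
    · rw [mul_assoc]
      exact mul_nonneg (by positivity) (hnn q)
    · unfold T5
      rw [mul_sum]
      exact sum_le_sum fun a _ =>
        (rd5_ews_totd hE5 hε hε1 hBd hSb (filter_subset _ _) y M _).2.1
  have h5 := hB.q
  have h6 : 4 * P ^ (-(ε / 5)) * (M * Φ) ^ 2 ≤ P ^ (-(ε / 10)) * (M * Φ) ^ 2 :=
    mul_le_mul_of_nonneg_right h5 hMP
  have h7 : 0 ≤ P ^ (-(ε / 5)) * (M * Φ) ^ 2 := by positivity
  linarith

end Vale.Agent.P042.UU
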