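import Vale.Agent.P042.UU.Rest5Y
import Vale.Agent.P042.UU.Rest5D

set_option autoImplicit false

/-!
Theorem S5, block REST5.
-/

namespace Vale.Agent.P042.UU

open Finset Filter Vale.Agent.P042.SS Vale.Agent.P042.TT

theorem restDyad_of (hTOT : TOT5Stmt) : RestDyadStmt := by
  intro k E K p0 kap ε hk hE hK hε hε1
  exact rest5_dyad hTOT k E K p0 kap ε hk hE hK hε hε1

/-- **Block REST5** -/
theorem rest5b_of (hSUM : SUM5Stmt) (hTOT : TOT5Stmt) (hE5 : EWS5Stmt) : REST5Stmt :=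
  rest5b_of_dyad hSUM hTOT hE5 (restDyad_of hTOT)

end Vale.Agent.P042.UU
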