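import Vale.Agent.P042.UU.TotA5

set_option autoImplicit false

/-!
Block TOT5, part W (helper315): boosted weights and their cost.
-/

namespace Vale.Agent.P042.UU.TotC

open Finset Filter Vale.Agent.P042.SS Vale.Agent.P042.SS.UNC Vale.Agent.P042.TT.TotB

/-- boosted local weights -/
noncomputable def gc5 (t' : ℝ) (kap : ℕ → ℕ → ℝ) (p j : ℕ) : ℝ := kap p j * (p : ℝ) ^ ((j : ℝ) * t')

lemma gc5_nonneg {t' : ℝ} {kap : ℕ → ℕ → ℝ} (hk0 : ∀ p j, 0 ≤ kap p j) (p j : ℕ) :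
    0 ≤ gc5 t' kap p j := mul_nonneg (hk0 _ _) (Real.rpow_nonneg (Nat.cast_nonneg _) _)

lemma weight_eq5 (t' : ℝ) (kap : ℕ → ℕ → ℝ) {q : ℕ} (hq : q ≠ 0) :
    (q : ℝ) ^ t' * kapProd kap q = kapProd (gc5 t' kap) q := by
  have h1 : (q : ℝ) ^ t' = ∏ p ∈ q.primeFactors, (p : ℝ) ^ (((q.factorization p : ℕ) : ℝ) * t') := by
    have e1 : (q : ℝ) = ∏ p ∈ q.primeFactors, (p : ℝ) ^ (q.factorization p) := by
      conv_lhs => rw [← Nat.prod_factorization_pow_eq_self hq]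
      rw [Finsupp.prod, Nat.support_factorization]
      push_cast
      rfl
    conv_lhs => rw [e1]
    rw [← Real.finsetProd_rpow _ _ (fun p _ => by positivity)]
    refine Finset.prod_congr rfl fun p _ => ?_
    rw [← Real.rpow_natCast, ← Real.rpow_mul (Nat.cast_nonneg _)]
  rw [h1]
  unfold kapProd gc5
  rw [← Finset.prod_mul_distrib]
  refine Finset.prod_congr rfl fun p _ => ?_
  ring

/-- coordinates: the boosted weight is at most `zr5` -/
lemma gc_le_zr5 {ε P : ℝ} {k E K p0 : ℕ} {kap : ℕ → ℕ → ℝ} (hE : 1 ≤ E)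
    (hkap : KapOK k E K p0 kap) (hε : 0 < ε) (hε1 : ε ≤ 1 / 1000) (hP : 1 ≤ P)
    (h1 : (k : ℝ) ≤ P ^ (ε / 2)) (h1' : (k : ℝ) ≤ P ^ (0.09 : ℝ))
    (h2 : (p0 : ℝ) ≤ P ^ (2 - 190 * ε)) {p j : ℕ} (hp : p.Prime)
    (hpw : ⌊P ^ (2 - 190 * ε)⌋₊ < p) (hj1 : 1 ≤ j) (hj : j ≤ 8 * E) :
    gc5 (ε / (2000 * E)) kap p j ≤ zr5 ε P p j := by
  have hP0 : 0 < P := by linarith
  have hER : (1 : ℝ) ≤ E := by exact_mod_cast hE
  have hwp := lt_of_floor_lt hpw
  have hp0 : p0 < p := by exact_mod_cast lt_of_le_of_lt h2 hwp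
  have hp1 : (1 : ℝ) ≤ p := by exact_mod_cast hp.one_le
  have hpR : (0 : ℝ) < p := by linarith
  have ht0 : 0 ≤ ε / (2000 * E) := by positivity
  have ht : ε / (2000 * E) ≤ ε / 2000 :=
    div_le_div_of_nonneg_left hε.le (by norm_num) (by linarith)
  have hjt : (j : ℝ) * (ε / (2000 * E)) ≤ 0.004 * ε := by
    have : (j : ℝ) ≤ 8 * E := by exact_mod_cast hj
    rw [mul_div_assoc', div_le_iff₀ (by positivity)]
    nlinarith
  unfold gc5 zr5
  split_ifs with hj'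
  · subst hj'
    have h3 := hkap.one p hp hp0
    have h4 : (k : ℝ) / Real.sqrt p = k * (p : ℝ) ^ (-(1 / 2) : ℝ) := by
      rw [Real.sqrt_eq_rpow, Real.rpow_neg hpR.le, div_eq_mul_inv]
    rw [h4] at h3
    have h5 : (p : ℝ) ^ (-(1 / 2) : ℝ) * (p : ℝ) ^ (((1 : ℕ) : ℝ) * (ε / (2000 * E))) ≤
        (p : ℝ) ^ (-(1 / 2) + ε / 10 : ℝ) := by
      rw [← Real.rpow_add hpR]
      apply Real.rpow_le_rpow_of_exponent_le hp1
      push_cast
      linarith
    calc kap p 1 * (p : ℝ) ^ (((1 : ℕ) : ℝ) * (ε / (2000 * E)))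
        ≤ (k * (p : ℝ) ^ (-(1 / 2) : ℝ)) * (p : ℝ) ^ (((1 : ℕ) : ℝ) * (ε / (2000 * E))) :=
          mul_le_mul_of_nonneg_right h3 (Real.rpow_nonneg hpR.le _)
      _ = k * ((p : ℝ) ^ (-(1 / 2) : ℝ) * (p : ℝ) ^ (((1 : ℕ) : ℝ) * (ε / (2000 * E)))) := by
          ring
      _ ≤ P ^ (ε / 2) * (p : ℝ) ^ (-(1 / 2) + ε / 10 : ℝ) := by
          apply mul_le_mul h1 h5
          · exact mul_nonneg (Real.rpow_nonneg hpR.le _) (Real.rpow_nonneg hpR.le _)
          · exact Real.rpow_nonneg hP0.le _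
  · have h3 := hkap.two p j hp hp0 (by omega)
    have h4 : (k : ℝ) / p = k * (p : ℝ) ^ (-1 : ℝ) := by
      rw [Real.rpow_neg_one, div_eq_mul_inv]
    rw [h4] at h3
    have hPp : P ≤ p := by
      refine le_trans ?_ hwp.le
      conv_lhs => rw [← Real.rpow_one P]
      exact Real.rpow_le_rpow_of_exponent_le hP (by linarith)
    have h5 : (k : ℝ) ≤ (p : ℝ) ^ (0.09 : ℝ) := h1'.trans (Real.rpow_le_rpow hP0.le hPp (by norm_num))
    calc kap p j * (p : ℝ) ^ ((j : ℝ) * (ε / (2000 * E)))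
        ≤ (k * (p : ℝ) ^ (-1 : ℝ)) * (p : ℝ) ^ (0.004 : ℝ) := by
          apply mul_le_mul h3 (Real.rpow_le_rpow_of_exponent_le hp1 (by linarith))
            (Real.rpow_nonneg hpR.le _) (by positivity)
      _ = k * ((p : ℝ) ^ (-1 : ℝ) * (p : ℝ) ^ (0.004 : ℝ)) := by ring
      _ ≤ (p : ℝ) ^ (0.09 : ℝ) * ((p : ℝ) ^ (-1 : ℝ) * (p : ℝ) ^ (0.004 : ℝ)) :=
          mul_le_mul_of_nonneg_right h5 (by positivity)
      _ ≤ (p : ℝ) ^ (-0.9 : ℝ) := by
          rw [← Real.rpow_add hpR, ← Real.rpow_add hpR]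
          exact Real.rpow_le_rpow_of_exponent_le hp1 (by norm_num)

/-- rough bound for the boosted weight -/
lemma gc5_le_pw {ε : ℝ} {k E K p0 : ℕ} {kap : ℕ → ℕ → ℝ} (hE : 1 ≤ E)
    (hkap : KapOK k E K p0 kap) (hε : 0 < ε) (hε1 : ε ≤ 1 / 1000) {p j : ℕ} (hp : p.Prime) (hj1 : 1 ≤ j) :
    gc5 (ε / (2000 * E)) kap p j ≤ K * (p : ℝ) ^ (-(j : ℝ) / (2 * E : ℕ)) := by
  have hER : (1 : ℝ) ≤ E := by exact_mod_cast hE
  have hp1 : (1 : ℝ) ≤ p := by exact_mod_cast hp.one_le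
  have hpR : (0 : ℝ) < p := by linarith
  have h3 := hkap.pw p j hp hj1
  have h4 : (p : ℝ) ^ (-(j : ℝ) / E) * (p : ℝ) ^ ((j : ℝ) * (ε / (2000 * E))) ≤
      (p : ℝ) ^ (-(j : ℝ) / (2 * E : ℕ)) := by
    rw [← Real.rpow_add hpR]
    apply Real.rpow_le_rpow_of_exponent_le hp1
    have hj0 : (0 : ℝ) ≤ j := Nat.cast_nonneg _
    have e1 : -(j : ℝ) / E + (j : ℝ) * (ε / (2000 * E)) = -(j / E) * (1 - ε / 2000) := by
      field_simp
      ring
    have e2 : -(j : ℝ) / (2 * E : ℕ) = -(j / E) * (1 / 2) := by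
      push_cast
      field_simp
    rw [e1, e2]
    have : 0 ≤ (j : ℝ) / E := by positivity
    nlinarith
  unfold gc5
  calc kap p j * (p : ℝ) ^ ((j : ℝ) * (ε / (2000 * E)))
      ≤ (K * (p : ℝ) ^ (-(j : ℝ) / E)) * (p : ℝ) ^ ((j : ℝ) * (ε / (2000 * E))) :=
        mul_le_mul_of_nonneg_right h3 (Real.rpow_nonneg hpR.le _)
    _ = K * ((p : ℝ) ^ (-(j : ℝ) / E) * (p : ℝ) ^ ((j : ℝ) * (ε / (2000 * E)))) := by ring
    _ ≤ _ := mul_le_mul_of_nonneg_left h4 (by positivity)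

/-- items: at most `K+1`, and at most one beyond `K^(2E)` -/
lemma gc5_item {ε : ℝ} {k E K p0 : ℕ} {kap : ℕ → ℕ → ℝ} (hE : 1 ≤ E)
    (hkap : KapOK k E K p0 kap) (hε : 0 < ε) (hε1 : ε ≤ 1 / 1000) {p j : ℕ} (hp : p.Prime) (hj1 : 1 ≤ j) :
    gc5 (ε / (2000 * E)) kap p j ≤ if p ≤ K ^ (2 * E) then (K + 1 : ℝ) else 1 := by
  have hER : (1 : ℝ) ≤ E := by exact_mod_cast hE
  have hp1 : (1 : ℝ) ≤ p := by exact_mod_cast hp.one_le
  have hpR : (0 : ℝ) < p := by linarith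
  have hj0 : (0 : ℝ) ≤ j := Nat.cast_nonneg _
  have h1 := gc5_le_pw hE hkap hε hε1 hp hj1
  refine h1.trans ?_
  split_ifs with h
  · have h2 : (p : ℝ) ^ (-(j : ℝ) / (2 * E : ℕ)) ≤ 1 := by
      apply Real.rpow_le_one_of_one_le_of_nonpos hp1
      exact div_nonpos_of_nonpos_of_nonneg (by linarith) (Nat.cast_nonneg _)
    have h3 : (K : ℝ) * (p : ℝ) ^ (-(j : ℝ) / (2 * E : ℕ)) ≤ K * 1 :=
      mul_le_mul_of_nonneg_left h2 (by positivity)
    linarith
  · push Not at h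
    have h2 : (p : ℝ) ^ (-(j : ℝ) / (2 * E : ℕ)) ≤ (p : ℝ) ^ (-(1 : ℝ) / (2 * E : ℕ)) := by
      apply Real.rpow_le_rpow_of_exponent_le hp1
      have hj1' : (1 : ℝ) ≤ j := by exact_mod_cast hj1
      apply div_le_div_of_nonneg_right _ (Nat.cast_nonneg _)
      linarith
    have h3 : (K : ℝ) ≤ (p : ℝ) ^ ((1 : ℝ) / (2 * E : ℕ)) := by
      have h4 : (K : ℝ) ^ (2 * E) ≤ p := by exact_mod_cast h.le
      have h5 : (K : ℝ) = ((K : ℝ) ^ (2 * E)) ^ ((1 : ℝ) / (2 * E : ℕ)) := by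
        rw [← Real.rpow_natCast, ← Real.rpow_mul (Nat.cast_nonneg _)]
        rw [mul_one_div, div_self (by positivity), Real.rpow_one]
      rw [h5]
      exact Real.rpow_le_rpow (by positivity) h4 (by positivity)
    calc (K : ℝ) * (p : ℝ) ^ (-(j : ℝ) / (2 * E : ℕ))
        ≤ (p : ℝ) ^ ((1 : ℝ) / (2 * E : ℕ)) * (p : ℝ) ^ (-(1 : ℝ) / (2 * E : ℕ)) :=
          mul_le_mul h3 h2 (Real.rpow_nonneg hpR.le _) (Real.rpow_nonneg hpR.le _)
      _ = 1 := by
          rw [← Real.rpow_add hpR]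
          have : (1 : ℝ) / (2 * E : ℕ) + -(1 : ℝ) / (2 * E : ℕ) = 0 := by ring
          rw [this, Real.rpow_zero]

/-- capped boosted rates -/
noncomputable def pc5 (t' : ℝ) (kap : ℕ → ℕ → ℝ) (i : ℕ × ℕ) : ℝ := min 1 (gc5 t' kap i.1 i.2)

lemma prod_Ub_le5 {ε : ℝ} {k E K p0 : ℕ} {kap : ℕ → ℕ → ℝ} (hE : 1 ≤ E)
    (hkap : KapOK k E K p0 kap) (hε : 0 < ε) (hε1 : ε ≤ 1 / 1000) (w J' q : ℕ) :
    ∏ i ∈ Ub w J' q, gc5 (ε / (2000 * E)) kap i.1 i.2 ≤
      (K + 1) ^ (K ^ (2 * E) + 1) * ∏ i ∈ Ub w J' q, pc5 (ε / (2000 * E)) kap i := by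
  classical
  set g := gc5 (ε / (2000 * E)) kap with hg
  have h0 : ∀ p j, 0 ≤ g p j := fun p j => gc5_nonneg hkap.nn p j
  have hmem : ∀ i ∈ Ub w J' q, i.1.Prime ∧ 1 ≤ i.2 := by
    intro i hi
    unfold Ub at hi
    rw [Finset.mem_image] at hi
    obtain ⟨p, hp, rfl⟩ := hi
    rw [Finset.mem_filter] at hp
    exact ⟨Nat.prime_of_mem_primeFactors hp.1, fact_pos hp.1⟩
  have h1 : ∀ i : ℕ × ℕ, g i.1 i.2 = max 1 (g i.1 i.2) * pc5 (ε / (2000 * E)) kap i := by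
    intro i
    unfold pc5
    rw [← hg]
    rcases le_total (g i.1 i.2) 1 with h | h
    · rw [max_eq_left h, min_eq_right h, one_mul]
    · rw [max_eq_right h, min_eq_left h, mul_one]
  rw [Finset.prod_congr rfl fun i _ => h1 i, Finset.prod_mul_distrib]
  apply mul_le_mul_of_nonneg_right
  · calc ∏ i ∈ Ub w J' q, max 1 (g i.1 i.2)
        ≤ ∏ i ∈ Ub w J' q, (if i.1 ≤ K ^ (2 * E) then (K + 1 : ℝ) else 1) := by
          refine Finset.prod_le_prod (fun i _ => le_trans zero_le_one (le_max_left _ _)) ?_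
          intro i hi
          apply max_le
          · split_ifs
            · have : (0 : ℝ) ≤ K := Nat.cast_nonneg _
              linarith
            · exact le_rfl
          · exact gc5_item hE hkap hε hε1 (hmem i hi).1 (hmem i hi).2
      _ = ∏ p ∈ q.primeFactors.filter (fun p => p ≤ w ∨ J' < q.factorization p),
            (if p ≤ K ^ (2 * E) then (K + 1 : ℝ) else 1) := by
          unfold Ub
          rw [Finset.prod_image]
          intro a _ b _ h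
          exact (Prod.mk.inj h).1
      _ = (K + 1 : ℝ) ^ ((q.primeFactors.filter (fun p => p ≤ w ∨ J' < q.factorization p)).filter
            (fun p => p ≤ K ^ (2 * E))).card := by
          rw [Finset.prod_ite, Finset.prod_const, Finset.prod_const_one, mul_one]
      _ ≤ (K + 1 : ℝ) ^ (K ^ (2 * E) + 1) := by
          apply pow_le_pow_right₀
          · have : (0 : ℝ) ≤ K := Nat.cast_nonneg _
            linarith
          · calc _ ≤ (range (K ^ (2 * E) + 1)).card := by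
                  apply Finset.card_le_card
                  intro p hp
                  rw [Finset.mem_filter] at hp
                  rw [Finset.mem_range]
                  omega
              _ = _ := Finset.card_range _
  · exact Finset.prod_nonneg fun i _ => le_min zero_le_one (h0 _ _)

/-- the cost of the boosted rates -/
lemma cost_pc5 {k E K p0 : ℕ} {kap : ℕ → ℕ → ℝ} (hk : 1 ≤ k) (hE : 1 ≤ E)
    (hkap : KapOK k E K p0 kap) {ε : ℝ} (hε : 0 < ε) (hε1 : ε ≤ 1 / 1000) :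
    ∃ C : ℝ, 0 < C ∧ ∀ P : ℝ, 1 ≤ P → ∀ (Q : ℕ)
    (I : Finset (ℕ × ℕ)), I ⊆ Ib ⌊P ^ (190 * ε)⌋₊ (8 * E) Q →
    ∑ i ∈ I, pc5 (ε / (2000 * E)) kap i * (i.2 * Real.log i.1) ≤ C * P ^ (95.01 * ε) := by
  classical
  have hER : (1 : ℝ) ≤ E := by exact_mod_cast hE
  obtain ⟨C1, hC1, h1⟩ := cost_holds k E K p0 kap hk hE hkap
  set kap3 : ℕ → ℕ → ℝ := fun p j =>
    if 8 * E < j then min 1 (K * (p : ℝ) ^ (-(j : ℝ) / (2 * E : ℕ))) else 0 with hkap3
  have hK3 : KapOK k (2 * E) K K kap3 := by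
    refine ⟨fun p j => ?_, fun p j => ?_, fun p j hp hj => ?_, fun p hp hp0 => ?_,
      fun p j hp hp0 hj => ?_⟩
    · simp only [hkap3]
      split_ifs
      · exact le_min zero_le_one (by positivity)
      · exact le_rfl
    · simp only [hkap3]
      split_ifs
      · exact min_le_left _ _
      · exact zero_le_one
    · simp only [hkap3]
      split_ifs
      · exact min_le_right _ _
      · positivity
    · simp only [hkap3]
      rw [if_neg (by omega)]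
      positivity
    · simp only [hkap3]
      split_ifs with h8
      · refine (min_le_right _ _).trans ?_
        have hp1 : (1 : ℝ) ≤ p := by exact_mod_cast hp.one_le
        have hpR : (0 : ℝ) < p := by linarith
        have hk1 : (1 : ℝ) ≤ k := by exact_mod_cast hk
        have hKp : (K : ℝ) ≤ p := by exact_mod_cast hp0.le
        have h3 : (p : ℝ) ^ (-(j : ℝ) / (2 * E : ℕ)) ≤ (p : ℝ) ^ (-2 : ℝ) := by
          apply Real.rpow_le_rpow_of_exponent_le hp1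
          rw [div_le_iff₀ (by positivity)]
          have : (8 * E : ℝ) ≤ j := by exact_mod_cast h8.le
          push_cast
          linarith
        calc (K : ℝ) * (p : ℝ) ^ (-(j : ℝ) / (2 * E : ℕ)) ≤ p * (p : ℝ) ^ (-2 : ℝ) :=
              mul_le_mul hKp h3 (Real.rpow_nonneg hpR.le _) hpR.le
          _ = 1 / p := by
              rw [show (-2 : ℝ) = -1 + -1 by norm_num, Real.rpow_add hpR, Real.rpow_neg_one]
              field_simp
          _ ≤ k / p := div_le_div_of_nonneg_right hk1 hpR.le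
      · positivity
  obtain ⟨C3, hC3, h3⟩ := cost3_holds k (2 * E) K K kap3 hk (by omega) hK3
  refine ⟨4 * C1 + 2 * C3, by positivity, ?_⟩
  intro P hP Q I hI
  have hP0 : 0 < P := by linarith
  have hIb : ∀ i ∈ I, i.1.Prime ∧ 1 ≤ i.2 ∧ (i.1 ≤ ⌊P ^ (190 * ε)⌋₊ ∨ 8 * E < i.2) := by
    intro i hi
    have := hI hi
    simp only [Ib, Finset.mem_filter] at this
    exact ⟨this.2.1, this.2.2.1, this.2.2.2.2⟩
  have hc0 : ∀ i : ℕ × ℕ, 0 ≤ (i.2 : ℝ) * Real.log i.1 := fun i =>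
    mul_nonneg (Nat.cast_nonneg _) (Real.log_natCast_nonneg _)
  rw [← Finset.sum_filter_add_sum_filter_not I (fun i => 8 * E < i.2)]
  -- large exponents
  have e1 : ∑ i ∈ I.filter (fun i => 8 * E < i.2),
      pc5 (ε / (2000 * E)) kap i * (i.2 * Real.log i.1) ≤ C3 := by
    have h4 := h3 (I.filter (fun i => 8 * E < i.2)) (fun i hi => by
      rw [Finset.mem_filter] at hi
      exact ⟨(hIb i hi.1).1, by omega⟩)
    refine le_trans (Finset.sum_le_sum fun i hi => ?_) h4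
    rw [Finset.mem_filter] at hi
    refine mul_le_mul_of_nonneg_right ?_ (hc0 i)
    simp only [hkap3, pc5]
    rw [if_pos hi.2]
    have h5 := gc5_le_pw hE hkap hε hε1 (hIb i hi.1).1 (hIb i hi.1).2.1
    exact min_le_min le_rfl h5
  -- small exponents
  have e2 : ∑ i ∈ I.filter (fun i => ¬ 8 * E < i.2),
      pc5 (ε / (2000 * E)) kap i * (i.2 * Real.log i.1) ≤ 2 * C1 * P ^ (95.01 * ε) := by
    have h4 := h1 ⌊P ^ (190 * ε)⌋₊ (I.filter (fun i => ¬ 8 * E < i.2)) (fun i hi => by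
      rw [Finset.mem_filter] at hi
      have := hIb i hi.1
      exact ⟨this.1, this.2.1, this.2.2.resolve_right hi.2⟩)
    have h5 : ∑ i ∈ I.filter (fun i => ¬ 8 * E < i.2),
        pc5 (ε / (2000 * E)) kap i * (i.2 * Real.log i.1) ≤
        P ^ (0.01 * ε) * ∑ i ∈ I.filter (fun i => ¬ 8 * E < i.2),
          kap i.1 i.2 * (i.2 * Real.log i.1) := by
      rw [Finset.mul_sum]
      refine Finset.sum_le_sum fun i hi => ?_
      rw [Finset.mem_filter] at hi
      have hi' := hIb i hi.1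
      rw [← mul_assoc (P ^ (0.01 * ε)) (kap i.1 i.2)]
      refine mul_le_mul_of_nonneg_right ?_ (hc0 i)
      refine (min_le_right _ _).trans ?_
      have hp1 : (1 : ℝ) ≤ i.1 := by exact_mod_cast hi'.1.one_le
      have h6 : (i.1 : ℝ) ≤ P ^ (190 * ε) :=
        (Nat.cast_le.2 (hi'.2.2.resolve_right hi.2)).trans
          (Nat.floor_le (Real.rpow_nonneg hP0.le _))
      have h7 : (i.1 : ℝ) ^ ((i.2 : ℝ) * (ε / (2000 * E))) ≤ P ^ (0.01 * ε) := by
        have h8 : (i.2 : ℝ) * (ε / (2000 * E)) ≤ 0.01 * ε := by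
          have : (i.2 : ℝ) ≤ 8 * E := by exact_mod_cast not_lt.1 hi.2
          rw [mul_div_assoc', div_le_iff₀ (by positivity)]
          nlinarith [mul_pos hε (lt_of_lt_of_le one_pos hER)]
        have h9 : (i.1 : ℝ) ≤ P := by
          refine h6.trans ?_
          conv_rhs => rw [← Real.rpow_one P]
          exact Real.rpow_le_rpow_of_exponent_le hP (by linarith)
        calc (i.1 : ℝ) ^ ((i.2 : ℝ) * (ε / (2000 * E))) ≤ (i.1 : ℝ) ^ (0.01 * ε) :=
              Real.rpow_le_rpow_of_exponent_le hp1 h8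
          _ ≤ P ^ (0.01 * ε) := Real.rpow_le_rpow (by linarith) h9 (by positivity)
      unfold gc5
      calc kap i.1 i.2 * (i.1 : ℝ) ^ ((i.2 : ℝ) * (ε / (2000 * E)))
          ≤ kap i.1 i.2 * P ^ (0.01 * ε) := mul_le_mul_of_nonneg_left h7 (hkap.nn _ _)
        _ = _ := by ring
    refine h5.trans ((mul_le_mul_of_nonneg_left h4 (by positivity)).trans ?_)
    have h6 : Real.sqrt (⌊P ^ (190 * ε)⌋₊ : ℝ) + 1 ≤ 2 * P ^ (95 * ε) := by
      have h7 : Real.sqrt (⌊P ^ (190 * ε)⌋₊ : ℝ) ≤ P ^ (95 * ε) := by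
        rw [Real.sqrt_le_left (Real.rpow_nonneg hP0.le _)]
        refine (Nat.floor_le (Real.rpow_nonneg hP0.le _)).trans (le_of_eq ?_)
        rw [← Real.rpow_natCast, ← Real.rpow_mul hP0.le]
        congr 1
        push_cast
        ring
      have h8 : (1 : ℝ) ≤ P ^ (95 * ε) := Real.one_le_rpow hP (by positivity)
      linarith
    calc P ^ (0.01 * ε) * (C1 * (Real.sqrt (⌊P ^ (190 * ε)⌋₊ : ℝ) + 1))
        ≤ P ^ (0.01 * ε) * (C1 * (2 * P ^ (95 * ε))) :=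
          mul_le_mul_of_nonneg_left (mul_le_mul_of_nonneg_left h6 hC1.le) (by positivity)
      _ = 2 * C1 * (P ^ (0.01 * ε) * P ^ (95 * ε)) := by ring
      _ = 2 * C1 * P ^ (95.01 * ε) := by
          rw [← Real.rpow_add hP0]
          congr 2
          ring
  have h8 : (1 : ℝ) ≤ P ^ (95.01 * ε) := Real.one_le_rpow hP (by positivity)
  nlinarith

end Vale.Agent.P042.UU.TotC
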