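import Vale.Agent.P042.UU.One5
import Vale.Agent.P042.TT.Restd
import Vale.Agent.P042.UU.TotW5

set_option autoImplicit false

/-!
Block REST5, part D (helper315): the moduli dividing a fixed modulus.
-/

namespace Vale.Agent.P042.UU.RestE

open Finset Filter Vale.Agent.P042.SS Vale.Agent.P042.TT Vale.Agent.P042.TT.TotB

variable {ε P : ℝ} {k N' : ℕ} {Φ : ℝ} {G : ℤ → ℝ} {ν : ℕ → ℤ → ℝ}

/-- conditions on `P` -/
structure Bd (ε P : ℝ) : Prop where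
  one : 1 ≤ P
  c4 : 4 ≤ P ^ (0.1 * ε)
  big : 1000000 ≤ P

lemma bd_ev (ε : ℝ) (hε : 0 < ε) : ∀ᶠ P : ℝ in atTop, Bd ε P := by
  filter_upwards [eventually_ge_atTop (1 : ℝ), ev_const 4 (a := 0.1 * ε) (by positivity),
    eventually_ge_atTop (1000000 : ℝ)] with P h1 h2 h3
  exact ⟨h1, h2, h3⟩

/-- sharp bound for the mass of a class, small moduli -/
theorem mass5_le (hε : 0 < ε) (hε1 : ε ≤ 1 / 1000) (hB : Bd ε P) (hS : St5 ε P k N' Φ G ν) {R M : ℕ} (y r : ℤ)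
    (hR : 1 ≤ R) (hRP : Real.log R ≤ P ^ (95.5 * ε)) (hMN : M ≤ N') (hM : (N' : ℝ) ≤ P * M) :
    mass G y M R r ≤ (1 + P ^ (-(0.4 * ε))) * Φ * M / R := by
  have hP1 := hB.one
  have hP0 : 0 < P := by linarith
  have hΦ : 0 ≤ Φ := (Real.exp_pos _).le.trans hS.Φlo
  have h1 := hS.sup R M y r hR (hRP.trans (Real.rpow_le_rpow_of_exponent_le hP1 (by linarith))) hMN hM
  refine h1.trans ?_
  have hc : 0 ≤ (M : ℝ) * Φ / R := by positivity
  have h2 : b5 ε P * Real.log R ≤ P ^ (-(0.5 * ε)) := by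
    calc b5 ε P * Real.log R ≤ b5 ε P * P ^ (95.5 * ε) :=
          mul_le_mul_of_nonneg_left hRP (Real.rpow_nonneg hP0.le _)
      _ = P ^ (-(0.5 * ε)) := by
          unfold b5
          rw [← Real.rpow_add hP0]
          congr 1; ring
  have h3 : P ^ (-(90 * ε)) ≤ P ^ (-(0.5 * ε)) := Real.rpow_le_rpow_of_exponent_le hP1 (by linarith)
  set x := P ^ (-(0.5 * ε)) with hx
  have hx0 : 0 < x := Real.rpow_pos_of_pos hP0 _
  have h4 : P ^ (-(0.4 * ε)) = x * P ^ (0.1 * ε) := by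
    rw [hx, ← Real.rpow_add hP0]
    congr 1; ring
  have h5 : x * P ^ (0.1 * ε) ≤ 1 := by
    rw [← h4]
    exact Real.rpow_le_one_of_one_le_of_nonpos hP1 (by linarith)
  have h6 : 4 * x ≤ x * P ^ (0.1 * ε) := by nlinarith [hB.c4]
  have h7 : Real.exp (2 * x) ≤ 1 + 4 * x := by
    have h8 := Real.exp_bound_div_one_sub_of_interval (x := 2 * x) (by linarith) (by linarith)
    refine h8.trans ?_
    rw [div_le_iff₀ (by linarith)]
    nlinarith
  calc (M : ℝ) * Φ / R * Real.exp (P ^ (-(90 * ε)) + b5 ε P * Real.log R)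
      ≤ (M : ℝ) * Φ / R * Real.exp (2 * x) :=
        mul_le_mul_of_nonneg_left (Real.exp_le_exp.2 (by linarith)) hc
    _ ≤ (M : ℝ) * Φ / R * (1 + P ^ (-(0.4 * ε))) :=
        mul_le_mul_of_nonneg_left (by rw [h4]; linarith) hc
    _ = _ := by ring

theorem den_win5 (hε : 0 < ε) (hε1 : ε ≤ 1 / 1000) (hB : Bd ε P) (hS : St5 ε P k N' Φ G ν)
    (R M : ℕ) (y r : ℤ) (hR : 1 ≤ R) (hRP : Real.log R ≤ P ^ (95.5 * ε)) :
      ((N' : ℝ) ≤ P * cnt N' y M →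
        mass G y M R r ≤ (1 + P ^ (-(0.4 * ε))) * Φ * cnt N' y M / R) ∧
      (P * cnt N' y M < N' → mass G y M R r ≤ 2 * Φ * ((N' : ℝ) / P + 1) / R) := by
  have hP1 := hB.one
  have hPp : 0 < P := by linarith
  have hΦ : 0 ≤ Φ := (Real.exp_pos _).le.trans hS.Φlo
  have hN0 : (0 : ℝ) < N' := lt_of_lt_of_le (Real.exp_pos _) hS.N'lo
  rw [DEN.mass_inter hS.Gsupp y M R r]
  refine ⟨fun h => mass5_le hε hε1 hB hS _ r hR hRP (DEN.cnt_le N' y M) h, fun h => ?_⟩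
  set M2 := ⌈(N' : ℝ) / P⌉₊ with hM2
  have h1 : (N' : ℝ) / P ≤ M2 := Nat.le_ceil _
  have h2 : (M2 : ℝ) ≤ N' / P + 1 := (Nat.ceil_lt_add_one (by positivity)).le
  have h3 : cnt N' y M ≤ M2 := by
    have h4 : (cnt N' y M : ℝ) ≤ M2 := by
      refine le_trans ?_ h1
      rw [le_div_iff₀ hPp]
      linarith
    exact_mod_cast h4
  have h4 : M2 ≤ N' := by
    rw [hM2, Nat.ceil_le]
    exact div_le_self hN0.le hP1
  have h5 : (N' : ℝ) ≤ P * M2 := by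
    rw [div_le_iff₀ hPp] at h1
    linarith
  refine (DEN.mass_mono hS.G0 _ h3 R r).trans ?_
  refine (mass5_le hε hε1 hB hS _ r hR hRP h4 h5).trans ?_
  have h6 : P ^ (-(0.4 * ε)) ≤ 1 := Real.rpow_le_one_of_one_le_of_nonpos hP1 (by linarith)
  have hR0 : (0 : ℝ) < R := Nat.cast_pos.2 hR
  have h7 : (0 : ℝ) ≤ N' / P + 1 := by positivity
  apply div_le_div_of_nonneg_right _ hR0.le
  apply mul_le_mul _ h2 (Nat.cast_nonneg _) (by positivity)
  apply mul_le_mul_of_nonneg_right _ hΦ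
  linarith

/-- the classes mod `D` without the trivial frequency, from the sup bounds of the masses -/
lemma rd5_first (hε : 0 < ε) (hε1 : ε ≤ 1 / 1000) (hB : Bd ε P) (hS : St5 ε P k N' Φ G ν) {D M : ℕ} {y : ℤ}
    (hD : 1 ≤ D) (hN : N' ≤ 32 * M)
    (hwD : ∀ r : ℤ, ((N' : ℝ) ≤ P * cnt N' y M →
        mass G y M D r ≤ (1 + P ^ (-(0.4 * ε))) * Φ * cnt N' y M / D) ∧
      (P * cnt N' y M < N' → mass G y M D r ≤ 2 * Φ * ((N' : ℝ) / P + 1) / D))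
    (hw1 : ((N' : ℝ) ≤ P * cnt N' y M →
        mass G y M 1 0 ≤ (1 + P ^ (-(0.4 * ε))) * Φ * cnt N' y M) ∧
      (P * cnt N' y M < N' → mass G y M 1 0 ≤ 2 * Φ * ((N' : ℝ) / P + 1))) :
    D * ∑ r ∈ range D, (mass G y M D r) ^ 2 - (mass G y M 1 0) ^ 2 ≤
      2 * P ^ (-(0.4 * ε)) * (M * Φ) ^ 2 +
        2 * (mass G y M 1 0 * |Φ * cnt N' y M - mass G y M 1 0|) := by
  have hP1 := hB.one
  have hP0 : 0 < P := by linarith
  have hΦ : 0 ≤ Φ := (Real.exp_pos _).le.trans hS.Φlo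
  have hG := hS.G0
  have hX0 : 0 ≤ (M * Φ) ^ 2 := sq_nonneg _
  have hm0 := rd_mass_nonneg hG y M 1 0
  have heps : 0 ≤ P ^ (-(0.4 * ε)) := Real.rpow_nonneg hP0.le _
  have heps1 : P ^ (-(0.4 * ε)) ≤ 1 := Real.rpow_le_one_of_one_le_of_nonpos hP1 (by linarith)
  have habs : 0 ≤ mass G y M 1 0 * |Φ * cnt N' y M - mass G y M 1 0| :=
    mul_nonneg hm0 (abs_nonneg _)
  rcases le_or_gt ((N' : ℝ)) (P * cnt N' y M) with hcase | hcase
  · have h1 := rd_sq_le hG y M D hD (B := (1 + P ^ (-(0.4 * ε))) * Φ * cnt N' y M)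
      (fun r => (hwD r).1 hcase)
    have h2 := hw1.1 hcase
    have hcM : (cnt N' y M : ℝ) ≤ M := by exact_mod_cast rd_cnt_le N' y M
    have hc0 : (0 : ℝ) ≤ cnt N' y M := Nat.cast_nonneg _
    have hPc : Φ * cnt N' y M ≤ M * Φ := by
      rw [mul_comm]; exact mul_le_mul_of_nonneg_right hcM hΦ
    have hPc0 : 0 ≤ Φ * cnt N' y M := mul_nonneg hΦ hc0
    have h3 : mass G y M 1 0 ≤ 2 * (M * Φ) := by
      calc mass G y M 1 0 ≤ (1 + P ^ (-(0.4 * ε))) * Φ * cnt N' y M := h2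
        _ = (1 + P ^ (-(0.4 * ε))) * (Φ * cnt N' y M) := by ring
        _ ≤ 2 * (M * Φ) := mul_le_mul (by linarith) hPc hPc0 (by norm_num)
    have h4 : P ^ (-(0.4 * ε)) * ((Φ * cnt N' y M) * mass G y M 1 0) ≤
        P ^ (-(0.4 * ε)) * ((M * Φ) * (2 * (M * Φ))) :=
      mul_le_mul_of_nonneg_left (mul_le_mul hPc h3 hm0 (by positivity)) heps
    have h5 : mass G y M 1 0 * (Φ * cnt N' y M - mass G y M 1 0) ≤
        mass G y M 1 0 * |Φ * cnt N' y M - mass G y M 1 0| :=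
      mul_le_mul_of_nonneg_left (le_abs_self _) hm0
    generalize P ^ (-(0.4 * ε)) = c at *
    generalize |Φ * cnt N' y M - mass G y M 1 0| = z at *
    generalize (D : ℝ) * ∑ r ∈ range D, (mass G y M D r) ^ 2 = A at *
    nlinarith
  · have h1 := rd_sq_le hG y M D hD (B := 2 * Φ * ((N' : ℝ) / P + 1))
      (fun r => (hwD r).2 hcase)
    have h2 := hw1.2 hcase
    have hNP : (N' : ℝ) / P + 1 ≤ 64 * M / P := by
      have h3 : (N' : ℝ) ≤ 32 * M := by exact_mod_cast hN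
      have h4 : P ≤ 32 * M := by
        have h5 : P ≤ Real.exp (7 / 8 * P) := by
          have h6 : 1 + 7 / 8 * P + (7 / 8 * P) ^ 2 / 2 ≤ Real.exp (7 / 8 * P) :=
            Real.quadratic_le_exp_of_nonneg (by positivity)
          have h7 : 1000000 * P ≤ P * P := mul_le_mul_of_nonneg_right hB.big hP0.le
          nlinarith
        linarith [hS.N'lo]
      have h7 : (N' : ℝ) / P ≤ 32 * M / P := div_le_div_of_nonneg_right h3 hP0.le
      have h8 : 1 ≤ 32 * M / P := by rw [le_div_iff₀ hP0]; linarith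
      have h9 : 64 * (M : ℝ) / P = 32 * M / P + 32 * M / P := by ring
      linarith
    have h3 : 2 * Φ * ((N' : ℝ) / P + 1) ≤ 128 / P * (M * Φ) := by
      calc 2 * Φ * ((N' : ℝ) / P + 1) ≤ 2 * Φ * (64 * M / P) :=
            mul_le_mul_of_nonneg_left hNP (by positivity)
        _ = 128 / P * (M * Φ) := by ring
    have h4 : D * ∑ r ∈ range D, (mass G y M D r) ^ 2 ≤
        (128 / P * (M * Φ)) * (128 / P * (M * Φ)) :=
      h1.trans (mul_le_mul h3 (h2.trans h3) hm0 (by positivity))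
    have h5 : (128 / P) * (128 / P) ≤ 2 * P ^ (-(0.4 * ε)) := by
      have h6 : (128 / P) * (128 / P) ≤ 2 * P ^ (-1 : ℝ) := by
        rw [Real.rpow_neg_one, div_mul_div_comm, div_le_iff₀ (by positivity)]
        have h7 : 2 * P⁻¹ * (P * P) = 2 * P := by
          field_simp
        rw [h7]
        have := hB.big
        norm_num
        linarith
      have h8 : P ^ (-1 : ℝ) ≤ P ^ (-(0.4 * ε)) := Real.rpow_le_rpow_of_exponent_le hP1 (by linarith)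
      linarith
    have h9 : (128 / P * (M * Φ)) * (128 / P * (M * Φ)) ≤
        2 * P ^ (-(0.4 * ε)) * (M * Φ) ^ 2 := by
      calc (128 / P * (M * Φ)) * (128 / P * (M * Φ)) =
            ((128 / P) * (128 / P)) * (M * Φ) ^ 2 := by ring
        _ ≤ _ := mul_le_mul_of_nonneg_right h5 hX0
    have h10 : 0 ≤ (mass G y M 1 0) ^ 2 := sq_nonneg _
    linarith

/-- the rates `t5` fit into `dT5` -/
lemma t5_sum (hε : 0 < ε) (hε1 : ε ≤ 1 / 1000) (hP1' : 1 ≤ P) (h6 : 6 ≤ P ^ (4 * ε)) {V : Finset ℕ}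
    (hV : V ⊆ W5 ε P) : 2 * ∑ p ∈ V, t5 ε P p + (u5 ε P : ℝ) ≤ (dT5 ε P : ℝ) := by
  have hP0 : 0 < P := by linarith
  have h3 : ∑ p ∈ V, t5 ε P p ≤ 2 * P ^ (1 - 57 * ε) := by
    calc ∑ p ∈ V, t5 ε P p = P ^ (38 * ε) * ∑ p ∈ V, (p : ℝ) ^ (-(1 / 2) : ℝ) := by
          rw [mul_sum]
          rfl
      _ ≤ P ^ (38 * ε) * (2 * P ^ (1 - 95 * ε)) := by
          gcongr
          exact one5_sum_window hP1' hV
      _ = 2 * (P ^ (38 * ε) * P ^ (1 - 95 * ε)) := by ring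
      _ = 2 * P ^ (1 - 57 * ε) := by
          rw [← Real.rpow_add hP0]
          congr 2
          ring
  have h4 : (u5 ε P : ℝ) ≤ P ^ (1 - 57 * ε) := by
    unfold u5
    refine (Nat.floor_le (by positivity)).trans ?_
    exact Real.rpow_le_rpow_of_exponent_le hP1' (by linarith)
  have h5 : 1 ≤ P ^ (1 - 57 * ε) := Real.one_le_rpow hP1' (by linarith)
  have h7 : P ^ (1 - 53 * ε) - 1 < (dT5 ε P : ℝ) := by
    unfold dT5
    linarith [Nat.lt_floor_add_one (P ^ (1 - 53 * ε))]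
  have h8 : P ^ (1 - 53 * ε) = P ^ (4 * ε) * P ^ (1 - 57 * ε) := by
    rw [← Real.rpow_add hP0]
    congr 1
    ring
  nlinarith

/-- energies: the trivial component and a small multiple of the total energy -/
lemma ews6_le (hEws : EWS5Stmt) (hε : 0 < ε) (hε1 : ε ≤ 1 / 1000) (hP1' : 1 ≤ P) (h6 : 6 ≤ P ^ (4 * ε))
    (hst : St5 ε P k N' Φ G ν) {V : Finset ℕ} (hV : V ⊆ W5 ε P) (y : ℤ) (M R : ℕ) (r : ℤ) (θ : ℝ) :
    0 ≤ ews (t6 ε P) (u5 ε P) V ν G y M R r θ ∧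
    ews (t6 ε P) (u5 ε P) V ν G y M R r θ ≤ ‖Fc G y M R r θ‖ ^ 2 +
      2 * P ^ (-(8 * ε)) * totd (t5 ε P) (dT5 ε P) V ν G y M R r θ ∧
    ews (t6 ε P) (u5 ε P) V ν G y M R r θ ≤ 2 * totd (t5 ε P) (dT5 ε P) V ν G y M R r θ := by
  have hP0 : 0 < P := by linarith
  have ht : ∀ p ∈ V, 0 ≤ t5 ε P p ∧ t5 ε P p ≤ 1 := fun p hp =>
    ⟨one5_t5_nonneg hP1' p, one5_t5_le hε hP1' (hV hp)⟩
  have hprime : ∀ p ∈ V, p.Prime := fun p hp => (one5_W5 (hV hp)).1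
  have hwts : Wts V ν := one5_wts hst.wts hV
  have hGν : ∀ n, G n ≠ 0 → ∀ p ∈ V, ν p n ≠ 0 := fun n hn p hp => hst.Gν n hn p (hV hp)
  obtain ⟨_, h3⟩ := hEws V ν G y M R r θ (t5 ε P) (dT5 ε P) (u5 ε P) hprime hwts hGν ht
  have h4 := h3 (t5_sum hε hε1 hP1' h6 hV)
  obtain ⟨hnn, hempty, _⟩ := ew_holds V ν G y M R r θ hprime hwts hGν
  set F := V.powerset.filter (fun U => U.card ≤ u5 ε P) with hF
  have hem : ∅ ∈ F := by
    rw [hF, mem_filter]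
    exact ⟨empty_mem_powerset _, by simp⟩
  have hsplit : ∀ t : ℕ → ℝ, ews t (u5 ε P) V ν G y M R r θ =
      ‖Fc G y M R r θ‖ ^ 2 + ∑ U ∈ F.erase ∅, (∏ p ∈ U, t p) * ew ν G y M R r θ U := by
    intro t
    unfold ews
    rw [← add_sum_erase F _ hem, prod_empty, one_mul, hempty]
  have hU : ∀ U ∈ F.erase ∅, U ≠ ∅ ∧ U ⊆ V := by
    intro U hU
    rw [mem_erase, hF, mem_filter, mem_powerset] at hU
    exact ⟨hU.1, hU.2.1⟩
  have hB0 : 0 ≤ ∑ U ∈ F.erase ∅, (∏ p ∈ U, t5 ε P p) * ew ν G y M R r θ U :=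
    sum_nonneg fun U hU' => mul_nonneg (prod_nonneg fun p hp => (ht p ((hU U hU').2 hp)).1)
      (hnn U (hU U hU').2)
  have h60 : ∀ p : ℕ, 0 ≤ t6 ε P p := fun p => by unfold t6; positivity
  have hA0 : 0 ≤ ∑ U ∈ F.erase ∅, (∏ p ∈ U, t6 ε P p) * ew ν G y M R r θ U :=
    sum_nonneg fun U hU' => mul_nonneg (prod_nonneg fun p _ => h60 p) (hnn U (hU U hU').2)
  have h5 : ∑ U ∈ F.erase ∅, (∏ p ∈ U, t6 ε P p) * ew ν G y M R r θ U ≤
      P ^ (-(8 * ε)) * ∑ U ∈ F.erase ∅, (∏ p ∈ U, t5 ε P p) * ew ν G y M R r θ U := by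
    rw [mul_sum]
    refine sum_le_sum fun U hU' => ?_
    obtain ⟨hne, hUV⟩ := hU U hU'
    have h6 : ∏ p ∈ U, t6 ε P p = (P ^ (-(8 * ε))) ^ U.card * ∏ p ∈ U, t5 ε P p := by
      rw [← prod_const, ← prod_mul_distrib]
      exact prod_congr rfl fun p _ => one5_t6 hP1' p
    have h7 : (P ^ (-(8 * ε))) ^ U.card ≤ P ^ (-(8 * ε)) := by
      have h8 : P ^ (-(8 * ε)) ≤ 1 := Real.rpow_le_one_of_one_le_of_nonpos hP1' (by linarith)
      have h9 : U.card ≠ 0 := by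
        rw [Ne, card_eq_zero]
        exact hne
      exact pow_le_of_le_one (by positivity) h8 h9
    rw [h6, mul_assoc]
    refine mul_le_mul_of_nonneg_right h7 (mul_nonneg (prod_nonneg fun p hp => ?_) (hnn U hUV))
    exact (ht p (hUV hp)).1
  have h8 : P ^ (-(8 * ε)) ≤ 1 := Real.rpow_le_one_of_one_le_of_nonpos hP1' (by linarith)
  have h9 : 0 ≤ P ^ (-(8 * ε)) := by positivity
  have hn : 0 ≤ ‖Fc G y M R r θ‖ ^ 2 := by positivity
  have h10 := hsplit (t5 ε P)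
  rw [hsplit (t6 ε P)]
  refine ⟨by linarith, ?_, ?_⟩
  · have h11 : ∑ U ∈ F.erase ∅, (∏ p ∈ U, t5 ε P p) * ew ν G y M R r θ U ≤
        2 * totd (t5 ε P) (dT5 ε P) V ν G y M R r θ := by linarith
    have := mul_le_mul_of_nonneg_left h11 h9
    linarith
  · have h11 : P ^ (-(8 * ε)) * ∑ U ∈ F.erase ∅, (∏ p ∈ U, t5 ε P p) * ew ν G y M R r θ U ≤
        1 * ∑ U ∈ F.erase ∅, (∏ p ∈ U, t5 ε P p) * ew ν G y M R r θ U :=
      mul_le_mul_of_nonneg_right h8 hB0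
    linarith

end Vale.Agent.P042.UU.RestE
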