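import Vale.Agent.P042.UU.RestD5

set_option autoImplicit false

/-!
Block REST5, part F (helper315): the moduli dividing a fixed modulus, conclusion.
-/

namespace Vale.Agent.P042.UU.RestE

open Finset Filter Vale.Agent.P042.SS Vale.Agent.P042.TT Vale.Agent.P042.TT.TotB Vale.Agent.P042.UU.TotC

/-- the moduli `d ≠ 1` dividing `D` -/
def RESTD5Stmt : Prop :=
  ∀ (k : ℕ) (ε : ℝ), 1 ≤ k → 0 < ε → ε ≤ 1 / 1000 → ∃ P0 : ℝ, ∀ P : ℝ, P0 ≤ P →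
  ∀ (N' : ℕ) (Φ : ℝ) (G : ℤ → ℝ) (ν : ℕ → ℤ → ℝ), St5 ε P k N' Φ G ν →
  ∀ (V : Finset ℕ) (D M : ℕ) (y : ℤ), V ⊆ W5 ε P → M ≤ N' → N' ≤ 32 * M → 1 ≤ D →
    Real.log D ≤ P ^ (95.5 * ε) → (∀ p ∈ V, Nat.Coprime p D) →
    ∑ d ∈ D.divisors.erase 1, ∑ a ∈ (range d).filter (Nat.Coprime d),
      ews (t6 ε P) (u5 ε P) V ν G y M 1 0 ((a : ℝ) / d) ≤
      P ^ (-(0.3 * ε)) * (M * Φ) ^ 2 +
        2 * (mass G y M 1 0 * |Φ * cnt N' y M - mass G y M 1 0|)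

theorem restd5_of (hSum : SUM5Stmt) (hEws : EWS5Stmt) : RESTD5Stmt := by
  intro k ε hk hε hε1
  obtain ⟨C, P1, hC, hsum⟩ := hSum k 1 ε hk le_rfl hε hε1
  have hev : ∀ᶠ P : ℝ in atTop, P1 ≤ P ∧ Bd ε P ∧ 6 ≤ P ^ (4 * ε) ∧ C ≤ P ^ (0.3 * ε) ∧
      4 ≤ P ^ (0.1 * ε) ∧ 24 * P ^ (-(7 * ε)) ≤ P ^ (-(0.3 * ε)) := by
    filter_upwards [eventually_ge_atTop P1, bd_ev ε hε, ev_const 6 (a := 4 * ε) (by positivity),
      ev_const C (a := 0.3 * ε) (by positivity), ev_const 4 (a := 0.1 * ε) (by positivity),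
      ev_rpow 24 (a := -(0.3 * ε)) (b := -(7 * ε)) (by linarith)] with P h1 h2 h3 h4 h5 h6
    exact ⟨h1, h2, h3, h4, h5, h6⟩
  obtain ⟨P0, hP0⟩ := eventually_atTop.1 hev
  refine ⟨P0, fun P hP N' Φ G ν hS V D M y hV hM hN hD hDl hc => ?_⟩
  obtain ⟨e1, hB, e3, e4, e5, e6⟩ := hP0 P hP
  have hP1 := hB.one
  have hPp : 0 < P := by linarith
  have hD0 : (0 : ℝ) < D := by exact_mod_cast hD
  have hX0 : 0 ≤ (M * Φ) ^ 2 := sq_nonneg _
  have ht : ∀ p ∈ V, 0 ≤ t5 ε P p ∧ t5 ε P p ≤ 1 := fun p hp =>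
    ⟨one5_t5_nonneg hP1 p, one5_t5_le hε hP1 (hV hp)⟩
  have hνnn := hS.wts.nn
  have htot0 : ∀ θ, 0 ≤ totd (t5 ε P) (dT5 ε P) V ν G y M 1 0 θ := fun θ =>
    one5_totd_nonneg ht hνnn _ _ _ _ _ _ _
  have hDl' : Real.log D ≤ P ^ (1 - 92 * ε) :=
    hDl.trans (Real.rpow_le_rpow_of_exponent_le hP1 (by linarith))
  -- the total energies over the divisors
  have hs1 := hsum P e1 N' Φ G ν hS V D M y hV hM hN hD hDl' hc
  have hs2 : ∑ d ∈ D.divisors, ∑ a ∈ (range d).filter (Nat.Coprime d),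
      totd (t5 ε P) (dT5 ε P) V ν G y M 1 0 ((a : ℝ) / d) ≤
      C * (D : ℝ) ^ (C * bc5 ε P) * (M * Φ) ^ 2 := by
    refine le_trans (sum_le_sum fun d _ => ?_) hs1
    have h4 : (1 : ℕ) ∈ (QZ5 ε P 1 (Q5 ε P)).filter (fun q => Nat.Coprime q D) := by
      rw [mem_filter]
      refine ⟨?_, Nat.coprime_one_left D⟩
      unfold QZ5
      rw [mem_filter, mem_Icc]
      refine ⟨⟨le_rfl, ?_⟩, ?_⟩
      · unfold Q5
        exact Nat.le_floor (by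
          push_cast
          exact Real.one_le_exp (by positivity))
      · intro p hp
        simp at hp
    refine le_trans (le_of_eq ?_) (single_le_sum (f := fun q : ℕ => zR5 ε P q *
      ∑ a ∈ (range (d * q)).filter (Nat.Coprime (d * q)),
          totd (t5 ε P) (dT5 ε P) V ν G y M 1 0 ((a : ℝ) / ((d * q : ℕ) : ℝ)))
      (fun q _ => mul_nonneg (one5_zR5_nonneg hP1 q) (sum_nonneg fun a _ => htot0 _)) h4)
    have h6 : zR5 ε P 1 = 1 := by simp [zR5]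
    simp only [h6, mul_one, one_mul]
  have hDC : (D : ℝ) ^ (C * bc5 ε P) ≤ 3 := by
    rw [Real.rpow_def_of_pos hD0]
    have h2 : Real.log D * (C * bc5 ε P) ≤ 1 := by
      have hb : 0 ≤ bc5 ε P := Real.rpow_nonneg hPp.le _
      calc Real.log D * (C * bc5 ε P) ≤ P ^ (95.5 * ε) * (P ^ (0.3 * ε) * bc5 ε P) := by
            refine mul_le_mul hDl ?_ (mul_nonneg hC.le hb) (by positivity)
            exact mul_le_mul_of_nonneg_right e4 hb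
        _ = 1 := by
            unfold bc5
            rw [← Real.rpow_add hPp, ← Real.rpow_add hPp]
            have : 95.5 * ε + (0.3 * ε + -(95.8 * ε)) = 0 := by ring
            rw [this, Real.rpow_zero]
    refine (Real.exp_le_exp.2 h2).trans ?_
    have := Real.exp_one_lt_d9
    linarith
  have hs3 : ∑ d ∈ D.divisors, ∑ a ∈ (range d).filter (Nat.Coprime d),
      totd (t5 ε P) (dT5 ε P) V ν G y M 1 0 ((a : ℝ) / d) ≤ 3 * P ^ (0.3 * ε) * (M * Φ) ^ 2 := by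
    refine hs2.trans (mul_le_mul_of_nonneg_right ?_ hX0)
    calc C * (D : ℝ) ^ (C * bc5 ε P) ≤ P ^ (0.3 * ε) * 3 :=
          mul_le_mul e4 hDC (by positivity) (by positivity)
      _ = 3 * P ^ (0.3 * ε) := by ring
  -- the trivial component
  have hwD := fun r => den_win5 hε hε1 hB hS D M y r hD hDl
  have hw1 := den_win5 hε hε1 hB hS 1 M y 0 le_rfl
    (by rw [Nat.cast_one, Real.log_one]; positivity)
  rw [Nat.cast_one, div_one, div_one] at hw1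
  have hkey := rd5_first hε hε1 hB hS hD hN hwD hw1
  rw [← rd_erase G y M D hD] at hkey
  have h1 : ∑ d ∈ D.divisors.erase 1, ∑ a ∈ (range d).filter (Nat.Coprime d),
      totd (t5 ε P) (dT5 ε P) V ν G y M 1 0 ((a : ℝ) / d) ≤ ∑ d ∈ D.divisors,
        ∑ a ∈ (range d).filter (Nat.Coprime d), totd (t5 ε P) (dT5 ε P) V ν G y M 1 0 ((a : ℝ) / d) :=
    sum_le_sum_of_subset_of_nonneg (erase_subset _ _)
      fun d _ _ => sum_nonneg fun a _ => htot0 _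
  have h2 : ∑ d ∈ D.divisors.erase 1, ∑ a ∈ (range d).filter (Nat.Coprime d),
      ews (t6 ε P) (u5 ε P) V ν G y M 1 0 ((a : ℝ) / d) ≤
      ∑ d ∈ D.divisors.erase 1, ∑ a ∈ (range d).filter (Nat.Coprime d),
        (‖Fc G y M 1 0 ((a : ℝ) / d)‖ ^ 2 +
          2 * P ^ (-(8 * ε)) * totd (t5 ε P) (dT5 ε P) V ν G y M 1 0 ((a : ℝ) / d)) :=
    sum_le_sum fun d _ => sum_le_sum fun a _ => (ews6_le hEws hε hε1 hP1 e3 hS hV y M 1 0 _).2.1
  refine h2.trans ?_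
  simp only [sum_add_distrib, ← mul_sum]
  have h3 : 2 * P ^ (-(8 * ε)) * ∑ d ∈ D.divisors.erase 1, ∑ a ∈ (range d).filter (Nat.Coprime d),
      totd (t5 ε P) (dT5 ε P) V ν G y M 1 0 ((a : ℝ) / d) ≤ P ^ (-(0.3 * ε)) / 2 * (M * Φ) ^ 2 := by
    calc 2 * P ^ (-(8 * ε)) * ∑ d ∈ D.divisors.erase 1, ∑ a ∈ (range d).filter (Nat.Coprime d),
        totd (t5 ε P) (dT5 ε P) V ν G y M 1 0 ((a : ℝ) / d)
        ≤ 2 * P ^ (-(8 * ε)) * (3 * P ^ (0.3 * ε) * (M * Φ) ^ 2) :=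
          mul_le_mul_of_nonneg_left (h1.trans hs3) (by positivity)
      _ = 6 * (P ^ (-(8 * ε)) * P ^ (0.3 * ε)) * (M * Φ) ^ 2 := by ring
      _ ≤ P ^ (-(0.3 * ε)) / 2 * (M * Φ) ^ 2 := by
          refine mul_le_mul_of_nonneg_right ?_ hX0
          rw [← Real.rpow_add hPp]
          have h5 : P ^ (-(8 * ε) + 0.3 * ε) ≤ P ^ (-(7 * ε)) :=
            Real.rpow_le_rpow_of_exponent_le hP1 (by linarith)
          have h6 : 0 < P ^ (-(7 * ε)) := Real.rpow_pos_of_pos hPp _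
          linarith
  have h4 : 2 * P ^ (-(0.4 * ε)) * (M * Φ) ^ 2 ≤ P ^ (-(0.3 * ε)) / 2 * (M * Φ) ^ 2 := by
    refine mul_le_mul_of_nonneg_right ?_ hX0
    have h5 : P ^ (-(0.3 * ε)) = P ^ (-(0.4 * ε)) * P ^ (0.1 * ε) := by
      rw [← Real.rpow_add hPp]
      congr 1; ring
    have h6 : 0 < P ^ (-(0.4 * ε)) := Real.rpow_pos_of_pos hPp _
    rw [h5]
    nlinarith
  have hfin : P ^ (-(0.3 * ε)) / 2 * (M * Φ) ^ 2 + P ^ (-(0.3 * ε)) / 2 * (M * Φ) ^ 2 =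
      P ^ (-(0.3 * ε)) * (M * Φ) ^ 2 := by ring
  linarith

end Vale.Agent.P042.UU.RestE
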