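import Vale.Agent.P042.UU.TotW5
import Vale.Agent.P042.TT.Tot

set_option autoImplicit false

/-!
Block TOT5 (helper315): the total bound with a Rankin factor.
-/

namespace Vale.Agent.P042.UU

open Finset Filter Vale.Agent.P042.SS Vale.Agent.P042.SS.UNC Vale.Agent.P042.TT Vale.Agent.P042.TT.TotB

namespace TotC

lemma totd_nonneg {t : ℕ → ℝ} {V : Finset ℕ} (ht0 : ∀ p ∈ V, 0 ≤ t p) (ht1 : ∀ p ∈ V, t p ≤ 1) (d : ℕ)
    {ν : ℕ → ℤ → ℝ} (hν : ∀ p n, 0 ≤ ν p n) (G : ℤ → ℝ) (y : ℤ) (M R : ℕ) (r : ℤ) (θ : ℝ) :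
    0 ≤ totd t d V ν G y M R r θ := by
  unfold totd
  refine Finset.sum_nonneg fun T hT => mul_nonneg ?_ (enT_nonneg hν _ _ _ _ _ _ _)
  exact wtR_nonneg _ _ _ (Finset.mem_powerset.1 (Finset.mem_filter.1 hT).1) ht0 ht1

lemma t5_nonneg {ε P : ℝ} (hP : 0 ≤ P) (p : ℕ) : 0 ≤ t5 ε P p :=
  mul_nonneg (Real.rpow_nonneg hP _) (Real.rpow_nonneg (Nat.cast_nonneg _) _)

lemma t5_le_one {ε P : ℝ} (hε : 0 < ε) (hP : 1 ≤ P) {p : ℕ} (hp : p ∈ W5 ε P) : t5 ε P p ≤ 1 := by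
  have hP0 : 0 < P := by linarith
  have h1 := lt_of_floor_lt (mem_W5.1 hp).1.1
  have h2 : (0 : ℝ) < P ^ (190 * ε) := Real.rpow_pos_of_pos hP0 _
  unfold t5
  calc P ^ (38 * ε) * (p : ℝ) ^ (-(1 / 2) : ℝ) ≤ P ^ (38 * ε) * (P ^ (190 * ε)) ^ (-(1 / 2) : ℝ) :=
        mul_le_mul_of_nonneg_left (Real.rpow_le_rpow_of_nonpos h2 h1.le (by norm_num))
          (Real.rpow_nonneg hP0.le _)
    _ = P ^ (38 * ε + 190 * ε * (-(1 / 2))) := by
        rw [← Real.rpow_mul hP0.le, ← Real.rpow_add hP0]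
    _ ≤ 1 := Real.rpow_le_one_of_one_le_of_nonpos hP (by linarith)

lemma mem_Vn {ε P : ℝ} {D p : ℕ} : p ∈ Vn ε P D ↔ p ∈ W5 ε P ∧ ¬ p ∣ D := by
  unfold Vn
  rw [Finset.mem_filter]

/-- multiplication of the modulus by `qY` -/
lemma shift_le {ε P B : ℝ} {J' Q D qY : ℕ} (hP : 0 ≤ P) (hD : 1 ≤ D) (hqY : 1 ≤ qY)
    (hqYp : ∀ p ∈ qY.primeFactors, p ∈ W5 ε P) (E : ℕ → ℝ) (hE : ∀ q, 0 ≤ E q)
    (h : ∑ d ∈ (qY * D).divisors, ∑ z ∈ (QZ5 ε P J' Q).filter (fun z => Nat.Coprime z (qY * D)),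
        zR5 ε P z * E (d * z) ≤ B) :
    ∑ d ∈ D.divisors, ∑ z ∈ (QZ5 ε P J' Q).filter (fun z => Nat.Coprime z D),
        zR5 ε P z * E (qY * (d * z)) ≤ B := by
  refine le_trans ?_ h
  have h1 : ∀ d, ∑ z ∈ (QZ5 ε P J' Q).filter (fun z => Nat.Coprime z D), zR5 ε P z * E (qY * (d * z)) =
      ∑ z ∈ (QZ5 ε P J' Q).filter (fun z => Nat.Coprime z (qY * D)), zR5 ε P z * E ((qY * d) * z) := by
    intro d
    have h2 : (QZ5 ε P J' Q).filter (fun z => Nat.Coprime z D) =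
        (QZ5 ε P J' Q).filter (fun z => Nat.Coprime z (qY * D)) := by
      refine Finset.filter_congr fun z hz => ?_
      refine ⟨fun hc => Nat.Coprime.mul_right ?_ hc, fun hc => Nat.Coprime.coprime_mul_left_right hc⟩
      refine Nat.coprime_of_dvd fun p hp hpz hpq => ?_
      unfold QZ5 at hz
      rw [Finset.mem_filter, Finset.mem_Icc] at hz
      have h3 := (hz.2 p (Nat.mem_primeFactors.2 ⟨hp, hpz, by omega⟩)).1
      have h4 := (mem_W5.1 (hqYp p (Nat.mem_primeFactors.2 ⟨hp, hpq, by omega⟩))).1.2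
      omega
    rw [h2]
    refine Finset.sum_congr rfl fun z _ => ?_
    rw [mul_assoc]
  simp only [h1]
  rw [← Finset.sum_image (s := D.divisors) (g := fun d => qY * d)
    (f := fun d' => ∑ z ∈ (QZ5 ε P J' Q).filter (fun z => Nat.Coprime z (qY * D)), zR5 ε P z * E (d' * z))]
  · refine Finset.sum_le_sum_of_subset_of_nonneg ?_ ?_
    · intro x hx
      rw [Finset.mem_image] at hx
      obtain ⟨d, hd, rfl⟩ := hx
      rw [Nat.mem_divisors] at hd ⊢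
      refine ⟨Nat.mul_dvd_mul_left _ hd.1, ?_⟩
      have : 1 ≤ qY * D := Nat.mul_pos hqY hD
      omega
    · intro x _ _
      exact Finset.sum_nonneg fun z _ => mul_nonneg (zR5_nonneg hP _) (hE _)
  · intro a _ b _ hab
    exact Nat.eq_of_mul_eq_mul_left hqY hab

end TotC

open TotC

theorem tot5_of (h : SUM5Stmt) : TOT5Stmt := by
  intro k E K p0 kap ε hk hE hkap hε hε1
  obtain ⟨C, P1, hC, hsum⟩ := h k (8 * E) ε hk (by omega) hε hε1
  obtain ⟨Cc, hCc, hcost⟩ := TotC.cost_pc5 hk hE hkap hε hε1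
  have hER : (1 : ℝ) ≤ E := by exact_mod_cast hE
  set Kc : ℝ := (K + 1) ^ (K ^ (2 * E) + 1) with hKc
  have hKc0 : 0 < Kc := by positivity
  have hev : ∀ᶠ P : ℝ in atTop, P1 ≤ P ∧ 1 ≤ P ∧ (k : ℝ) ≤ P ^ (ε / 2) ∧ (k : ℝ) ≤ P ^ (0.09 : ℝ) ∧
      (p0 : ℝ) ≤ P ^ (2 - 190 * ε) ∧ Cc * P ^ (95.01 * ε) ≤ P ^ (95.1 * ε) ∧
      4 * P ^ (1 - 94 * ε) ≤ P ^ (1 - 92 * ε) := by
    filter_upwards [eventually_ge_atTop P1, eventually_ge_atTop (1 : ℝ),
      ev_const (k : ℝ) (a := ε / 2) (by positivity), ev_const (k : ℝ) (a := 0.09) (by norm_num),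
      ev_const (p0 : ℝ) (a := 2 - 190 * ε) (by linarith),
      ev_rpow Cc (a := 95.1 * ε) (b := 95.01 * ε) (by nlinarith),
      ev_rpow 4 (a := 1 - 92 * ε) (b := 1 - 94 * ε) (by linarith)]
      with P h1 h2 h3 h4 h5 h6 h7
    exact ⟨h1, h2, h3, h4, h5, h6, h7⟩
  obtain ⟨P0, hP0⟩ := eventually_atTop.1 hev
  refine ⟨ε / (2000 * E), 2 * Kc * C + 3 * C, P0, by positivity, ?_, by positivity, ?_⟩
  · exact div_le_div_of_nonneg_left hε.le (by norm_num) (by linarith)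
  intro P hP N' Φ G ν hst qY M y l0 hM hN' hqY hqYp hqYlog hl0 hl1
  obtain ⟨e1, e2, e3, e4, e5, e6, e7⟩ := hP0 P hP
  have hPpos : 0 < P := by linarith
  have hν := hst.wts.nn
  set w := ⌊P ^ (190 * ε)⌋₊ with hw
  have hVW : Vn ε P qY ⊆ W5 ε P := fun p hp => (mem_Vn.1 hp).1
  set Eq : ℕ → ℝ := fun q => ∑ a ∈ (range q).filter (Nat.Coprime q),
    totd (t5 ε P) (dT5 ε P) (Vn ε P qY) ν G y M 1 0 ((a : ℝ) / q) with hEq
  have hEq0 : ∀ q, 0 ≤ Eq q := fun q => Finset.sum_nonneg fun a _ =>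
    totd_nonneg (fun p _ => t5_nonneg hPpos.le p) (fun p hp => t5_le_one hε e2 (hVW hp)) _ hν G y M 1 0 _
  set B : ℝ := C * Real.exp (3 * C * bc5 ε P * (l0 + Real.log qY)) * (M * Φ) ^ 2 with hB
  have hl0' : 0 < l0 := lt_of_lt_of_le (Real.rpow_pos_of_pos hPpos _) hl0
  have hqY0 : (0 : ℝ) < qY := by exact_mod_cast hqY
  have hlogY : 0 ≤ Real.log qY := Real.log_natCast_nonneg _
  have hbc : 0 ≤ bc5 ε P := Real.rpow_nonneg hPpos.le _
  have h94 : P ^ (1 - 95 * ε) ≤ P ^ (1 - 94 * ε) := Real.rpow_le_rpow_of_exponent_le e2 (by linarith)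
  have hX0 : 0 < P ^ (95.1 * ε) := Real.rpow_pos_of_pos hPpos _
  have hsum' : ∀ D : ℕ, 1 ≤ D → Real.log D ≤ l0 + 2 * P ^ (95.1 * ε) →
      (∀ p ∈ W5 ε P, Nat.Coprime p D) →
      ∑ d ∈ D.divisors, ∑ z ∈ (QZ5 ε P (8 * E) (Q5 ε P)).filter (fun z => Nat.Coprime z D),
        zR5 ε P z * (fun q => Eq (qY * q)) (d * z) ≤ B := by
    intro D hD hDlog hDc
    refine TotC.shift_le hPpos.le hD hqY hqYp Eq hEq0 ?_
    have hDpos : (0 : ℝ) < D := by exact_mod_cast hD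
    have hlogD : Real.log ((qY * D : ℕ) : ℝ) ≤ Real.log qY + 3 * l0 := by
      push_cast
      rw [Real.log_mul hqY0.ne' hDpos.ne']
      linarith
    have hDlog' : Real.log ((qY * D : ℕ) : ℝ) ≤ P ^ (1 - 92 * ε) := by
      refine hlogD.trans (le_trans ?_ e7)
      linarith
    have hcop : ∀ p ∈ Vn ε P qY, Nat.Coprime p (qY * D) := by
      intro p hp
      have h1 := mem_Vn.1 hp
      exact Nat.Coprime.mul_right ((Nat.Prime.coprime_iff_not_dvd (mem_W5.1 h1.1).2).2 h1.2) (hDc p h1.1)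
    refine (hsum P e1 N' Φ G ν hst (Vn ε P qY) (qY * D) M y hVW hM hN' (Nat.mul_pos hqY hD) hDlog'
      hcop).trans ?_
    rw [hB]
    apply mul_le_mul_of_nonneg_right _ (sq_nonneg _)
    apply mul_le_mul_of_nonneg_left _ hC.le
    have hDpos' : (0 : ℝ) < ((qY * D : ℕ) : ℝ) := by exact_mod_cast Nat.mul_pos hqY hD
    rw [Real.rpow_def_of_pos hDpos']
    apply Real.exp_le_exp.2
    calc Real.log ((qY * D : ℕ) : ℝ) * (C * bc5 ε P) ≤ (Real.log qY + 3 * l0) * (C * bc5 ε P) :=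
          mul_le_mul_of_nonneg_right hlogD (mul_nonneg hC.le hbc)
      _ ≤ (3 * (l0 + Real.log qY)) * (C * bc5 ε P) :=
          mul_le_mul_of_nonneg_right (by linarith) (mul_nonneg hC.le hbc)
      _ = 3 * C * bc5 ε P * (l0 + Real.log qY) := by ring
  have hrm := rm_core5 (P := P) (ℓ0 := l0) (X0 := P ^ (95.1 * ε)) (B := B)
    (J' := 8 * E) (Q := Q5 ε P) hε hε1 e2 (fun q => Eq (qY * q)) (fun q => hEq0 _) hsum'
    (pc5 (ε / (2000 * E)) kap)
    (fun i _ => le_min zero_le_one (gc5_nonneg hkap.nn _ _)) (fun i _ => min_le_left _ _) hX0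
    ((hcost P e2 (Q5 ε P) _ (Finset.filter_subset _ _)).trans e6)
    ((E05 ε P (Q5 ε P)).filter (fun q : ℕ => Real.log q ≤ l0)) (Finset.filter_subset _ _) hl0'.le
    (fun q hq => (Finset.mem_filter.1 hq).2)
  have hterm : ∀ q ∈ (E05 ε P (Q5 ε P)).filter (fun q : ℕ => Real.log q ≤ l0),
      (q : ℝ) ^ (ε / (2000 * E)) * kapProd kap q * Eq (qY * q) ≤
      Kc * ((∏ i ∈ Ub w (8 * E) q, pc5 (ε / (2000 * E)) kap i) *
        ((∏ p ∈ Tq w (8 * E) q, zr5 ε P p (q.factorization p)) * Eq (qY * q))) := by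
    intro q hq
    have hqE := (Finset.mem_filter.1 hq).1
    have hq1 : 1 ≤ q := by
      unfold E05 at hqE
      rw [Finset.mem_filter, Finset.mem_Icc] at hqE
      exact hqE.1.1
    rw [weight_eq5 _ kap (by omega : q ≠ 0), kapProd_split (Y := w) (J := 8 * E)]
    have g1 := prod_Ub_le5 hE hkap hε hε1 w (8 * E) q
    have g2 : ∏ p ∈ Tq w (8 * E) q, gc5 (ε / (2000 * E)) kap p (q.factorization p) ≤
        ∏ p ∈ Tq w (8 * E) q, zr5 ε P p (q.factorization p) := by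
      refine Finset.prod_le_prod (fun p _ => gc5_nonneg hkap.nn _ _) fun p hp => ?_
      have hh := tq_big hqE hp
      unfold Tq at hp
      rw [Finset.mem_filter] at hp
      exact gc_le_zr5 hE hkap hε hε1 e2 e3 e4 e5 (Nat.prime_of_mem_primeFactors hp.1) hh.1
        (fact_pos hp.1) hh.2
    have g3 : 0 ≤ ∏ p ∈ Tq w (8 * E) q, gc5 (ε / (2000 * E)) kap p (q.factorization p) :=
      Finset.prod_nonneg fun p _ => gc5_nonneg hkap.nn _ _
    have g4 : 0 ≤ ∏ i ∈ Ub w (8 * E) q, pc5 (ε / (2000 * E)) kap i :=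
      Finset.prod_nonneg fun i _ => le_min zero_le_one (gc5_nonneg hkap.nn _ _)
    calc (∏ i ∈ Ub w (8 * E) q, gc5 (ε / (2000 * E)) kap i.1 i.2) *
          (∏ p ∈ Tq w (8 * E) q, gc5 (ε / (2000 * E)) kap p (q.factorization p)) * Eq (qY * q)
        ≤ (Kc * ∏ i ∈ Ub w (8 * E) q, pc5 (ε / (2000 * E)) kap i) *
          (∏ p ∈ Tq w (8 * E) q, zr5 ε P p (q.factorization p)) * Eq (qY * q) := by
          apply mul_le_mul_of_nonneg_right _ (hEq0 _)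
          exact mul_le_mul g1 g2 g3 (mul_nonneg hKc0.le g4)
      _ = _ := by ring
  have hgoal : ∑ q ∈ (E05 ε P (Q5 ε P)).filter (fun q : ℕ => Real.log q ≤ l0),
      (q : ℝ) ^ (ε / (2000 * E)) * kapProd kap q * Eq (qY * q) ≤ 2 * Kc * B := by
    refine (Finset.sum_le_sum hterm).trans ?_
    rw [← Finset.mul_sum]
    refine (mul_le_mul_of_nonneg_left hrm hKc0.le).trans (le_of_eq (by ring))
  refine hgoal.trans ?_
  rw [hB]
  have hexp : Real.exp (3 * C * bc5 ε P * (l0 + Real.log qY)) ≤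
      Real.exp ((2 * Kc * C + 3 * C) * bc5 ε P * (l0 + Real.log qY)) := by
    apply Real.exp_le_exp.2
    have h1 : 0 ≤ bc5 ε P * (l0 + Real.log qY) := mul_nonneg hbc (by linarith)
    have h2 : 0 ≤ 2 * Kc * C := by positivity
    nlinarith
  calc 2 * Kc * (C * Real.exp (3 * C * bc5 ε P * (l0 + Real.log qY)) * (M * Φ) ^ 2)
      = (2 * Kc * C) * Real.exp (3 * C * bc5 ε P * (l0 + Real.log qY)) * (M * Φ) ^ 2 := by ring
    _ ≤ (2 * Kc * C + 3 * C) * Real.exp ((2 * Kc * C + 3 * C) * bc5 ε P * (l0 + Real.log qY)) *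
        (M * Φ) ^ 2 := by
        apply mul_le_mul_of_nonneg_right _ (sq_nonneg _)
        apply mul_le_mul _ hexp (Real.exp_pos _).le (by positivity)
        linarith

end Vale.Agent.P042.UU
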