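import Vale.Agent.P042.UU.RestF5
import Vale.Agent.P042.UU.Tot5

set_option autoImplicit false

/-!
Block REST5, part G (helper315): small moduli with a fixed part at the window.
-/

namespace Vale.Agent.P042.UU.RestE

open Finset Filter Vale.Agent.P042.SS Vale.Agent.P042.SS.UNC Vale.Agent.P042.TT Vale.Agent.P042.TT.TotB
  Vale.Agent.P042.UU.TotC

variable {ε P : ℝ}

/-- a number all of whose primes are items divides the random modulus -/
lemma dvd_WR_of_Tq {J' Q q : ℕ} {R : Finset (ℕ × ℕ)} (hR : R ⊆ Ib ⌊P ^ (190 * ε)⌋₊ J' Q)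
    (hU : Ub ⌊P ^ (190 * ε)⌋₊ J' q ⊆ R) (hq : q ≠ 0) (hT : Tq ⌊P ^ (190 * ε)⌋₊ J' q = ∅) :
    q ∣ WR R := by
  have h1 := zpt_pf_subset (w := ⌊P ^ (190 * ε)⌋₊) hU
  rw [hT, Finset.subset_empty, Nat.primeFactors_eq_empty] at h1
  have h2 := zpt_ne_zero (D := WR R) hq
  have h3 : zpt (WR R) q = 1 := h1.resolve_left h2
  have h4 := dpt_mul_zpt (D := WR R) hq
  rw [h3, mul_one] at h4
  rw [← h4]
  exact dpt_dvd_WR hR hU hq

theorem small_fix {J' Q qY : ℕ} {kap : ℕ → ℕ → ℝ} {V : Finset ℕ} {F1 F2 : ℕ → ℝ}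
    {lm X0 L1 B0 BD δ : ℝ} (hε : 0 < ε) (hε1 : ε ≤ 1 / 1000) (hP : 1 ≤ P)
    (hV : V = Vn ε P qY) (hqY : 1 ≤ qY) (hqYp : ∀ p ∈ qY.primeFactors, p ∈ W5 ε P)
    (h0 : ∀ p j, 0 ≤ kap p j) (h1 : ∀ p j, kap p j ≤ 1)
    (hF1 : ∀ n, 0 ≤ F1 n) (hF12 : ∀ n, F1 n ≤ 2 * F2 n)
    (hS : ∀ D : ℕ, 1 ≤ D → Real.log D ≤ L1 → (∀ p ∈ V, Nat.Coprime p D) →
      ∑ d ∈ D.divisors, ∑ z ∈ (QZ5 ε P J' Q).filter (fun z => Nat.Coprime z D),
        zR5 ε P z * F2 (d * z) ≤ B0)
    (hD : ∀ D : ℕ, 1 ≤ D → Real.log D ≤ L1 → (∀ p ∈ V, Nat.Coprime p D) →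
      ∑ d ∈ D.divisors.erase 1, F1 d ≤ BD)
    (hlm : 0 ≤ lm) (hX0 : 0 < X0) (hL : 2 * lm + 2 * X0 ≤ L1) (hlY : Real.log qY ≤ lm)
    (hX : ∑ i ∈ (Ib ⌊P ^ (190 * ε)⌋₊ J' Q).filter (fun i => i.1 ∉ W5 ε P),
      kap i.1 i.2 * (i.2 * Real.log i.1) ≤ X0)
    (hδ0 : 0 ≤ δ) (hδ1 : δ ≤ 1)
    (hz : ∀ p j : ℕ, p.Prime → ⌊P ^ (2 - 190 * ε)⌋₊ < p → 1 ≤ j → j ≤ J' → kap p j ≤ δ * zr5 ε P p j) :
    ∑ q ∈ (E05 ε P Q).filter (fun q : ℕ => Real.log q ≤ lm ∧ qY * q ≠ 1),
      kapProd kap q * F1 (qY * q) ≤ 4 * (δ * B0) + 2 * BD := by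
  classical
  have hP0 : 0 ≤ P := by linarith
  have hF2 : ∀ n, 0 ≤ F2 n := fun n => by linarith [hF1 n, hF12 n]
  set w := ⌊P ^ (190 * ε)⌋₊ with hw
  have hqY0 : (0 : ℝ) < qY := by exact_mod_cast hqY
  have hlog : ∀ D : ℕ, 1 ≤ D → Real.log D ≤ lm + 2 * X0 → Real.log ((qY * D : ℕ) : ℝ) ≤ L1 := by
    intro D hD1 hDl
    have hD0 : (0 : ℝ) < D := by exact_mod_cast hD1
    push_cast
    rw [Real.log_mul hqY0.ne' hD0.ne']
    linarith
  have hcop : ∀ D : ℕ, (∀ p ∈ W5 ε P, Nat.Coprime p D) → ∀ p ∈ V, Nat.Coprime p (qY * D) := by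
    intro D hDc p hp
    rw [hV] at hp
    have h1 := mem_Vn.1 hp
    exact Nat.Coprime.mul_right ((Nat.Prime.coprime_iff_not_dvd (mem_W5.1 h1.1).2).2 h1.2) (hDc p h1.1)
  set J : Finset ℕ := (E05 ε P Q).filter (fun q : ℕ => Real.log q ≤ lm ∧ qY * q ≠ 1) with hJ
  have hJE : ∀ q ∈ J, q ∈ E05 ε P Q := fun q hq => (mem_filter.1 hq).1
  have hJ1 : ∀ q ∈ J, 1 ≤ q ∧ q ≤ Q := by
    intro q hq
    have := hJE q hq
    unfold E05 at this
    rw [mem_filter, mem_Icc] at this
    exact this.1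
  have hzr0 : ∀ p j, 0 ≤ zr5 ε P p j := fun p j => zr5_nonneg hP0 p j
  -- the part with a coordinate
  have tB : ∑ q ∈ J.filter (fun q => ¬ Tq w J' q = ∅), kapProd kap q * F1 (qY * q) ≤ 4 * (δ * B0) := by
    have hrm := rm_core5 (P := P) (ℓ0 := lm) (X0 := X0) (B := 2 * (δ * B0)) (J' := J') (Q := Q)
      hε hε1 hP (fun q => 2 * δ * F2 (qY * q)) (fun q => mul_nonneg (by positivity) (hF2 _))
      (by
        intro D hD1 hDl hDc
        have e1 := shift_le (ε := ε) (P := P) (J' := J') (Q := Q) hP0 hD1 hqY hqYp F2 hF2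
          (hS (qY * D) (Nat.mul_pos hqY hD1) (hlog D hD1 hDl) (hcop D hDc))
        calc ∑ d ∈ D.divisors, ∑ z ∈ (QZ5 ε P J' Q).filter (fun z => Nat.Coprime z D),
              zR5 ε P z * (2 * δ * F2 (qY * (d * z)))
            = 2 * δ * ∑ d ∈ D.divisors, ∑ z ∈ (QZ5 ε P J' Q).filter (fun z => Nat.Coprime z D),
              zR5 ε P z * F2 (qY * (d * z)) := by
              rw [mul_sum]
              refine sum_congr rfl fun d _ => ?_
              rw [mul_sum]
              refine sum_congr rfl fun z _ => ?_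
              ring
          _ ≤ 2 * δ * B0 := mul_le_mul_of_nonneg_left e1 (by positivity)
          _ = _ := by ring)
      (fun i => kap i.1 i.2) (fun i _ => h0 _ _) (fun i _ => h1 _ _) hX0 hX
      (J.filter (fun q => ¬ Tq w J' q = ∅))
      (fun q hq => hJE q (mem_filter.1 hq).1) hlm
      (fun q hq => ((mem_filter.1 (mem_filter.1 hq).1).2).1)
    refine le_trans (sum_le_sum fun q hq => ?_) (hrm.trans (le_of_eq (by ring)))
    rw [mem_filter] at hq
    have hqE := hJE q hq.1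
    rw [kapProd_split (Y := w) (J := J')]
    have hne : (Tq w J' q).Nonempty := nonempty_iff_ne_empty.2 hq.2
    have e1 : ∏ p ∈ Tq w J' q, kap p (q.factorization p) ≤
        δ * ∏ p ∈ Tq w J' q, zr5 ε P p (q.factorization p) := by
      have e2 : ∏ p ∈ Tq w J' q, kap p (q.factorization p) ≤
          ∏ p ∈ Tq w J' q, (δ * zr5 ε P p (q.factorization p)) := by
        refine prod_le_prod (fun p _ => h0 _ _) fun p hp => ?_
        have hh := tq_big hqE hp
        have hp' := hp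
        unfold Tq at hp'
        rw [mem_filter] at hp'
        exact hz p _ (Nat.prime_of_mem_primeFactors hp'.1) hh.1 (fact_pos hp'.1) hh.2
      refine e2.trans ?_
      rw [prod_mul_distrib, prod_const]
      refine mul_le_mul_of_nonneg_right ?_ (prod_nonneg fun p _ => hzr0 _ _)
      exact pow_le_of_le_one hδ0 hδ1 (card_pos.2 hne).ne'
    have g4 : 0 ≤ ∏ i ∈ Ub w J' q, kap i.1 i.2 := prod_nonneg fun i _ => h0 _ _
    have g5 : 0 ≤ ∏ p ∈ Tq w J' q, zr5 ε P p (q.factorization p) := prod_nonneg fun p _ => hzr0 _ _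
    calc (∏ i ∈ Ub w J' q, kap i.1 i.2) * (∏ p ∈ Tq w J' q, kap p (q.factorization p)) * F1 (qY * q)
        ≤ (∏ i ∈ Ub w J' q, kap i.1 i.2) * (δ * ∏ p ∈ Tq w J' q, zr5 ε P p (q.factorization p)) *
            (2 * F2 (qY * q)) := by
          apply mul_le_mul (mul_le_mul_of_nonneg_left e1 g4) (hF12 _) (hF1 _)
          exact mul_nonneg g4 (mul_nonneg hδ0 g5)
      _ = _ := by ring
  -- the part without coordinates
  have tD : ∑ q ∈ J.filter (fun q => Tq w J' q = ∅), kapProd kap q * F1 (qY * q) ≤ 2 * BD := by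
    set F' : ℕ → ℝ := fun n => if qY * n = 1 then 0 else F1 (qY * n) with hF'
    have hF'0 : ∀ n, 0 ≤ F' n := by
      intro n
      simp only [hF']
      split_ifs
      · exact le_refl _
      · exact hF1 _
    have hrm := random_modulus ((Ib w J' Q).filter (fun i => i.1 ∉ W5 ε P)) (fun i => kap i.1 i.2)
      (fun i => (i.2 : ℝ) * Real.log i.1) lm X0 (fun i _ => h0 _ _) (fun i _ => h1 _ _)
      (fun i _ => mul_nonneg (Nat.cast_nonneg _) (Real.log_natCast_nonneg _)) hlm hX0 hX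
      (J.filter (fun q => Tq w J' q = ∅)) (Ub w J') F'
      (fun q hq i hi => by
        have hqJ := (mem_filter.1 hq).1
        rw [mem_filter]
        refine ⟨Ub_subset (hJ1 q hqJ).1 (hJ1 q hqJ).2 hi, fun hiV => ?_⟩
        have hqE := hJE q hqJ
        unfold E05 at hqE
        unfold Ub at hi
        rw [mem_image] at hi
        obtain ⟨p, hp, rfl⟩ := hi
        rw [mem_filter] at hp
        exact (mem_filter.1 hqE).2 p hiV (Nat.dvd_of_mem_primeFactors hp.1))
      (fun q hq => (cost_Ub (hJ1 q (mem_filter.1 hq).1).1).trans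
        ((mem_filter.1 (mem_filter.1 hq).1).2).1)
      (fun q _ => hF'0 q) BD
      (fun R hR hcost => by
        have hR1 : R ⊆ Ib w J' Q := hR.trans (filter_subset _ _)
        have hW := WR_pos' hR1
        have hlogW : Real.log (WR R) ≤ lm + 2 * X0 := by
          rw [log_WR' hR1]
          exact hcost
        have hcopW : ∀ p ∈ W5 ε P, Nat.Coprime p (WR R) := by
          intro p hp
          unfold WR
          refine Nat.Coprime.prod_right fun i hi => Nat.Coprime.pow_right _ ?_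
          have h1 := hR hi
          rw [mem_filter] at h1
          have h2 := h1.1
          simp only [Ib, mem_filter] at h2
          rw [Nat.coprime_primes (mem_W5.1 hp).2 h2.2.1]
          intro h
          exact h1.2 (h ▸ hp)
        have e1 : ∑ q ∈ (J.filter (fun q => Tq w J' q = ∅)).filter (fun q => Ub w J' q ⊆ R), F' q ≤
            ∑ d ∈ (WR R).divisors, F' d := by
          apply sum_le_sum_of_subset_of_nonneg
          · intro q hq
            rw [mem_filter, mem_filter] at hq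
            rw [Nat.mem_divisors]
            have hq1 := hJ1 q hq.1.1
            exact ⟨dvd_WR_of_Tq hR1 hq.2 (by omega) hq.1.2, by omega⟩
          · intro q _ _; exact hF'0 q
        refine e1.trans ?_
        have e2 := hD (qY * WR R) (Nat.mul_pos hqY hW) (hlog _ hW hlogW) (hcop _ hcopW)
        refine le_trans ?_ e2
        have e3 : ∑ d ∈ (WR R).divisors, F' d =
            ∑ d ∈ (WR R).divisors.filter (fun d => ¬ qY * d = 1), F1 (qY * d) := by
          rw [sum_filter]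
          refine sum_congr rfl fun d _ => ?_
          simp only [hF']
          by_cases h : qY * d = 1
          · rw [if_pos h, if_neg (not_not.2 h)]
          · rw [if_neg h, if_pos h]
        rw [e3, ← sum_image (s := (WR R).divisors.filter (fun d => ¬ qY * d = 1))
          (g := fun d => qY * d) (f := F1)]
        · refine sum_le_sum_of_subset_of_nonneg ?_ fun d _ _ => hF1 d
          intro x hx
          rw [mem_image] at hx
          obtain ⟨d, hd, rfl⟩ := hx
          rw [mem_filter, Nat.mem_divisors] at hd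
          rw [mem_erase, Nat.mem_divisors]
          refine ⟨hd.2, Nat.mul_dvd_mul_left _ hd.1.1, ?_⟩
          have : 1 ≤ qY * WR R := Nat.mul_pos hqY hW
          omega
        · intro a _ b _ hab
          exact Nat.eq_of_mul_eq_mul_left hqY hab)
    refine le_trans (le_of_eq (sum_congr rfl fun q hq => ?_)) hrm
    rw [mem_filter] at hq
    rw [kapProd_split (Y := w) (J := J'), hq.2, prod_empty, mul_one]
    simp only [hF']
    rw [if_neg ((mem_filter.1 hq.1).2).2]
  rw [← sum_filter_add_sum_filter_not J (fun q => Tq w J' q = ∅)]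
  linarith

end Vale.Agent.P042.UU.RestE
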