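import Vale.Agent.P042.UU.RestW5

set_option autoImplicit false

/-!
Block REST5, part H (helper315): dyadic Rankin sums; factorisation at the window.
-/

namespace Vale.Agent.P042.UU.RestE

open Finset Filter Vale.Agent.P042.SS Vale.Agent.P042.SS.UNC Vale.Agent.P042.TT Vale.Agent.P042.TT.TotB
  Vale.Agent.P042.UU.TotC

/-- dyadic Rankin sums -/
theorem dyadic (Js : Finset ℕ) (g : ℕ → ℝ) (hg : ∀ q, 0 ≤ g q) (h1 : ∀ q ∈ Js, 1 ≤ q)
    {A a b c t δ lm Lm : ℝ} {I : ℕ} (hA : 0 ≤ A) (hlm : 0 < lm) (ha : a ≤ lm) (hb : 2 * Lm ≤ b)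
    (hδt : δ ≤ t) (hc : c + t / 8 ≤ (t - δ) / 2) (hT : 0 < t) (hLm : ∀ q ∈ Js, Real.log q ≤ Lm)
    (hI : Lm ≤ 2 ^ I * lm)
    (hsum : ∀ l : ℝ, a ≤ l → l ≤ b →
      ∑ q ∈ Js.filter (fun q : ℕ => Real.log q ≤ l), (q : ℝ) ^ t * g q ≤ A * Real.exp (c * l)) :
    ∑ q ∈ Js.filter (fun q : ℕ => lm / 2 < Real.log q), (q : ℝ) ^ δ * g q ≤
      (I + 1) * (A * Real.exp (-(t * lm / 8))) := by
  classical
  set f : ℕ → ℝ := fun q => (q : ℝ) ^ δ * g q with hf
  have hf0 : ∀ q, 0 ≤ f q := fun q => mul_nonneg (Real.rpow_nonneg (Nat.cast_nonneg _) _) (hg q)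
  set S : ℕ → Finset ℕ := fun i => Js.filter (fun q : ℕ => 2 ^ i * lm / 2 < Real.log q ∧
    Real.log q ≤ 2 ^ i * lm) with hS
  -- every `q` lies in a dyadic block
  have hex : ∀ q ∈ Js.filter (fun q : ℕ => lm / 2 < Real.log q), ∃ i ∈ range (I + 1), q ∈ S i := by
    intro q hq
    rw [mem_filter] at hq
    have hex : ∃ i : ℕ, Real.log q ≤ 2 ^ i * lm := ⟨I, (hLm q hq.1).trans hI⟩
    refine ⟨Nat.find hex, ?_, ?_⟩
    · rw [mem_range]
      exact Nat.lt_succ_of_le (Nat.find_min' hex ((hLm q hq.1).trans hI))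
    · rw [hS]
      simp only [mem_filter]
      refine ⟨hq.1, ?_, Nat.find_spec hex⟩
      rcases Nat.eq_zero_or_pos (Nat.find hex) with h0 | h0
      · rw [h0, pow_zero, one_mul]
        exact hq.2
      · have h2 := Nat.find_min hex (Nat.sub_lt h0 one_pos)
        push Not at h2
        have h3 : (2 : ℝ) ^ Nat.find hex = 2 * 2 ^ (Nat.find hex - 1) := by
          rw [← pow_succ']
          congr 1
          omega
        rw [h3]
        linarith
  have hle : ∑ q ∈ Js.filter (fun q : ℕ => lm / 2 < Real.log q), f q ≤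
      ∑ i ∈ range (I + 1), ∑ q ∈ S i, f q := by
    have e1 : ∀ q ∈ Js.filter (fun q : ℕ => lm / 2 < Real.log q), f q ≤
        ∑ i ∈ range (I + 1), if q ∈ S i then f q else 0 := by
      intro q hq
      obtain ⟨i, hi, hqi⟩ := hex q hq
      have e2 := single_le_sum (f := fun i => if q ∈ S i then f q else 0) (s := range (I + 1))
        (fun j _ => by
          show 0 ≤ (if q ∈ S j then f q else 0)
          split_ifs
          · exact hf0 q
          · exact le_refl _) hi
      simp only [if_pos hqi] at e2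
      exact e2
    refine (sum_le_sum e1).trans ?_
    rw [sum_comm]
    refine sum_le_sum fun i _ => ?_
    rw [← sum_filter]
    refine sum_le_sum_of_subset_of_nonneg ?_ fun q _ _ => hf0 q
    intro q hq
    exact (mem_filter.1 hq).2
  refine hle.trans ?_
  have hblock : ∀ i ∈ range (I + 1), ∑ q ∈ S i, f q ≤ A * Real.exp (-(t * lm / 8)) := by
    intro i _
    rcases (S i).eq_empty_or_nonempty with h0 | ⟨q0, hq0⟩
    · rw [h0, sum_empty]
      positivity
    · have hi1 : (1 : ℝ) ≤ 2 ^ i := one_le_pow₀ (by norm_num)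
      set l : ℝ := 2 ^ i * lm with hl
      have hlml : lm ≤ l := by rw [hl]; nlinarith
      have hq0' := hq0
      rw [hS] at hq0'
      simp only [mem_filter] at hq0'
      have hlb : l ≤ b := by
        have := hLm q0 hq0'.1
        linarith [hq0'.2.1]
      have h2 := hsum l (ha.trans hlml) hlb
      have h3 : ∀ q ∈ S i, f q ≤ Real.exp (-((t - δ) * (l / 2))) * ((q : ℝ) ^ t * g q) := by
        intro q hq
        rw [hS] at hq
        simp only [mem_filter] at hq
        have hq1 : (0 : ℝ) < q := by exact_mod_cast h1 q hq.1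
        have h4 : (q : ℝ) ^ δ ≤ Real.exp (-((t - δ) * (l / 2))) * (q : ℝ) ^ t := by
          rw [Real.rpow_def_of_pos hq1, Real.rpow_def_of_pos hq1, ← Real.exp_add]
          apply Real.exp_le_exp.2
          have h5 : l / 2 < Real.log q := by rw [hl]; linarith [hq.2.1]
          nlinarith
        calc f q ≤ (Real.exp (-((t - δ) * (l / 2))) * (q : ℝ) ^ t) * g q :=
              mul_le_mul_of_nonneg_right h4 (hg q)
          _ = _ := by ring
      calc ∑ q ∈ S i, f q ≤ ∑ q ∈ S i, Real.exp (-((t - δ) * (l / 2))) * ((q : ℝ) ^ t * g q) :=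
            sum_le_sum h3
        _ = Real.exp (-((t - δ) * (l / 2))) * ∑ q ∈ S i, (q : ℝ) ^ t * g q := by rw [mul_sum]
        _ ≤ Real.exp (-((t - δ) * (l / 2))) * ∑ q ∈ Js.filter (fun q : ℕ => Real.log q ≤ l),
              (q : ℝ) ^ t * g q := by
            refine mul_le_mul_of_nonneg_left ?_ (Real.exp_pos _).le
            refine sum_le_sum_of_subset_of_nonneg ?_ fun q _ _ =>
              mul_nonneg (Real.rpow_nonneg (Nat.cast_nonneg _) _) (hg q)
            intro q hq
            rw [hS] at hq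
            simp only [mem_filter] at hq ⊢
            exact ⟨hq.1, hq.2.2⟩
        _ ≤ Real.exp (-((t - δ) * (l / 2))) * (A * Real.exp (c * l)) :=
            mul_le_mul_of_nonneg_left h2 (Real.exp_pos _).le
        _ = A * Real.exp (-((t - δ) * (l / 2)) + c * l) := by
            rw [Real.exp_add]; ring
        _ ≤ A * Real.exp (-(t * lm / 8)) := by
            refine mul_le_mul_of_nonneg_left (Real.exp_le_exp.2 ?_) hA
            have hl0 : 0 < l := lt_of_lt_of_le hlm hlml
            have h6 : (c + t / 8) * l ≤ ((t - δ) / 2) * l := mul_le_mul_of_nonneg_right hc hl0.le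
            have h7 : t * lm ≤ t * l := mul_le_mul_of_nonneg_left hlml hT.le
            nlinarith
  refine (sum_le_sum hblock).trans (le_of_eq ?_)
  rw [sum_const, card_range, nsmul_eq_mul]
  push_cast
  ring

/-! ### factorisation -/

variable {ε P : ℝ}

open Classical in
/-- the part of `q` at the window -/
noncomputable def fY (ε P : ℝ) (q : ℕ) : ℕ := fpart (fun p => p ∈ W5 ε P) q

open Classical in
/-- the part of `q` off the window -/
noncomputable def fO (ε P : ℝ) (q : ℕ) : ℕ := fpart (fun p => p ∉ W5 ε P) q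

lemma fYO_mul {q : ℕ} (hq : q ≠ 0) : fY ε P q * fO ε P q = q := by
  classical
  refine Nat.eq_of_factorization_eq (mul_ne_zero (fac_fpart_pos _ q).ne' (fac_fpart_pos _ q).ne') hq fun p => ?_
  unfold fY fO
  rw [Nat.factorization_mul (fac_fpart_pos _ q).ne' (fac_fpart_pos _ q).ne', Finsupp.add_apply,
    fac_fpart_factorization, fac_fpart_factorization]
  by_cases hp : p ∈ q.primeFactors
  · simp only [mem_filter, hp, true_and]
    by_cases h1 : p ∈ W5 ε P
    · rw [if_pos h1, if_neg (fun h => h h1), add_zero]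
    · rw [if_neg h1, if_pos h1, zero_add]
  · have h0 : q.factorization p = 0 := by
      rw [← Nat.support_factorization, Finsupp.mem_support_iff, not_not] at hp
      exact hp
    simp [hp, h0]

lemma fY_mem {Q q : ℕ} (hq : q ∈ EV5 ε P Q) : fY ε P q ∈ QY5 ε P Q := by
  classical
  unfold EV5 at hq
  rw [mem_filter, mem_Icc] at hq
  have h0 : 0 < q := by omega
  unfold QY5
  rw [mem_filter, mem_Icc]
  refine ⟨⟨fac_fpart_pos _ q, (Nat.le_of_dvd h0 (fac_fpart_dvd _ q h0.ne')).trans hq.1.2⟩, fun p hp => ?_⟩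
  unfold fY at hp ⊢
  rw [fac_fpart_primeFactors] at hp
  rw [fac_fpart_factorization, if_pos hp]
  rw [mem_filter] at hp
  refine ⟨hp.2, ?_⟩
  have h1 := hq.2 p hp.2
  have h2 := fact_pos hp.1
  omega

lemma fO_mem {Q q : ℕ} (hq : q ∈ EV5 ε P Q) : fO ε P q ∈ E05 ε P Q := by
  classical
  unfold EV5 at hq
  rw [mem_filter, mem_Icc] at hq
  have h0 : 0 < q := by omega
  unfold E05
  rw [mem_filter, mem_Icc]
  have hpos : 0 < fO ε P q := fac_fpart_pos _ q
  refine ⟨⟨hpos, (Nat.le_of_dvd h0 (fac_fpart_dvd _ q h0.ne')).trans hq.1.2⟩, fun p hp hd => ?_⟩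
  have h1 : p ∈ (fO ε P q).primeFactors := Nat.mem_primeFactors.2 ⟨(mem_W5.1 hp).2, hd, hpos.ne'⟩
  unfold fO at h1
  rw [fac_fpart_primeFactors, mem_filter] at h1
  exact h1.2 hp

/-- the window part and the rest are coprime -/
lemma cop_YO {Q Q' a b : ℕ} (ha : a ∈ QY5 ε P Q) (hb : b ∈ E05 ε P Q') : Nat.Coprime a b := by
  unfold QY5 at ha
  unfold E05 at hb
  rw [mem_filter, mem_Icc] at ha hb
  refine Nat.coprime_of_dvd fun p hp hpa hpb => ?_
  exact hb.2 p (ha.2 p (Nat.mem_primeFactors.2 ⟨hp, hpa, by omega⟩)).1 hpb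

lemma Vn_mul {Q' a b : ℕ} (hb : b ∈ E05 ε P Q') : Vn ε P (a * b) = Vn ε P a := by
  unfold E05 at hb
  rw [mem_filter, mem_Icc] at hb
  ext p
  rw [mem_Vn, mem_Vn]
  refine and_congr_right fun hp => not_congr ?_
  constructor
  · intro h
    rcases (mem_W5.1 hp).2.dvd_mul.1 h with h1 | h1
    · exact h1
    · exact absurd h1 (hb.2 p hp)
  · intro h
    exact h.mul_right b

/-- the sum over the exceptional moduli is at most the double sum -/
theorem sum_EV5_le (Q : ℕ) (F : ℕ → ℕ → ℝ) (hF : ∀ a b, 0 ≤ F a b) :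
    ∑ q ∈ EV5 ε P Q, F (fY ε P q) (fO ε P q) ≤ ∑ a ∈ QY5 ε P Q, ∑ b ∈ E05 ε P Q, F a b := by
  classical
  rw [← sum_product']
  rw [← sum_image (s := EV5 ε P Q) (g := fun q => (fY ε P q, fO ε P q)) (f := fun x : ℕ × ℕ => F x.1 x.2)]
  · refine sum_le_sum_of_subset_of_nonneg ?_ fun x _ _ => hF _ _
    intro x hx
    rw [mem_image] at hx
    obtain ⟨q, hq, rfl⟩ := hx
    exact mem_product.2 ⟨fY_mem hq, fO_mem hq⟩
  · intro q hq q' hq' h
    have h1 : ∀ x ∈ EV5 ε P Q, x ≠ 0 := by
      intro x hx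
      unfold EV5 at hx
      rw [mem_filter, mem_Icc] at hx
      omega
    simp only [Prod.mk.injEq] at h
    rw [← fYO_mul (ε := ε) (P := P) (h1 q hq), ← fYO_mul (ε := ε) (P := P) (h1 q' hq'), h.1, h.2]

end Vale.Agent.P042.UU.RestE
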