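import Vale.Agent.P042.UU.RestH5
import Vale.Agent.P042.TT.RestC

set_option autoImplicit false

/-!
Block REST5, part I (helper315): one value of the part at the window.
-/

namespace Vale.Agent.P042.UU.RestE

open Finset Filter Vale.Agent.P042.SS Vale.Agent.P042.SS.UNC Vale.Agent.P042.TT Vale.Agent.P042.TT.TotB
  Vale.Agent.P042.UU.TotC

variable {ε P : ℝ}

lemma E05_pos {Q b : ℕ} (hb : b ∈ E05 ε P Q) : 1 ≤ b ∧ b ≤ Q := by
  unfold E05 at hb
  rw [mem_filter, mem_Icc] at hb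
  exact hb.1

lemma QY5_pos {Q b : ℕ} (hb : b ∈ QY5 ε P Q) : 1 ≤ b ∧ b ≤ Q ∧ ∀ p ∈ b.primeFactors, p ∈ W5 ε P := by
  unfold QY5 at hb
  rw [mem_filter, mem_Icc] at hb
  exact ⟨hb.1.1, hb.1.2, fun p hp => (hb.2 p hp).1⟩

lemma kapProd_nonneg' {kap : ℕ → ℕ → ℝ} (h0 : ∀ p j, 0 ≤ kap p j) (q : ℕ) : 0 ≤ kapProd kap q :=
  prod_nonneg (fun _ _ => h0 _ _)

/-- one row of the double sum -/
theorem row {Q a : ℕ} {kap : ℕ → ℕ → ℝ} (h0 : ∀ p j, 0 ≤ kap p j) {F1 F2 : ℕ → ℝ}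
    {lm δ Bs U U' : ℝ} (ha : 1 ≤ a)
    (hF1 : ∀ n, 0 ≤ F1 n) (hF12 : ∀ n, F1 n ≤ 2 * F2 n) (hδ : 0 ≤ δ) (hδl : Real.exp (δ * lm) ≤ 2)
    (hBs : 0 ≤ Bs)
    (hs : Real.log a ≤ lm → ∑ b ∈ (E05 ε P Q).filter (fun b : ℕ => Real.log b ≤ lm ∧ a * b ≠ 1),
      kapProd kap b * F1 (a * b) ≤ Bs)
    (hl : ∑ b ∈ (E05 ε P Q).filter (fun b : ℕ => lm / 2 < Real.log b),
      (b : ℝ) ^ δ * (kapProd kap b * F2 (a * b)) ≤ U)
    (hall : ∑ b ∈ E05 ε P Q, (b : ℝ) ^ δ * (kapProd kap b * F2 (a * b)) ≤ U') :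
    ∑ b ∈ E05 ε P Q, (if a * b = 1 then 0 else
      (((a : ℝ) ^ δ * kapProd kap a) * ((b : ℝ) ^ δ * kapProd kap b)) * F1 (a * b)) ≤
      2 * kapProd kap a * Bs + 2 * ((a : ℝ) ^ δ * kapProd kap a) * U +
        (if lm / 2 < Real.log a then 2 * ((a : ℝ) ^ δ * kapProd kap a) * U' else 0) := by
  classical
  have hF2 : ∀ n, 0 ≤ F2 n := fun n => by linarith [hF1 n, hF12 n]
  have ha0 : (0 : ℝ) < a := by exact_mod_cast ha
  have hla : 0 ≤ Real.log a := Real.log_natCast_nonneg _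
  have hka := kapProd_nonneg' h0 a
  have had : 0 ≤ (a : ℝ) ^ δ := Real.rpow_nonneg ha0.le _
  set F : ℕ → ℝ := fun b => if a * b = 1 then 0 else
      (((a : ℝ) ^ δ * kapProd kap a) * ((b : ℝ) ^ δ * kapProd kap b)) * F1 (a * b) with hF
  have hg0 : ∀ b : ℕ, 0 ≤ (b : ℝ) ^ δ * kapProd kap b := fun b =>
    mul_nonneg (Real.rpow_nonneg (Nat.cast_nonneg _) _) (kapProd_nonneg' h0 b)
  have hF0 : ∀ b, 0 ≤ F b := by
    intro b
    simp only [hF]
    split_ifs
    · exact le_refl _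
    · exact mul_nonneg (mul_nonneg (mul_nonneg had hka) (hg0 b)) (hF1 _)
  have hFle : ∀ b, F b ≤ 2 * ((a : ℝ) ^ δ * kapProd kap a) *
      ((b : ℝ) ^ δ * (kapProd kap b * F2 (a * b))) := by
    intro b
    have h1 : 0 ≤ 2 * ((a : ℝ) ^ δ * kapProd kap a) * ((b : ℝ) ^ δ * (kapProd kap b * F2 (a * b))) := by
      have := hg0 b
      have h2 : (b : ℝ) ^ δ * (kapProd kap b * F2 (a * b)) = ((b : ℝ) ^ δ * kapProd kap b) * F2 (a * b) := by
        ring
      rw [h2]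
      exact mul_nonneg (mul_nonneg (by norm_num) (mul_nonneg had hka)) (mul_nonneg this (hF2 _))
    simp only [hF]
    split_ifs
    · exact h1
    · calc (((a : ℝ) ^ δ * kapProd kap a) * ((b : ℝ) ^ δ * kapProd kap b)) * F1 (a * b)
          ≤ (((a : ℝ) ^ δ * kapProd kap a) * ((b : ℝ) ^ δ * kapProd kap b)) * (2 * F2 (a * b)) :=
            mul_le_mul_of_nonneg_left (hF12 _) (mul_nonneg (mul_nonneg had hka) (hg0 b))
        _ = _ := by ring
  have hT0 : ∀ b : ℕ, 0 ≤ (b : ℝ) ^ δ * (kapProd kap b * F2 (a * b)) := fun b =>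
    mul_nonneg (Real.rpow_nonneg (Nat.cast_nonneg _) _) (mul_nonneg (kapProd_nonneg' h0 b) (hF2 _))
  have hc0 : 0 ≤ 2 * ((a : ℝ) ^ δ * kapProd kap a) := mul_nonneg (by norm_num) (mul_nonneg had hka)
  -- small
  have tS : ∑ b ∈ (E05 ε P Q).filter (fun b : ℕ => Real.log a + Real.log b ≤ lm), F b ≤
      2 * kapProd kap a * Bs := by
    rcases le_or_gt (Real.log a) lm with h1 | h1
    · have h2 : ∀ b ∈ (E05 ε P Q).filter (fun b : ℕ => Real.log a + Real.log b ≤ lm), F b ≤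
          if a * b ≠ 1 then 2 * kapProd kap a * (kapProd kap b * F1 (a * b)) else 0 := by
        intro b hb
        rw [mem_filter] at hb
        have hb1 := (E05_pos hb.1).1
        have hb0 : (0 : ℝ) < b := by exact_mod_cast hb1
        simp only [hF]
        by_cases h3 : a * b = 1
        · rw [if_pos h3, if_neg (not_not.2 h3)]
        · rw [if_neg h3, if_pos h3]
          have h4 : (a : ℝ) ^ δ * (b : ℝ) ^ δ ≤ 2 := by
            refine le_trans (le_of_eq ?_) ((Real.exp_le_exp.2 (mul_le_mul_of_nonneg_left hb.2 hδ)).trans hδl)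
            rw [Real.rpow_def_of_pos ha0, Real.rpow_def_of_pos hb0, ← Real.exp_add]
            congr 1
            ring
          calc (((a : ℝ) ^ δ * kapProd kap a) * ((b : ℝ) ^ δ * kapProd kap b)) * F1 (a * b)
              = ((a : ℝ) ^ δ * (b : ℝ) ^ δ) * (kapProd kap a * (kapProd kap b * F1 (a * b))) := by ring
            _ ≤ 2 * (kapProd kap a * (kapProd kap b * F1 (a * b))) :=
                mul_le_mul_of_nonneg_right h4 (mul_nonneg hka (mul_nonneg (kapProd_nonneg' h0 b) (hF1 _)))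
            _ = _ := by ring
      refine (sum_le_sum h2).trans ?_
      rw [← sum_filter, ← mul_sum]
      refine mul_le_mul_of_nonneg_left (le_trans ?_ (hs h1)) (by positivity)
      refine sum_le_sum_of_subset_of_nonneg ?_ fun b _ _ => mul_nonneg (kapProd_nonneg' h0 b) (hF1 _)
      intro b hb
      rw [mem_filter, mem_filter] at hb
      rw [mem_filter]
      exact ⟨hb.1.1, by linarith [hb.1.2], hb.2⟩
    · have h2 : (E05 ε P Q).filter (fun b : ℕ => Real.log a + Real.log b ≤ lm) = ∅ := by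
        rw [filter_eq_empty_iff]
        intro b _ h3
        have := Real.log_natCast_nonneg b
        linarith
      rw [h2, sum_empty]
      positivity
  -- large
  have tL : ∑ b ∈ (E05 ε P Q).filter (fun b : ℕ => ¬ Real.log a + Real.log b ≤ lm), F b ≤
      2 * ((a : ℝ) ^ δ * kapProd kap a) * U +
        (if lm / 2 < Real.log a then 2 * ((a : ℝ) ^ δ * kapProd kap a) * U' else 0) := by
    by_cases h1 : lm / 2 < Real.log a
    · rw [if_pos h1]
      have h2 : ∑ b ∈ (E05 ε P Q).filter (fun b : ℕ => ¬ Real.log a + Real.log b ≤ lm), F b ≤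
          2 * ((a : ℝ) ^ δ * kapProd kap a) * U' := by
        calc _ ≤ ∑ b ∈ E05 ε P Q, F b :=
              sum_le_sum_of_subset_of_nonneg (filter_subset _ _) fun b _ _ => hF0 b
          _ ≤ ∑ b ∈ E05 ε P Q, 2 * ((a : ℝ) ^ δ * kapProd kap a) *
                ((b : ℝ) ^ δ * (kapProd kap b * F2 (a * b))) := sum_le_sum fun b _ => hFle b
          _ = 2 * ((a : ℝ) ^ δ * kapProd kap a) *
                ∑ b ∈ E05 ε P Q, (b : ℝ) ^ δ * (kapProd kap b * F2 (a * b)) := by rw [mul_sum]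
          _ ≤ _ := mul_le_mul_of_nonneg_left hall hc0
      have h3 : 0 ≤ U := le_trans (sum_nonneg fun b _ => hT0 b) hl
      have h4 : 0 ≤ 2 * ((a : ℝ) ^ δ * kapProd kap a) * U := mul_nonneg hc0 h3
      linarith
    · rw [if_neg h1, add_zero]
      calc _ ≤ ∑ b ∈ (E05 ε P Q).filter (fun b : ℕ => lm / 2 < Real.log b), F b := by
            refine sum_le_sum_of_subset_of_nonneg ?_ fun b _ _ => hF0 b
            intro b hb
            rw [mem_filter] at hb ⊢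
            refine ⟨hb.1, ?_⟩
            have h2 := hb.2
            push Not at h2 h1
            linarith
        _ ≤ ∑ b ∈ (E05 ε P Q).filter (fun b : ℕ => lm / 2 < Real.log b), 2 * ((a : ℝ) ^ δ * kapProd kap a) *
              ((b : ℝ) ^ δ * (kapProd kap b * F2 (a * b))) := sum_le_sum fun b _ => hFle b
        _ = 2 * ((a : ℝ) ^ δ * kapProd kap a) * ∑ b ∈ (E05 ε P Q).filter (fun b : ℕ => lm / 2 < Real.log b),
              (b : ℝ) ^ δ * (kapProd kap b * F2 (a * b)) := by rw [mul_sum]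
        _ ≤ _ := mul_le_mul_of_nonneg_left hl hc0
  rw [← sum_filter_add_sum_filter_not (E05 ε P Q) (fun b : ℕ => Real.log a + Real.log b ≤ lm)]
  linarith

/-- eventual numerics -/
theorem rest5_num (CS CT t' cY t1 Cc ε : ℝ) (k p0 E : ℕ) (hE : 1 ≤ E) (hε : 0 < ε) (hε1 : ε ≤ 1 / 1000)
    (ht' : 0 < t') (ht1 : 0 < t1) :
    ∀ᶠ P : ℝ in atTop, (1 ≤ P ∧ 6 ≤ P ^ (4 * ε) ∧ (k : ℝ) ≤ P ^ (ε / 4) ∧ (p0 : ℝ) ≤ P ^ (2 - 190 * ε) ∧
      Cc * P ^ (95.01 * ε) ≤ P ^ (95.1 * ε)) ∧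
      (4 * P ^ (95.2 * ε) ≤ P ^ (95.5 * ε) ∧ CS * P ^ (-(0.3 * ε)) ≤ Real.log 2 ∧
      P ^ (-(0.3 * ε)) ≤ Real.log 2 ∧
      CT * P ^ (-(95.8 * ε)) ≤ P ^ (-(95.5 * ε)) ∧ 4 * P ^ (-(95.5 * ε)) ≤ t1 ∧
      4 * P ^ (-(95.5 * ε)) ≤ t' ∧ P ^ (8 * E * (2 * P ^ (-(95.5 * ε)))) ≤ 2 ∧
      CT * P ^ (-(0.6 * ε)) ≤ 1) ∧
      (Real.exp (-(t' / 8 * P ^ (95.2 * ε)) + P ^ ε) ≤ P ^ (-1 : ℝ) ∧
      Real.exp (-(t1 / 4 * P ^ (95.2 * ε)) + P ^ ε) ≤ P ^ (-1 : ℝ) ∧
      cY * P ^ (0.16 * ε) ≤ P ^ ε ∧ 3 * P ≤ Real.exp (P ^ ε) ∧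
      2 * P ^ (1 - 95 * ε) ≤ P ^ (1 - 94 * ε) ∧ P ^ (95.2 * ε) ≤ P ^ (1 - 94 * ε)) := by
  have hl2 : 0 < Real.log 2 := Real.log_pos (by norm_num)
  have a1 := ev_const 6 (a := 4 * ε) (by positivity)
  have a2 := ev_const (k : ℝ) (a := ε / 4) (by positivity)
  have a3 := ev_const (p0 : ℝ) (a := 2 - 190 * ε) (by linarith)
  have a4 := ev_rpow Cc (a := 95.1 * ε) (b := 95.01 * ε) (by nlinarith)
  have a5 := ev_rpow 4 (a := 95.5 * ε) (b := 95.2 * ε) (by nlinarith)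
  have a6 := rest_pow_small (0.3 * ε) (by positivity) CS (Real.log 2) hl2
  have a7 := rest_pow_small (0.3 * ε) (by positivity) 1 (Real.log 2) hl2
  have a8 := ev_rpow CT (a := -(95.5 * ε)) (b := -(95.8 * ε)) (by nlinarith)
  have a9 := rest_pow_small (95.5 * ε) (by positivity) 4 t1 ht1
  have a10 := rest_pow_small (95.5 * ε) (by positivity) 4 t' ht'
  have a12 := rest_pow_small (0.6 * ε) (by positivity) CT 1 one_pos
  have a13 := rest_exp_small (t' / 8) (95.2 * ε) ε (by positivity) hε (by nlinarith)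
  have a14 := rest_exp_small (t1 / 4) (95.2 * ε) ε (by positivity) hε (by nlinarith)
  have a15 := ev_rpow cY (a := ε) (b := 0.16 * ε) (by nlinarith)
  have a17 := ev_rpow 2 (a := 1 - 94 * ε) (b := 1 - 95 * ε) (by linarith)
  have b1 : ∀ᶠ P : ℝ in atTop, Real.log P ≤ (Real.log 2 / (16 * E)) * P ^ (95.5 * ε) := by
    have := isLittleO_log_rpow_atTop (show 0 < 95.5 * ε by positivity)
    have h3 := this.bound (show 0 < Real.log 2 / (16 * E) by
      have : (0 : ℝ) < E := by exact_mod_cast hE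
      positivity)
    filter_upwards [h3, eventually_ge_atTop (1 : ℝ)] with P e1 hP
    rw [Real.norm_eq_abs, Real.norm_eq_abs, abs_of_nonneg (Real.log_nonneg hP),
      abs_of_nonneg (Real.rpow_nonneg (by linarith) _)] at e1
    exact e1
  have b2 : ∀ᶠ P : ℝ in atTop, Real.log (3 * P) ≤ P ^ ε := by
    have := isLittleO_log_rpow_atTop hε
    have h3 := this.bound (show (0 : ℝ) < 1 / 2 by norm_num)
    filter_upwards [h3, eventually_ge_atTop (1 : ℝ), ev_const (2 * Real.log 3) hε] with P e1 hP e2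
    rw [Real.norm_eq_abs, Real.norm_eq_abs, abs_of_nonneg (Real.log_nonneg hP),
      abs_of_nonneg (Real.rpow_nonneg (by linarith) _)] at e1
    rw [Real.log_mul (by norm_num) (by linarith)]
    linarith
  filter_upwards [a1, a2, a3, a4, a5, a6, a7, a8, a9, a10, a12, a13, a14, a15, a17, b1, b2,
    eventually_ge_atTop (1 : ℝ)] with P a1 a2 a3 a4 a5 a6 a7 a8 a9 a10 a12 a13 a14 a15 a17 b1 b2 hP
  have hP0 : 0 < P := by linarith
  have hER : (0 : ℝ) < E := by exact_mod_cast hE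
  refine ⟨⟨hP, a1, a2, a3, a4⟩, ⟨a5, a6, by linarith, a8, a9, a10, ?_, a12⟩,
    ⟨a13, a14, a15, ?_, a17, ?_⟩⟩
  · rw [Real.rpow_def_of_pos hP0]
    have h1 : Real.log P * (8 * E * (2 * P ^ (-(95.5 * ε)))) ≤ Real.log 2 := by
      have h2 : P ^ (95.5 * ε) * P ^ (-(95.5 * ε)) = 1 := by
        rw [← Real.rpow_add hP0, add_neg_cancel, Real.rpow_zero]
      have h3 : 0 < P ^ (-(95.5 * ε)) := Real.rpow_pos_of_pos hP0 _
      calc Real.log P * (8 * E * (2 * P ^ (-(95.5 * ε))))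
          ≤ ((Real.log 2 / (16 * E)) * P ^ (95.5 * ε)) * (8 * E * (2 * P ^ (-(95.5 * ε)))) :=
            mul_le_mul_of_nonneg_right b1 (by positivity)
        _ = (Real.log 2 / (16 * E)) * (16 * E) * (P ^ (95.5 * ε) * P ^ (-(95.5 * ε))) := by ring
        _ = Real.log 2 := by
            rw [h2, mul_one]
            field_simp
    calc Real.exp (Real.log P * (8 * E * (2 * P ^ (-(95.5 * ε))))) ≤ Real.exp (Real.log 2) :=
          Real.exp_le_exp.2 h1
      _ = 2 := Real.exp_log (by norm_num)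
  · rw [← Real.exp_log (show (0 : ℝ) < 3 * P by positivity)]
    exact Real.exp_le_exp.2 b2
  · exact Real.rpow_le_rpow_of_exponent_le hP (by linarith)

end Vale.Agent.P042.UU.RestE
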