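import Vale.Agent.P042.UU.RestI5

set_option autoImplicit false

/-!
Block REST5, part J (helper315): the bounds for one row and for the sums over the part at the window.
-/

namespace Vale.Agent.P042.UU.RestE

open Finset Filter Vale.Agent.P042.SS Vale.Agent.P042.SS.UNC Vale.Agent.P042.TT Vale.Agent.P042.TT.TotB
  Vale.Agent.P042.UU.TotC

variable {ε P : ℝ}

/-- the energies with full weights over the reduced fractions with denominator `n` -/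
noncomputable def En1 (ε P : ℝ) (ν : ℕ → ℤ → ℝ) (G : ℤ → ℝ) (y : ℤ) (M a n : ℕ) : ℝ :=
  ∑ x ∈ (range n).filter (Nat.Coprime n),
    ews (t6 ε P) (u5 ε P) (Vn ε P a) ν G y M 1 0 ((x : ℝ) / (n : ℝ))

/-- the total energies over the reduced fractions with denominator `n` -/
noncomputable def En2 (ε P : ℝ) (ν : ℕ → ℤ → ℝ) (G : ℤ → ℝ) (y : ℤ) (M a n : ℕ) : ℝ :=
  ∑ x ∈ (range n).filter (Nat.Coprime n),
    totd (t5 ε P) (dT5 ε P) (Vn ε P a) ν G y M 1 0 ((x : ℝ) / (n : ℝ))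

lemma Vn_sub (a : ℕ) : Vn ε P a ⊆ W5 ε P := fun _ hp => (mem_Vn.1 hp).1

lemma En1_facts (hEWS : EWS5Stmt) (hε : 0 < ε) (hε1 : ε ≤ 1 / 1000) (hP1 : 1 ≤ P) (n6 : 6 ≤ P ^ (4 * ε))
    {k N' : ℕ} {Φ : ℝ} {G : ℤ → ℝ} {ν : ℕ → ℤ → ℝ} (hSt : St5 ε P k N' Φ G ν) (y : ℤ) (M a n : ℕ) :
    0 ≤ En1 ε P ν G y M a n ∧ En1 ε P ν G y M a n ≤ 2 * En2 ε P ν G y M a n := by
  unfold En1 En2
  refine ⟨sum_nonneg fun x _ => (ews6_le hEWS hε hε1 hP1 n6 hSt (Vn_sub a) y M 1 0 _).1, ?_⟩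
  rw [mul_sum]
  exact sum_le_sum fun x _ => (ews6_le hEWS hε hε1 hP1 n6 hSt (Vn_sub a) y M 1 0 _).2.2

lemma cost_kap {E K k p0 : ℕ} {kap : ℕ → ℕ → ℝ} (hkap : KapOK k E K p0 kap) (hε : 0 < ε)
    (hP1 : 1 ≤ P) {Q : ℕ} {Cc : ℝ}
    (hc : ∑ i ∈ (Ib ⌊P ^ (190 * ε)⌋₊ (8 * E) Q).filter (fun i => i.1 ∉ W5 ε P),
      pc5 (ε / (2000 * E)) kap i * (i.2 * Real.log i.1) ≤ Cc) :
    ∑ i ∈ (Ib ⌊P ^ (190 * ε)⌋₊ (8 * E) Q).filter (fun i => i.1 ∉ W5 ε P),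
        kap i.1 i.2 * (i.2 * Real.log i.1) ≤ Cc := by
  refine le_trans (sum_le_sum fun i hi => ?_) hc
  rw [mem_filter] at hi
  have hi1 := hi.1
  simp only [Ib, mem_filter] at hi1
  refine mul_le_mul_of_nonneg_right ?_ (mul_nonneg (Nat.cast_nonneg _) (Real.log_natCast_nonneg _))
  unfold pc5
  refine le_min (hkap.le1 _ _) ?_
  unfold gc5
  have h1 : (1 : ℝ) ≤ (i.1 : ℝ) ^ ((i.2 : ℝ) * (ε / (2000 * E))) := by
    apply Real.one_le_rpow _ (by positivity)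
    exact_mod_cast hi1.2.1.one_lt.le
  have h2 := hkap.nn i.1 i.2
  nlinarith

/-- `D ^ (C bc5) ≤ 2` -/
lemma pow_D_le {CS : ℝ} (hCS : 0 < CS) (hP0 : 0 < P) (nS : CS * P ^ (-(0.3 * ε)) ≤ Real.log 2) {D : ℕ}
    (hD1 : 1 ≤ D) (hDl : Real.log D ≤ P ^ (95.5 * ε)) : (D : ℝ) ^ (CS * bc5 ε P) ≤ 2 := by
  have hβ0 : 0 ≤ bc5 ε P := by unfold bc5; positivity
  have hDr : (0 : ℝ) < D := by exact_mod_cast hD1
  rw [Real.rpow_def_of_pos hDr]
  have h3 : Real.log D * (CS * bc5 ε P) ≤ Real.log 2 := by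
    refine le_trans ?_ nS
    calc Real.log D * (CS * bc5 ε P) ≤ P ^ (95.5 * ε) * (CS * bc5 ε P) :=
          mul_le_mul_of_nonneg_right hDl (mul_nonneg hCS.le hβ0)
      _ = CS * (P ^ (95.5 * ε) * P ^ (-(95.8 * ε))) := by unfold bc5; ring
      _ = CS * P ^ (-(0.3 * ε)) := by
          rw [← Real.rpow_add hP0]; congr 2; ring
  calc Real.exp (Real.log D * (CS * bc5 ε P)) ≤ Real.exp (Real.log 2) :=
        Real.exp_le_exp.mpr h3
    _ = 2 := Real.exp_log (by norm_num)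

/-- the large part of a row -/
theorem row_large {Q a : ℕ} {kap : ℕ → ℕ → ℝ} (h0 : ∀ p j, 0 ≤ kap p j) {F2 : ℕ → ℝ} (hF2 : ∀ n, 0 ≤ F2 n)
    {A β CT t' u : ℝ} (hε : 0 < ε) (hε1 : ε ≤ 1 / 1000) (hP1 : 1 ≤ P) (hA0 : 0 ≤ A) (ht'0 : 0 < t')
    (hβ : CT * β ≤ P ^ (-(95.5 * ε)))
    (nt' : 4 * P ^ (-(95.5 * ε)) ≤ t')
    (hQ : ∀ q : ℕ, 1 ≤ q → q ≤ Q → Real.log q ≤ P ^ (1 - 95 * ε))
    (x4 : 3 * P ≤ Real.exp (P ^ ε)) (x5 : 2 * P ^ (1 - 95 * ε) ≤ P ^ (1 - 94 * ε))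
    (x1 : Real.exp (-(t' / 8 * P ^ (95.2 * ε)) + P ^ ε) ≤ u)
    (hrow : ∀ l : ℝ, P ^ (95.1 * ε) ≤ l → l ≤ P ^ (1 - 94 * ε) →
      ∑ b ∈ (E05 ε P Q).filter (fun b : ℕ => Real.log b ≤ l),
        (b : ℝ) ^ t' * (kapProd kap b * F2 (a * b)) ≤ A * Real.exp (CT * β * l)) :
    ∑ b ∈ (E05 ε P Q).filter (fun b : ℕ => P ^ (95.2 * ε) / 2 < Real.log b),
        (b : ℝ) ^ (P ^ (-(95.5 * ε))) * (kapProd kap b * F2 (a * b)) ≤ A * u := by
  have hP0 : 0 < P := by linarith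
  have hlm0 : 0 < P ^ (95.2 * ε) := Real.rpow_pos_of_pos hP0 _
  have hlm1 : 1 ≤ P ^ (95.2 * ε) := Real.one_le_rpow hP1 (by positivity)
  have hδ0 : 0 < P ^ (-(95.5 * ε)) := Real.rpow_pos_of_pos hP0 _
  have hI3 : ((⌈P⌉₊ : ℕ) : ℝ) + 1 ≤ 3 * P := by
    have := Nat.ceil_lt_add_one (show 0 ≤ P by linarith)
    linarith
  have hIu : (((⌈P⌉₊ : ℕ) : ℝ) + 1) * Real.exp (-(t' * P ^ (95.2 * ε) / 8)) ≤ u := by
    calc (((⌈P⌉₊ : ℕ) : ℝ) + 1) * Real.exp (-(t' * P ^ (95.2 * ε) / 8))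
        ≤ Real.exp (P ^ ε) * Real.exp (-(t' * P ^ (95.2 * ε) / 8)) :=
          mul_le_mul_of_nonneg_right (hI3.trans x4) (Real.exp_pos _).le
      _ = Real.exp (-(t' / 8 * P ^ (95.2 * ε)) + P ^ ε) := by
          rw [← Real.exp_add]; congr 1; ring
      _ ≤ u := x1
  have h1 := dyadic (E05 ε P Q) (fun b => kapProd kap b * F2 (a * b))
    (fun b => mul_nonneg (kapProd_nonneg' h0 b) (hF2 _))
    (fun q hq => (E05_pos hq).1) (A := A) (a := P ^ (95.1 * ε)) (b := P ^ (1 - 94 * ε))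
    (c := CT * β) (t := t') (δ := P ^ (-(95.5 * ε))) (lm := P ^ (95.2 * ε)) (Lm := P ^ (1 - 95 * ε))
    (I := ⌈P⌉₊) hA0 hlm0
    (Real.rpow_le_rpow_of_exponent_le hP1 (by linarith)) x5 (by linarith)
    (by linarith) ht'0 (fun q hq => hQ q (E05_pos hq).1 (E05_pos hq).2)
    (by
      have h2 : P ^ (1 - 95 * ε) ≤ P := by
        conv_rhs => rw [← Real.rpow_one P]
        exact Real.rpow_le_rpow_of_exponent_le hP1 (by linarith)
      have h3 : P ≤ 2 ^ ⌈P⌉₊ := by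
        have h4 : (P : ℝ) ≤ (⌈P⌉₊ : ℕ) := Nat.le_ceil P
        have h5 : ((⌈P⌉₊ : ℕ) : ℝ) ≤ 2 ^ ⌈P⌉₊ := by exact_mod_cast (Nat.lt_two_pow_self (n := ⌈P⌉₊)).le
        linarith
      have h6 : (0 : ℝ) < 2 ^ ⌈P⌉₊ := by positivity
      nlinarith)
    hrow
  refine h1.trans ?_
  calc (((⌈P⌉₊ : ℕ) : ℝ) + 1) * (A * Real.exp (-(t' * P ^ (95.2 * ε) / 8)))
      = A * ((((⌈P⌉₊ : ℕ) : ℝ) + 1) * Real.exp (-(t' * P ^ (95.2 * ε) / 8))) := by ring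
    _ ≤ A * u := mul_le_mul_of_nonneg_left hIu hA0

/-- the whole row -/
theorem row_all {Q a : ℕ} {kap : ℕ → ℕ → ℝ} (h0 : ∀ p j, 0 ≤ kap p j) {F2 : ℕ → ℝ} (hF2 : ∀ n, 0 ≤ F2 n)
    {A β CT t' u : ℝ} (hε : 0 < ε) (hP1 : 1 ≤ P) (hA0 : 0 ≤ A)
    (hβ : β = P ^ (-(95.8 * ε))) (nT6 : CT * P ^ (-(0.6 * ε)) ≤ 1)
    (nt' : 4 * P ^ (-(95.5 * ε)) ≤ t') (hu1 : u ≤ 1)
    (x6 : P ^ (95.2 * ε) ≤ P ^ (1 - 94 * ε))
    (hrow : ∀ l : ℝ, P ^ (95.1 * ε) ≤ l → l ≤ P ^ (1 - 94 * ε) →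
      ∑ b ∈ (E05 ε P Q).filter (fun b : ℕ => Real.log b ≤ l),
        (b : ℝ) ^ t' * (kapProd kap b * F2 (a * b)) ≤ A * Real.exp (CT * β * l))
    (hlarge : ∑ b ∈ (E05 ε P Q).filter (fun b : ℕ => P ^ (95.2 * ε) / 2 < Real.log b),
        (b : ℝ) ^ (P ^ (-(95.5 * ε))) * (kapProd kap b * F2 (a * b)) ≤ A * u) :
    ∑ b ∈ E05 ε P Q, (b : ℝ) ^ (P ^ (-(95.5 * ε))) * (kapProd kap b * F2 (a * b)) ≤ A * 4 := by
  have hP0 : 0 < P := by linarith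
  have hlm0 : 0 < P ^ (95.2 * ε) := Real.rpow_pos_of_pos hP0 _
  have hδ0 : 0 < P ^ (-(95.5 * ε)) := Real.rpow_pos_of_pos hP0 _
  have hg0 : ∀ b : ℕ, 0 ≤ kapProd kap b * F2 (a * b) := fun b =>
    mul_nonneg (kapProd_nonneg' h0 b) (hF2 _)
  rw [← sum_filter_add_sum_filter_not (E05 ε P Q) (fun b : ℕ => Real.log b ≤ P ^ (95.2 * ε))]
  have h1 : ∑ b ∈ (E05 ε P Q).filter (fun b : ℕ => Real.log b ≤ P ^ (95.2 * ε)),
      (b : ℝ) ^ (P ^ (-(95.5 * ε))) * (kapProd kap b * F2 (a * b)) ≤ A * 3 := by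
    have h2 := hrow (P ^ (95.2 * ε)) (Real.rpow_le_rpow_of_exponent_le hP1 (by linarith)) x6
    have h3 : Real.exp (CT * β * P ^ (95.2 * ε)) ≤ 3 := by
      have h4 : CT * β * P ^ (95.2 * ε) ≤ 1 := by
        refine le_trans (le_of_eq ?_) nT6
        rw [hβ, mul_assoc, ← Real.rpow_add hP0]
        congr 2
        ring
      have h5 := Real.exp_le_exp.2 h4
      have := Real.exp_one_lt_d9
      linarith
    refine le_trans (le_trans (sum_le_sum fun b hb => ?_) h2) (mul_le_mul_of_nonneg_left h3 hA0)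
    refine mul_le_mul_of_nonneg_right ?_ (hg0 b)
    refine Real.rpow_le_rpow_of_exponent_le ?_ (by linarith)
    exact_mod_cast (E05_pos (mem_filter.1 hb).1).1
  have h2 : ∑ b ∈ (E05 ε P Q).filter (fun b : ℕ => ¬ Real.log b ≤ P ^ (95.2 * ε)),
      (b : ℝ) ^ (P ^ (-(95.5 * ε))) * (kapProd kap b * F2 (a * b)) ≤ A * u := by
    refine le_trans ?_ hlarge
    refine sum_le_sum_of_subset_of_nonneg ?_ fun b _ _ =>
      mul_nonneg (Real.rpow_nonneg (Nat.cast_nonneg _) _) (hg0 b)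
    intro b hb
    rw [mem_filter] at hb ⊢
    refine ⟨hb.1, ?_⟩
    have h3 := hb.2
    push Not at h3
    linarith
  have h3 := mul_le_mul_of_nonneg_left hu1 hA0
  linarith

/-- the large part of the sum over the part at the window -/
theorem QY_large {Q : ℕ} {kap : ℕ → ℕ → ℝ} (h0 : ∀ p j, 0 ≤ kap p j) {δ t1 X lm : ℝ}
    (hlm : 0 < lm) (ht1 : 0 < t1)
    (nt1 : 4 * δ ≤ t1)
    (hX : ∑ a ∈ QY5 ε P Q, kapProd kap a * (a : ℝ) ^ t1 ≤ Real.exp X) :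
    ∑ a ∈ (QY5 ε P Q).filter (fun a : ℕ => lm / 2 < Real.log a),
      kapProd kap a * (a : ℝ) ^ (2 * δ) ≤ Real.exp (-(t1 / 4 * lm) + X) := by
  have hka : ∀ a, 0 ≤ kapProd kap a := kapProd_nonneg' h0
  have h1 : ∀ a ∈ (QY5 ε P Q).filter (fun a : ℕ => lm / 2 < Real.log a),
      kapProd kap a * (a : ℝ) ^ (2 * δ) ≤ Real.exp (-(t1 / 4 * lm)) * (kapProd kap a * (a : ℝ) ^ t1) := by
    intro a ha
    rw [mem_filter] at ha
    have ha0 : (0 : ℝ) < a := by exact_mod_cast (QY5_pos ha.1).1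
    have h2 : (a : ℝ) ^ (2 * δ) ≤ Real.exp (-(t1 / 4 * lm)) * (a : ℝ) ^ t1 := by
      rw [Real.rpow_def_of_pos ha0, Real.rpow_def_of_pos ha0, ← Real.exp_add]
      apply Real.exp_le_exp.2
      have h3 : 2 * δ ≤ t1 / 2 := by linarith
      have h4 : 0 < Real.log a := by linarith [ha.2]
      have h5 : Real.log a * (2 * δ) ≤ Real.log a * (t1 / 2) := mul_le_mul_of_nonneg_left h3 h4.le
      have h6 : t1 / 2 * (lm / 2) ≤ t1 / 2 * Real.log a :=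
        mul_le_mul_of_nonneg_left ha.2.le (by positivity)
      nlinarith
    calc kapProd kap a * (a : ℝ) ^ (2 * δ) ≤ kapProd kap a * (Real.exp (-(t1 / 4 * lm)) * (a : ℝ) ^ t1) :=
          mul_le_mul_of_nonneg_left h2 (hka a)
      _ = _ := by ring
  calc _ ≤ ∑ a ∈ (QY5 ε P Q).filter (fun a : ℕ => lm / 2 < Real.log a),
          Real.exp (-(t1 / 4 * lm)) * (kapProd kap a * (a : ℝ) ^ t1) := sum_le_sum h1
    _ ≤ ∑ a ∈ QY5 ε P Q, Real.exp (-(t1 / 4 * lm)) * (kapProd kap a * (a : ℝ) ^ t1) :=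
        sum_le_sum_of_subset_of_nonneg (filter_subset _ _) fun a _ _ =>
          mul_nonneg (Real.exp_pos _).le (mul_nonneg (hka a) (Real.rpow_nonneg (Nat.cast_nonneg _) _))
    _ = Real.exp (-(t1 / 4 * lm)) * ∑ a ∈ QY5 ε P Q, kapProd kap a * (a : ℝ) ^ t1 := by
        rw [mul_sum]
    _ ≤ Real.exp (-(t1 / 4 * lm)) * Real.exp X :=
        mul_le_mul_of_nonneg_left hX (Real.exp_pos _).le
    _ = Real.exp (-(t1 / 4 * lm) + X) := by
        rw [← Real.exp_add]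

/-- weights of the rows -/
lemma WA_le {a : ℕ} (ha1 : 1 ≤ a) {ka CT β δ X : ℝ} (hka : 0 ≤ ka) (hCX : 0 ≤ CT * X) (nT : CT * β ≤ δ) :
    ((a : ℝ) ^ δ * ka) * (CT * Real.exp (CT * β * Real.log a) * X) ≤ CT * X * (ka * (a : ℝ) ^ (2 * δ)) := by
  have ha0 : (0 : ℝ) < a := by exact_mod_cast ha1
  have h1 : (a : ℝ) ^ δ * Real.exp (CT * β * Real.log a) ≤ (a : ℝ) ^ (2 * δ) := by
    rw [Real.rpow_def_of_pos ha0, Real.rpow_def_of_pos ha0, ← Real.exp_add]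
    apply Real.exp_le_exp.2
    have h2 : 0 ≤ Real.log a := Real.log_natCast_nonneg _
    nlinarith
  calc ((a : ℝ) ^ δ * ka) * (CT * Real.exp (CT * β * Real.log a) * X) =
        CT * X * (ka * ((a : ℝ) ^ δ * Real.exp (CT * β * Real.log a))) := by ring
    _ ≤ _ := mul_le_mul_of_nonneg_left (mul_le_mul_of_nonneg_left h1 hka) hCX

/-- summing the rows -/
theorem double_sum {S : Finset ℕ} {ka W A : ℕ → ℝ} {δ Bs CY CT X u lm : ℝ}
    (hA0 : ∀ a, 0 ≤ A a) (hCT : 0 ≤ CT) (hX : 0 ≤ X) (hu0 : 0 ≤ u) (hBs0 : 0 ≤ Bs)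
    (hY0 : ∑ a ∈ S, ka a ≤ CY)
    (hY1 : ∑ a ∈ S, ka a * (a : ℝ) ^ (2 * δ) ≤ CY)
    (hYl : ∑ a ∈ S.filter (fun a : ℕ => lm / 2 < Real.log a), ka a * (a : ℝ) ^ (2 * δ) ≤ u)
    (hWA : ∀ a ∈ S, W a * A a ≤ CT * X * (ka a * (a : ℝ) ^ (2 * δ)))
    {f : ℕ → ℝ}
    (hrows : ∀ a ∈ S, f a ≤ 2 * ka a * Bs + 2 * W a * (A a * u) +
        (if lm / 2 < Real.log a then 2 * W a * (A a * 4) else 0)) :
    ∑ a ∈ S, f a ≤ 2 * CY * Bs + 2 * CT * CY * u * X + 8 * CT * u * X := by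
  refine (sum_le_sum hrows).trans ?_
  rw [sum_add_distrib, sum_add_distrib]
  refine add_le_add (add_le_add ?_ ?_) ?_
  · calc ∑ a ∈ S, 2 * ka a * Bs = 2 * (∑ a ∈ S, ka a) * Bs := by
          rw [mul_sum, sum_mul]
      _ ≤ 2 * CY * Bs := mul_le_mul_of_nonneg_right (mul_le_mul_of_nonneg_left hY0 (by norm_num)) hBs0
  · calc ∑ a ∈ S, 2 * W a * (A a * u)
        ≤ ∑ a ∈ S, 2 * u * (CT * X * (ka a * (a : ℝ) ^ (2 * δ))) := by
          refine sum_le_sum fun a ha => ?_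
          have := mul_le_mul_of_nonneg_left (hWA a ha) (show 0 ≤ 2 * u by positivity)
          refine le_trans (le_of_eq ?_) this
          ring
      _ = 2 * u * (CT * X) * ∑ a ∈ S, ka a * (a : ℝ) ^ (2 * δ) := by
          rw [mul_sum]
          refine sum_congr rfl fun a _ => ?_
          ring
      _ ≤ 2 * u * (CT * X) * CY := mul_le_mul_of_nonneg_left hY1 (by positivity)
      _ = _ := by ring
  · rw [← sum_filter]
    calc ∑ a ∈ S.filter (fun a : ℕ => lm / 2 < Real.log a), 2 * W a * (A a * 4)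
        ≤ ∑ a ∈ S.filter (fun a : ℕ => lm / 2 < Real.log a),
            8 * (CT * X * (ka a * (a : ℝ) ^ (2 * δ))) := by
          refine sum_le_sum fun a ha => ?_
          have := mul_le_mul_of_nonneg_left (hWA a (mem_filter.1 ha).1) (show (0 : ℝ) ≤ 8 by norm_num)
          refine le_trans (le_of_eq ?_) this
          ring
      _ = 8 * (CT * X) * ∑ a ∈ S.filter (fun a : ℕ => lm / 2 < Real.log a),
            ka a * (a : ℝ) ^ (2 * δ) := by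
          rw [mul_sum]
          refine sum_congr rfl fun a _ => ?_
          ring
      _ ≤ 8 * (CT * X) * u := mul_le_mul_of_nonneg_left hYl (by positivity)
      _ = _ := by ring

/-- from the moduli to the double sum -/
theorem main_le {kap : ℕ → ℕ → ℝ} (h0 : ∀ p j, 0 ≤ kap p j) {Q : ℕ} {ν : ℕ → ℤ → ℝ} {G : ℤ → ℝ} {y : ℤ}
    {M : ℕ} {δ : ℝ} (hE0 : ∀ a n, 0 ≤ En1 ε P ν G y M a n) :
    ∑ q ∈ (EV5 ε P Q).erase 1, (q : ℝ) ^ δ * kapProd kap q *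
      ∑ a ∈ (range q).filter (Nat.Coprime q),
        ews (t6 ε P) (u5 ε P) (Vn ε P q) ν G y M 1 0 ((a : ℝ) / q) ≤
      ∑ a ∈ QY5 ε P Q, ∑ b ∈ E05 ε P Q, (if a * b = 1 then 0 else
      (((a : ℝ) ^ δ * kapProd kap a) * ((b : ℝ) ^ δ * kapProd kap b)) * En1 ε P ν G y M a (a * b)) := by
  classical
  set FF : ℕ → ℕ → ℝ := fun a b => if a * b = 1 then 0 else
      (((a : ℝ) ^ δ * kapProd kap a) * ((b : ℝ) ^ δ * kapProd kap b)) * En1 ε P ν G y M a (a * b) with hFF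
  have hW0 : ∀ q : ℕ, 0 ≤ (q : ℝ) ^ δ * kapProd kap q := fun q =>
    mul_nonneg (Real.rpow_nonneg (Nat.cast_nonneg _) _) (kapProd_nonneg' h0 q)
  have hFF0 : ∀ a b, 0 ≤ FF a b := by
    intro a b
    simp only [hFF]
    split_ifs
    · exact le_refl _
    · exact mul_nonneg (mul_nonneg (hW0 a) (hW0 b)) (hE0 _ _)
  refine le_trans ?_ (sum_EV5_le Q FF hFF0)
  refine le_trans (sum_le_sum fun q hq => ?_)
    (sum_le_sum_of_subset_of_nonneg (erase_subset 1 _) fun q _ _ => hFF0 _ _)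
  have hqE := mem_of_mem_erase hq
  have hq1 := ne_of_mem_erase hq
  have hq0 : q ≠ 0 := by
    have := hqE
    unfold EV5 at this
    rw [mem_filter, mem_Icc] at this
    omega
  have hm := fYO_mul (ε := ε) (P := P) hq0
  have ha := fY_mem hqE
  have hb := fO_mem hqE
  have hab := cop_YO ha hb
  have ha1 := (QY5_pos ha).1
  have hb1 := (E05_pos hb).1
  simp only [hFF]
  rw [hm, if_neg hq1]
  have hV : Vn ε P q = Vn ε P (fY ε P q) := by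
    conv_lhs => rw [← hm]
    exact Vn_mul hb
  have hw : (q : ℝ) ^ δ * kapProd kap q = ((fY ε P q : ℝ) ^ δ * kapProd kap (fY ε P q)) *
      ((fO ε P q : ℝ) ^ δ * kapProd kap (fO ε P q)) := by
    have h1 : kapProd kap q = kapProd kap (fY ε P q) * kapProd kap (fO ε P q) := by
      conv_lhs => rw [← hm]
      exact fac_kapProd_mul kap (by omega) (by omega) hab
    have h2 : (q : ℝ) ^ δ = (fY ε P q : ℝ) ^ δ * (fO ε P q : ℝ) ^ δ := by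
      conv_lhs => rw [← hm]
      push_cast
      exact Real.mul_rpow (Nat.cast_nonneg _) (Nat.cast_nonneg _)
    rw [h1, h2]
    ring
  rw [hw, hV]
  unfold En1
  exact le_refl _

end Vale.Agent.P042.UU.RestE
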