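import Vale.Agent.P042.UU.RestG5
import Vale.Agent.P042.TT.FacW
import Vale.Agent.P042.SS.Cost

set_option autoImplicit false

/-!
Block REST5, part W (helper315): the sum over the part at the window; weights of the `z`-part.
-/

namespace Vale.Agent.P042.UU.RestE

open Finset Filter Vale.Agent.P042.SS Vale.Agent.P042.SS.UNC Vale.Agent.P042.TT Vale.Agent.P042.TT.TotB
  Vale.Agent.P042.UU.TotC

variable {ε P : ℝ}

/-- moduli composed of primes of the window, exponents at least two -/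
noncomputable def QY5 (ε P : ℝ) (Q : ℕ) : Finset ℕ :=
  (Icc 1 Q).filter (fun q => ∀ p ∈ q.primeFactors, p ∈ W5 ε P ∧ 2 ≤ q.factorization p)

lemma W5_le (hε : 0 < ε) (hP : 1 ≤ P) {p : ℕ} (hp : p ∈ W5 ε P) :
    P ^ (190 * ε) < p ∧ (p : ℝ) ≤ P ^ (2 : ℝ) ∧ p.Prime := by
  obtain ⟨h1, h2⟩ := mem_W5.1 hp
  have hP0 : 0 < P := by linarith
  refine ⟨lt_of_floor_lt h1.1, ?_, h2⟩
  calc (p : ℝ) ≤ ⌊P ^ (2 - 190 * ε)⌋₊ := by exact_mod_cast h1.2
    _ ≤ P ^ (2 - 190 * ε) := Nat.floor_le (by positivity)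
    _ ≤ P ^ (2 : ℝ) := Real.rpow_le_rpow_of_exponent_le hP (by linarith)

/-- the sum of the reciprocals of the primes of the window is bounded -/
lemma sum_inv_W5 (hε : 0 < ε) (hP : Real.exp 1 ≤ P) :
    ∑ p ∈ W5 ε P, 1 / (p : ℝ) ≤ 3 * Real.log 4 / (190 * ε) := by
  have he : (1 : ℝ) ≤ Real.exp 1 := Real.one_le_exp zero_le_one
  have hP1 : 1 ≤ P := he.trans hP
  have hP0 : 0 < P := by linarith
  have hL : 1 ≤ Real.log P := by
    rw [← Real.log_exp 1]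
    exact Real.log_le_log (Real.exp_pos _) hP
  have h4 : 0 < Real.log 4 := Real.log_pos (by norm_num)
  have h1 : ∀ p ∈ W5 ε P, 1 / (p : ℝ) ≤ (1 / (190 * ε * Real.log P)) * (Real.log p / p) := by
    intro p hp
    obtain ⟨a1, -, a3⟩ := W5_le hε hP1 hp
    have hp0 : (0 : ℝ) < p := by exact_mod_cast a3.pos
    have a4 : 190 * ε * Real.log P ≤ Real.log p := by
      rw [← Real.log_rpow hP0]
      exact Real.log_le_log (by positivity) a1.le
    have a5 : 0 < 190 * ε * Real.log P := by positivity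
    rw [div_mul_div_comm, one_mul, div_le_div_iff₀ hp0 (by positivity)]
    nlinarith
  have h2 : ∑ p ∈ W5 ε P, Real.log p / (p : ℝ) ≤ Real.log 4 * (1 + Real.log ⌊P ^ (2 : ℝ)⌋₊) := by
    refine le_trans ?_ (sum_log_div ⌊P ^ (2 : ℝ)⌋₊)
    refine sum_le_sum_of_subset_of_nonneg ?_ fun p _ _ => div_nonneg (Real.log_natCast_nonneg _) (Nat.cast_nonneg _)
    intro p hp
    obtain ⟨-, a2, a3⟩ := W5_le hε hP1 hp
    rw [mem_filter, mem_range]
    exact ⟨Nat.lt_succ_of_le (Nat.le_floor a2), a3⟩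
  have h3 : Real.log (⌊P ^ (2 : ℝ)⌋₊ : ℝ) ≤ 2 * Real.log P := by
    have hP2 : (1 : ℝ) ≤ P ^ (2 : ℝ) := Real.one_le_rpow hP1 (by norm_num)
    rw [← Real.log_rpow hP0]
    refine Real.log_le_log ?_ (Nat.floor_le (by linarith))
    exact_mod_cast Nat.floor_pos.2 hP2
  calc ∑ p ∈ W5 ε P, 1 / (p : ℝ) ≤ ∑ p ∈ W5 ε P, (1 / (190 * ε * Real.log P)) * (Real.log p / p) :=
        sum_le_sum h1
    _ = (1 / (190 * ε * Real.log P)) * ∑ p ∈ W5 ε P, Real.log p / p := by rw [mul_sum]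
    _ ≤ (1 / (190 * ε * Real.log P)) * (Real.log 4 * (1 + 2 * Real.log P)) := by
        refine mul_le_mul_of_nonneg_left (h2.trans ?_) (by positivity)
        exact mul_le_mul_of_nonneg_left (by linarith) h4.le
    _ ≤ (1 / (190 * ε * Real.log P)) * (Real.log 4 * (3 * Real.log P)) := by
        refine mul_le_mul_of_nonneg_left ?_ (by positivity)
        exact mul_le_mul_of_nonneg_left (by linarith) h4.le
    _ = 3 * Real.log 4 / (190 * ε) := by
        field_simp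

/-- **the sum over the part at the window** -/
theorem sum_QY (k E K p0 : ℕ) (kap : ℕ → ℕ → ℝ) (hE : 1 ≤ E)
    (hK : KapOK k E K p0 kap) (hε : 0 < ε) (hε1 : ε ≤ 1 / 1000) : ∃ c : ℝ, 0 < c ∧ ∃ P0 : ℝ, ∀ P : ℝ, P0 ≤ P →
    ∀ t : ℝ, 0 ≤ t → t ≤ 1 / (50 * (E : ℝ)) → ∀ Q : ℕ,
    ∑ h ∈ QY5 ε P Q, kapProd kap h * (h : ℝ) ^ t ≤ Real.exp (c * P ^ (8 * E * t)) := by
  obtain ⟨S, hS0, hS⟩ := facw_geo E hE
  have hsumT : Summable (fun n : ℕ => (n : ℝ) ^ (-1.5 : ℝ)) :=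
    Real.summable_nat_rpow.2 (by norm_num)
  set T : ℝ := ∑' n : ℕ, (n : ℝ) ^ (-1.5 : ℝ) with hT
  have hTle : ∀ s : Finset ℕ, ∑ n ∈ s, (n : ℝ) ^ (-1.5 : ℝ) ≤ T := fun s =>
    hsumT.sum_le_tsum s (fun n _ => by positivity)
  have hT0 : 0 ≤ T := tsum_nonneg (fun n => by positivity)
  have hER : (1 : ℝ) ≤ E := by exact_mod_cast hE
  have hlog4 : 0 < Real.log 4 := Real.log_pos (by norm_num)
  set c1 : ℝ := 4 * E * k * (3 * Real.log 4 / (190 * ε)) with hc1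
  have hc10 : 0 ≤ c1 := by positivity
  have hev : ∀ᶠ P : ℝ in atTop, Real.exp 1 ≤ P ∧ (p0 : ℝ) ≤ P ^ (190 * ε) := by
    filter_upwards [eventually_ge_atTop (Real.exp 1), ev_const (p0 : ℝ) (a := 190 * ε) (by positivity)]
      with P h1 h2
    exact ⟨h1, h2⟩
  obtain ⟨P0, hP0⟩ := eventually_atTop.1 hev
  refine ⟨c1 + 32 * K * S * T + 1, by positivity, P0, fun P hP t ht0 ht Q => ?_⟩
  obtain ⟨e1, e2⟩ := hP0 P hP
  have hP1 : 1 ≤ P := (Real.one_le_exp zero_le_one).trans e1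
  have hPp : 0 < P := by linarith
  set g : ℕ → ℕ → ℝ := fun p j => kap p j * (p : ℝ) ^ ((j : ℝ) * t) with hg
  have hg0 : ∀ p j, 0 ≤ g p j := fun p j => mul_nonneg (hK.nn _ _) (Real.rpow_nonneg (Nat.cast_nonneg _) _)
  have hmem : ∀ h ∈ QY5 ε P Q, h ≠ 0 ∧ ∀ p ∈ h.primeFactors, p ∈ W5 ε P ∧ h.factorization p ∈ Icc 2 Q := by
    intro h hh
    unfold QY5 at hh
    rw [mem_filter, mem_Icc] at hh
    refine ⟨by omega, fun p hp => ⟨(hh.2 p hp).1, ?_⟩⟩
    rw [mem_Icc]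
    refine ⟨(hh.2 p hp).2, ?_⟩
    have h1 : p ^ h.factorization p ≤ h := Nat.ordProj_le p (by omega)
    have h2 : h.factorization p < p ^ h.factorization p :=
      Nat.lt_pow_self (Nat.prime_of_mem_primeFactors hp).one_lt
    omega
  have h1 : ∑ h ∈ QY5 ε P Q, kapProd kap h * (h : ℝ) ^ t =
      ∑ h ∈ QY5 ε P Q, ∏ p ∈ h.primeFactors, g p (h.factorization p) := by
    refine sum_congr rfl fun h hh => ?_
    have h2 := facw_rpow (hmem h hh).1 t
    rw [h2]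
    unfold kapProd
    rw [← prod_mul_distrib]
  rw [h1]
  refine (facw_euler (W5 ε P) (Icc 2 Q) g hg0 (by simp) _ hmem).trans ?_
  have h2 : ∏ p ∈ W5 ε P, (1 + ∑ j ∈ Icc 2 Q, g p j) ≤
      Real.exp (∑ p ∈ W5 ε P, ∑ j ∈ Icc 2 Q, g p j) := by
    rw [Real.exp_sum]
    refine prod_le_prod (fun p _ => ?_) fun p _ => ?_
    · have := sum_nonneg fun j (_ : j ∈ Icc 2 Q) => hg0 p j
      linarith
    · rw [add_comm]
      exact Real.add_one_le_exp _
  refine h2.trans (Real.exp_le_exp.2 ?_)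
  have hPt : 1 ≤ P ^ (8 * E * t) := Real.one_le_rpow hP1 (by positivity)
  have h3 : ∀ p ∈ W5 ε P, ∑ j ∈ Icc 2 Q, g p j ≤
      4 * E * k * P ^ (8 * E * t) * (1 / (p : ℝ)) + 32 * K * S * (p : ℝ) ^ (-1.5 : ℝ) := by
    intro p hp
    obtain ⟨a1, a2, a3⟩ := W5_le hε hP1 hp
    have hp0 : (0 : ℝ) < p := by exact_mod_cast a3.pos
    have hp1 : (1 : ℝ) ≤ p := by exact_mod_cast a3.one_lt.le
    have hpp : p0 < p := by exact_mod_cast lt_of_le_of_lt e2 a1
    rw [← sum_filter_add_sum_filter_not (Icc 2 Q) (fun j => j ≤ 4 * E)]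
    refine add_le_add ?_ ?_
    · have b1 : ∀ j ∈ (Icc 2 Q).filter (fun j => j ≤ 4 * E), g p j ≤ k * P ^ (8 * E * t) * (1 / (p : ℝ)) := by
        intro j hj
        rw [mem_filter, mem_Icc] at hj
        have b2 := hK.two p j a3 hpp hj.1.1
        have b3 : (p : ℝ) ^ ((j : ℝ) * t) ≤ P ^ (8 * E * t) := by
          have hj4 : (j : ℝ) ≤ 4 * E := by exact_mod_cast hj.2
          calc (p : ℝ) ^ ((j : ℝ) * t) ≤ (P ^ (2 : ℝ)) ^ ((j : ℝ) * t) :=
                Real.rpow_le_rpow hp0.le a2 (by positivity)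
            _ = P ^ (2 * ((j : ℝ) * t)) := by rw [← Real.rpow_mul hPp.le]
            _ ≤ P ^ (8 * E * t) := by
                refine Real.rpow_le_rpow_of_exponent_le hP1 ?_
                nlinarith
        calc g p j ≤ (k / p) * P ^ (8 * E * t) :=
              mul_le_mul b2 b3 (by positivity) (by positivity)
          _ = _ := by ring
      refine (sum_le_card_nsmul _ _ _ b1).trans ?_
      rw [nsmul_eq_mul]
      have b2 : (((Icc 2 Q).filter (fun j => j ≤ 4 * E)).card : ℝ) ≤ 4 * E := by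
        have : ((Icc 2 Q).filter (fun j => j ≤ 4 * E)).card ≤ (Icc 1 (4 * E)).card := by
          apply card_le_card
          intro j hj
          rw [mem_filter, mem_Icc] at hj
          rw [mem_Icc]
          omega
        rw [Nat.card_Icc, Nat.add_sub_cancel] at this
        exact_mod_cast this
      calc (((Icc 2 Q).filter (fun j => j ≤ 4 * E)).card : ℝ) * (k * P ^ (8 * E * t) * (1 / (p : ℝ)))
          ≤ (4 * E) * (k * P ^ (8 * E * t) * (1 / (p : ℝ))) :=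
            mul_le_mul_of_nonneg_right b2 (by positivity)
        _ = _ := by ring
    · have b1 := facw_high (p := p) hE hK.pw hS ht a3 (Js := (Icc 2 Q).filter (fun j => ¬ j ≤ 4 * E))
        (fun j hj => not_le.1 (mem_filter.1 hj).2)
      have b2 : ∑ j ∈ (Icc 2 Q).filter (fun j => ¬ j ≤ 4 * E), g p j ≤
          ∑ j ∈ (Icc 2 Q).filter (fun j => ¬ j ≤ 4 * E), 2 * kap p j * (p : ℝ) ^ ((j : ℝ) * t) := by
        refine sum_le_sum fun j _ => ?_
        have := hg0 p j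
        simp only [hg] at this ⊢
        linarith
      refine b2.trans (b1.trans ?_)
      refine mul_le_mul_of_nonneg_left ?_ (by positivity)
      exact Real.rpow_le_rpow_of_exponent_le hp1 (by norm_num)
  calc ∑ p ∈ W5 ε P, ∑ j ∈ Icc 2 Q, g p j
      ≤ ∑ p ∈ W5 ε P, (4 * E * k * P ^ (8 * E * t) * (1 / (p : ℝ)) + 32 * K * S * (p : ℝ) ^ (-1.5 : ℝ)) :=
        sum_le_sum h3
    _ = 4 * E * k * P ^ (8 * E * t) * ∑ p ∈ W5 ε P, 1 / (p : ℝ) +
        32 * K * S * ∑ p ∈ W5 ε P, (p : ℝ) ^ (-1.5 : ℝ) := by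
        rw [sum_add_distrib, ← mul_sum, ← mul_sum]
    _ ≤ 4 * E * k * P ^ (8 * E * t) * (3 * Real.log 4 / (190 * ε)) + 32 * K * S * T :=
        add_le_add (mul_le_mul_of_nonneg_left (sum_inv_W5 hε e1) (by positivity))
          (mul_le_mul_of_nonneg_left (hTle _) (by positivity))
    _ = c1 * P ^ (8 * E * t) + 32 * K * S * T * 1 := by rw [hc1]; ring
    _ ≤ c1 * P ^ (8 * E * t) + 32 * K * S * T * P ^ (8 * E * t) := by
        have : 0 ≤ 32 * K * S * T := by positivity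
        gcongr
    _ ≤ (c1 + 32 * K * S * T + 1) * P ^ (8 * E * t) := by nlinarith

/-- weights of the `z`-part -/
theorem kap_le_zr5 {k E K p0 : ℕ} {kap : ℕ → ℕ → ℝ} (hkap : KapOK k E K p0 kap) (hε : 0 < ε)
    (hε1 : ε ≤ 1 / 1000) (hP : 1 ≤ P) (h1 : (k : ℝ) ≤ P ^ (ε / 4)) (h2 : (p0 : ℝ) ≤ P ^ (2 - 190 * ε))
    {p j : ℕ} (hp : p.Prime) (hpw : ⌊P ^ (2 - 190 * ε)⌋₊ < p) (hj1 : 1 ≤ j) :
    kap p j ≤ P ^ (-(ε / 4)) * zr5 ε P p j := by
  have hP0 : 0 < P := by linarith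
  have hwp := lt_of_floor_lt hpw
  have hp0 : p0 < p := by exact_mod_cast lt_of_le_of_lt h2 hwp
  have hp1 : (1 : ℝ) ≤ p := by exact_mod_cast hp.one_le
  have hpR : (0 : ℝ) < p := by linarith
  unfold zr5
  split_ifs with hj'
  · subst hj'
    have h3 := hkap.one p hp hp0
    have h4 : (k : ℝ) / Real.sqrt p = k * (p : ℝ) ^ (-(1 / 2) : ℝ) := by
      rw [Real.sqrt_eq_rpow, Real.rpow_neg hpR.le, div_eq_mul_inv]
    rw [h4] at h3
    have h5 : (p : ℝ) ^ (-(1 / 2) : ℝ) ≤ (p : ℝ) ^ (-(1 / 2) + ε / 10 : ℝ) :=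
      Real.rpow_le_rpow_of_exponent_le hp1 (by linarith)
    calc kap p 1 ≤ k * (p : ℝ) ^ (-(1 / 2) : ℝ) := h3
      _ ≤ P ^ (ε / 4) * (p : ℝ) ^ (-(1 / 2) + ε / 10 : ℝ) :=
          mul_le_mul h1 h5 (by positivity) (by positivity)
      _ = P ^ (-(ε / 4)) * (P ^ (ε / 2) * (p : ℝ) ^ (-(1 / 2) + ε / 10 : ℝ)) := by
          rw [← mul_assoc, ← Real.rpow_add hP0]
          congr 2
          ring
  · have h3 := hkap.two p j hp hp0 (by omega)
    have h4 : (k : ℝ) / p = k * (p : ℝ) ^ (-1 : ℝ) := by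
      rw [Real.rpow_neg_one, div_eq_mul_inv]
    rw [h4] at h3
    have hPp : P ≤ p := by
      refine le_trans ?_ hwp.le
      conv_lhs => rw [← Real.rpow_one P]
      exact Real.rpow_le_rpow_of_exponent_le hP (by linarith)
    have h5 : (k : ℝ) ≤ P ^ (-(ε / 4)) * (p : ℝ) ^ (0.1 : ℝ) := by
      calc (k : ℝ) ≤ P ^ (ε / 4) := h1
        _ ≤ P ^ (-(ε / 4) + 0.1) := Real.rpow_le_rpow_of_exponent_le hP (by linarith)
        _ = P ^ (-(ε / 4)) * P ^ (0.1 : ℝ) := by rw [Real.rpow_add hP0]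
        _ ≤ P ^ (-(ε / 4)) * (p : ℝ) ^ (0.1 : ℝ) :=
            mul_le_mul_of_nonneg_left (Real.rpow_le_rpow hP0.le hPp (by norm_num)) (by positivity)
    calc kap p j ≤ k * (p : ℝ) ^ (-1 : ℝ) := h3
      _ ≤ (P ^ (-(ε / 4)) * (p : ℝ) ^ (0.1 : ℝ)) * (p : ℝ) ^ (-1 : ℝ) :=
          mul_le_mul_of_nonneg_right h5 (by positivity)
      _ = P ^ (-(ε / 4)) * (p : ℝ) ^ (-0.9 : ℝ) := by
          rw [mul_assoc, ← Real.rpow_add hpR]
          norm_num

end Vale.Agent.P042.UU.RestE
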