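import Vale.Agent.P042.UU.One5
import Vale.Agent.P042.UU.MomA
import Vale.Agent.P042.TT.Restd

set_option autoImplicit false

/-!
Theorem S5, block REST5, sharp part: the moduli `d ≠ 1` dividing a fixed modulus `D`.
-/

namespace Vale.Agent.P042.UU

open Polynomial Finset Filter Vale.Agent.P042.SS Vale.Agent.P042.TT

/-- the moduli `d ≠ 1` dividing `D` -/
def RESTD5Stmt : Prop :=
  ∀ (k : ℕ) (ε : ℝ), 1 ≤ k → 0 < ε → ε ≤ 1 / 1000 → ∃ P0 : ℝ, ∀ P : ℝ, P0 ≤ P →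
  ∀ (N' : ℕ) (Φ : ℝ) (G : ℤ → ℝ) (ν : ℕ → ℤ → ℝ), St5 ε P k N' Φ G ν →
  ∀ (V : Finset ℕ) (D M : ℕ) (y : ℤ), V ⊆ W5 ε P → M ≤ N' → N' ≤ 32 * M → 1 ≤ D →
    Real.log D ≤ P ^ (95.5 * ε) → (∀ p ∈ V, Nat.Coprime p D) →
    ∑ d ∈ D.divisors.erase 1, ∑ a ∈ (range d).filter (Nat.Coprime d),
      ews (t6 ε P) (u5 ε P) V ν G y M 1 0 ((a : ℝ) / d) ≤
      P ^ (-(0.3 * ε)) * (M * Φ) ^ 2 +
        2 * (mass G y M 1 0 * |Φ * cnt N' y M - mass G y M 1 0|)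

/-- growth facts -/
structure RdBig5 (C ε P : ℝ) : Prop where
  P1000 : 1000 ≤ P
  lgD : 1 * P ^ (95.5 * ε) ≤ P ^ (1 - 92 * ε)
  e1 : 4 * P ^ (-(0.5 * ε)) ≤ P ^ (-(0.4 * ε))
  e3 : 4 * P ^ (-(0.4 * ε)) ≤ P ^ (-(0.3 * ε))
  inv : 16384 * P ^ (-(1 : ℝ)) ≤ P ^ (-(0.4 * ε))
  C1 : C * P ^ (-(0.3 * ε)) ≤ P ^ (0 : ℝ)
  C2 : (12 * C) * P ^ (-(8 * ε)) ≤ P ^ (-(0.3 * ε))
  dT : 7 * P ^ (1 - 57 * ε) ≤ P ^ (1 - 53 * ε)

theorem rd5_big (C ε : ℝ) (hε : 0 < ε) (hε1 : ε ≤ 1 / 1000) :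
    ∀ᶠ P : ℝ in atTop, RdBig5 C ε P := by
  filter_upwards [eventually_ge_atTop 1000,
    mom5_pow_dom (95.5 * ε) (1 - 92 * ε) 1 (by linarith),
    mom5_pow_dom (-(0.5 * ε)) (-(0.4 * ε)) 4 (by linarith),
    mom5_pow_dom (-(0.4 * ε)) (-(0.3 * ε)) 4 (by linarith),
    mom5_pow_dom (-(1 : ℝ)) (-(0.4 * ε)) 16384 (by linarith),
    mom5_pow_dom (-(0.3 * ε)) 0 C (by linarith),
    mom5_pow_dom (-(8 * ε)) (-(0.3 * ε)) (12 * C) (by linarith),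
    mom5_pow_dom (1 - 57 * ε) (1 - 53 * ε) 7 (by linarith)]
    with P h1 h2 h3 h4 h5 h6 h7 h8
  exact ⟨h1, h2, h3, h4, h5, h6, h7, h8⟩

section

variable {ε P C : ℝ} {k N' : ℕ} {Φ : ℝ} {G : ℤ → ℝ} {ν : ℕ → ℤ → ℝ}

/-- sharp bound for the mass of a class -/
theorem rd5_mass (hε : 0 < ε) (hε1 : ε ≤ 1 / 1000) (hB : RdBig5 C ε P)
    (hS : Sb5 ε P k N' Φ G ν) {R M : ℕ} (y r : ℤ)
    (hR : 1 ≤ R) (hRP : Real.log R ≤ P ^ (95.5 * ε)) (hMN : M ≤ N') (hM : (N' : ℝ) ≤ P * M) :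
    mass G y M R r ≤ (1 + P ^ (-(0.4 * ε))) * Φ * M / R := by
  have hP1 : 1 ≤ P := by linarith [hB.P1000]
  have hP0 : 0 < P := by linarith
  have hΦ : 0 < Φ := lt_of_lt_of_le (Real.exp_pos _) hS.Φlo
  have h1 := hS.sup R M y r hR (by
    have h2 := hB.lgD
    have h3 := Real.rpow_le_rpow_of_exponent_le hP1 (show 1 - 92 * ε ≤ 1 - 51 * ε by linarith)
    linarith) hMN hM
  have hlR0 : 0 ≤ Real.log R := Real.log_nonneg (by exact_mod_cast hR)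
  have h2 : P ^ (-(90 * ε)) + b5 ε P * Real.log R ≤ 2 * P ^ (-(0.5 * ε)) := by
    have h3 : P ^ (-(90 * ε)) ≤ P ^ (-(0.5 * ε)) :=
      Real.rpow_le_rpow_of_exponent_le hP1 (by linarith)
    have h4 : b5 ε P * Real.log R ≤ P ^ (-(0.5 * ε)) := by
      unfold b5
      calc P ^ (-(96 * ε)) * Real.log R ≤ P ^ (-(96 * ε)) * P ^ (95.5 * ε) := by gcongr
        _ = P ^ (-(0.5 * ε)) := by rw [← Real.rpow_add hP0]; congr 1; ring
    linarith
  have h3 : Real.exp (P ^ (-(90 * ε)) + b5 ε P * Real.log R) ≤ 1 + P ^ (-(0.4 * ε)) := by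
    have h4 : P ^ (-(0.4 * ε)) ≤ 1 :=
      Real.rpow_le_one_of_one_le_of_nonpos hP1 (by linarith)
    have h5 := hB.e1
    have h6 : 0 ≤ P ^ (-(0.5 * ε)) := by positivity
    refine (Real.exp_le_exp.2 h2).trans ?_
    have h7 : |2 * P ^ (-(0.5 * ε))| ≤ 1 := by
      rw [abs_of_nonneg (by positivity)]; linarith
    have h8 := Real.abs_exp_sub_one_le h7
    rw [abs_of_nonneg (by positivity : (0 : ℝ) ≤ 2 * P ^ (-(0.5 * ε)))] at h8
    have h9 := le_abs_self (Real.exp (2 * P ^ (-(0.5 * ε))) - 1)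
    linarith
  refine h1.trans ?_
  have h4 : 0 ≤ (M : ℝ) * Φ / R := by positivity
  calc (M : ℝ) * Φ / R * Real.exp (P ^ (-(90 * ε)) + b5 ε P * Real.log R)
      ≤ (M : ℝ) * Φ / R * (1 + P ^ (-(0.4 * ε))) := mul_le_mul_of_nonneg_left h3 h4
    _ = _ := by ring

theorem rd5_win (hε : 0 < ε) (hε1 : ε ≤ 1 / 1000) (hB : RdBig5 C ε P)
    (hS : Sb5 ε P k N' Φ G ν) (R M : ℕ) (y r : ℤ)
    (hR : 1 ≤ R) (hRP : Real.log R ≤ P ^ (95.5 * ε)) :
    ((N' : ℝ) ≤ P * cnt N' y M →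
        mass G y M R r ≤ (1 + P ^ (-(0.4 * ε))) * Φ * cnt N' y M / R) ∧
      (P * cnt N' y M < N' → mass G y M R r ≤ 2 * Φ * ((N' : ℝ) / P + 1) / R) := by
  have hP1 : 1 ≤ P := by linarith [hB.P1000]
  have hPp : 0 < P := by linarith
  have hΦ : 0 < Φ := lt_of_lt_of_le (Real.exp_pos _) hS.Φlo
  have hN0 : (0 : ℝ) < N' := (Real.exp_pos _).trans_le hS.N'lo
  rw [DEN.mass_inter hS.Gsupp y M R r]
  refine ⟨fun h => rd5_mass hε hε1 hB hS _ r hR hRP (DEN.cnt_le N' y M) h, fun h => ?_⟩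
  set M2 := ⌈(N' : ℝ) / P⌉₊ with hM2
  have h1 : (N' : ℝ) / P ≤ M2 := Nat.le_ceil _
  have h2 : (M2 : ℝ) ≤ N' / P + 1 := (Nat.ceil_lt_add_one (by positivity)).le
  have h3 : cnt N' y M ≤ M2 := by
    have h4 : (cnt N' y M : ℝ) ≤ M2 := by
      refine le_trans ?_ h1
      rw [le_div_iff₀ hPp]
      linarith
    exact_mod_cast h4
  have h4 : M2 ≤ N' := by
    rw [hM2, Nat.ceil_le]
    exact div_le_self hN0.le hP1
  have h5 : (N' : ℝ) ≤ P * M2 := by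
    rw [div_le_iff₀ hPp] at h1
    linarith
  refine (DEN.mass_mono hS.G0 _ h3 R r).trans ?_
  refine (rd5_mass hε hε1 hB hS _ r hR hRP h4 h5).trans ?_
  have h6 : P ^ (-(0.4 * ε)) ≤ 1 :=
    Real.rpow_le_one_of_one_le_of_nonpos hP1 (by linarith)
  have hR0 : (0 : ℝ) < R := Nat.cast_pos.2 hR
  gcongr
  linarith

/-- the classes mod `D` without the trivial frequency, from the sup bounds of the masses -/
theorem rd5_first (hε : 0 < ε) (hB : RdBig5 C ε P) (hS : Sb5 ε P k N' Φ G ν)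
    {D M : ℕ} {y : ℤ} (hD : 1 ≤ D) (hN : N' ≤ 32 * M)
    (hwD : ∀ r : ℤ, ((N' : ℝ) ≤ P * cnt N' y M →
        mass G y M D r ≤ (1 + P ^ (-(0.4 * ε))) * Φ * cnt N' y M / D) ∧
      (P * cnt N' y M < N' → mass G y M D r ≤ 2 * Φ * ((N' : ℝ) / P + 1) / D))
    (hw1 : ((N' : ℝ) ≤ P * cnt N' y M →
        mass G y M 1 0 ≤ (1 + P ^ (-(0.4 * ε))) * Φ * cnt N' y M) ∧
      (P * cnt N' y M < N' → mass G y M 1 0 ≤ 2 * Φ * ((N' : ℝ) / P + 1))) :
    D * ∑ r ∈ range D, (mass G y M D r) ^ 2 - (mass G y M 1 0) ^ 2 ≤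
      2 * P ^ (-(0.4 * ε)) * (M * Φ) ^ 2 +
        2 * (mass G y M 1 0 * |Φ * cnt N' y M - mass G y M 1 0|) := by
  have hP1 : 1 ≤ P := by linarith [hB.P1000]
  have hP0 : 0 < P := by linarith
  have hΦ : 0 < Φ := lt_of_lt_of_le (Real.exp_pos _) hS.Φlo
  have hG := hS.G0
  have hX0 : 0 ≤ (M * Φ) ^ 2 := sq_nonneg _
  have hm0 := rd_mass_nonneg hG y M 1 0
  have heps : 0 ≤ P ^ (-(0.4 * ε)) := by positivity
  have heps1 : P ^ (-(0.4 * ε)) ≤ 1 :=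
    Real.rpow_le_one_of_one_le_of_nonpos hP1 (by linarith)
  have habs : 0 ≤ mass G y M 1 0 * |Φ * cnt N' y M - mass G y M 1 0| :=
    mul_nonneg hm0 (abs_nonneg _)
  rcases le_or_gt ((N' : ℝ)) (P * cnt N' y M) with hcase | hcase
  · have h1 := rd_sq_le hG y M D hD (B := (1 + P ^ (-(0.4 * ε))) * Φ * cnt N' y M)
      (fun r => (hwD r).1 hcase)
    have h2 := hw1.1 hcase
    have hcM : (cnt N' y M : ℝ) ≤ M := by exact_mod_cast rd_cnt_le N' y M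
    have hc0 : (0 : ℝ) ≤ cnt N' y M := Nat.cast_nonneg _
    have hPc : Φ * cnt N' y M ≤ M * Φ := by
      rw [mul_comm]; exact mul_le_mul_of_nonneg_right hcM hΦ.le
    have hPc0 : 0 ≤ Φ * cnt N' y M := mul_nonneg hΦ.le hc0
    have h3 : mass G y M 1 0 ≤ 2 * (M * Φ) := by
      calc mass G y M 1 0 ≤ (1 + P ^ (-(0.4 * ε))) * Φ * cnt N' y M := h2
        _ = (1 + P ^ (-(0.4 * ε))) * (Φ * cnt N' y M) := by ring
        _ ≤ 2 * (M * Φ) := mul_le_mul (by linarith) hPc hPc0 (by norm_num)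
    have h4 : P ^ (-(0.4 * ε)) * ((Φ * cnt N' y M) * mass G y M 1 0) ≤
        P ^ (-(0.4 * ε)) * ((M * Φ) * (2 * (M * Φ))) :=
      mul_le_mul_of_nonneg_left (mul_le_mul hPc h3 hm0 (by positivity)) heps
    have h5 : mass G y M 1 0 * (Φ * cnt N' y M - mass G y M 1 0) ≤
        mass G y M 1 0 * |Φ * cnt N' y M - mass G y M 1 0| :=
      mul_le_mul_of_nonneg_left (le_abs_self _) hm0
    generalize P ^ (-(0.4 * ε)) = c at *
    generalize |Φ * cnt N' y M - mass G y M 1 0| = z at *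
    generalize (D : ℝ) * ∑ r ∈ range D, (mass G y M D r) ^ 2 = A at *
    nlinarith
  · have h1 := rd_sq_le hG y M D hD (B := 2 * Φ * ((N' : ℝ) / P + 1))
      (fun r => (hwD r).2 hcase)
    have h2 := hw1.2 hcase
    have hNP : (N' : ℝ) / P + 1 ≤ 64 * M / P := by
      have h3 : (N' : ℝ) ≤ 32 * M := by exact_mod_cast hN
      have h4 : P ≤ 32 * M := by
        have h5 : P ≤ Real.exp (7 / 8 * P) := by
          have h6 : 1 + 7 / 8 * P + (7 / 8 * P) ^ 2 / 2 ≤ Real.exp (7 / 8 * P) :=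
            Real.quadratic_le_exp_of_nonneg (by positivity)
          have h7 : 1000 * P ≤ P * P := mul_le_mul_of_nonneg_right hB.P1000 hP0.le
          nlinarith
        linarith [hS.N'lo]
      have h7 : (N' : ℝ) / P ≤ 32 * M / P := div_le_div_of_nonneg_right h3 hP0.le
      have h8 : 1 ≤ 32 * M / P := by rw [le_div_iff₀ hP0]; linarith
      have h9 : 64 * (M : ℝ) / P = 32 * M / P + 32 * M / P := by ring
      linarith
    have h3 : 2 * Φ * ((N' : ℝ) / P + 1) ≤ 128 / P * (M * Φ) := by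
      calc 2 * Φ * ((N' : ℝ) / P + 1) ≤ 2 * Φ * (64 * M / P) :=
            mul_le_mul_of_nonneg_left hNP (by positivity)
        _ = 128 / P * (M * Φ) := by ring
    have h4 : D * ∑ r ∈ range D, (mass G y M D r) ^ 2 ≤
        (128 / P * (M * Φ)) * (128 / P * (M * Φ)) :=
      h1.trans (mul_le_mul h3 (h2.trans h3) hm0 (by positivity))
    have h5 : (128 / P) * (128 / P) ≤ 2 * P ^ (-(0.4 * ε)) := by
      have h6 : (128 / P) * (128 / P) ≤ 16384 * P ^ (-(1 : ℝ)) := by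
        rw [Real.rpow_neg_one, div_mul_div_comm, div_le_iff₀ (by positivity)]
        have h7 : 16384 * P⁻¹ * (P * P) = 16384 * P := by
          field_simp
        rw [h7]
        have := hB.P1000
        norm_num
        linarith
      have h8 := hB.inv
      linarith
    have h9 : (128 / P * (M * Φ)) * (128 / P * (M * Φ)) ≤
        2 * P ^ (-(0.4 * ε)) * (M * Φ) ^ 2 := by
      calc (128 / P * (M * Φ)) * (128 / P * (M * Φ)) =
            ((128 / P) * (128 / P)) * (M * Φ) ^ 2 := by ring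
        _ ≤ _ := mul_le_mul_of_nonneg_right h5 hX0
    have h10 : 0 ≤ (mass G y M 1 0) ^ 2 := sq_nonneg _
    linarith

end

end Vale.Agent.P042.UU
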