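import Vale.Agent.P042.UU.SpecD
import Vale.Agent.P042.SS.ANFou0

set_option autoImplicit false

/-!
Theorem S5, block ROOT5 (helper323): the kernel counts the roots of `f = t` mod `p`.
-/

namespace Vale.Agent.P042.UU

open Polynomial Finset Vale.Agent.P042.SS Vale.Agent.P042.TT

theorem root_gam_sum (f : ℤ[X]) (p : ℕ) (hp : 0 < p) (t : ℤ) :
    ∑ c ∈ range p, Gam f c p * e (-((c : ℝ) * (t : ℝ) / (p : ℝ))) =
      (((range p).filter (fun x : ℕ => (p : ℤ) ∣ f.eval (x : ℤ) - t)).card : ℂ) := by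
  have hp' : (p : ℂ) ≠ 0 := by exact_mod_cast hp.ne'
  have h1 : ∀ c ∈ range p, Gam f c p * e (-((c : ℝ) * (t : ℝ) / (p : ℝ))) =
      (∑ x ∈ range p, e (((f.eval (x : ℤ) - t : ℤ) : ℝ) * ((c : ℝ) / p))) / p := by
    intro c _
    rw [Gam, div_mul_eq_mul_div, Finset.sum_mul]
    congr 1
    refine Finset.sum_congr rfl fun x _ => ?_
    rw [← e_add]
    congr 1
    push_cast
    ring
  rw [Finset.sum_congr rfl h1, ← Finset.sum_div, Finset.sum_comm]
  have h2 : ∀ x ∈ range p, ∑ c ∈ range p, e (((f.eval (x : ℤ) - t : ℤ) : ℝ) * ((c : ℝ) / p)) =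
      if (p : ℤ) ∣ f.eval (x : ℤ) - t then (p : ℂ) else 0 := fun x _ =>
    Vale.Agent.P042.SS.AN.orth p hp _
  rw [Finset.sum_congr rfl h2, ← Finset.sum_filter, Finset.sum_const, nsmul_eq_mul,
    mul_div_assoc, div_self hp', mul_one]

theorem root_kp_eq (f : ℤ[X]) (p : ℕ) (hp : 0 < p) (t : ℤ) :
    kp f p t = (((range p).filter (fun x : ℕ => (p : ℤ) ∣ f.eval (x : ℤ) - t)).card : ℝ) - 1 := by
  have h1 := congrArg Complex.re (root_gam_sum f p hp t)
  rw [Complex.natCast_re, Complex.re_sum, Finset.range_eq_Ico,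
    Finset.sum_eq_sum_Ico_succ_bot hp] at h1
  have h2 : (Gam f ((0 : ℕ) : ℤ) p * e (-(((0 : ℕ) : ℝ) * (t : ℝ) / (p : ℝ)))).re = 1 := by
    have hp' : (p : ℂ) ≠ 0 := by exact_mod_cast hp.ne'
    have : Gam f ((0 : ℕ) : ℤ) p = 1 := by
      rw [Gam]
      have : ∀ x ∈ range p, e (((0 : ℕ) : ℤ) * ((f.eval (x : ℤ) : ℤ) : ℝ) / p) = 1 := by
        intro x _
        push_cast
        rw [zero_mul, zero_div, e_zero]
      rw [Finset.sum_congr rfl this]
      simp [hp']
    rw [this]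
    push_cast
    rw [zero_mul, zero_div, neg_zero, e_zero]
    simp
  rw [h2] at h1
  have h3 : kp f p t = ∑ c ∈ Ico (0 + 1) p, (Gam f (c : ℕ) p * e (-((c : ℝ) * (t : ℝ) / (p : ℝ)))).re := rfl
  rw [h3]
  rw [Finset.range_eq_Ico]
  linarith

theorem root_card_le (f : ℤ[X]) (p : ℕ) [Fact p.Prime] (t : ℤ)
    (hf : ∃ j : ℕ, 1 ≤ j ∧ ¬ (p : ℤ) ∣ f.coeff j) :
    ((range p).filter (fun x : ℕ => (p : ℤ) ∣ f.eval (x : ℤ) - t)).card ≤ f.natDegree := by
  classical
  set g : (ZMod p)[X] := (f - C t).map (Int.castRingHom (ZMod p)) with hg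
  have hg0 : g ≠ 0 := by
    obtain ⟨j, hj, hj2⟩ := hf
    intro h0
    apply hj2
    have h1 : g.coeff j = 0 := by rw [h0, coeff_zero]
    rw [hg, coeff_map, coeff_sub, coeff_C, if_neg (by omega), sub_zero, eq_intCast,
      ZMod.intCast_zmod_eq_zero_iff_dvd] at h1
    exact h1
  have hdeg : g.natDegree ≤ f.natDegree := by
    calc g.natDegree ≤ (f - C t).natDegree := natDegree_map_le
      _ ≤ max f.natDegree (C t).natDegree := natDegree_sub_le _ _
      _ = f.natDegree := by rw [natDegree_C]; exact Nat.max_eq_left (Nat.zero_le _)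
  calc ((range p).filter (fun x : ℕ => (p : ℤ) ∣ f.eval (x : ℤ) - t)).card
      ≤ g.roots.toFinset.card := by
        apply Finset.card_le_card_of_injOn (fun n : ℕ => (n : ZMod p))
        · intro x hx
          rw [Finset.coe_filter] at hx
          simp only [Finset.mem_coe, Multiset.mem_toFinset]
          rw [mem_roots hg0, IsRoot.def, hg]
          have : (((x : ℤ) : ZMod p)) = ((x : ℕ) : ZMod p) := by push_cast; rfl
          rw [← this, eval_intCast_map]
          have h2 : (f - C t).eval (x : ℤ) = f.eval (x : ℤ) - t := by simp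
          rw [Int.cast_id, h2, eq_intCast, ZMod.intCast_zmod_eq_zero_iff_dvd]
          exact hx.2
        · intro a ha b hb hab
          rw [Finset.coe_filter] at ha hb
          have ha' := Finset.mem_range.1 ha.1
          have hb' := Finset.mem_range.1 hb.1
          have h3 : ((a : ℕ) : ZMod p) = ((b : ℕ) : ZMod p) := hab
          rw [ZMod.natCast_eq_natCast_iff, Nat.ModEq, Nat.mod_eq_of_lt ha',
            Nat.mod_eq_of_lt hb'] at h3
          exact h3
    _ ≤ g.roots.card := Multiset.toFinset_card_le _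
    _ ≤ g.natDegree := card_roots' g
    _ ≤ f.natDegree := hdeg

/-- block ROOT5 -/
theorem root5_holds : ROOT5Stmt := by
  intro k R f hk hR hdeg hg p hp hRp t
  have : Fact p.Prime := ⟨hp⟩
  have hf : ∃ j : ℕ, 1 ≤ j ∧ ¬ (p : ℤ) ∣ f.coeff j := by
    by_contra hcon
    push Not at hcon
    have h1 := hg p hcon
    have h2 : (p : ℕ) ∣ R := by exact_mod_cast h1
    have := Nat.le_of_dvd hR h2
    omega
  have h1 := root_card_le f p t hf
  rw [hdeg] at h1
  rw [root_kp_eq f p hp.pos t]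
  have h2 : ((((range p).filter (fun x : ℕ => (p : ℤ) ∣ f.eval (x : ℤ) - t)).card : ℕ) : ℝ) ≤ k := by
    exact_mod_cast h1
  have h3 : (0 : ℝ) ≤ (((range p).filter (fun x : ℕ => (p : ℤ) ∣ f.eval (x : ℤ) - t)).card : ℝ) :=
    Nat.cast_nonneg _
  have h4 : (1 : ℝ) ≤ k := by exact_mod_cast hk
  rw [abs_le]
  constructor <;> linarith

end Vale.Agent.P042.UU
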