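import Vale.Agent.P042.UU.SpecC
import Vale.Agent.P042.H584.Sum

set_option autoImplicit false

/-!
Theorem S5, block SUM5: Parseval over the classes mod `D` and CORE for each class
(as block SUM of helper584).
-/

namespace Vale.Agent.P042.UU

open Polynomial Finset Vale.Agent.P042.SS Vale.Agent.P042.TT

theorem sum5_of (h : CORE5Stmt) : SUM5Stmt := by
  intro k J' ε hk hJ' hε hε1
  obtain ⟨C, P0, hC, hcore⟩ := h k J' ε hk hJ' hε hε1
  refine ⟨C, max P0 32, hC, ?_⟩
  intro P hP N' Φ G ν hst V D M y hV hM hN' hD hDlog hcop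
  have hP0 : P0 ≤ P := le_trans (le_max_left _ _) hP
  have hP32 : (32 : ℝ) ≤ P := le_trans (le_max_right _ _) hP
  have hNM : (N' : ℝ) ≤ P * M := by
    have h1 : (N' : ℝ) ≤ 32 * M := by exact_mod_cast hN'
    have h2 : (32 : ℝ) * M ≤ P * M := mul_le_mul_of_nonneg_right hP32 (Nat.cast_nonneg _)
    linarith
  have hD' : (0 : ℝ) < D := by exact_mod_cast hD
  have hqD : ∀ q ∈ (QZ5 ε P J' (Q5 ε P)).filter (fun q => Nat.Coprime q D), 1 ≤ q ∧
      Nat.Coprime D q := by
    intro q hq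
    rw [Finset.mem_filter] at hq
    refine ⟨?_, hq.2.symm⟩
    have h1 := hq.1
    unfold QZ5 at h1
    rw [Finset.mem_filter, Finset.mem_Icc] at h1
    exact h1.1.1
  set F := V.powerset.filter (fun T => T.card ≤ dT5 ε P) with hF
  have main : ∑ d ∈ D.divisors, ∑ q ∈ (QZ5 ε P J' (Q5 ε P)).filter (fun q => Nat.Coprime q D),
      zR5 ε P q * ∑ a ∈ (range (d * q)).filter (Nat.Coprime (d * q)),
        totd (t5 ε P) (dT5 ε P) V ν G y M 1 0 ((a : ℝ) / ((d * q : ℕ) : ℝ)) =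
      D * ∑ r ∈ range D, ∑ T ∈ F, wtR (t5 ε P) V T *
      ∑ q ∈ (QZ5 ε P J' (Q5 ε P)).filter (fun q => Nat.Coprime q D),
        zR5 ε P q * ∑ a ∈ (range q).filter (Nat.Coprime q),
          enT ν G y M D (r : ℤ) ((a : ℝ) / q) T := by
    rw [Finset.sum_comm]
    have h1 : ∀ q ∈ (QZ5 ε P J' (Q5 ε P)).filter (fun q => Nat.Coprime q D),
        ∑ d ∈ D.divisors, zR5 ε P q * ∑ a ∈ (range (d * q)).filter (Nat.Coprime (d * q)),
          totd (t5 ε P) (dT5 ε P) V ν G y M 1 0 ((a : ℝ) / ((d * q : ℕ) : ℝ)) =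
        ∑ r ∈ range D, ∑ T ∈ F, D * (wtR (t5 ε P) V T *
          (zR5 ε P q * ∑ a ∈ (range q).filter (Nat.Coprime q),
            enT ν G y M D (r : ℤ) ((a : ℝ) / q) T)) := by
      intro q hq
      obtain ⟨hq1, hqc⟩ := hqD q hq
      rw [← Finset.mul_sum]
      unfold totd
      rw [← hF]
      have h2 : ∀ d ∈ D.divisors, ∑ a ∈ (range (d * q)).filter (Nat.Coprime (d * q)),
          ∑ T ∈ F, wtR (t5 ε P) V T *
            enT ν G y M 1 0 ((a : ℝ) / ((d * q : ℕ) : ℝ)) T =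
          ∑ T ∈ F, wtR (t5 ε P) V T *
            ∑ a ∈ (range (d * q)).filter (Nat.Coprime (d * q)),
              enT ν G y M 1 0 ((a : ℝ) / ((d * q : ℕ) : ℝ)) T := by
        intro d _
        rw [Finset.sum_comm]
        exact Finset.sum_congr rfl fun T _ => by rw [Finset.mul_sum]
      rw [Finset.sum_congr rfl h2, Finset.sum_comm]
      have h3 : ∀ T ∈ F, ∑ d ∈ D.divisors, wtR (t5 ε P) V T *
            ∑ a ∈ (range (d * q)).filter (Nat.Coprime (d * q)),
              enT ν G y M 1 0 ((a : ℝ) / ((d * q : ℕ) : ℝ)) T =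
          wtR (t5 ε P) V T * (D * ∑ r ∈ range D, ∑ a ∈ (range q).filter (Nat.Coprime q),
            enT ν G y M D (r : ℤ) ((a : ℝ) / q) T) := by
        intro T _
        rw [← Finset.mul_sum, SumB.enT_sum ν G y M D q hD hq1 hqc T]
      rw [Finset.sum_congr rfl h3, Finset.mul_sum]
      rw [Finset.sum_comm (s := range D)]
      refine Finset.sum_congr rfl fun T _ => ?_
      rw [Finset.mul_sum, Finset.mul_sum, Finset.mul_sum]
      refine Finset.sum_congr rfl fun r _ => ?_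
      ring
    rw [Finset.sum_congr rfl h1, Finset.sum_comm, Finset.mul_sum]
    refine Finset.sum_congr rfl fun r _ => ?_
    rw [Finset.sum_comm, Finset.mul_sum]
    refine Finset.sum_congr rfl fun T _ => ?_
    rw [Finset.mul_sum, Finset.mul_sum]
  rw [main]
  have hb : ∀ r ∈ range D, ∑ T ∈ F, wtR (t5 ε P) V T *
      ∑ q ∈ (QZ5 ε P J' (Q5 ε P)).filter (fun q => Nat.Coprime q D),
        zR5 ε P q * ∑ a ∈ (range q).filter (Nat.Coprime q),
          enT ν G y M D (r : ℤ) ((a : ℝ) / q) T ≤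
      C * (D : ℝ) ^ (C * bc5 ε P) * (M * Φ / D) ^ 2 := fun r _ =>
    hcore P hP0 N' Φ G ν hst V D M y r hV hD hcop hDlog hM hNM
  have hs := Finset.sum_le_sum hb
  rw [Finset.sum_const, Finset.card_range, nsmul_eq_mul] at hs
  refine (mul_le_mul_of_nonneg_left hs hD'.le).trans (le_of_eq ?_)
  field_simp

end Vale.Agent.P042.UU
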