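import Vale.Agent.P042.H455.TiltD

set_option autoImplicit false
set_option linter.unusedSectionVars false
set_option linter.unusedVariables false

/-!
Block TILT5, part 1: pure functions with multipliers.
-/

namespace Vale.Agent.P042.UU.TU

open Finset Vale.Agent.P042.H455

variable {ι : Type*} [Fintype ι] [DecidableEq ι] {X : ι → Type*} [∀ i, Fintype (X i)]
  {μ : ∀ i, X i → ℝ}

/-- average over one coordinate -/
def Av (μ : ∀ i, X i → ℝ) (i : ι) (h : (∀ i, X i) → ℝ) (x : ∀ i, X i) : ℝ :=
  ∑ t, μ i t * h (Function.update x i t)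

lemma Av_update (i : ι) (h : (∀ i, X i) → ℝ) (x : ∀ i, X i) (t : X i) :
    Av μ i h (Function.update x i t) = Av μ i h x := by
  unfold Av
  simp only [Function.update_idem]

lemma Av_dep {i : ι} {V : Finset ι} {h : (∀ i, X i) → ℝ} (hh : DepOn (insert i V) h) :
    DepOn V (Av μ i h) := by
  intro x y hxy
  unfold Av
  refine sum_congr rfl fun t _ => ?_
  rw [hh (Function.update x i t) (Function.update y i t)]
  intro j hj
  by_cases hji : j = i
  · subst hji; simp
  · rw [Function.update_of_ne hji, Function.update_of_ne hji]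
    rcases mem_insert.1 hj with h1 | h1
    · exact absurd h1 hji
    · exact hxy j h1

lemma Av_cent {i j : ι} (hij : j ≠ i) {h : (∀ i, X i) → ℝ} (hh : Cent μ j h) :
    Cent μ j (Av μ i h) := by
  intro x
  unfold Av
  simp only [mul_sum]
  rw [sum_comm]
  refine sum_eq_zero fun t _ => ?_
  have h1 := hh (Function.update x i t)
  have h2 : ∀ s, Function.update (Function.update x j s) i t =
      Function.update (Function.update x i t) j s := fun s => Function.update_comm hij s t x
  simp only [h2]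
  calc ∑ s, μ j s * (μ i t * h (Function.update (Function.update x i t) j s))
      = μ i t * ∑ s, μ j s * h (Function.update (Function.update x i t) j s) := by
        rw [mul_sum]
        exact sum_congr rfl fun s _ => by ring
    _ = 0 := by rw [h1, mul_zero]

/-- multiplication by a function of the coordinate `i` -/
def Mu (i : ι) (m : X i → ℝ) (h : (∀ i, X i) → ℝ) (x : ∀ i, X i) : ℝ := m (x i) * h x

lemma Mu_dep {i : ι} {V : Finset ι} (hi : i ∈ V) (m : X i → ℝ) {h : (∀ i, X i) → ℝ}
    (hh : DepOn V h) : DepOn V (Mu i m h) := by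
  intro x y hxy
  unfold Mu
  rw [hh x y hxy, hxy i hi]

lemma Mu_cent {i j : ι} (hij : j ≠ i) (m : X i → ℝ) {h : (∀ i, X i) → ℝ} (hh : Cent μ j h) :
    Cent μ j (Mu i m h) := by
  intro x
  unfold Mu
  have h1 := hh x
  have h2 : ∀ s : X j, Function.update x j s i = x i := fun s =>
    Function.update_of_ne (Ne.symm hij) _ _
  simp only [h2]
  calc ∑ s, μ j s * (m (x i) * h (Function.update x j s))
      = m (x i) * ∑ s, μ j s * h (Function.update x j s) := by
        rw [mul_sum]
        exact sum_congr rfl fun s _ => by ring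
    _ = 0 := by rw [h1, mul_zero]

/-- the centred part -/
def G1 (μ : ∀ i, X i → ℝ) (i : ι) (m : X i → ℝ) (G : (∀ i, X i) → ℝ) (x : ∀ i, X i) : ℝ :=
  Mu i m G x - Av μ i (Mu i m G) x

/-- the mean part -/
def G2 (μ : ∀ i, X i → ℝ) (i : ι) (m : X i → ℝ) (G : (∀ i, X i) → ℝ) (x : ∀ i, X i) : ℝ :=
  Av μ i (Mu i m G) x

lemma G12 (i : ι) (m : X i → ℝ) (G : (∀ i, X i) → ℝ) (x : ∀ i, X i) :
    m (x i) * G x = G1 μ i m G x + G2 μ i m G x := by
  unfold G1 G2 Mu
  ring

lemma G1_cent (hμ : PM μ) (i : ι) (m : X i → ℝ) (G : (∀ i, X i) → ℝ) :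
    Cent μ i (G1 μ i m G) := by
  intro x
  unfold G1
  simp only [Av_update, mul_sub, sum_sub_distrib]
  rw [← sum_mul, hμ.one, one_mul]
  unfold Av
  ring

lemma G1_norm (hμ : PM μ) (i : ι) (m : X i → ℝ) (hm : ∀ t, |m t| ≤ 2) (G : (∀ i, X i) → ℝ) :
    EX μ (fun x => G1 μ i m G x ^ 2) ≤ 2 ^ 2 * EX μ (fun x => G x ^ 2) := by
  rw [hμ.resample i, hμ.resample i (fun x => G x ^ 2), ← EX_smul]
  refine hμ.EX_mono fun x => ?_
  have h1 := norm_sub_mean (hμ.nn i) (hμ.one i) (fun t => m t * G (Function.update x i t))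
  have e : ∀ t, G1 μ i m G (Function.update x i t) = m t * G (Function.update x i t) -
      ∑ s, μ i s * (m s * G (Function.update x i s)) := by
    intro t
    unfold G1
    rw [Av_update]
    unfold Av Mu
    simp only [Function.update_self]
  simp only [e]
  refine h1.trans ?_
  rw [mul_sum]
  refine sum_le_sum fun t _ => ?_
  have h2 : m t ^ 2 ≤ 2 ^ 2 := by
    rw [← sq_abs]
    exact pow_le_pow_left₀ (abs_nonneg _) (hm t) 2
  calc μ i t * (m t * G (Function.update x i t)) ^ 2
      = m t ^ 2 * (μ i t * G (Function.update x i t) ^ 2) := by ring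
    _ ≤ 2 ^ 2 * (μ i t * G (Function.update x i t) ^ 2) :=
        mul_le_mul_of_nonneg_right h2 (mul_nonneg (hμ.nn _ _) (sq_nonneg _))

lemma G2_norm (hμ : PM μ) (i : ι) (m : X i → ℝ) {s : ℝ} (hs : 0 ≤ s)
    (hσ : ∑ t, μ i t * (m t - 1) ^ 2 ≤ s ^ 2) {G : (∀ i, X i) → ℝ} (hG : Cent μ i G) :
    EX μ (fun x => G2 μ i m G x ^ 2) ≤ s ^ 2 * EX μ (fun x => G x ^ 2) := by
  rw [hμ.resample i (fun x => G x ^ 2), ← EX_smul]
  refine hμ.EX_mono fun x => ?_
  have e : G2 μ i m G x = ∑ t, μ i t * ((m t - 1) * G (Function.update x i t)) := by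
    unfold G2 Av Mu
    simp only [Function.update_self]
    have h1 := hG x
    calc ∑ t, μ i t * (m t * G (Function.update x i t))
        = ∑ t, μ i t * ((m t - 1) * G (Function.update x i t)) +
          ∑ t, μ i t * G (Function.update x i t) := by
          rw [← sum_add_distrib]
          exact sum_congr rfl fun t _ => by ring
      _ = _ := by rw [h1, add_zero]
  rw [e]
  have h1 := cs1 (hμ.nn i) (fun t => m t - 1) (fun t => G (Function.update x i t))
  have hA : 0 ≤ ∑ t, μ i t * (m t - 1) ^ 2 :=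
    sum_nonneg fun t _ => mul_nonneg (hμ.nn _ _) (sq_nonneg _)
  have hB : 0 ≤ ∑ t, μ i t * G (Function.update x i t) ^ 2 :=
    sum_nonneg fun t _ => mul_nonneg (hμ.nn _ _) (sq_nonneg _)
  rw [← sq_abs]
  calc |∑ t, μ i t * ((m t - 1) * G (Function.update x i t))| ^ 2
      ≤ (Real.sqrt (∑ t, μ i t * (m t - 1) ^ 2) *
          Real.sqrt (∑ t, μ i t * G (Function.update x i t) ^ 2)) ^ 2 :=
        pow_le_pow_left₀ (abs_nonneg _) h1 2
    _ = (∑ t, μ i t * (m t - 1) ^ 2) * ∑ t, μ i t * G (Function.update x i t) ^ 2 := by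
        rw [mul_pow, Real.sq_sqrt hA, Real.sq_sqrt hB]
    _ ≤ _ := mul_le_mul_of_nonneg_right hσ hB

/-- the norm functional -/
noncomputable def NU (μ : ∀ i, X i → ℝ) (s : ι → ℝ) (f : (∀ i, X i) → ℝ) (S U : Finset ι) : ℝ :=
  ∑ W ∈ S.powerset, (2 ^ W.card * ∏ i ∈ S \ W, s i) * Real.sqrt (en μ (W ∪ U) f)

lemma NU_insert (s : ι → ℝ) (f : (∀ i, X i) → ℝ) {i : ι} {S : Finset ι} (hi : i ∉ S)
    (U : Finset ι) :
    NU μ s f (insert i S) U = s i * NU μ s f S U + 2 * NU μ s f S (insert i U) := by
  unfold NU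
  rw [sum_powerset_insert hi]
  congr 1
  · rw [mul_sum]
    refine sum_congr rfl fun W hW => ?_
    have hiW : i ∉ W := fun h => hi (mem_powerset.1 hW h)
    rw [insert_sdiff_of_notMem _ hiW, prod_insert (fun h => hi (mem_sdiff.1 h).1)]
    ring
  · rw [mul_sum]
    refine sum_congr rfl fun W hW => ?_
    have hiW : i ∉ W := fun h => hi (mem_powerset.1 hW h)
    have e1 : insert i S \ insert i W = S \ W := by
      ext j
      simp only [mem_sdiff, mem_insert, not_or]
      constructor
      · rintro ⟨h1 | h1, h2, h3⟩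
        · exact absurd h1 h2
        · exact ⟨h1, h3⟩
      · rintro ⟨h1, h2⟩
        exact ⟨Or.inr h1, fun h => hi (h ▸ h1), h2⟩
    have e2 : insert i W ∪ U = W ∪ insert i U := by
      rw [insert_union, union_insert]
    rw [e1, e2, card_insert_of_notMem hiW]
    ring

/-- pure functions with multipliers: expansion over components -/
theorem mult_bound (hμ : PM μ) {m : ∀ i, X i → ℝ} {s : ι → ℝ} (hs : ∀ i, 0 ≤ s i)
    (hm : ∀ i x, |m i x| ≤ 2) (hσ : ∀ i, ∑ x, μ i x * (m i x - 1) ^ 2 ≤ s i ^ 2)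
    (f : (∀ i, X i) → ℝ) (S : Finset ι) : ∀ (U : Finset ι) (G : (∀ i, X i) → ℝ),
    Disjoint S U → DepOn (S ∪ U) G → (∀ i ∈ S ∪ U, Cent μ i G) →
    |EX μ (fun x => f x * ((∏ i ∈ S, m i (x i)) * G x))| ≤
      NU μ s f S U * Real.sqrt (EX μ (fun x => G x ^ 2)) := by
  induction S using Finset.induction_on with
  | empty =>
    intro U G _ hd hc
    rw [empty_union] at hd hc
    have h1 := hμ.pure_bound hd hc f
    simpa [NU] using h1
  | insert i S hi ih =>
    intro U G hdis hd hc
    have hiU : i ∉ U := fun h => (disjoint_left.1 hdis) (mem_insert_self i S) h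
    have hSU : Disjoint S U := disjoint_of_subset_left (subset_insert i S) hdis
    have hSiU : Disjoint S (insert i U) := by
      rw [disjoint_insert_right]
      exact ⟨hi, hSU⟩
    have hset : insert i S ∪ U = S ∪ insert i U := by rw [insert_union, union_insert]
    have hmem : i ∈ insert i S ∪ U := mem_union_left _ (mem_insert_self i S)
    -- the two parts
    have d1 : DepOn (S ∪ insert i U) (G1 μ i (m i) G) := by
      rw [← hset]
      intro x y hxy
      unfold G1
      rw [Mu_dep hmem (m i) hd x y hxy]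
      congr 1
      have : DepOn (insert i (insert i S ∪ U)) (Mu i (m i) G) := by
        rw [insert_eq_of_mem hmem]
        exact Mu_dep hmem (m i) hd
      exact Av_dep this x y hxy
    have c1 : ∀ j ∈ S ∪ insert i U, Cent μ j (G1 μ i (m i) G) := by
      intro j hj
      by_cases hji : j = i
      · subst hji
        exact G1_cent hμ j (m j) G
      · have hcj : Cent μ j G := hc j (by rw [hset]; exact hj)
        have h1 := Mu_cent hji (m i) hcj
        have h2 := Av_cent (i := i) hji h1
        intro x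
        unfold G1
        simp only [mul_sub, sum_sub_distrib]
        rw [h1 x, h2 x, sub_zero]
    have d2 : DepOn (S ∪ U) (G2 μ i (m i) G) := by
      have : DepOn (insert i (S ∪ U)) (Mu i (m i) G) := by
        rw [← insert_union]
        exact Mu_dep hmem (m i) hd
      exact Av_dep this
    have c2 : ∀ j ∈ S ∪ U, Cent μ j (G2 μ i (m i) G) := by
      intro j hj
      have hji : j ≠ i := by
        rintro rfl
        rcases mem_union.1 hj with h | h
        · exact hi h
        · exact hiU h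
      have hcj : Cent μ j G := hc j (by
        rw [insert_union]; exact mem_insert_of_mem hj)
      exact Av_cent hji (Mu_cent hji (m i) hcj)
    have b1 := ih (insert i U) (G1 μ i (m i) G) hSiU d1 c1
    have b2 := ih U (G2 μ i (m i) G) hSU d2 c2
    have n0 : 0 ≤ EX μ (fun x => G x ^ 2) := hμ.EX_nonneg fun x => sq_nonneg _
    have n1 : Real.sqrt (EX μ (fun x => G1 μ i (m i) G x ^ 2)) ≤
        2 * Real.sqrt (EX μ (fun x => G x ^ 2)) := by
      apply Real.sqrt_le_iff.2
      refine ⟨by positivity, ?_⟩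
      rw [mul_pow, Real.sq_sqrt n0]
      exact G1_norm hμ i (m i) (hm i) G
    have n2 : Real.sqrt (EX μ (fun x => G2 μ i (m i) G x ^ 2)) ≤
        s i * Real.sqrt (EX μ (fun x => G x ^ 2)) := by
      apply Real.sqrt_le_iff.2
      refine ⟨mul_nonneg (hs i) (Real.sqrt_nonneg _), ?_⟩
      rw [mul_pow, Real.sq_sqrt n0]
      exact G2_norm hμ i (m i) (hs i) (hσ i) (hc i hmem)
    have hNU : ∀ V : Finset ι, 0 ≤ NU μ s f S V := fun V =>
      sum_nonneg fun W _ => mul_nonneg (mul_nonneg (by positivity)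
        (prod_nonneg fun j _ => hs j)) (Real.sqrt_nonneg _)
    have hsplit : EX μ (fun x => f x * ((∏ j ∈ insert i S, m j (x j)) * G x)) =
        EX μ (fun x => f x * ((∏ j ∈ S, m j (x j)) * G1 μ i (m i) G x)) +
        EX μ (fun x => f x * ((∏ j ∈ S, m j (x j)) * G2 μ i (m i) G x)) := by
      rw [← EX_add]
      congr 1
      funext x
      rw [prod_insert hi]
      have := G12 (μ := μ) i (m i) G x
      calc f x * (m i (x i) * (∏ j ∈ S, m j (x j)) * G x)
          = f x * ((∏ j ∈ S, m j (x j)) * (m i (x i) * G x)) := by ring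
        _ = _ := by rw [this]; ring
    rw [hsplit, NU_insert s f hi]
    refine (abs_add_le _ _).trans ?_
    calc _ ≤ NU μ s f S (insert i U) * (2 * Real.sqrt (EX μ (fun x => G x ^ 2))) +
          NU μ s f S U * (s i * Real.sqrt (EX μ (fun x => G x ^ 2))) :=
          add_le_add (b1.trans (mul_le_mul_of_nonneg_left n1 (hNU _)))
            (b2.trans (mul_le_mul_of_nonneg_left n2 (hNU _)))
      _ = _ := by ring

end Vale.Agent.P042.UU.TU
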