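import Vale.Agent.P042.UU.SpecC
import Vale.Agent.P042.TT.TotW

set_option autoImplicit false

/-!
Block TOT5, part A (helper315): the random modulus step for the exceptional moduli.
-/

namespace Vale.Agent.P042.UU.TotC

open Finset Vale.Agent.P042.SS Vale.Agent.P042.SS.UNC Vale.Agent.P042.TT.TotB

variable {ε P : ℝ} {J' Q q : ℕ} {R : Finset (ℕ × ℕ)}

lemma mem_W5 {ε P : ℝ} {p : ℕ} :
    p ∈ W5 ε P ↔ (⌊P ^ (190 * ε)⌋₊ < p ∧ p ≤ ⌊P ^ (2 - 190 * ε)⌋₊) ∧ p.Prime := by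
  unfold W5 Wp
  rw [Finset.mem_filter, Finset.mem_Ioc]

lemma tq_big (hq : q ∈ E05 ε P Q) {p : ℕ} (hp : p ∈ Tq ⌊P ^ (190 * ε)⌋₊ J' q) :
    ⌊P ^ (2 - 190 * ε)⌋₊ < p ∧ q.factorization p ≤ J' := by
  unfold Tq at hp
  rw [Finset.mem_filter] at hp
  have h := hp.2
  push Not at h
  refine ⟨?_, h.2⟩
  unfold E05 at hq
  rw [Finset.mem_filter] at hq
  by_contra hc
  exact hq.2 p (mem_W5.2 ⟨⟨h.1, not_lt.1 hc⟩, Nat.prime_of_mem_primeFactors hp.1⟩)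
    (Nat.dvd_of_mem_primeFactors hp.1)

lemma zpt_mem_QZ5 (hU : Ub ⌊P ^ (190 * ε)⌋₊ J' q ⊆ R) (hq : q ∈ E05 ε P Q) :
    zpt (WR R) q ∈ (QZ5 ε P J' Q).filter (fun z => Nat.Coprime z (WR R)) := by
  have hq' := hq
  unfold E05 at hq
  rw [Finset.mem_filter, Finset.mem_Icc] at hq
  have hq0 : q ≠ 0 := by have := hq.1.1; omega
  have hz0 := zpt_ne_zero (D := WR R) hq0
  have hdv := zpt_dvd (D := WR R) hq0
  rw [Finset.mem_filter]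
  refine ⟨?_, zpt_coprime _ _⟩
  unfold QZ5
  rw [Finset.mem_filter, Finset.mem_Icc]
  refine ⟨⟨Nat.one_le_iff_ne_zero.2 hz0, (Nat.le_of_dvd (Nat.pos_of_ne_zero hq0) hdv).trans hq.1.2⟩,
    fun p hp => ?_⟩
  rw [zpt_fact_apply hp]
  exact tq_big hq' (zpt_pf_subset hU hp)

lemma zr5_nonneg (hP : 0 ≤ P) (p j : ℕ) : 0 ≤ zr5 ε P p j := by
  unfold zr5
  split_ifs
  · exact mul_nonneg (Real.rpow_nonneg hP _) (Real.rpow_nonneg (Nat.cast_nonneg _) _)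
  · exact Real.rpow_nonneg (Nat.cast_nonneg _) _

lemma zr5_le_one (hε : 0 < ε) (hε1 : ε ≤ 1 / 1000) (hP : 1 ≤ P) {p : ℕ}
    (hp : ⌊P ^ (2 - 190 * ε)⌋₊ < p) (j : ℕ) : zr5 ε P p j ≤ 1 := by
  have h1 := lt_of_floor_lt hp
  have hP0 : 0 < P := by linarith
  have h2 : (1 : ℝ) ≤ P ^ (2 - 190 * ε) := Real.one_le_rpow hP (by linarith)
  have h3 : (1 : ℝ) ≤ p := by linarith
  unfold zr5
  split_ifs
  · have h4 : (p : ℝ) ^ (-(1 / 2) + ε / 10 : ℝ) ≤ (P ^ (2 - 190 * ε)) ^ (-(1 / 2) + ε / 10 : ℝ) :=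
      Real.rpow_le_rpow_of_nonpos (by linarith) h1.le (by linarith)
    calc P ^ (ε / 2) * (p : ℝ) ^ (-(1 / 2) + ε / 10 : ℝ)
        ≤ P ^ (ε / 2) * (P ^ (2 - 190 * ε)) ^ (-(1 / 2) + ε / 10 : ℝ) :=
          mul_le_mul_of_nonneg_left h4 (Real.rpow_nonneg hP0.le _)
      _ = P ^ (ε / 2 + (2 - 190 * ε) * (-(1 / 2) + ε / 10)) := by
          rw [← Real.rpow_mul hP0.le, ← Real.rpow_add hP0]
      _ ≤ 1 := Real.rpow_le_one_of_one_le_of_nonpos hP (by nlinarith)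
  · exact Real.rpow_le_one_of_one_le_of_nonpos h3 (by norm_num)

lemma zR5_nonneg (hP : 0 ≤ P) (z : ℕ) : 0 ≤ zR5 ε P z :=
  Finset.prod_nonneg fun _ _ => zr5_nonneg hP _ _

lemma prod_Tq_le_zR5 (hε : 0 < ε) (hε1 : ε ≤ 1 / 1000) (hP : 1 ≤ P) (hq : q ∈ E05 ε P Q)
    (hU : Ub ⌊P ^ (190 * ε)⌋₊ J' q ⊆ R) :
    ∏ p ∈ Tq ⌊P ^ (190 * ε)⌋₊ J' q, zr5 ε P p (q.factorization p) ≤ zR5 ε P (zpt (WR R) q) := by
  have hP0 : 0 ≤ P := by linarith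
  have hsub := zpt_pf_subset (w := ⌊P ^ (190 * ε)⌋₊) hU
  rw [← Finset.prod_sdiff hsub]
  have h1 : zR5 ε P (zpt (WR R) q) =
      ∏ p ∈ (zpt (WR R) q).primeFactors, zr5 ε P p (q.factorization p) := by
    unfold zR5
    exact Finset.prod_congr rfl fun p hp => by rw [zpt_fact_apply hp]
  rw [h1]
  have h2 : ∏ p ∈ Tq ⌊P ^ (190 * ε)⌋₊ J' q \ (zpt (WR R) q).primeFactors,
      zr5 ε P p (q.factorization p) ≤ 1 := by
    apply Finset.prod_le_one (fun p _ => zr5_nonneg hP0 _ _)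
    intro p hp
    rw [Finset.mem_sdiff] at hp
    exact zr5_le_one hε hε1 hP (tq_big hq hp.1).1 _
  have h3 : 0 ≤ ∏ p ∈ (zpt (WR R) q).primeFactors, zr5 ε P p (q.factorization p) :=
    Finset.prod_nonneg fun p _ => zr5_nonneg hP0 _ _
  calc _ ≤ 1 * ∏ p ∈ (zpt (WR R) q).primeFactors, zr5 ε P p (q.factorization p) :=
        mul_le_mul_of_nonneg_right h2 h3
    _ = _ := one_mul _

/-- one random modulus -/
lemma fib_le5 (hε : 0 < ε) (hε1 : ε ≤ 1 / 1000) (hP : 1 ≤ P) (E : ℕ → ℝ) (hE : ∀ q, 0 ≤ E q)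
    (hR : R ⊆ Ib ⌊P ^ (190 * ε)⌋₊ J' Q) (Js : Finset ℕ)
    (hJs : ∀ q ∈ Js, q ∈ E05 ε P Q ∧ Ub ⌊P ^ (190 * ε)⌋₊ J' q ⊆ R) :
    ∑ q ∈ Js, (∏ p ∈ Tq ⌊P ^ (190 * ε)⌋₊ J' q, zr5 ε P p (q.factorization p)) * E q ≤
      ∑ d ∈ (WR R).divisors, ∑ z ∈ (QZ5 ε P J' Q).filter (fun z => Nat.Coprime z (WR R)),
        zR5 ε P z * E (d * z) := by
  classical
  have hP0 : 0 ≤ P := by linarith
  have hW := WR_pos' hR
  have hq0 : ∀ q ∈ Js, q ≠ 0 := by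
    intro q hq
    have := (hJs q hq).1
    unfold E05 at this
    rw [Finset.mem_filter, Finset.mem_Icc] at this
    have := this.1.1
    omega
  rw [← Finset.sum_product']
  have h1 : ∑ q ∈ Js, (∏ p ∈ Tq ⌊P ^ (190 * ε)⌋₊ J' q, zr5 ε P p (q.factorization p)) * E q ≤
      ∑ q ∈ Js, (fun x : ℕ × ℕ => zR5 ε P x.2 * E (x.1 * x.2)) (dpt (WR R) q, zpt (WR R) q) := by
    refine Finset.sum_le_sum fun q hq => ?_
    simp only
    rw [dpt_mul_zpt (hq0 q hq)]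
    exact mul_le_mul_of_nonneg_right (prod_Tq_le_zR5 hε hε1 hP (hJs q hq).1 (hJs q hq).2) (hE q)
  refine h1.trans ?_
  rw [← Finset.sum_image (f := fun x : ℕ × ℕ => zR5 ε P x.2 * E (x.1 * x.2))
    (g := fun q => (dpt (WR R) q, zpt (WR R) q))]
  · refine Finset.sum_le_sum_of_subset_of_nonneg ?_ ?_
    · intro x hx
      rw [Finset.mem_image] at hx
      obtain ⟨q, hq, rfl⟩ := hx
      rw [Finset.mem_product]
      refine ⟨?_, zpt_mem_QZ5 (hJs q hq).2 (hJs q hq).1⟩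
      rw [Nat.mem_divisors]
      exact ⟨dpt_dvd_WR hR (hJs q hq).2 (hq0 q hq), by omega⟩
    · intro x _ _
      exact mul_nonneg (zR5_nonneg hP0 _) (hE _)
  · intro q hq q' hq' h
    simp only [Prod.mk.injEq] at h
    rw [← dpt_mul_zpt (D := WR R) (hq0 q hq), ← dpt_mul_zpt (D := WR R) (hq0 q' hq'), h.1, h.2]

/-- the random modulus step: smooth items and items with large exponent together -/
theorem rm_core5 {ε P ℓ0 X0 B : ℝ} {J' Q : ℕ} (hε : 0 < ε) (hε1 : ε ≤ 1 / 1000) (hP : 1 ≤ P)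
    (E : ℕ → ℝ) (hE : ∀ q, 0 ≤ E q)
    (hsum : ∀ D : ℕ, 1 ≤ D → Real.log D ≤ ℓ0 + 2 * X0 → (∀ p ∈ W5 ε P, Nat.Coprime p D) →
      ∑ d ∈ D.divisors, ∑ z ∈ (QZ5 ε P J' Q).filter (fun z => Nat.Coprime z D),
        zR5 ε P z * E (d * z) ≤ B)
    (π : ℕ × ℕ → ℝ)
    (hπ0 : ∀ i ∈ (Ib ⌊P ^ (190 * ε)⌋₊ J' Q).filter (fun i => i.1 ∉ W5 ε P), 0 ≤ π i)
    (hπ1 : ∀ i ∈ (Ib ⌊P ^ (190 * ε)⌋₊ J' Q).filter (fun i => i.1 ∉ W5 ε P), π i ≤ 1)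
    (hX0 : 0 < X0)
    (hX : ∑ i ∈ (Ib ⌊P ^ (190 * ε)⌋₊ J' Q).filter (fun i => i.1 ∉ W5 ε P),
      π i * (i.2 * Real.log i.1) ≤ X0)
    (Js : Finset ℕ) (hJs : Js ⊆ E05 ε P Q) (hℓ0 : 0 ≤ ℓ0) (hℓ : ∀ q ∈ Js, Real.log q ≤ ℓ0) :
    ∑ q ∈ Js, (∏ i ∈ Ub ⌊P ^ (190 * ε)⌋₊ J' q, π i) *
      ((∏ p ∈ Tq ⌊P ^ (190 * ε)⌋₊ J' q, zr5 ε P p (q.factorization p)) * E q) ≤ 2 * B := by
  classical
  have hP0 : 0 ≤ P := by linarith
  have hEV : ∀ q ∈ Js, 1 ≤ q ∧ q ≤ Q ∧ ∀ p ∈ W5 ε P, ¬ p ∣ q := by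
    intro q hq
    have := hJs hq
    unfold E05 at this
    rw [Finset.mem_filter, Finset.mem_Icc] at this
    exact ⟨this.1.1, this.1.2, this.2⟩
  refine random_modulus ((Ib ⌊P ^ (190 * ε)⌋₊ J' Q).filter (fun i => i.1 ∉ W5 ε P)) π
    (fun i => (i.2 : ℝ) * Real.log i.1) ℓ0 X0 hπ0 hπ1
    (fun i _ => mul_nonneg (Nat.cast_nonneg _) (Real.log_natCast_nonneg _)) hℓ0 hX0 hX
    Js (Ub ⌊P ^ (190 * ε)⌋₊ J')
    (fun q => (∏ p ∈ Tq ⌊P ^ (190 * ε)⌋₊ J' q, zr5 ε P p (q.factorization p)) * E q)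
    ?_ ?_ ?_ B ?_
  · intro q hq i hi
    rw [Finset.mem_filter]
    refine ⟨Ub_subset (hEV q hq).1 (hEV q hq).2.1 hi, fun hiV => ?_⟩
    unfold Ub at hi
    rw [Finset.mem_image] at hi
    obtain ⟨p, hp, rfl⟩ := hi
    rw [Finset.mem_filter] at hp
    exact (hEV q hq).2.2 p hiV (Nat.dvd_of_mem_primeFactors hp.1)
  · intro q hq
    exact (cost_Ub (hEV q hq).1).trans (hℓ q hq)
  · intro q _
    exact mul_nonneg (Finset.prod_nonneg fun p _ => zr5_nonneg hP0 _ _) (hE q)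
  · intro R hR hcost
    have hR1 : R ⊆ Ib ⌊P ^ (190 * ε)⌋₊ J' Q := hR.trans (Finset.filter_subset _ _)
    have hW := WR_pos' hR1
    have hlog : Real.log (WR R) ≤ ℓ0 + 2 * X0 := by
      rw [log_WR' hR1]
      exact hcost
    have hcop : ∀ p ∈ W5 ε P, Nat.Coprime p (WR R) := by
      intro p hp
      unfold WR
      refine Nat.Coprime.prod_right fun i hi => Nat.Coprime.pow_right _ ?_
      have h1 := hR hi
      rw [Finset.mem_filter] at h1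
      have h2 := h1.1
      simp only [Ib, Finset.mem_filter] at h2
      rw [Nat.coprime_primes (mem_W5.1 hp).2 h2.2.1]
      intro h
      exact h1.2 (h ▸ hp)
    refine (fib_le5 hε hε1 hP E hE hR1 (Js.filter (fun q => Ub ⌊P ^ (190 * ε)⌋₊ J' q ⊆ R))
      (fun q hq => ?_)).trans (hsum (WR R) hW hlog hcop)
    rw [Finset.mem_filter] at hq
    exact ⟨hJs hq.1, hq.2⟩

end Vale.Agent.P042.UU.TotC
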