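import Vale.Agent.P042.UU.SpecD
import Vale.Agent.P042.H584.Ker

set_option autoImplicit false

/-!
Block TRUNC5, part B: the moduli `q ∏ U` and the kernel (helper104).
-/

namespace Vale.Agent.P042.UU.Tr

open Polynomial Finset Vale.Agent.P042.SS Vale.Agent.P042.TT Vale.Agent.P042.TT.Ker

/-! ### the kernel identity -/

/-- contribution of one modulus -/
noncomputable def Xm (f : ℤ[X]) (G : ℤ → ℝ) (N' H n : ℕ) : ℂ :=
  ∑ a ∈ (range n).filter (Nat.Coprime n), Gam f a n * Bil G N' H ((a : ℝ) / n)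

theorem Xm_eq (f : ℤ[X]) (G : ℤ → ℝ) (N' H D : ℕ) :
    Xm f G N' H D = Cor G G N' H (fun n m => cD f D (n - m)) := by
  unfold Xm Bil Cor cD
  simp only [Fw_mul_conj, Finset.mul_sum]
  rw [Finset.sum_comm]
  refine Finset.sum_congr rfl fun y _ => ?_
  rw [Finset.sum_comm]
  refine Finset.sum_congr rfl fun n _ => ?_
  rw [Finset.sum_comm]
  refine Finset.sum_congr rfl fun m _ => ?_
  refine Finset.sum_congr rfl fun a _ => ?_
  ring

theorem cD_kp (f : ℤ[X]) {p : ℕ} (hp : p.Prime) (t : ℤ) : cD f p t = ((kp f p t : ℝ) : ℂ) := by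
  have h1 := cD_real f p hp.one_lt.le t
  rw [Complex.conj_eq_iff_re] at h1
  rw [← h1]
  congr 1
  unfold cD kp
  rw [coprime_prime_set hp, Complex.re_sum]
  refine Finset.sum_congr rfl fun c _ => ?_
  congr 3
  ring

theorem Cor_sum {ι : Type*} (s : Finset ι) (g1 g2 : ℤ → ℝ) (N' H : ℕ) (K : ι → ℤ → ℤ → ℂ) :
    ∑ i ∈ s, Cor g1 g2 N' H (K i) = Cor g1 g2 N' H (fun n m => ∑ i ∈ s, K i n m) := by
  unfold Cor
  rw [Finset.sum_comm]
  refine Finset.sum_congr rfl fun y _ => ?_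
  rw [Finset.sum_comm]
  refine Finset.sum_congr rfl fun n _ => ?_
  rw [Finset.sum_comm]
  refine Finset.sum_congr rfl fun m _ => ?_
  rw [Finset.mul_sum]

theorem W5_prime {ε P : ℝ} {p : ℕ} (hp : p ∈ W5 ε P) : p.Prime := by
  unfold W5 Wp at hp
  exact (Finset.mem_filter.1 hp).2

theorem mem_Vn {ε P : ℝ} {q p : ℕ} : p ∈ Vn ε P q ↔ p ∈ W5 ε P ∧ ¬ p ∣ q := by
  unfold Vn
  rw [Finset.mem_filter]

theorem KU_eq (ε P : ℝ) (f : ℤ[X]) (G : ℤ → ℝ) (N' H q : ℕ) (hq : 1 ≤ q) :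
    Cor G G N' H (KQ f q (KU ε P f q)) =
      ∑ U ∈ (Vn ε P q).powerset.filter (fun U => U.card ≤ d5 ε P),
        Xm f G N' H (q * ∏ p ∈ U, p) := by
  have h1 : ∀ U ∈ (Vn ε P q).powerset.filter (fun U => U.card ≤ d5 ε P),
      Xm f G N' H (q * ∏ p ∈ U, p) = Cor G G N' H
        (fun n m => cD f q (n - m) * ∏ p ∈ U, ((kp f p (n - m) : ℝ) : ℂ)) := by
    intro U hU
    rw [Finset.mem_filter, Finset.mem_powerset] at hU
    have hpr : ∀ p ∈ U, p.Prime := fun p hp => W5_prime (mem_Vn.1 (hU.1 hp)).1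
    rw [Xm_eq]
    congr 1
    funext n m
    rw [cD_prod f q hq (n - m) U hpr (fun p hp => by
      rw [(hpr p hp).coprime_iff_not_dvd]
      exact (mem_Vn.1 (hU.1 hp)).2)]
    congr 1
    exact Finset.prod_congr rfl fun p hp => cD_kp f (hpr p hp) _
  rw [Finset.sum_congr rfl h1, Cor_sum]
  congr 1
  funext n m
  unfold KQ KU
  rw [← Finset.mul_sum]
  congr 1
  · unfold cD
    refine Finset.sum_congr rfl fun b _ => ?_
    congr 3
    push_cast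
    ring
  · push_cast
    rfl

/-! ### unique decomposition of the moduli -/

theorem fact_prod {U : Finset ℕ} (hU : ∀ p ∈ U, p.Prime) (p : ℕ) :
    (∏ l ∈ U, l).factorization p = if p ∈ U then 1 else 0 := by
  classical
  rw [Nat.factorization_prod fun l hl => (hU l hl).ne_zero]
  rw [Finsupp.coe_finsetSum, Finset.sum_apply]
  have h1 : ∀ l ∈ U, l.factorization p = if l = p then 1 else 0 := by
    intro l hl
    rw [(hU l hl).factorization, Finsupp.single_apply]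
  rw [Finset.sum_congr rfl h1, Finset.sum_ite_eq']

theorem prod_ne_zero' {U : Finset ℕ} (hU : ∀ p ∈ U, p.Prime) : (∏ l ∈ U, l) ≠ 0 :=
  Finset.prod_ne_zero_iff.2 fun l hl => (hU l hl).ne_zero

/-- the set of primes of `W` dividing `n` exactly once -/
def Uo (W : Finset ℕ) (n : ℕ) : Finset ℕ := W.filter (fun p => n.factorization p = 1)

theorem Uo_mul {W : Finset ℕ} (hW : ∀ p ∈ W, p.Prime) {q : ℕ} (hq : q ≠ 0)
    (h1 : ∀ p ∈ W, q.factorization p ≠ 1) {U : Finset ℕ} (hU : ∀ p ∈ U, p ∈ W ∧ ¬ p ∣ q) :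
    Uo W (q * ∏ p ∈ U, p) = U := by
  have hpr : ∀ p ∈ U, p.Prime := fun p hp => hW p (hU p hp).1
  ext p
  unfold Uo
  rw [Finset.mem_filter, Nat.factorization_mul hq (prod_ne_zero' hpr), Finsupp.add_apply,
    fact_prod hpr]
  constructor
  · rintro ⟨h2, h3⟩
    by_contra h4
    rw [if_neg h4, add_zero] at h3
    exact h1 p h2 h3
  · intro h2
    refine ⟨(hU p h2).1, ?_⟩
    rw [if_pos h2, Nat.factorization_eq_zero_of_not_dvd (hU p h2).2]

theorem Uo_dvd {W : Finset ℕ} (hW : ∀ p ∈ W, p.Prime) (n : ℕ) : (∏ p ∈ Uo W n, p) ∣ n := by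
  apply Finset.prod_primes_dvd
  · intro p hp
    exact (hW p (Finset.mem_filter.1 hp).1).prime
  · intro p hp
    have h1 := (Finset.mem_filter.1 hp).2
    by_contra h2
    rw [Nat.factorization_eq_zero_of_not_dvd h2] at h1
    exact absurd h1 (by norm_num)

theorem Uo_quot {W : Finset ℕ} (hW : ∀ p ∈ W, p.Prime) {n : ℕ} (hn : n ≠ 0) :
    n / (∏ p ∈ Uo W n, p) ≠ 0 ∧ (∀ p ∈ W, (n / (∏ p ∈ Uo W n, p)).factorization p ≠ 1) ∧
    ∀ p ∈ Uo W n, p ∈ W ∧ ¬ p ∣ n / (∏ p ∈ Uo W n, p) := by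
  have hpr : ∀ p ∈ Uo W n, p.Prime := fun p hp => hW p (Finset.mem_filter.1 hp).1
  have hd := Uo_dvd hW n
  have hq0 : n / (∏ p ∈ Uo W n, p) ≠ 0 := by
    rw [Nat.div_ne_zero_iff]
    exact ⟨prod_ne_zero' hpr, Nat.le_of_dvd (Nat.pos_of_ne_zero hn) hd⟩
  have hf : ∀ p, (n / (∏ p ∈ Uo W n, p)).factorization p =
      n.factorization p - if p ∈ Uo W n then 1 else 0 := by
    intro p
    rw [Nat.factorization_div hd, Finsupp.tsub_apply, fact_prod hpr]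
  refine ⟨hq0, fun p hp => ?_, fun p hp => ⟨(Finset.mem_filter.1 hp).1, ?_⟩⟩
  · rw [hf]
    by_cases h : p ∈ Uo W n
    · rw [if_pos h]
      have := (Finset.mem_filter.1 h).2
      omega
    · rw [if_neg h]
      intro h2
      apply h
      exact Finset.mem_filter.2 ⟨hp, by omega⟩
  · intro h2
    have h3 := ((hpr p hp).dvd_iff_one_le_factorization hq0).1 h2
    rw [hf, if_pos hp] at h3
    have := (Finset.mem_filter.1 hp).2
    omega

/-- sum over the moduli up to `Q`, and the rest -/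
theorem decomp (ε P : ℝ) (Q R : ℕ) (X : ℕ → ℂ)
    (hcard : ∀ n, 1 ≤ n → n ≤ Q → (Uo (W5 ε P) n).card ≤ d5 ε P)
    (hR : ∀ q U, q ∈ EV5 ε P Q → U ∈ (Vn ε P q).powerset.filter (fun U => U.card ≤ d5 ε P) →
      q * ∏ p ∈ U, p ≤ R) :
    ‖∑ n ∈ Icc 1 Q, X n - ∑ q ∈ EV5 ε P Q,
      ∑ U ∈ (Vn ε P q).powerset.filter (fun U => U.card ≤ d5 ε P), X (q * ∏ p ∈ U, p)‖ ≤
      ∑ n ∈ Ioc Q R, ‖X n‖ := by
  classical
  have hW : ∀ p ∈ W5 ε P, p.Prime := fun p hp => W5_prime hp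
  set S : Finset (Σ _ : ℕ, Finset ℕ) := (EV5 ε P Q).sigma
    (fun q => (Vn ε P q).powerset.filter (fun U => U.card ≤ d5 ε P)) with hS
  set Ψ : (Σ _ : ℕ, Finset ℕ) → ℕ := fun s => s.1 * ∏ p ∈ s.2, p with hΨ
  have hmem : ∀ s ∈ S, (1 ≤ s.1 ∧ s.1 ≤ Q ∧ ∀ p ∈ W5 ε P, s.1.factorization p ≠ 1) ∧
      ∀ p ∈ s.2, p ∈ W5 ε P ∧ ¬ p ∣ s.1 := by
    intro s hs
    rw [hS, Finset.mem_sigma, EV5, Finset.mem_filter, Finset.mem_Icc, Finset.mem_filter,
      Finset.mem_powerset] at hs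
    exact ⟨⟨hs.1.1.1, hs.1.1.2, hs.1.2⟩, fun p hp => mem_Vn.1 (hs.2.1 hp)⟩
  have hinj : Set.InjOn Ψ (S : Set (Σ _ : ℕ, Finset ℕ)) := by
    intro s hs t ht hst
    obtain ⟨⟨a1, a2, a3⟩, a4⟩ := hmem s hs
    obtain ⟨⟨b1, b2, b3⟩, b4⟩ := hmem t ht
    have e1 := Uo_mul hW (by omega) a3 a4
    have e2 := Uo_mul hW (by omega) b3 b4
    have e3 : s.2 = t.2 := by
      rw [← e1, ← e2]
      congr 1
    have e4 : s.1 = t.1 := by
      have h5 : s.1 * ∏ p ∈ s.2, p = t.1 * ∏ p ∈ t.2, p := hst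
      rw [e3] at h5
      exact Nat.eq_of_mul_eq_mul_right (Nat.pos_of_ne_zero
        (prod_ne_zero' fun p hp => hW p (b4 p hp).1)) h5
    exact Sigma.ext e4 (heq_of_eq e3)
  have h1 : ∑ q ∈ EV5 ε P Q, ∑ U ∈ (Vn ε P q).powerset.filter (fun U => U.card ≤ d5 ε P),
      X (q * ∏ p ∈ U, p) = ∑ s ∈ S, X (Ψ s) := by
    rw [hS, Finset.sum_sigma]
  have h2 : ∑ s ∈ S, X (Ψ s) = ∑ s ∈ S.filter (fun s => Ψ s ≤ Q), X (Ψ s) +
      ∑ s ∈ S.filter (fun s => ¬ Ψ s ≤ Q), X (Ψ s) :=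
    (Finset.sum_filter_add_sum_filter_not S (fun s => Ψ s ≤ Q) (fun s => X (Ψ s))).symm
  have h3 : ∑ s ∈ S.filter (fun s => Ψ s ≤ Q), X (Ψ s) = ∑ n ∈ Icc 1 Q, X n := by
    rw [← Finset.sum_image (f := X) (g := Ψ)
      (hinj.mono (by intro s hs; exact (Finset.mem_filter.1 hs).1))]
    refine Finset.sum_congr ?_ fun _ _ => rfl
    ext n
    rw [Finset.mem_image, Finset.mem_Icc]
    constructor
    · rintro ⟨s, hs, rfl⟩
      rw [Finset.mem_filter] at hs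
      obtain ⟨⟨a1, a2, a3⟩, a4⟩ := hmem s hs.1
      refine ⟨?_, hs.2⟩
      exact Nat.mul_pos a1 (Nat.pos_of_ne_zero
        (prod_ne_zero' fun p hp => hW p (a4 p hp).1))
    · rintro ⟨hn1, hnQ⟩
      obtain ⟨c1, c2, c3⟩ := Uo_quot hW (by omega : n ≠ 0)
      have hd := Uo_dvd hW n
      refine ⟨⟨n / (∏ p ∈ Uo (W5 ε P) n, p), Uo (W5 ε P) n⟩, ?_, ?_⟩
      · rw [Finset.mem_filter]
        refine ⟨?_, ?_⟩
        · rw [hS, Finset.mem_sigma, EV5, Finset.mem_filter, Finset.mem_Icc, Finset.mem_filter,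
            Finset.mem_powerset]
          refine ⟨⟨⟨Nat.pos_of_ne_zero c1, (Nat.div_le_self _ _).trans hnQ⟩, c2⟩, ?_,
            hcard n hn1 hnQ⟩
          intro p hp
          exact mem_Vn.2 (c3 p hp)
        · show n / (∏ p ∈ Uo (W5 ε P) n, p) * ∏ p ∈ Uo (W5 ε P) n, p ≤ Q
          rw [Nat.div_mul_cancel hd]
          exact hnQ
      · show n / (∏ p ∈ Uo (W5 ε P) n, p) * ∏ p ∈ Uo (W5 ε P) n, p = n
        exact Nat.div_mul_cancel hd
  rw [h1, h2, h3]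
  have h4 : ∑ n ∈ Icc 1 Q, X n - (∑ n ∈ Icc 1 Q, X n +
      ∑ s ∈ S.filter (fun s => ¬ Ψ s ≤ Q), X (Ψ s)) =
      -∑ s ∈ S.filter (fun s => ¬ Ψ s ≤ Q), X (Ψ s) := by ring
  rw [h4, norm_neg]
  refine (norm_sum_le _ _).trans ?_
  rw [← Finset.sum_image (f := fun n => ‖X n‖) (g := Ψ)
      (hinj.mono (by intro s hs; exact (Finset.mem_filter.1 hs).1))]
  refine Finset.sum_le_sum_of_subset_of_nonneg ?_ fun _ _ _ => norm_nonneg _
  intro n hn
  rw [Finset.mem_image] at hn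
  obtain ⟨s, hs, rfl⟩ := hn
  rw [Finset.mem_filter] at hs
  rw [Finset.mem_Ioc]
  refine ⟨not_le.1 hs.2, ?_⟩
  have hs1 := hs.1
  rw [hS, Finset.mem_sigma] at hs1
  exact hR s.1 s.2 hs1.1 hs1.2

end Vale.Agent.P042.UU.Tr
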