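import Vale.Agent.P042.UU.TruncA
import Vale.Agent.P042.UU.TruncB

set_option autoImplicit false

/-!
Block TRUNC5 (helper104).
-/

namespace Vale.Agent.P042.UU.Tr

open Polynomial Finset Filter Vale.Agent.P042.SS Vale.Agent.P042.TT Vale.Agent.P042.TT.Ker
open scoped Topology

/-! ### decay of the complete sums -/

theorem kap_bound (k E K p0 : ℕ) (kap : ℕ → ℕ → ℝ) (hE : 1 ≤ E) (h : KapOK k E K p0 kap) :
    ∃ C0 : ℝ, 1 ≤ C0 ∧ ∀ n : ℕ, 1 ≤ n →
      kapProd kap n ≤ C0 * (n : ℝ) ^ (-(1 / (2 * (E : ℝ)))) := by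
  classical
  have hEr : (0 : ℝ) < E := by exact_mod_cast hE
  set K' : ℝ := (K : ℝ) + 1 with hK'
  have hK1 : 1 ≤ K' := by
    have : (0 : ℝ) ≤ K := Nat.cast_nonneg K
    linarith
  set B0 : ℕ := (K + 1) ^ (2 * E) with hB0
  have hloc : ∀ p j : ℕ, p.Prime → 1 ≤ j → kap p j ≤
      (if p ≤ B0 then K' else 1) * ((p : ℝ) ^ j) ^ (-(1 / (2 * (E : ℝ)))) := by
    intro p j hp hj
    have hp0 : (0 : ℝ) < p := by exact_mod_cast hp.pos
    have hp1 : (1 : ℝ) ≤ p := by exact_mod_cast hp.one_lt.le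
    set u : ℝ := ((p : ℝ) ^ j) ^ (-(1 / (2 * (E : ℝ)))) with hu
    have hu0 : 0 < u := by positivity
    have hpj : (1 : ℝ) ≤ (p : ℝ) ^ j := one_le_pow₀ hp1
    have hu1 : u ≤ 1 := Real.rpow_le_one_of_one_le_of_nonpos hpj (by
      rw [neg_nonpos]; positivity)
    have h1 := h.pw p j hp hj
    have h2 : (p : ℝ) ^ (-(j : ℝ) / E) = u * u := by
      rw [hu, ← Real.rpow_natCast, ← Real.rpow_mul hp0.le, ← Real.rpow_add hp0]
      congr 1
      field_simp
      ring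
    rw [h2] at h1
    have hKK : (K : ℝ) ≤ K' := by linarith
    split_ifs with hpB
    · calc kap p j ≤ K * (u * u) := h1
        _ ≤ K' * (1 * u) := by gcongr
        _ = K' * u := by ring
    · rw [not_le] at hpB
      have h3 : K' * u ≤ 1 := by
        have h4 : K' ≤ ((p : ℝ) ^ j) ^ (1 / (2 * (E : ℝ))) := by
          have h5 : ((K' : ℝ) ^ (2 * E)) ≤ (p : ℝ) ^ j := by
            have h6 : ((K + 1 : ℕ) : ℝ) ^ (2 * E) ≤ p := by
              have : (K + 1) ^ (2 * E) ≤ p := hpB.le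
              exact_mod_cast this
            have h7 : (p : ℝ) ≤ (p : ℝ) ^ j := le_self_pow₀ hp1 (by omega)
            rw [hK']
            push_cast at h6
            linarith
          calc K' = ((K' : ℝ) ^ (2 * E)) ^ (1 / (2 * (E : ℝ))) := by
                rw [← Real.rpow_natCast, ← Real.rpow_mul (by linarith)]
                push_cast
                rw [mul_one_div_cancel (by positivity), Real.rpow_one]
            _ ≤ _ := Real.rpow_le_rpow (by positivity) h5 (by positivity)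
        rw [hu, Real.rpow_neg (by positivity)]
        rw [← div_eq_mul_inv, div_le_one (by positivity)]
        exact h4
      calc kap p j ≤ K * (u * u) := h1
        _ ≤ K' * (u * u) := by gcongr
        _ = (K' * u) * u := by ring
        _ ≤ 1 * u := by gcongr
  refine ⟨K' ^ (B0 + 1), one_le_pow₀ hK1, fun n hn => ?_⟩
  unfold kapProd
  have h1 : ∏ p ∈ n.primeFactors, kap p (n.factorization p) ≤
      ∏ p ∈ n.primeFactors, ((if p ≤ B0 then K' else 1) *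
        ((p : ℝ) ^ (n.factorization p)) ^ (-(1 / (2 * (E : ℝ))))) := by
    refine Finset.prod_le_prod (fun p _ => h.nn _ _) fun p hp => ?_
    have hpp := Nat.prime_of_mem_primeFactors hp
    refine hloc p _ hpp ?_
    rw [← hpp.dvd_iff_one_le_factorization (by omega)]
    exact Nat.dvd_of_mem_primeFactors hp
  refine h1.trans ?_
  rw [Finset.prod_mul_distrib]
  have h2 : ∏ p ∈ n.primeFactors, (if p ≤ B0 then K' else 1) ≤ K' ^ (B0 + 1) := by
    rw [← Finset.prod_filter, Finset.prod_const]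
    refine pow_le_pow_right₀ hK1 ?_
    have : n.primeFactors.filter (fun p => p ≤ B0) ⊆ range (B0 + 1) := by
      intro p hp
      rw [Finset.mem_filter] at hp
      rw [Finset.mem_range]
      omega
    have h3 := Finset.card_le_card this
    rwa [Finset.card_range] at h3
  have h3 : ∏ p ∈ n.primeFactors, ((p : ℝ) ^ (n.factorization p)) ^ (-(1 / (2 * (E : ℝ)))) =
      (n : ℝ) ^ (-(1 / (2 * (E : ℝ)))) := by
    rw [Real.finsetProd_rpow _ _ (fun p _ => by positivity)]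
    congr 1
    have h4 := Nat.prod_factorization_pow_eq_self (by omega : n ≠ 0)
    rw [Finsupp.prod, Nat.support_factorization] at h4
    exact_mod_cast h4
  rw [h3]
  exact mul_le_mul_of_nonneg_right h2 (by positivity)

/-! ### the tail of the moduli -/

theorem Bil_le (G : ℤ → ℝ) (N' H : ℕ) (θ : ℝ) :
    ‖Bil G N' H θ‖ ≤ ∑ y ∈ Icc (-(N' : ℤ)) (2 * N'),
      (1 / 2 * ‖Fw G (y + H) H θ‖ ^ 2 + 1 / 2 * ‖Fw G (y - 2 * H - 1) H θ‖ ^ 2) := by
  unfold Bil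
  refine (norm_sum_le _ _).trans (Finset.sum_le_sum fun y _ => ?_)
  rw [norm_mul, RCLike.norm_conj]
  nlinarith [sq_nonneg (‖Fw G (y + H) H θ‖ - ‖Fw G (y - 2 * H - 1) H θ‖)]

theorem tail_le (kap : ℕ → ℕ → ℝ) (f : ℤ[X])
    (hGam : ∀ (q : ℕ) (a : ℤ), 1 ≤ q → IsCoprime a (q : ℤ) → ‖Gam f a q‖ ≤ kapProd kap q)
    (G : ℤ → ℝ) (g c : ℝ) (hG0 : ∀ n, 0 ≤ G n) (hGg : ∀ n, G n ≤ g) (N' H Q R : ℕ) (hR : 1 ≤ R)
    (hc0 : 0 ≤ c) (hc : ∀ n, Q < n → kapProd kap n ≤ c) :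
    ∑ n ∈ Ioc Q R, ‖Xm f G N' H n‖ ≤
      c * ((3 * N' + 1) * (((H : ℝ) + (R : ℝ) ^ 4) * (H * g ^ 2))) := by
  have h1 : ∀ n ∈ Ioc Q R, ‖Xm f G N' H n‖ ≤ c * ∑ a ∈ (range n).filter (Nat.Coprime n),
      ∑ y ∈ Icc (-(N' : ℤ)) (2 * N'), (1 / 2 * ‖Fw G (y + H) H ((a : ℝ) / n)‖ ^ 2 +
        1 / 2 * ‖Fw G (y - 2 * H - 1) H ((a : ℝ) / n)‖ ^ 2) := by
    intro n hn
    rw [Finset.mem_Ioc] at hn
    unfold Xm
    rw [Finset.mul_sum]
    refine (norm_sum_le _ _).trans (Finset.sum_le_sum fun a ha => ?_)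
    rw [norm_mul]
    have e1 : ‖Gam f a n‖ ≤ c := by
      refine (hGam n a (by omega) ?_).trans (hc n hn.1)
      exact (Nat.isCoprime_iff_coprime.2 (Finset.mem_filter.1 ha).2).symm
    exact mul_le_mul e1 (Bil_le G N' H _) (norm_nonneg _) hc0
  have h2 : ∀ y : ℤ, ∑ n ∈ Icc 1 R, ∑ a ∈ (range n).filter (Nat.Coprime n),
      ‖Fw G y H ((a : ℝ) / n)‖ ^ 2 ≤ ((H : ℝ) + (R : ℝ) ^ 4) * (H * g ^ 2) := by
    intro y
    refine (large_sieve G y H R hR).trans ?_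
    refine mul_le_mul_of_nonneg_left ?_ (by positivity)
    have e1 : ∀ m ∈ Ioc y (y + H), G m ^ 2 ≤ g ^ 2 := fun m _ =>
      pow_le_pow_left₀ (hG0 m) (hGg m) 2
    refine (Finset.sum_le_sum e1).trans_eq ?_
    rw [Finset.sum_const, Int.card_Ioc, nsmul_eq_mul]
    congr 1
    rw [show y + (H : ℤ) - y = H by ring, Int.toNat_natCast]
  have h3 : Ioc Q R ⊆ Icc 1 R := by
    intro n hn
    rw [Finset.mem_Ioc] at hn
    rw [Finset.mem_Icc]
    omega
  calc ∑ n ∈ Ioc Q R, ‖Xm f G N' H n‖ ≤ ∑ n ∈ Ioc Q R,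
      c * ∑ a ∈ (range n).filter (Nat.Coprime n),
      ∑ y ∈ Icc (-(N' : ℤ)) (2 * N'), (1 / 2 * ‖Fw G (y + H) H ((a : ℝ) / n)‖ ^ 2 +
        1 / 2 * ‖Fw G (y - 2 * H - 1) H ((a : ℝ) / n)‖ ^ 2) := Finset.sum_le_sum h1
    _ ≤ ∑ n ∈ Icc 1 R, c * ∑ a ∈ (range n).filter (Nat.Coprime n),
      ∑ y ∈ Icc (-(N' : ℤ)) (2 * N'), (1 / 2 * ‖Fw G (y + H) H ((a : ℝ) / n)‖ ^ 2 +
        1 / 2 * ‖Fw G (y - 2 * H - 1) H ((a : ℝ) / n)‖ ^ 2) :=
        Finset.sum_le_sum_of_subset_of_nonneg h3 fun n _ _ => mul_nonneg hc0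
          (Finset.sum_nonneg fun _ _ => Finset.sum_nonneg fun _ _ => by positivity)
    _ = c * ∑ y ∈ Icc (-(N' : ℤ)) (2 * N'), (1 / 2 * (∑ n ∈ Icc 1 R,
          ∑ a ∈ (range n).filter (Nat.Coprime n), ‖Fw G (y + H) H ((a : ℝ) / n)‖ ^ 2) +
        1 / 2 * (∑ n ∈ Icc 1 R,
          ∑ a ∈ (range n).filter (Nat.Coprime n), ‖Fw G (y - 2 * H - 1) H ((a : ℝ) / n)‖ ^ 2)) := by
        rw [← Finset.mul_sum]
        congr 1
        simp only [Finset.mul_sum]
        have e1 : ∀ n ∈ Icc 1 R, (∑ a ∈ (range n).filter (Nat.Coprime n),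
            ∑ y ∈ Icc (-(N' : ℤ)) (2 * N'), (1 / 2 * ‖Fw G (y + H) H ((a : ℝ) / n)‖ ^ 2 +
              1 / 2 * ‖Fw G (y - 2 * H - 1) H ((a : ℝ) / n)‖ ^ 2)) =
            ∑ y ∈ Icc (-(N' : ℤ)) (2 * N'), ∑ a ∈ (range n).filter (Nat.Coprime n),
              (1 / 2 * ‖Fw G (y + H) H ((a : ℝ) / n)‖ ^ 2 +
              1 / 2 * ‖Fw G (y - 2 * H - 1) H ((a : ℝ) / n)‖ ^ 2) := fun n _ => Finset.sum_comm
        rw [Finset.sum_congr rfl e1, Finset.sum_comm]
        refine Finset.sum_congr rfl fun y _ => ?_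
        rw [← Finset.sum_add_distrib]
        refine Finset.sum_congr rfl fun n _ => ?_
        rw [← Finset.sum_add_distrib]
    _ ≤ c * ∑ _y ∈ Icc (-(N' : ℤ)) (2 * N'), ((H : ℝ) + (R : ℝ) ^ 4) * (H * g ^ 2) := by
        refine mul_le_mul_of_nonneg_left (Finset.sum_le_sum fun y _ => ?_) hc0
        have e1 := h2 (y + H)
        have e2 := h2 (y - 2 * H - 1)
        linarith
    _ = c * ((3 * N' + 1) * (((H : ℝ) + (R : ℝ) ^ 4) * (H * g ^ 2))) := by
        rw [Finset.sum_const, Int.card_Icc, nsmul_eq_mul]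
        congr 2
        have : (2 * (N' : ℤ) + 1 - -(N' : ℤ)).toNat = 3 * N' + 1 := by omega
        rw [this]
        push_cast
        ring

/-! ### numbers -/

theorem ev_num (C0 ε : ℝ) (E : ℕ) (hE : 1 ≤ E) (hε : 0 < ε) (hε1 : ε ≤ 1 / 1000) :
    ∃ P0 : ℝ, ∀ P : ℝ, P0 ≤ P → 1 ≤ P ∧ 2 ≤ P ^ ε ∧
      4 * P ^ (1 - 95 * ε) + 8 * (P ^ (1 - 94 * ε) * Real.log P) + Real.log 16 ≤ 7 / 8 * P ∧
      Real.log (8 * C0) + 2 * P ^ (1 - 97.9 * ε) + P ^ (1 - 95.5 * ε) ≤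
        P ^ (1 - 95 * ε) * (1 / (2 * (E : ℝ))) := by
  have hEr : (0 : ℝ) < E := by exact_mod_cast hE
  have h1 : ∀ᶠ P : ℝ in atTop, 1 ≤ P := eventually_ge_atTop 1
  have h2 : ∀ᶠ P : ℝ in atTop, 2 ≤ P ^ ε := (tendsto_rpow_atTop hε).eventually_ge_atTop 2
  have h3 : Tendsto (fun P : ℝ => 4 * P ^ (-(95 * ε)) + 8 * (Real.log P / P ^ (94 * ε)) +
      Real.log 16 * P ^ (-(1 : ℝ))) atTop (𝓝 (4 * 0 + 8 * 0 + Real.log 16 * 0)) :=
    (((tendsto_rpow_neg_atTop (by positivity : 0 < 95 * ε)).const_mul 4).add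
      (((isLittleO_log_rpow_atTop (by positivity : 0 < 94 * ε)).tendsto_div_nhds_zero).const_mul
        8)).add ((tendsto_rpow_neg_atTop one_pos).const_mul _)
  have h3' : ∀ᶠ P : ℝ in atTop, 4 * P ^ (-(95 * ε)) + 8 * (Real.log P / P ^ (94 * ε)) +
      Real.log 16 * P ^ (-(1 : ℝ)) ≤ 7 / 8 := by
    refine h3.eventually (Iic_mem_nhds ?_)
    norm_num
  have h4 : Tendsto (fun P : ℝ => Real.log (8 * C0) * P ^ (-(1 - 95 * ε)) +
      2 * P ^ (-(2.9 * ε)) + P ^ (-(0.5 * ε))) atTop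
      (𝓝 (Real.log (8 * C0) * 0 + 2 * 0 + 0)) :=
    (((tendsto_rpow_neg_atTop (by linarith : 0 < 1 - 95 * ε)).const_mul _).add
      ((tendsto_rpow_neg_atTop (by positivity : 0 < 2.9 * ε)).const_mul 2)).add
      (tendsto_rpow_neg_atTop (by positivity : 0 < 0.5 * ε))
  have h4' : ∀ᶠ P : ℝ in atTop, Real.log (8 * C0) * P ^ (-(1 - 95 * ε)) +
      2 * P ^ (-(2.9 * ε)) + P ^ (-(0.5 * ε)) ≤ 1 / (2 * (E : ℝ)) := by
    refine h4.eventually (Iic_mem_nhds ?_)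
    rw [mul_zero, mul_zero, add_zero, add_zero]
    positivity
  obtain ⟨P0, hP0⟩ := eventually_atTop.1 (((h1.and h2).and h3').and h4')
  refine ⟨P0, fun P hP => ?_⟩
  obtain ⟨⟨⟨a1, a2⟩, a3⟩, a4⟩ := hP0 P hP
  have hP1 : 0 < P := by linarith
  refine ⟨a1, a2, ?_, ?_⟩
  · have e1 : P ^ (1 - 95 * ε) = P * P ^ (-(95 * ε)) := by
      rw [sub_eq_add_neg, Real.rpow_add hP1, Real.rpow_one]
    have e2 : P ^ (1 - 94 * ε) * Real.log P = P * (Real.log P / P ^ (94 * ε)) := by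
      rw [Real.rpow_sub hP1, Real.rpow_one]
      ring
    have e3 : Real.log 16 = P * (Real.log 16 * P ^ (-(1 : ℝ))) := by
      rw [Real.rpow_neg_one]
      field_simp
    rw [e1, e2]
    have := mul_le_mul_of_nonneg_left a3 hP1.le
    rw [mul_add, mul_add, ← e3] at this
    linarith
  · have hx : 0 < P ^ (1 - 95 * ε) := by positivity
    have e1 : P ^ (1 - 97.9 * ε) = P ^ (1 - 95 * ε) * P ^ (-(2.9 * ε)) := by
      rw [← Real.rpow_add hP1]; congr 1; ring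
    have e2 : P ^ (1 - 95.5 * ε) = P ^ (1 - 95 * ε) * P ^ (-(0.5 * ε)) := by
      rw [← Real.rpow_add hP1]; congr 1; ring
    have e3 : Real.log (8 * C0) = P ^ (1 - 95 * ε) *
        (Real.log (8 * C0) * P ^ (-(1 - 95 * ε))) := by
      have : P ^ (1 - 95 * ε) * P ^ (-(1 - 95 * ε)) = 1 := by
        rw [← Real.rpow_add hP1, add_neg_cancel, Real.rpow_zero]
      linear_combination (-Real.log (8 * C0)) * this
    have := mul_le_mul_of_nonneg_left a4 hx.le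
    rw [mul_add, mul_add, ← e3] at this
    rw [e1, e2]
    linarith

end Vale.Agent.P042.UU.Tr

namespace Vale.Agent.P042.UU

open Polynomial Finset Filter Vale.Agent.P042.SS Vale.Agent.P042.TT Vale.Agent.P042.TT.Ker
open Vale.Agent.P042.UU.Tr

theorem trunc5_holds : TRUNC5Stmt := by
  intro k E K p0 kap ε hk hE hkap hε hε1
  obtain ⟨C0, hC0, hkb⟩ := kap_bound k E K p0 kap hE hkap
  obtain ⟨P0, hP0⟩ := ev_num C0 ε E hE hε hε1
  refine ⟨P0, fun P hP N' H G hN1 hN2 hH1 hH2 hG0 hGs hGle f hGam hGam1 => ?_⟩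
  obtain ⟨hP1, hPe, hnumB, hnumC⟩ := hP0 P hP
  have hPpos : 0 < P := by linarith
  have hEr : (0 : ℝ) < E := by exact_mod_cast hE
  set Q : ℕ := Q5 ε P with hQ
  have hQle : (Q : ℝ) ≤ Real.exp (P ^ (1 - 95 * ε)) := Nat.floor_le (Real.exp_pos _).le
  have hQlt : Real.exp (P ^ (1 - 95 * ε)) < (Q : ℝ) + 1 := Nat.lt_floor_add_one _
  set w1 : ℕ := ⌊P ^ (2 - 190 * ε)⌋₊ with hw1
  have hw1le : (w1 : ℝ) ≤ P ^ (2 : ℝ) := by
    refine (Nat.floor_le (by positivity)).trans ?_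
    exact Real.rpow_le_rpow_of_exponent_le hP1 (by linarith)
  have hw11 : 1 ≤ w1 := by
    rw [hw1]
    refine Nat.le_floor ?_
    rw [Nat.cast_one]
    exact Real.one_le_rpow hP1 (by linarith)
  have hQ1 : 1 ≤ Q := by
    rw [hQ, Q5]
    refine Nat.le_floor ?_
    rw [Nat.cast_one]
    exact Real.one_le_exp (by positivity)
  set R : ℕ := Q * w1 ^ (d5 ε P) with hR
  have hR1 : 1 ≤ R := Nat.mul_pos hQ1 (Nat.pos_of_ne_zero (pow_ne_zero _ (by omega)))
  -- number of primes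
  have hcard : ∀ n, 1 ≤ n → n ≤ Q → (Uo (W5 ε P) n).card ≤ d5 ε P := by
    intro n hn hnQ
    have h1 : 2 ^ (Uo (W5 ε P) n).card ≤ ∏ p ∈ Uo (W5 ε P) n, p := by
      refine Finset.pow_card_le_prod _ _ _ fun p hp => ?_
      exact (W5_prime (Finset.mem_filter.1 hp).1).two_le
    have h2 := Nat.le_of_dvd (by omega) (Uo_dvd (fun p hp => W5_prime (ε := ε) (P := P) hp) n)
    have h3 : (2 : ℝ) ^ (Uo (W5 ε P) n).card ≤ Real.exp (P ^ (1 - 95 * ε)) := by
      refine le_trans ?_ hQle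
      have : 2 ^ (Uo (W5 ε P) n).card ≤ Q := by omega
      exact_mod_cast this
    have h4 : ((Uo (W5 ε P) n).card : ℝ) * Real.log 2 ≤ P ^ (1 - 95 * ε) := by
      rw [← Real.log_pow, ← Real.log_exp (P ^ (1 - 95 * ε))]
      exact Real.log_le_log (by positivity) h3
    have h5 : (1 / 2 : ℝ) ≤ Real.log 2 := by
      have := Real.log_two_gt_d9
      linarith
    unfold d5
    refine Nat.le_floor ?_
    have h6 : P ^ (1 - 94 * ε) = P ^ (1 - 95 * ε) * P ^ ε := by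
      rw [← Real.rpow_add hPpos]; congr 1; ring
    rw [h6]
    have h7 : 0 < P ^ (1 - 95 * ε) := by positivity
    have h8 : (0 : ℝ) ≤ ((Uo (W5 ε P) n).card : ℝ) := Nat.cast_nonneg _
    nlinarith
  have hRle : ∀ q U, q ∈ EV5 ε P Q →
      U ∈ (Vn ε P q).powerset.filter (fun U => U.card ≤ d5 ε P) → q * ∏ p ∈ U, p ≤ R := by
    intro q U hq hU
    rw [EV5, Finset.mem_filter, Finset.mem_Icc] at hq
    rw [Finset.mem_filter, Finset.mem_powerset] at hU
    refine Nat.mul_le_mul hq.1.2 ?_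
    have h1 : ∏ p ∈ U, p ≤ w1 ^ U.card := by
      refine Finset.prod_le_pow_card _ _ _ fun p hp => ?_
      have := (mem_Vn.1 (hU.1 hp)).1
      unfold W5 Wp at this
      exact (Finset.mem_Ioc.1 (Finset.mem_filter.1 this).1).2
    exact h1.trans (Nat.pow_le_pow_right (by omega) hU.2)
  -- the decomposition
  have hdec := decomp ε P Q R (Xm f G N' H) hcard hRle
  have hKU : ∑ q ∈ EV5 ε P Q, Cor G G N' H (KQ f q (KU ε P f q)) =
      ∑ q ∈ EV5 ε P Q, ∑ U ∈ (Vn ε P q).powerset.filter (fun U => U.card ≤ d5 ε P),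
        Xm f G N' H (q * ∏ p ∈ U, p) := by
    refine Finset.sum_congr rfl fun q hq => ?_
    rw [EV5, Finset.mem_filter, Finset.mem_Icc] at hq
    exact KU_eq ε P f G N' H q hq.1.1
  rw [hKU]
  refine (le_trans (le_of_eq ?_) hdec).trans ?_
  · rfl
  -- the tail
  set c : ℝ := C0 * Real.exp (-(P ^ (1 - 95 * ε) * (1 / (2 * (E : ℝ))))) with hc
  have hc0 : 0 ≤ c := by positivity
  have hcn : ∀ n, Q < n → kapProd kap n ≤ c := by
    intro n hn
    refine (hkb n (by omega)).trans ?_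
    refine mul_le_mul_of_nonneg_left ?_ (by linarith)
    have h1 : Real.exp (P ^ (1 - 95 * ε)) ≤ n := by
      refine hQlt.le.trans ?_
      exact_mod_cast hn
    calc (n : ℝ) ^ (-(1 / (2 * (E : ℝ)))) ≤
        (Real.exp (P ^ (1 - 95 * ε))) ^ (-(1 / (2 * (E : ℝ)))) := by
          refine Real.rpow_le_rpow_of_nonpos (Real.exp_pos _) h1 ?_
          rw [neg_nonpos]; positivity
      _ = Real.exp (-(P ^ (1 - 95 * ε) * (1 / (2 * (E : ℝ))))) := by
          rw [← Real.exp_mul]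
          congr 1
          ring
  refine (tail_le kap f hGam G (Real.exp (P ^ (1 - 97.9 * ε))) c hG0 hGle N' H Q R hR1 hc0
    hcn).trans ?_
  -- `R ^ 4 ≤ H`
  have hHr : Real.exp (7 / 8 * P) / 16 ≤ H := by
    have : (N' : ℝ) ≤ 16 * H := by exact_mod_cast hH2
    linarith
  have hR4 : (R : ℝ) ^ 4 ≤ H := by
    refine le_trans ?_ hHr
    have h1 : (w1 : ℝ) ^ (d5 ε P) ≤ Real.exp (2 * (P ^ (1 - 94 * ε) * Real.log P)) := by
      have hd : ((d5 ε P : ℕ) : ℝ) ≤ P ^ (1 - 94 * ε) := Nat.floor_le (by positivity)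
      calc (w1 : ℝ) ^ (d5 ε P) ≤ (P ^ (2 : ℝ)) ^ (d5 ε P) :=
            pow_le_pow_left₀ (Nat.cast_nonneg _) hw1le _
        _ = Real.exp (2 * ((d5 ε P : ℝ) * Real.log P)) := by
            rw [← Real.rpow_natCast, ← Real.rpow_mul hPpos.le, Real.rpow_def_of_pos hPpos]
            congr 1
            ring
        _ ≤ _ := by
            apply Real.exp_le_exp.2
            have := Real.log_nonneg hP1
            gcongr
    have h2 : (R : ℝ) ≤ Real.exp (P ^ (1 - 95 * ε) + 2 * (P ^ (1 - 94 * ε) * Real.log P)) := by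
      rw [hR, Real.exp_add]
      push_cast
      gcongr
    calc (R : ℝ) ^ 4 ≤ (Real.exp (P ^ (1 - 95 * ε) +
          2 * (P ^ (1 - 94 * ε) * Real.log P))) ^ 4 := pow_le_pow_left₀ (Nat.cast_nonneg _) h2 4
      _ = Real.exp (4 * P ^ (1 - 95 * ε) + 8 * (P ^ (1 - 94 * ε) * Real.log P)) := by
          rw [← Real.exp_nat_mul]
          congr 1
          push_cast
          ring
      _ ≤ Real.exp (7 / 8 * P - Real.log 16) := by
          apply Real.exp_le_exp.2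
          linarith
      _ = Real.exp (7 / 8 * P) / 16 := by
          rw [Real.exp_sub, Real.exp_log (by norm_num)]
  have hN'1 : (1 : ℝ) ≤ N' := by
    refine le_trans ?_ hN1
    exact Real.one_le_exp (by positivity)
  have hH0 : (0 : ℝ) ≤ H := Nat.cast_nonneg _
  set g : ℝ := Real.exp (P ^ (1 - 97.9 * ε)) with hg
  calc c * ((3 * N' + 1) * (((H : ℝ) + (R : ℝ) ^ 4) * (H * g ^ 2)))
      ≤ c * ((4 * N') * ((2 * H) * (H * g ^ 2))) := by
        have h1 : (3 * N' + 1 : ℝ) ≤ 4 * N' := by linarith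
        have h2 : (H : ℝ) + (R : ℝ) ^ 4 ≤ 2 * H := by linarith
        gcongr
    _ = (8 * c * g ^ 2) * (N' * (H : ℝ) ^ 2) := by ring
    _ ≤ Real.exp (-(P ^ (1 - 95.5 * ε))) * (N' * (H : ℝ) ^ 2) := by
        refine mul_le_mul_of_nonneg_right ?_ (by positivity)
        have h1 : 8 * c * g ^ 2 = Real.exp (Real.log (8 * C0) -
            P ^ (1 - 95 * ε) * (1 / (2 * (E : ℝ))) + 2 * P ^ (1 - 97.9 * ε)) := by
          rw [Real.exp_add, Real.exp_sub, Real.exp_log (by linarith), hc, hg,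
            ← Real.exp_nat_mul, Real.exp_neg]
          push_cast
          ring
        rw [h1]
        apply Real.exp_le_exp.2
        linarith
    _ = Real.exp (-(P ^ (1 - 95.5 * ε))) * N' * (H : ℝ) ^ 2 := by ring

end Vale.Agent.P042.UU
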