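import Vale.Agent.P042.SS.ANSep
import Vale.Agent.P042.SS.ANVt

set_option autoImplicit false

/-!
Block TRUNC5, part A: a crude large sieve inequality (helper104).
-/

namespace Vale.Agent.P042.UU.Tr

open Polynomial Finset Vale.Agent.P042.SS

/-- Bombieri's inequality -/
theorem bombieri {τ : Type*} (T : Finset τ) (I : Finset ℤ) (φ : τ → ℤ → ℂ) (g : ℤ → ℂ)
    (Δ : ℝ) (hΔ : 0 ≤ Δ)
    (h : ∀ r ∈ T, ∑ s ∈ T, ‖∑ m ∈ I, φ r m * (starRingEnd ℂ) (φ s m)‖ ≤ Δ) :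
    ∑ r ∈ T, ‖∑ m ∈ I, g m * (starRingEnd ℂ) (φ r m)‖ ^ 2 ≤ Δ * ∑ m ∈ I, ‖g m‖ ^ 2 := by
  set c : τ → ℂ := fun r => ∑ m ∈ I, g m * (starRingEnd ℂ) (φ r m) with hc
  set S : ℝ := ∑ r ∈ T, ‖c r‖ ^ 2 with hS
  have hS0 : 0 ≤ S := Finset.sum_nonneg fun _ _ => by positivity
  set g2 : ℝ := ∑ m ∈ I, ‖g m‖ ^ 2 with hg2
  have hg0 : 0 ≤ g2 := Finset.sum_nonneg fun _ _ => by positivity
  -- `S` as an inner product
  have h1 : (S : ℂ) = ∑ m ∈ I, g m * (starRingEnd ℂ) (∑ r ∈ T, c r * φ r m) := by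
    have e1 : ∀ r, ((‖c r‖ ^ 2 : ℝ) : ℂ) = ∑ m ∈ I, g m * (starRingEnd ℂ) (c r * φ r m) := by
      intro r
      have e2 : ((‖c r‖ ^ 2 : ℝ) : ℂ) = c r * (starRingEnd ℂ) (c r) := by
        rw [Complex.mul_conj, Complex.normSq_eq_norm_sq]
      rw [e2]
      conv_lhs => rw [hc]
      simp only
      rw [Finset.sum_mul]
      refine Finset.sum_congr rfl fun m _ => ?_
      rw [map_mul]
      ring
    rw [hS, Complex.ofReal_sum]
    simp only [e1]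
    rw [Finset.sum_comm]
    refine Finset.sum_congr rfl fun m _ => ?_
    rw [map_sum, Finset.mul_sum]
  set w : ℤ → ℂ := fun m => ∑ r ∈ T, c r * φ r m with hw
  have h2 : S ^ 2 ≤ g2 * ∑ m ∈ I, ‖w m‖ ^ 2 := by
    have e1 : S = ‖∑ m ∈ I, g m * (starRingEnd ℂ) (w m)‖ := by
      rw [← h1, Complex.norm_real, Real.norm_eq_abs, abs_of_nonneg hS0]
    have e2 : S ≤ ∑ m ∈ I, ‖g m‖ * ‖w m‖ := by
      rw [e1]
      refine (norm_sum_le _ _).trans (Finset.sum_le_sum fun m _ => ?_)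
      rw [norm_mul, RCLike.norm_conj]
    calc S ^ 2 ≤ (∑ m ∈ I, ‖g m‖ * ‖w m‖) ^ 2 := pow_le_pow_left₀ hS0 e2 2
      _ ≤ g2 * ∑ m ∈ I, ‖w m‖ ^ 2 := Finset.sum_mul_sq_le_sq_mul_sq _ _ _
  have h3 : ∑ m ∈ I, ‖w m‖ ^ 2 ≤ Δ * S := by
    have e1 : ((∑ m ∈ I, ‖w m‖ ^ 2 : ℝ) : ℂ) = ∑ r ∈ T, ∑ s ∈ T,
        c r * (starRingEnd ℂ) (c s) * ∑ m ∈ I, φ r m * (starRingEnd ℂ) (φ s m) := by
      rw [Complex.ofReal_sum]
      have e2 : ∀ m, ((‖w m‖ ^ 2 : ℝ) : ℂ) = ∑ r ∈ T, ∑ s ∈ T,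
          c r * (starRingEnd ℂ) (c s) * (φ r m * (starRingEnd ℂ) (φ s m)) := by
        intro m
        have e3 : ((‖w m‖ ^ 2 : ℝ) : ℂ) = w m * (starRingEnd ℂ) (w m) := by
          rw [Complex.mul_conj, Complex.normSq_eq_norm_sq]
        rw [e3, hw]
        simp only
        rw [map_sum, Finset.sum_mul_sum]
        refine Finset.sum_congr rfl fun r _ => Finset.sum_congr rfl fun s _ => ?_
        rw [map_mul]
        ring
      simp only [e2]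
      rw [Finset.sum_comm]
      refine Finset.sum_congr rfl fun r _ => ?_
      rw [Finset.sum_comm]
      refine Finset.sum_congr rfl fun s _ => ?_
      rw [Finset.mul_sum]
    have e2 : ∑ m ∈ I, ‖w m‖ ^ 2 ≤ ∑ r ∈ T, ∑ s ∈ T,
        ‖c r‖ * ‖c s‖ * ‖∑ m ∈ I, φ r m * (starRingEnd ℂ) (φ s m)‖ := by
      have e3 : ∑ m ∈ I, ‖w m‖ ^ 2 = ‖((∑ m ∈ I, ‖w m‖ ^ 2 : ℝ) : ℂ)‖ := by
        rw [Complex.norm_real, Real.norm_eq_abs, abs_of_nonneg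
          (Finset.sum_nonneg fun _ _ => by positivity)]
      rw [e3, e1]
      refine (norm_sum_le _ _).trans (Finset.sum_le_sum fun r _ => ?_)
      refine (norm_sum_le _ _).trans (Finset.sum_le_sum fun s _ => ?_)
      rw [norm_mul, norm_mul, RCLike.norm_conj]
    have hsym : ∀ r s, ‖∑ m ∈ I, φ r m * (starRingEnd ℂ) (φ s m)‖ =
        ‖∑ m ∈ I, φ s m * (starRingEnd ℂ) (φ r m)‖ := by
      intro r s
      rw [← RCLike.norm_conj, map_sum]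
      congr 1
      refine Finset.sum_congr rfl fun m _ => ?_
      rw [map_mul, Complex.conj_conj, mul_comm]
    have e3 : ∑ r ∈ T, ∑ s ∈ T, ‖c r‖ * ‖c s‖ * ‖∑ m ∈ I, φ r m * (starRingEnd ℂ) (φ s m)‖ ≤
        ∑ r ∈ T, ∑ s ∈ T, (1 / 2 * ‖c r‖ ^ 2 * ‖∑ m ∈ I, φ r m * (starRingEnd ℂ) (φ s m)‖ +
          1 / 2 * ‖c s‖ ^ 2 * ‖∑ m ∈ I, φ s m * (starRingEnd ℂ) (φ r m)‖) := by
      refine Finset.sum_le_sum fun r _ => Finset.sum_le_sum fun s _ => ?_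
      rw [hsym s r]
      have h4 := norm_nonneg (∑ m ∈ I, φ r m * (starRingEnd ℂ) (φ s m))
      have h5 : ‖c r‖ * ‖c s‖ ≤ 1 / 2 * ‖c r‖ ^ 2 + 1 / 2 * ‖c s‖ ^ 2 := by
        nlinarith [sq_nonneg (‖c r‖ - ‖c s‖)]
      nlinarith
    have e4 : ∑ r ∈ T, ∑ s ∈ T, 1 / 2 * ‖c r‖ ^ 2 * ‖∑ m ∈ I, φ r m * (starRingEnd ℂ) (φ s m)‖ ≤
        1 / 2 * (Δ * S) := by
      have : ∀ r ∈ T, ∑ s ∈ T, 1 / 2 * ‖c r‖ ^ 2 *
          ‖∑ m ∈ I, φ r m * (starRingEnd ℂ) (φ s m)‖ ≤ 1 / 2 * ‖c r‖ ^ 2 * Δ := by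
        intro r hr
        rw [← Finset.mul_sum]
        exact mul_le_mul_of_nonneg_left (h r hr) (by positivity)
      refine (Finset.sum_le_sum this).trans_eq ?_
      rw [← Finset.sum_mul, ← Finset.mul_sum]
      ring
    have e5 : ∑ r ∈ T, ∑ s ∈ T, 1 / 2 * ‖c s‖ ^ 2 * ‖∑ m ∈ I, φ s m * (starRingEnd ℂ) (φ r m)‖ =
        ∑ r ∈ T, ∑ s ∈ T, 1 / 2 * ‖c r‖ ^ 2 * ‖∑ m ∈ I, φ r m * (starRingEnd ℂ) (φ s m)‖ :=
      Finset.sum_comm
    have e6 : ∑ r ∈ T, ∑ s ∈ T, (1 / 2 * ‖c r‖ ^ 2 * ‖∑ m ∈ I, φ r m * (starRingEnd ℂ) (φ s m)‖ +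
          1 / 2 * ‖c s‖ ^ 2 * ‖∑ m ∈ I, φ s m * (starRingEnd ℂ) (φ r m)‖) =
        (∑ r ∈ T, ∑ s ∈ T, 1 / 2 * ‖c r‖ ^ 2 * ‖∑ m ∈ I, φ r m * (starRingEnd ℂ) (φ s m)‖) +
        ∑ r ∈ T, ∑ s ∈ T, 1 / 2 * ‖c s‖ ^ 2 * ‖∑ m ∈ I, φ s m * (starRingEnd ℂ) (φ r m)‖ := by
      rw [← Finset.sum_add_distrib]
      refine Finset.sum_congr rfl fun r _ => ?_
      rw [← Finset.sum_add_distrib]
    linarith
  rcases hS0.eq_or_lt with h4 | h4
  · rw [← h4]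
    positivity
  · have h5 : S * S ≤ S * (Δ * g2) := by
      calc S * S = S ^ 2 := by ring
        _ ≤ g2 * (Δ * S) := h2.trans (mul_le_mul_of_nonneg_left h3 hg0)
        _ = S * (Δ * g2) := by ring
    exact le_of_mul_le_mul_left h5 h4

/-- geometric sums -/
theorem geo (y : ℤ) (M : ℕ) (t : ℝ) :
    (e t - 1) * ∑ m ∈ Ioc y (y + M), e ((m : ℝ) * t) =
      e (((y + M + 1 : ℤ) : ℝ) * t) - e (((y + 1 : ℤ) : ℝ) * t) := by
  induction M with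
  | zero => simp
  | succ M ih =>
    have h1 : Ioc y (y + ((M + 1 : ℕ) : ℤ)) = insert (y + M + 1) (Ioc y (y + M)) := by
      ext z
      simp only [Finset.mem_insert, Finset.mem_Ioc]
      push_cast
      omega
    rw [h1, Finset.sum_insert (by simp), mul_add, ih]
    have h2 : e (((y + ((M + 1 : ℕ) : ℤ) + 1 : ℤ) : ℝ) * t) = e t * e (((y + M + 1 : ℤ) : ℝ) * t) := by
      rw [← e_add]
      congr 1
      push_cast
      ring
    rw [h2]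
    ring

theorem geo_le (y : ℤ) (M : ℕ) (t d : ℝ) (hd0 : 0 < d) (hd : ∀ n : ℤ, d ≤ |t - n|) :
    ‖∑ m ∈ Ioc y (y + M), e ((m : ℝ) * t)‖ ≤ 1 / (2 * d) := by
  have h1 := VT.norm_e_sub_one_ge t d hd
  have h2 := congrArg (fun z : ℂ => ‖z‖) (geo y M t)
  simp only [norm_mul] at h2
  have h3 : ‖e (((y + M + 1 : ℤ) : ℝ) * t) - e (((y + 1 : ℤ) : ℝ) * t)‖ ≤ 2 := by
    refine (norm_sub_le _ _).trans ?_
    rw [norm_e, norm_e]
    norm_num
  rw [le_div_iff₀ (by positivity)]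
  have h4 := norm_nonneg (∑ m ∈ Ioc y (y + M), e ((m : ℝ) * t))
  nlinarith

/-- crude large sieve -/
theorem large_sieve (G : ℤ → ℝ) (y : ℤ) (M R : ℕ) (hR : 1 ≤ R) :
    ∑ n ∈ Icc 1 R, ∑ a ∈ (range n).filter (Nat.Coprime n), ‖Fw G y M ((a : ℝ) / n)‖ ^ 2 ≤
      ((M : ℝ) + (R : ℝ) ^ 4) * ∑ m ∈ Ioc y (y + M), G m ^ 2 := by
  have hRr : (0 : ℝ) < R := by exact_mod_cast hR
  set φ : (Σ _ : ℕ, ℕ) → ℤ → ℂ := fun t m => e ((m : ℝ) * ((t.2 : ℝ) / t.1)) with hφ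
  have key := bombieri (SEP.Tf R) (Ioc y (y + M)) φ (fun m => (G m : ℂ)) ((M : ℝ) + (R : ℝ) ^ 4)
    (by positivity) (by
      intro r hr
      have hr' := SEP.mem_Tf.1 hr
      have h1 : ∀ s ∈ SEP.Tf R, ‖∑ m ∈ Ioc y (y + M), φ r m * (starRingEnd ℂ) (φ s m)‖ ≤
          (if s = r then (M : ℝ) else 0) + (R : ℝ) ^ 2 := by
        intro s hs
        have hs' := SEP.mem_Tf.1 hs
        by_cases hrs : s = r
        · rw [if_pos hrs]
          refine (norm_sum_le _ _).trans ?_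
          have e1 : ∀ m ∈ Ioc y (y + M), ‖φ r m * (starRingEnd ℂ) (φ s m)‖ ≤ 1 := by
            intro m _
            rw [norm_mul, RCLike.norm_conj, hφ]
            simp only [norm_e]
            norm_num
          refine (Finset.sum_le_sum e1).trans ?_
          rw [Finset.sum_const, Int.card_Ioc, nsmul_eq_mul, mul_one]
          have : ((y + M - y).toNat : ℝ) = M := by
            rw [show y + (M : ℤ) - y = M by ring, Int.toNat_natCast]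
          rw [this]
          nlinarith [sq_nonneg (R : ℝ)]
        · rw [if_neg hrs, zero_add]
          have e1 : ∀ m ∈ Ioc y (y + M), φ r m * (starRingEnd ℂ) (φ s m) =
              e ((m : ℝ) * ((r.2 : ℝ) / r.1 - (s.2 : ℝ) / s.1)) := by
            intro m _
            rw [hφ]
            simp only
            rw [conj_e, ← e_add]
            congr 1
            ring
          rw [Finset.sum_congr rfl e1]
          have e2 : ∀ n : ℤ, 1 / (R : ℝ) ^ 2 ≤ |(r.2 : ℝ) / r.1 - (s.2 : ℝ) / s.1 - n| := by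
            intro n
            by_contra h4
            rw [not_le] at h4
            have := SEP.frac_eq hr'.1.1 hr'.1.2 hr'.2.1 hr'.2.2 hs'.1.1 hs'.1.2 hs'.2.1 hs'.2.2 h4
            apply hrs
            rw [Prod.mk.injEq] at this
            exact Sigma.ext this.1 (heq_of_eq this.2)
          refine (geo_le y M _ _ (by positivity) e2).trans ?_
          rw [div_le_iff₀ (by positivity)]
          field_simp
          norm_num
      refine (Finset.sum_le_sum h1).trans ?_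
      rw [Finset.sum_add_distrib, Finset.sum_ite_eq', if_pos hr, Finset.sum_const, nsmul_eq_mul]
      have h2 : ((SEP.Tf R).card : ℝ) ≤ (R : ℝ) ^ 2 := by exact_mod_cast SEP.card_Tf R
      have h3 : ((SEP.Tf R).card : ℝ) * (R : ℝ) ^ 2 ≤ (R : ℝ) ^ 2 * (R : ℝ) ^ 2 := by gcongr
      nlinarith)
  have h1 : ∑ n ∈ Icc 1 R, ∑ a ∈ (range n).filter (Nat.Coprime n),
      ‖Fw G y M ((a : ℝ) / n)‖ ^ 2 = ∑ t ∈ SEP.Tf R,
        ‖∑ m ∈ Ioc y (y + M), (G m : ℂ) * (starRingEnd ℂ) (φ t m)‖ ^ 2 := by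
    unfold SEP.Tf
    rw [Finset.sum_sigma]
    refine Finset.sum_congr rfl fun n _ => Finset.sum_congr rfl fun a _ => ?_
    congr 2
    unfold Fw
    refine Finset.sum_congr rfl fun m _ => ?_
    rw [hφ]
    simp only
    rw [conj_e]
  have h2 : ∑ m ∈ Ioc y (y + M), ‖(G m : ℂ)‖ ^ 2 = ∑ m ∈ Ioc y (y + M), G m ^ 2 := by
    refine Finset.sum_congr rfl fun m _ => ?_
    rw [Complex.norm_real, Real.norm_eq_abs, sq_abs]
  rw [h1, ← h2]
  exact key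

end Vale.Agent.P042.UU.Tr
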