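import Vale.Agent.P042.UU.SpecB

set_option autoImplicit false

/-!
Block TSB5, part A: inequalities for one prime.
-/

namespace Vale.Agent.P042.UU

open Finset Vale.Agent.P042.SS Vale.Agent.P042.TT

/-! ### pointwise inequalities -/

lemma tsb_lg_zero : lg 0 = -3 := by simp [lg]

lemma tsb_log20 : Real.log (1 / 20) / 2 ≥ -3 := by
  have h1 : Real.log (1 / 20) = -Real.log 20 := by
    rw [one_div, Real.log_inv]
  have h2 : Real.log 20 ≤ 6 := by
    have h3 : (20 : ℝ) ≤ Real.exp 6 := by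
      have := Real.add_one_le_exp (6 / 2 : ℝ)
      have h4 : Real.exp 6 = Real.exp (6 / 2) * Real.exp (6 / 2) := by
        rw [← Real.exp_add]
        norm_num
      have h5 : (4 : ℝ) ≤ Real.exp (6 / 2) := by linarith
      have h6 : (5 : ℝ) ≤ Real.exp (6 / 2) := by
        have h7 : Real.exp (6 / 2) = Real.exp 1 * Real.exp 2 := by
          rw [← Real.exp_add]
          norm_num
        have h8 := Real.exp_one_gt_d9
        have h9 := Real.add_one_le_exp (2 : ℝ)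
        rw [h7]
        nlinarith
      rw [h4]
      nlinarith
    calc Real.log 20 ≤ Real.log (Real.exp 6) := Real.log_le_log (by norm_num) h3
      _ = 6 := Real.log_exp 6
  rw [h1]
  linarith

lemma tsb_lg_pos {t : ℝ} (ht : 1 / 20 ≤ t) : lg t = Real.log t / 2 := by
  unfold lg
  have ht0 : 0 < t := by linarith
  rw [if_neg ht0.ne', max_eq_left]
  have h1 : Real.log (1 / 20) ≤ Real.log t := Real.log_le_log (by norm_num) ht
  have := tsb_log20
  linarith

lemma tsb_lg_abs {t : ℝ} (h : t = 0 ∨ 1 / 20 ≤ t) (ht : t ≤ 3) : |lg t| ≤ 3 := by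
  rcases h with rfl | h
  · rw [tsb_lg_zero]
    norm_num
  · rw [tsb_lg_pos h, abs_le]
    have h1 : Real.log (1 / 20) ≤ Real.log t := Real.log_le_log (by norm_num) h
    have h2 := tsb_log20
    have h3 : Real.log t ≤ t - 1 := Real.log_le_sub_one_of_pos (by linarith)
    constructor <;> linarith

/-- `(t - 1)² ≤ 9 (√t - 1)²` -/
lemma tsb_sq {t : ℝ} (h0 : 0 ≤ t) (ht : t ≤ 3) : (t - 1) ^ 2 ≤ 9 * (Real.sqrt t - 1) ^ 2 := by
  have h1 := Real.sq_sqrt h0
  have h2 := Real.sqrt_nonneg t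
  have h3 : Real.sqrt t ≤ 2 := by
    rw [Real.sqrt_le_left (by norm_num)]
    linarith
  have h4 : (t - 1) ^ 2 = (Real.sqrt t + 1) ^ 2 * (Real.sqrt t - 1) ^ 2 := by
    rw [← mul_pow]
    congr 1
    nlinarith
  rw [h4]
  have h5 : (Real.sqrt t + 1) ^ 2 ≤ 9 := by nlinarith
  exact mul_le_mul_of_nonneg_right h5 (sq_nonneg _)

lemma tsb_exp2 {t : ℝ} (h : t = 0 ∨ 1 / 20 ≤ t) :
    Real.exp (2 * lg t) ≤ t + (Real.sqrt t - 1) ^ 2 := by
  rcases h with rfl | h
  · rw [tsb_lg_zero, Real.sqrt_zero]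
    have : Real.exp (2 * -3) ≤ 1 := Real.exp_le_one_iff.2 (by norm_num)
    linarith
  · rw [tsb_lg_pos h]
    have h1 : 2 * (Real.log t / 2) = Real.log t := by ring
    rw [h1, Real.exp_log (by linarith)]
    have := sq_nonneg (Real.sqrt t - 1)
    linarith

lemma tsb_exp12 : Real.exp 12 ≤ 200000 := by
  have h1 := Real.exp_one_lt_d9
  have h2 : Real.exp 12 = (Real.exp 1) ^ 12 := by
    rw [← Real.exp_nat_mul]
    norm_num
  rw [h2]
  calc (Real.exp 1) ^ 12 ≤ (2.7182818286 : ℝ) ^ 12 := by gcongr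
    _ ≤ _ := by norm_num

lemma tsb_expm4 {t : ℝ} (h : t = 0 ∨ 1 / 20 ≤ t) (ht : t ≤ 3) :
    Real.exp (-4 * lg t) ≤ 1 - 2 * (t - 1) + 200000 * (Real.sqrt t - 1) ^ 2 := by
  rcases h with rfl | h
  · rw [tsb_lg_zero, Real.sqrt_zero]
    have := tsb_exp12
    norm_num
    linarith
  · have ht0 : 0 < t := by linarith
    rw [tsb_lg_pos h]
    have h1 : -4 * (Real.log t / 2) = -(2 * Real.log t) := by ring
    have h2 : Real.exp (2 * Real.log t) = t ^ 2 := by
      rw [mul_comm, Real.exp_mul, Real.exp_log ht0]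
      norm_num
    rw [h1, Real.exp_neg, h2]
    have h3 : (t ^ 2)⁻¹ ≤ 1 - 2 * (t - 1) + 440 * (t - 1) ^ 2 := by
      rw [inv_le_iff_one_le_mul₀ (by positivity)]
      have h4 : (1 - 2 * (t - 1) + 440 * (t - 1) ^ 2) * t ^ 2 - 1 =
          (t - 1) ^ 2 * (440 * t ^ 2 - (1 + 2 * t)) := by ring
      have h5 : 0 ≤ 440 * t ^ 2 - (1 + 2 * t) := by nlinarith
      have h6 := mul_nonneg (sq_nonneg (t - 1)) h5
      linarith
    have h7 := tsb_sq ht0.le ht
    have h8 := sq_nonneg (Real.sqrt t - 1)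
    linarith

/-! ### averages over the residues mod `p` -/

section avg

variable {p : ℕ} {v c : ℕ → ℝ}

lemma tsb_hell (hp : 0 < p) (hv0 : ∀ z, 0 ≤ v z) (hm : ∑ z ∈ range p, v z = p) :
    ∑ z ∈ range p, (Real.sqrt (v z) - 1) ^ 2 =
      p * (2 * (1 - (∑ z ∈ range p, Real.sqrt (v z)) / p)) := by
  have hp' : (p : ℝ) ≠ 0 := by positivity
  have h1 : ∀ z ∈ range p, (Real.sqrt (v z) - 1) ^ 2 = v z - 2 * Real.sqrt (v z) + 1 := by
    intro z _
    have := Real.sq_sqrt (hv0 z)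
    nlinarith
  rw [sum_congr rfl h1, sum_add_distrib, sum_sub_distrib, hm, ← mul_sum, sum_const, card_range,
    nsmul_eq_mul]
  field_simp
  ring

lemma tsb_h_nonneg (hp : 0 < p) (hv0 : ∀ z, 0 ≤ v z) (hm : ∑ z ∈ range p, v z = p) :
    0 ≤ 1 - (∑ z ∈ range p, Real.sqrt (v z)) / p := by
  have h1 := tsb_hell hp hv0 hm
  have h2 : 0 ≤ ∑ z ∈ range p, (Real.sqrt (v z) - 1) ^ 2 := sum_nonneg fun z _ => sq_nonneg _
  have h3 : (0 : ℝ) < p := by exact_mod_cast hp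
  rw [h1] at h2
  have h4 := nonneg_of_mul_nonneg_right h2 h3
  linarith

lemma tsb_avg2 (hp : 0 < p) (hv0 : ∀ z, 0 ≤ v z) (hm : ∑ z ∈ range p, v z = p)
    (hl : ∀ z, v z = 0 ∨ 1 / 20 ≤ v z) :
    (∑ z ∈ range p, Real.exp (2 * lg (v z))) / p ≤
      Real.exp (2 * (1 - (∑ z ∈ range p, Real.sqrt (v z)) / p)) := by
  have h3 : (0 : ℝ) < p := by exact_mod_cast hp
  rw [div_le_iff₀ h3]
  calc ∑ z ∈ range p, Real.exp (2 * lg (v z)) ≤
        ∑ z ∈ range p, (v z + (Real.sqrt (v z) - 1) ^ 2) :=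
        sum_le_sum fun z _ => tsb_exp2 (hl z)
    _ = (1 + 2 * (1 - (∑ z ∈ range p, Real.sqrt (v z)) / p)) * p := by
        rw [sum_add_distrib, hm, tsb_hell hp hv0 hm]
        ring
    _ ≤ _ := by
        refine mul_le_mul_of_nonneg_right ?_ h3.le
        rw [add_comm]
        exact Real.add_one_le_exp _

lemma tsb_avgm4 (hp : 0 < p) (hv0 : ∀ z, 0 ≤ v z) (hm : ∑ z ∈ range p, v z = p)
    (hl : ∀ z, v z = 0 ∨ 1 / 20 ≤ v z) (h3v : ∀ z, v z ≤ 3) :
    (∑ z ∈ range p, Real.exp (-4 * lg (v z))) / p ≤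
      Real.exp (400000 * (1 - (∑ z ∈ range p, Real.sqrt (v z)) / p)) := by
  have h3 : (0 : ℝ) < p := by exact_mod_cast hp
  rw [div_le_iff₀ h3]
  calc ∑ z ∈ range p, Real.exp (-4 * lg (v z)) ≤
        ∑ z ∈ range p, (1 - 2 * (v z - 1) + 200000 * (Real.sqrt (v z) - 1) ^ 2) :=
        sum_le_sum fun z _ => tsb_expm4 (hl z) (h3v z)
    _ = (1 + 400000 * (1 - (∑ z ∈ range p, Real.sqrt (v z)) / p)) * p := by
        rw [sum_add_distrib, sum_sub_distrib, ← mul_sum, ← mul_sum, sum_sub_distrib, hm,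
          tsb_hell hp hv0 hm]
        simp only [sum_const, card_range, nsmul_eq_mul, mul_one]
        ring
    _ ≤ _ := by
        refine mul_le_mul_of_nonneg_right ?_ h3.le
        rw [add_comm]
        exact Real.add_one_le_exp _

/-- `e^x ≤ 1 + x + x²` for `|x| ≤ 1` -/
lemma tsb_exp_quad {x : ℝ} (h : |x| ≤ 1) : Real.exp x ≤ 1 + x + x ^ 2 := by
  have h1 := Real.abs_exp_sub_one_sub_id_le h
  have h2 := (abs_le.1 h1).2
  linarith

/-- the uniform average of a function centred for `v` -/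
lemma tsb_cen (hp : 0 < p) (hv0 : ∀ z, 0 ≤ v z) (hm : ∑ z ∈ range p, v z = p)
    (h3v : ∀ z, v z ≤ 3) (hc : ∑ z ∈ range p, v z * c z = 0) :
    |∑ z ∈ range p, c z| ≤ p * (9 * (1 - (∑ z ∈ range p, Real.sqrt (v z)) / p) +
      1 / 2 * ((∑ z ∈ range p, (c z) ^ 2) / p)) := by
  have h3 : (0 : ℝ) < p := by exact_mod_cast hp
  have h1 : ∑ z ∈ range p, c z = ∑ z ∈ range p, (1 - v z) * c z := by
    have : ∑ z ∈ range p, (1 - v z) * c z = ∑ z ∈ range p, c z - ∑ z ∈ range p, v z * c z := by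
      rw [← sum_sub_distrib]
      exact sum_congr rfl fun z _ => by ring
    rw [this, hc, sub_zero]
  rw [h1]
  calc |∑ z ∈ range p, (1 - v z) * c z| ≤ ∑ z ∈ range p, |(1 - v z) * c z| :=
        abs_sum_le_sum_abs _ _
    _ ≤ ∑ z ∈ range p, (9 / 2 * (Real.sqrt (v z) - 1) ^ 2 + 1 / 2 * (c z) ^ 2) := by
        refine sum_le_sum fun z _ => ?_
        have h4 := tsb_sq (hv0 z) (h3v z)
        rw [abs_mul]
        have h5 : |1 - v z| * |c z| ≤ 1 / 2 * ((1 - v z) ^ 2 + (c z) ^ 2) := by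
          have h6 := sq_nonneg (|1 - v z| - |c z|)
          have h7 := sq_abs (1 - v z)
          have h8 := sq_abs (c z)
          nlinarith
        have h9 : (1 - v z) ^ 2 = (v z - 1) ^ 2 := by ring
        rw [h9] at h5
        linarith
    _ = _ := by
        rw [sum_add_distrib, ← mul_sum, ← mul_sum, tsb_hell hp hv0 hm]
        field_simp

lemma tsb_avgc (hp : 0 < p) (hv0 : ∀ z, 0 ≤ v z) (hm : ∑ z ∈ range p, v z = p)
    (h3v : ∀ z, v z ≤ 3) (hc : ∑ z ∈ range p, v z * c z = 0) {s : ℝ} (hs : |s| ≤ 8)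
    (hb : ∀ z, |c z| ≤ 1 / 8) :
    (∑ z ∈ range p, Real.exp (s * c z)) / p ≤
      Real.exp (72 * (1 - (∑ z ∈ range p, Real.sqrt (v z)) / p) +
        68 * ((∑ z ∈ range p, (c z) ^ 2) / p)) := by
  have h3 : (0 : ℝ) < p := by exact_mod_cast hp
  have h0 := tsb_h_nonneg hp hv0 hm
  have hq : 0 ≤ (∑ z ∈ range p, (c z) ^ 2) / (p : ℝ) :=
    div_nonneg (sum_nonneg fun z _ => sq_nonneg _) h3.le
  rw [div_le_iff₀ h3]
  have h1 : ∑ z ∈ range p, Real.exp (s * c z) ≤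
      ∑ z ∈ range p, (1 + s * c z + 64 * (c z) ^ 2) := by
    refine sum_le_sum fun z _ => ?_
    have h4 : |s * c z| ≤ 1 := by
      rw [abs_mul]
      have := mul_le_mul hs (hb z) (abs_nonneg _) (by norm_num)
      linarith
    have h5 := tsb_exp_quad h4
    have h6 : (s * c z) ^ 2 ≤ 64 * (c z) ^ 2 := by
      rw [mul_pow, ← sq_abs s]
      have := abs_nonneg s
      have h7 : |s| ^ 2 ≤ 64 := by nlinarith
      exact mul_le_mul_of_nonneg_right h7 (sq_nonneg _)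
    linarith
  have h2 : ∑ z ∈ range p, (1 + s * c z + 64 * (c z) ^ 2) =
      p + s * ∑ z ∈ range p, c z + 64 * ((∑ z ∈ range p, (c z) ^ 2) / p) * p := by
    rw [sum_add_distrib, sum_add_distrib, ← mul_sum, ← mul_sum, sum_const, card_range,
      nsmul_eq_mul, mul_one]
    field_simp
  have h5 := tsb_cen hp hv0 hm h3v hc
  have h6 : s * ∑ z ∈ range p, c z ≤ 8 * (p * (9 * (1 - (∑ z ∈ range p, Real.sqrt (v z)) / p) +
      1 / 2 * ((∑ z ∈ range p, (c z) ^ 2) / p))) := by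
    calc s * ∑ z ∈ range p, c z ≤ |s * ∑ z ∈ range p, c z| := le_abs_self _
      _ = |s| * |∑ z ∈ range p, c z| := abs_mul _ _
      _ ≤ _ := mul_le_mul hs h5 (abs_nonneg _) (by norm_num)
  have h7 := Real.add_one_le_exp (72 * (1 - (∑ z ∈ range p, Real.sqrt (v z)) / p) +
        68 * ((∑ z ∈ range p, (c z) ^ 2) / p))
  have h8 := mul_le_mul_of_nonneg_right h7 h3.le
  nlinarith

end avg

end Vale.Agent.P042.UU
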