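import Vale.Agent.P042.UU.TsbA

set_option autoImplicit false

/-!
Block TSB5, part B: admissible test functions for one prime.
-/

namespace Vale.Agent.P042.UU

open Finset Vale.Agent.P042.SS Vale.Agent.P042.TT

section test

variable {p : ℕ} {v c g : ℕ → ℝ}

/-- second moment for the weight `v` -/
noncomputable def tsbE (p : ℕ) (v c : ℕ → ℝ) : ℝ := (∑ z ∈ range p, v z * (c z) ^ 2) / p

lemma tsbE_nonneg (hv0 : ∀ z, 0 ≤ v z) : 0 ≤ tsbE p v c :=
  div_nonneg (sum_nonneg fun z _ => mul_nonneg (hv0 z) (sq_nonneg _)) (Nat.cast_nonneg _)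

lemma tsbE_le (h3v : ∀ z, v z ≤ 3) : tsbE p v c ≤ 3 * ((∑ z ∈ range p, (c z) ^ 2) / p) := by
  unfold tsbE
  rw [← mul_div_assoc, mul_sum]
  refine div_le_div_of_nonneg_right (sum_le_sum fun z _ => ?_) (Nat.cast_nonneg _)
  exact mul_le_mul_of_nonneg_right (h3v z) (sq_nonneg _)

lemma tsbE_small (hp : 0 < p) (hv0 : ∀ z, 0 ≤ v z) (hm : ∑ z ∈ range p, v z = p)
    (hb : ∀ z, |c z| ≤ 1 / 100) : tsbE p v c ≤ 1 / 10000 := by
  have h3 : (0 : ℝ) < p := by exact_mod_cast hp
  unfold tsbE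
  rw [div_le_iff₀ h3, ← hm, mul_sum]
  refine sum_le_sum fun z _ => ?_
  have h1 : (c z) ^ 2 ≤ 1 / 10000 := by
    rw [← sq_abs]
    have := hb z
    have := abs_nonneg (c z)
    nlinarith
  have := mul_le_mul_of_nonneg_left h1 (hv0 z)
  linarith

/-- the general normalised test function -/
lemma tsb_test (hp : 0 < p) (hv0 : ∀ z, 0 ≤ v z) (hm : ∑ z ∈ range p, v z = p)
    (hb : ∀ z, |c z| ≤ 1 / 100) (hg : ∀ z, |g z - 1| ≤ 4 * |c z|)
    (hN1 : 1 ≤ (∑ z ∈ range p, v z * g z) / p)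
    (hN2 : (∑ z ∈ range p, v z * g z) / p ≤ 1 + 4 * tsbE p v c) :
    (∀ z, 1 / 3 ≤ g z / ((∑ z ∈ range p, v z * g z) / p) ∧
      g z / ((∑ z ∈ range p, v z * g z) / p) ≤ 3) ∧
    ∑ z ∈ range p, v z * (g z / ((∑ z ∈ range p, v z * g z) / p)) = p ∧
    (∑ z ∈ range p, v z * (g z / ((∑ z ∈ range p, v z * g z) / p) - 1) ^ 2) / (p : ℝ) ≤
      64 * tsbE p v c := by
  have h3 : (0 : ℝ) < p := by exact_mod_cast hp
  have hE0 := tsbE_nonneg (p := p) (c := c) hv0
  have hE1 := tsbE_small hp hv0 hm hb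
  set N := (∑ z ∈ range p, v z * g z) / (p : ℝ) with hN
  have hN0 : 0 < N := by linarith
  have hsum : ∑ z ∈ range p, v z * g z = N * p := by
    rw [hN]
    field_simp
  refine ⟨fun z => ?_, ?_, ?_⟩
  · have h1 := abs_le.1 (hg z)
    have h2 := hb z
    constructor
    · rw [div_le_div_iff₀ (by norm_num) hN0]
      linarith [h1.1]
    · rw [div_le_iff₀ hN0]
      linarith [h1.2]
  · have h1 : ∀ z ∈ range p, v z * (g z / N) = v z * g z / N := fun z _ => by ring
    rw [sum_congr rfl h1, ← sum_div, hsum]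
    field_simp
  · rw [div_le_iff₀ h3]
    have h1 : ∀ z ∈ range p, v z * (g z / N - 1) ^ 2 ≤
        v z * (32 * (c z) ^ 2 + 32 * tsbE p v c ^ 2) := by
      intro z _
      refine mul_le_mul_of_nonneg_left ?_ (hv0 z)
      have h4 : |g z / N - 1| ≤ 4 * |c z| + 4 * tsbE p v c := by
        have h5 : g z / N - 1 = (g z - N) / N := by field_simp
        rw [h5, abs_div, abs_of_pos hN0, div_le_iff₀ hN0]
        have h6 : |g z - N| ≤ |g z - 1| + |1 - N| := by
          have := abs_add_le (g z - 1) (1 - N)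
          have h7 : g z - 1 + (1 - N) = g z - N := by ring
          rwa [h7] at this
        have h8 : |1 - N| ≤ 4 * tsbE p v c := by
          rw [abs_le]
          constructor <;> linarith
        have h9 : 0 ≤ 4 * |c z| + 4 * tsbE p v c := by positivity
        have h10 := hg z
        nlinarith
      have h5 : (g z / N - 1) ^ 2 ≤ (4 * |c z| + 4 * tsbE p v c) ^ 2 := by
        rw [← sq_abs (g z / N - 1)]
        exact pow_le_pow_left₀ (abs_nonneg _) h4 2
      have h6 := sq_abs (c z)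
      nlinarith [sq_nonneg (|c z| - tsbE p v c)]
    have h2 : ∑ z ∈ range p, v z * (32 * (c z) ^ 2 + 32 * tsbE p v c ^ 2) =
        32 * tsbE p v c * p + 32 * tsbE p v c ^ 2 * p := by
      have h4 : ∀ z ∈ range p, v z * (32 * (c z) ^ 2 + 32 * tsbE p v c ^ 2) =
          32 * (v z * (c z) ^ 2) + 32 * tsbE p v c ^ 2 * v z := fun z _ => by ring
      rw [sum_congr rfl h4, sum_add_distrib, ← mul_sum, ← mul_sum, hm]
      have h5 : ∑ z ∈ range p, v z * (c z) ^ 2 = tsbE p v c * p := by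
        unfold tsbE
        field_simp
      rw [h5]
      ring
    have h4 := sum_le_sum h1
    rw [h2] at h4
    have h5 : tsbE p v c ^ 2 ≤ tsbE p v c := by nlinarith
    nlinarith

/-- exponential test function -/
lemma tsb_gexp (hp : 0 < p) (hv0 : ∀ z, 0 ≤ v z) (hm : ∑ z ∈ range p, v z = p)
    (hb : ∀ z, |c z| ≤ 1 / 100) (hc : ∑ z ∈ range p, v z * c z = 0) {s : ℝ} (hs : |s| = 1) :
    (∀ z, |Real.exp (2 * s * c z) - 1| ≤ 4 * |c z|) ∧
    1 ≤ (∑ z ∈ range p, v z * Real.exp (2 * s * c z)) / p ∧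
    (∑ z ∈ range p, v z * Real.exp (2 * s * c z)) / p ≤ 1 + 4 * tsbE p v c := by
  have h3 : (0 : ℝ) < p := by exact_mod_cast hp
  have hx : ∀ z, |2 * s * c z| = 2 * |c z| := by
    intro z
    rw [abs_mul, abs_mul, hs, abs_of_pos (by norm_num : (0 : ℝ) < 2)]
    ring
  have hx1 : ∀ z, |2 * s * c z| ≤ 1 := by
    intro z
    rw [hx]
    have := hb z
    linarith
  refine ⟨fun z => ?_, ?_, ?_⟩
  · have h1 := Real.abs_exp_sub_one_le (hx1 z)
    rw [hx] at h1
    linarith
  · rw [le_div_iff₀ h3, one_mul]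
    have h1 : (p : ℝ) = ∑ z ∈ range p, v z * (1 + 2 * s * c z) := by
      have h2 : ∀ z ∈ range p, v z * (1 + 2 * s * c z) = v z + 2 * s * (v z * c z) :=
        fun z _ => by ring
      rw [sum_congr rfl h2, sum_add_distrib, ← mul_sum, hc, hm]
      ring
    calc (p : ℝ) = ∑ z ∈ range p, v z * (1 + 2 * s * c z) := h1
      _ ≤ _ := by
        refine sum_le_sum fun z _ => mul_le_mul_of_nonneg_left ?_ (hv0 z)
        rw [add_comm]
        exact Real.add_one_le_exp _
  · rw [div_le_iff₀ h3]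
    have h1 : (1 + 4 * tsbE p v c) * p =
        ∑ z ∈ range p, v z * (1 + 2 * s * c z + (2 * s * c z) ^ 2) := by
      have hs2 : s ^ 2 = 1 := by rw [← sq_abs, hs]; norm_num
      have h2 : ∀ z ∈ range p, v z * (1 + 2 * s * c z + (2 * s * c z) ^ 2) =
          v z + 2 * s * (v z * c z) + 4 * (v z * (c z) ^ 2) := fun z _ => by
        have : (2 * s * c z) ^ 2 = 4 * s ^ 2 * (c z) ^ 2 := by ring
        rw [this, hs2]
        ring
      rw [sum_congr rfl h2, sum_add_distrib, sum_add_distrib, ← mul_sum, ← mul_sum, hc, hm]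
      unfold tsbE
      field_simp
      ring
    rw [h1]
    exact sum_le_sum fun z _ => mul_le_mul_of_nonneg_left (tsb_exp_quad (hx1 z)) (hv0 z)

/-- quadratic test function -/
lemma tsb_gsq (hp : 0 < p) (hm : ∑ z ∈ range p, v z = p)
    (hb : ∀ z, |c z| ≤ 1 / 100) (hc : ∑ z ∈ range p, v z * c z = 0) :
    (∀ z, |(1 + c z) ^ 2 - 1| ≤ 4 * |c z|) ∧
    (∑ z ∈ range p, v z * (1 + c z) ^ 2) / p = 1 + tsbE p v c := by
  have h3 : (0 : ℝ) < p := by exact_mod_cast hp
  refine ⟨fun z => ?_, ?_⟩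
  · have h1 : (1 + c z) ^ 2 - 1 = c z * (2 + c z) := by ring
    rw [h1, abs_mul, mul_comm]
    have h2 := abs_le.1 (hb z)
    have h4 : |2 + c z| ≤ 4 := by
      rw [abs_le]
      constructor <;> linarith [h2.1, h2.2]
    exact mul_le_mul_of_nonneg_right h4 (abs_nonneg _)
  · have h2 : ∀ z ∈ range p, v z * (1 + c z) ^ 2 =
        v z + 2 * (v z * c z) + v z * (c z) ^ 2 := fun z _ => by ring
    rw [sum_congr rfl h2, sum_add_distrib, sum_add_distrib, ← mul_sum, hc, hm]
    unfold tsbE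
    field_simp
    ring

end test

end Vale.Agent.P042.UU
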