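import Vale.Agent.P042.UU.SpecB

set_option autoImplicit false

/-!
Block TSB5: numerical facts for large `P`.
-/

namespace Vale.Agent.P042.UU

open Finset Filter Vale.Agent.P042.SS Vale.Agent.P042.TT

lemma tsb_ev (C : ℝ) {α β : ℝ} (h : α < β) : ∀ᶠ P : ℝ in atTop, C * P ^ α ≤ P ^ β := by
  have h1 := (tendsto_rpow_atTop (sub_pos.2 h)).eventually (eventually_ge_atTop C)
  filter_upwards [h1, eventually_gt_atTop 0] with P hP hP0
  calc C * P ^ α ≤ P ^ (β - α) * P ^ α :=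
        mul_le_mul_of_nonneg_right hP (Real.rpow_nonneg hP0.le _)
    _ = P ^ β := by rw [← Real.rpow_add hP0]; congr 1; ring

lemma tsb_ev0 (C : ℝ) {β : ℝ} (h : 0 < β) : ∀ᶠ P : ℝ in atTop, C ≤ P ^ β :=
  (tendsto_rpow_atTop h).eventually (eventually_ge_atTop C)

lemma tsb_evlog {C : ℝ} (hC : 0 < C) {β : ℝ} (h : 0 < β) :
    ∀ᶠ P : ℝ in atTop, C * Real.log P ≤ P ^ β := by
  have h1 := (isLittleO_log_rpow_atTop h).bound (c := 1 / C) (by positivity)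
  filter_upwards [h1, eventually_gt_atTop 1] with P hP hP1
  rw [Real.norm_of_nonneg (Real.log_nonneg hP1.le),
    Real.norm_of_nonneg (Real.rpow_nonneg (by linarith) _)] at hP
  calc C * Real.log P ≤ C * (1 / C * P ^ β) := mul_le_mul_of_nonneg_left hP hC.le
    _ = P ^ β := by field_simp

/-- numerical facts -/
structure TsbNum (ε P : ℝ) : Prop where
  P1 : 10 ≤ P
  b5s : b5 ε P ≤ 1 / 25
  h1 : 400000 * P ^ (1 - 99.5 * ε) + 200 ≤ P ^ (1 - 49 * ε)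
  h2 : 2 * P ^ (1 - 99.5 * ε) + 2 + 3 * P ^ (1 - 100 * ε) + 4 * Real.log P ≤ P ^ (1 - 98 * ε)
  h3 : 72 * P ^ (1 - 99.5 * ε) + 71 + 3 * P ^ (1 - 100 * ε) + 10 * Real.log P ≤
    P ^ (1 - 49 * ε) / 4
  h4 : P ^ (1 - 98 * ε) + P ^ (1 - 142 * ε) + 3 * P ^ (1 - 100 * ε) ≤ P ^ (1 - 97.5 * ε)
  h5 : P ^ (1 - 98 * ε) + P ^ (1 - 142 * ε) ≤ P ^ (1 - 49 * ε) / 2
  h6 : 12 * Real.log P ≤ P ^ (1 - 50 * ε)
  h7 : 12 * P ^ (-(0.5 * ε)) + 20 * P ^ (-4 : ℝ) + 4 * P ^ (-(96.9 * ε)) + 40 * P ^ (-(95 * ε)) ≤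
    P ^ (-(0.4 * ε))
  h8 : P ^ (-(96.9 * ε)) ≤ 1 / 2 * P ^ (-(96 * ε))
  h9 : P ^ (-(96.9 * ε)) + 2 * P ^ (-(95 * ε)) ≤ P ^ (-(90 * ε))
  h10 : 192 * P ^ (-(95 * ε)) ≤ 1
  h11 : P ^ (-(96.9 * ε)) + 6 * P ^ (-(95 * ε)) ≤ 1

lemma tsb_num {ε : ℝ} (hε : 0 < ε) (hε1 : ε ≤ 1 / 1000) : ∃ P0 : ℝ, ∀ P : ℝ, P0 ≤ P →
    TsbNum ε P := by
  have e1 : ∀ᶠ P : ℝ in atTop, 10 ≤ P := eventually_ge_atTop 10
  have e2 := tsb_ev 25 (α := -(96 * ε)) (β := 0) (by linarith)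
  have e3 := tsb_ev 800000 (α := 1 - 99.5 * ε) (β := 1 - 49 * ε) (by linarith)
  have e4 := tsb_ev0 400 (β := 1 - 49 * ε) (by linarith)
  have e5 := tsb_ev 8 (α := 1 - 99.5 * ε) (β := 1 - 98 * ε) (by linarith)
  have e6 := tsb_ev0 8 (β := 1 - 98 * ε) (by linarith)
  have e7 := tsb_ev 12 (α := 1 - 100 * ε) (β := 1 - 98 * ε) (by linarith)
  have e8 := tsb_evlog (C := 16) (by norm_num) (β := 1 - 98 * ε) (by linarith)
  have e9 := tsb_ev 2000 (α := 1 - 99.5 * ε) (β := 1 - 49 * ε) (by linarith)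
  have e10 := tsb_ev0 2000 (β := 1 - 49 * ε) (by linarith)
  have e11 := tsb_ev 100 (α := 1 - 100 * ε) (β := 1 - 49 * ε) (by linarith)
  have e12 := tsb_evlog (C := 1000) (by norm_num) (β := 1 - 49 * ε) (by linarith)
  have e13 := tsb_ev 3 (α := 1 - 98 * ε) (β := 1 - 97.5 * ε) (by linarith)
  have e14 := tsb_ev 3 (α := 1 - 142 * ε) (β := 1 - 97.5 * ε) (by linarith)
  have e15 := tsb_ev 9 (α := 1 - 100 * ε) (β := 1 - 97.5 * ε) (by linarith)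
  have e16 := tsb_ev 4 (α := 1 - 98 * ε) (β := 1 - 49 * ε) (by linarith)
  have e17 := tsb_ev 4 (α := 1 - 142 * ε) (β := 1 - 49 * ε) (by linarith)
  have e18 := tsb_evlog (C := 12) (by norm_num) (β := 1 - 50 * ε) (by linarith)
  have e19 := tsb_ev 48 (α := -(0.5 * ε)) (β := -(0.4 * ε)) (by linarith)
  have e20 := tsb_ev 80 (α := (-4 : ℝ)) (β := -(0.4 * ε)) (by linarith)
  have e21 := tsb_ev 16 (α := -(96.9 * ε)) (β := -(0.4 * ε)) (by linarith)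
  have e22 := tsb_ev 160 (α := -(95 * ε)) (β := -(0.4 * ε)) (by linarith)
  have e23 := tsb_ev 2 (α := -(96.9 * ε)) (β := -(96 * ε)) (by linarith)
  have e24 := tsb_ev 2 (α := -(96.9 * ε)) (β := -(90 * ε)) (by linarith)
  have e25 := tsb_ev 4 (α := -(95 * ε)) (β := -(90 * ε)) (by linarith)
  have e26 := tsb_ev 192 (α := -(95 * ε)) (β := 0) (by linarith)
  have e27 := tsb_ev 2 (α := -(96.9 * ε)) (β := 0) (by linarith)
  obtain ⟨P0, hP0⟩ := eventually_atTop.1 (e1.and (e2.and (e3.and (e4.and (e5.and (e6.and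
    (e7.and (e8.and (e9.and (e10.and (e11.and (e12.and (e13.and (e14.and (e15.and (e16.and
    (e17.and (e18.and (e19.and (e20.and (e21.and (e22.and (e23.and (e24.and (e25.and
    (e26.and e27))))))))))))))))))))))))))
  refine ⟨P0, fun P hP => ?_⟩
  obtain ⟨e1, e2, e3, e4, e5, e6, e7, e8, e9, e10, e11, e12, e13, e14, e15, e16, e17, e18, e19,
    e20, e21, e22, e23, e24, e25, e26, e27⟩ := hP0 P hP
  rw [Real.rpow_zero] at e2 e26 e27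
  refine ⟨e1, ?_, ?_, ?_, ?_, ?_, ?_, e18, ?_, ?_, ?_, e26, ?_⟩
  · unfold b5
    linarith
  all_goals linarith

end Vale.Agent.P042.UU
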