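import Vale.Agent.P042.UU.TsbB
import Vale.Agent.P042.UU.TsbN
import Vale.Agent.P042.TT.BrA

set_option autoImplicit false

/-!
Block TSB5, part C: tails, marginals, second moment.
-/

namespace Vale.Agent.P042.UU

open Finset Vale.Agent.P042.SS Vale.Agent.P042.TT

open Classical in
/-- the conclusion of `MGF5Stmt` at `P` -/
def MgfAt (ε P : ℝ) : Prop :=
  ∀ (W : Finset ℕ) (φ : ℕ → ℤ → ℝ) (D M : ℕ) (y x : ℤ), W ⊆ Vn ε P D → 1 ≤ D →
    Real.log D ≤ P ^ (1 - 51 * ε) → Real.exp (P / 2) ≤ M →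
    (∀ p ∈ W, ∀ n, φ p (n + p) = φ p n) → (∀ p ∈ W, ∀ n, |φ p n| ≤ 8) →
    ∏ p ∈ W, ((∑ z ∈ range p, Real.exp (-2 * φ p z)) / (p : ℝ)) ≤
      Real.exp (P ^ (1 - 49 * ε)) →
    (∀ B : ℝ, B ≤ 4 * Mc2 ε P →
      ∑ n ∈ (cel y M D x).filter (fun n => ∑ p ∈ W, φ p n ≤ B),
        Real.exp (∑ p ∈ W, φ p n) ≤
      (M : ℝ) / D * (2 * ∏ p ∈ W, ((∑ z ∈ range p, Real.exp (φ p z)) / (p : ℝ)) +
        Real.exp (-(P ^ (1 - 48.5 * ε))))) ∧
    (∀ B : ℝ, 0 ≤ B → B ≤ 4 * Mc2 ε P →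
      (((cel y M D x).filter (fun n => B ≤ ∑ p ∈ W, φ p n)).card : ℝ) ≤
      Real.exp (-B) * ((M : ℝ) / D *
        (6 * ∏ p ∈ W, ((∑ z ∈ range p, Real.exp (φ p z)) / (p : ℝ)) +
          Real.exp (-(P ^ (1 - 48.5 * ε))))))

lemma tsb_W5 {ε P : ℝ} {p : ℕ} (hp : p ∈ W5 ε P) : p.Prime ∧ (p : ℝ) ≤ P ^ (2 - 190 * ε) := by
  unfold W5 Wp at hp
  rw [mem_filter, mem_Ioc] at hp
  refine ⟨hp.2, ?_⟩
  have h1 : 1 ≤ ⌊P ^ (2 - 190 * ε)⌋₊ := hp.2.one_lt.le.trans hp.1.2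
  have h0 : 0 ≤ P ^ (2 - 190 * ε) := by
    by_contra h
    rw [Nat.floor_of_nonpos (not_le.1 h).le] at h1
    omega
  calc (p : ℝ) ≤ ⌊P ^ (2 - 190 * ε)⌋₊ := by exact_mod_cast hp.1.2
    _ ≤ _ := Nat.floor_le h0

lemma tsb_card {ε P : ℝ} (hP : 0 ≤ P) : ((W5 ε P).card : ℝ) ≤ P ^ (2 - 190 * ε) := by
  unfold W5 Wp
  calc ((filter Nat.Prime (Ioc ⌊P ^ (190 * ε)⌋₊ ⌊P ^ (2 - 190 * ε)⌋₊)).card : ℝ) ≤
        ((Ioc ⌊P ^ (190 * ε)⌋₊ ⌊P ^ (2 - 190 * ε)⌋₊).card : ℝ) := by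
        exact_mod_cast card_filter_le _ _
    _ ≤ (⌊P ^ (2 - 190 * ε)⌋₊ : ℝ) := by
        rw [Nat.card_Ioc]
        exact_mod_cast Nat.sub_le _ _
    _ ≤ _ := Nat.floor_le (Real.rpow_nonneg hP _)

lemma tsb_Vn1 {ε P : ℝ} : W5 ε P ⊆ Vn ε P 1 := by
  intro p hp
  unfold Vn
  rw [mem_filter]
  exact ⟨hp, fun h => (tsb_W5 hp).1.one_lt.ne' (Nat.dvd_one.1 h)⟩

lemma tsb_cel1 (N' : ℕ) : cel 0 N' 1 0 = Ioc (0 : ℤ) N' := by
  unfold cel
  rw [zero_add]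
  refine filter_true_of_mem fun n _ => ?_
  rw [Nat.cast_one]
  exact Int.modEq_one

lemma tsb_prod_exp {W : Finset ℕ} {f g : ℕ → ℝ} (h0 : ∀ p ∈ W, 0 ≤ f p)
    (h : ∀ p ∈ W, f p ≤ Real.exp (g p)) : ∏ p ∈ W, f p ≤ Real.exp (∑ p ∈ W, g p) := by
  rw [Real.exp_sum]
  exact prod_le_prod h0 h

lemma tsb_hper {Y0 : ℕ} {h : ℤ → ℝ} (hh : ∀ n : ℤ, h (n + Y0) = h n) {n r : ℤ}
    (hn : n ≡ r [ZMOD (Y0 : ℕ)]) : h n = h r := by
  have key1 : ∀ (k : ℕ) (n : ℤ), h (n + k * Y0) = h n := by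
    intro k
    induction k with
    | zero => intro n; simp
    | succ k ih =>
      intro n
      have h1 := hh (n + k * Y0)
      rw [ih] at h1
      rw [← h1]
      congr 1
      push_cast
      ring
  have key2 : ∀ (k : ℤ) (n : ℤ), h (n + k * Y0) = h n := by
    intro k n
    rcases le_total 0 k with h0 | h0
    · obtain ⟨j, rfl⟩ := Int.eq_ofNat_of_zero_le h0
      exact key1 j n
    · obtain ⟨j, hj⟩ := Int.eq_ofNat_of_zero_le (by omega : 0 ≤ -k)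
      have h1 := key1 j (n + k * Y0)
      rw [← h1]
      congr 1
      have : (j : ℤ) = -k := by omega
      rw [this]
      ring
  obtain ⟨c, hc⟩ := hn.dvd
  have : r = n + c * Y0 := by linarith
  rw [this, key2]

section state

variable {ε P : ℝ} {k N' : ℕ} {Φ : ℝ} {G : ℤ → ℝ} {ν c : ℕ → ℤ → ℝ}

/-- basic facts about the weights -/
structure TsbW (ε P : ℝ) (ν c : ℕ → ℤ → ℝ) : Prop where
  nn : ∀ p n, 0 ≤ ν p n
  per : ∀ p ∈ W5 ε P, ∀ n, ν p (n + p) = ν p n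
  mean : ∀ p ∈ W5 ε P, ∑ x ∈ range p, ν p x = p
  le3 : ∀ p ∈ W5 ε P, ∀ n, ν p n ≤ 3
  low : ∀ p ∈ W5 ε P, ∀ x, ν p x = 0 ∨ 1 / 20 ≤ ν p x
  hell : Hl (W5 ε P) ν ≤ P ^ (1 - 99.5 * ε)
  cper : ∀ p ∈ W5 ε P, ∀ n, c p (n + p) = c p n
  cle : ∀ p ∈ W5 ε P, ∀ n, |c p n| ≤ 1 / 100
  cen : ∀ p ∈ W5 ε P, ∑ z ∈ range p, ν p z * c p z = 0
  sq : ∑ p ∈ W5 ε P, (∑ z ∈ range p, (c p z) ^ 2) / (p : ℝ) ≤ P ^ (-(95 * ε))

lemma tsb_W (hN : TsbNum ε P) (h : Pin5 ε P k N' Φ G ν) (hc : TiltOK ε P ν c) (hε : 0 < ε) :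
    TsbW ε P ν c where
  nn := h.wts.nn
  per := h.wts.per
  mean := h.wts.mean
  le3 := by
    intro p hp n
    refine (h.νle p hp n).trans ?_
    have h1 : bn5 ε P ≤ 1 := by
      unfold bn5
      exact Real.rpow_le_one_of_one_le_of_nonpos (by linarith [hN.P1]) (by linarith)
    calc Real.exp (bn5 ε P) ≤ Real.exp 1 := Real.exp_le_exp.2 h1
      _ ≤ 3 := by linarith [Real.exp_one_lt_d9]
  low := h.low
  hell := h.hell
  cper := hc.per
  cle := by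
    intro p hp n
    have h1 := hc.le p hp n
    have h2 := hN.b5s
    linarith
  cen := hc.cen
  sq := hc.sq

/-- mass of the integers with large `Xn` -/
lemma tsb_tailX (hN : TsbNum ε P) (hM : MgfAt ε P) (h : Pin5 ε P k N' Φ G ν)
    (w : TsbW ε P ν c) (B : ℝ) :
    ∑ n ∈ (Ioc (0 : ℤ) N').filter (fun n => B < Xn (W5 ε P) ν n), G n ≤
      Real.exp (-B) * (N' * (2 * Real.exp (2 * Hl (W5 ε P) ν) + 1)) := by
  have hP0 : 0 < P := by linarith [hN.P1]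
  have hMc : 0 ≤ Mc2 ε P := Real.rpow_nonneg hP0.le _
  have hsum : ∀ n, ∑ p ∈ W5 ε P, 2 * lg (ν p n) = 2 * Xn (W5 ε P) ν n := by
    intro n
    unfold Xn
    rw [mul_sum]
  have hpp : ∀ p ∈ W5 ε P, 0 < p := fun p hp => (tsb_W5 hp).1.pos
  have h1 := (hM (W5 ε P) (fun p n => 2 * lg (ν p n)) 1 N' 0 0 tsb_Vn1 le_rfl
    (by rw [Nat.cast_one, Real.log_one]; exact Real.rpow_nonneg hP0.le _)
    ((Real.exp_le_exp.2 (by linarith)).trans h.N'lo)
    (fun p hp n => by rw [w.per p hp])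
    (fun p hp n => by
      have := tsb_lg_abs (w.low p hp n) (w.le3 p hp n)
      rw [abs_mul, abs_of_pos (by norm_num : (0 : ℝ) < 2)]
      linarith)
    (by
      refine (tsb_prod_exp (g := fun p => 400000 *
        (1 - (∑ z ∈ range p, Real.sqrt (ν p z)) / p)) (fun p _ => by positivity)
        (fun p hp => ?_)).trans ?_
      · have h2 := tsb_avgm4 (v := fun z : ℕ => ν p z) (hpp p hp) (fun z => w.nn p z)
          (w.mean p hp) (fun z => w.low p hp z) (fun z => w.le3 p hp z)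
        have h3 : ∀ z : ℕ, -2 * (2 * lg (ν p z)) = -4 * lg (ν p z) := fun z => by ring
        simp only [h3]
        exact h2
      · rw [Real.exp_le_exp, ← mul_sum]
        have h2 := w.hell
        unfold Hl at h2
        have := hN.h1
        linarith)).1 (2 * Mc2 ε P) (by linarith)
  rw [tsb_cel1] at h1
  simp only [hsum] at h1
  have h2 : ∏ p ∈ W5 ε P, ((∑ z ∈ range p, Real.exp (2 * lg (ν p z))) / (p : ℝ)) ≤
      Real.exp (2 * Hl (W5 ε P) ν) := by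
    unfold Hl
    rw [mul_sum]
    refine tsb_prod_exp (fun p _ => by positivity) (fun p hp => ?_)
    exact tsb_avg2 (v := fun z : ℕ => ν p z) (hpp p hp) (fun z => w.nn p z)
          (w.mean p hp) (fun z => w.low p hp z)
  have h3 : Real.exp (-(P ^ (1 - 48.5 * ε))) ≤ 1 := by
    rw [Real.exp_le_one_iff]
    have := Real.rpow_nonneg hP0.le (1 - 48.5 * ε)
    linarith
  have hN0 : (0 : ℝ) ≤ N' := Nat.cast_nonneg _
  have h4 : ∑ n ∈ (Ioc (0 : ℤ) N').filter (fun n => 2 * Xn (W5 ε P) ν n ≤ 2 * Mc2 ε P),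
      Real.exp (2 * Xn (W5 ε P) ν n) ≤ N' * (2 * Real.exp (2 * Hl (W5 ε P) ν) + 1) := by
    refine h1.trans ?_
    rw [Nat.cast_one, div_one]
    exact mul_le_mul_of_nonneg_left (by linarith) hN0
  have h5 : ∀ n ∈ (Ioc (0 : ℤ) N').filter (fun n => B < Xn (W5 ε P) ν n), G n ≤
      if 2 * Xn (W5 ε P) ν n ≤ 2 * Mc2 ε P then
        Real.exp (-B) * Real.exp (2 * Xn (W5 ε P) ν n) else 0 := by
    intro n hn
    rw [mem_filter] at hn
    by_cases h0 : G n = 0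
    · rw [h0]
      split_ifs <;> positivity
    · have h6 := h.Gclip n h0
      rw [if_pos (by linarith), ← Real.exp_add]
      exact (h.Gle n).trans (Real.exp_le_exp.2 (by linarith [hn.2]))
  calc ∑ n ∈ (Ioc (0 : ℤ) N').filter (fun n => B < Xn (W5 ε P) ν n), G n ≤
        ∑ n ∈ (Ioc (0 : ℤ) N').filter (fun n => B < Xn (W5 ε P) ν n),
          (if 2 * Xn (W5 ε P) ν n ≤ 2 * Mc2 ε P then
            Real.exp (-B) * Real.exp (2 * Xn (W5 ε P) ν n) else 0) := sum_le_sum h5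
    _ ≤ ∑ n ∈ Ioc (0 : ℤ) N', (if 2 * Xn (W5 ε P) ν n ≤ 2 * Mc2 ε P then
            Real.exp (-B) * Real.exp (2 * Xn (W5 ε P) ν n) else 0) := by
        refine sum_le_sum_of_subset_of_nonneg (filter_subset _ _) fun n _ _ => ?_
        split_ifs <;> positivity
    _ = Real.exp (-B) * ∑ n ∈ (Ioc (0 : ℤ) N').filter
          (fun n => 2 * Xn (W5 ε P) ν n ≤ 2 * Mc2 ε P),
            Real.exp (2 * Xn (W5 ε P) ν n) := by
        rw [← sum_filter, mul_sum]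
    _ ≤ _ := mul_le_mul_of_nonneg_left h4 (Real.exp_pos _).le

/-- number of the integers with large `∑ c` -/
lemma tsb_tailY (hN : TsbNum ε P) (hM : MgfAt ε P) (h : Pin5 ε P k N' Φ G ν)
    (w : TsbW ε P ν c) {σ : ℝ} (hσ : |σ| = 1) (hε : 0 < ε) :
    (((Ioc (0 : ℤ) N').filter (fun n => Mc2 ε P ≤ 4 * σ * ∑ p ∈ W5 ε P, c p n)).card : ℝ) ≤
      Real.exp (-(Mc2 ε P)) * (N' * (6 * Real.exp (72 * Hl (W5 ε P) ν + 68) + 1)) := by
  have hP0 : 0 < P := by linarith [hN.P1]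
  have hMc : 0 ≤ Mc2 ε P := Real.rpow_nonneg hP0.le _
  have hpp : ∀ p ∈ W5 ε P, 0 < p := fun p hp => (tsb_W5 hp).1.pos
  have hsq1 : ∑ p ∈ W5 ε P, (∑ z ∈ range p, (c p z) ^ 2) / (p : ℝ) ≤ 1 :=
    w.sq.trans (Real.rpow_le_one_of_one_le_of_nonpos (by linarith [hN.P1]) (by linarith))
  have hprod : ∀ s : ℝ, |s| ≤ 8 →
      ∏ p ∈ W5 ε P, ((∑ z ∈ range p, Real.exp (s * c p z)) / (p : ℝ)) ≤
        Real.exp (72 * Hl (W5 ε P) ν + 68) := by
    intro s hs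
    refine (tsb_prod_exp (g := fun p => 72 * (1 - (∑ z ∈ range p, Real.sqrt (ν p z)) / p) +
        68 * ((∑ z ∈ range p, (c p z) ^ 2) / p)) (fun p _ => by positivity)
        (fun p hp => ?_)).trans ?_
    · exact tsb_avgc (v := fun z : ℕ => ν p z) (c := fun z : ℕ => c p z) (hpp p hp)
        (fun z => w.nn p z) (w.mean p hp) (fun z => w.le3 p hp z) (w.cen p hp) hs
        (fun z => (w.cle p hp z).trans (by norm_num))
    · rw [Real.exp_le_exp, sum_add_distrib, ← mul_sum, ← mul_sum]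
      unfold Hl
      linarith
  have h8 : ∀ s : ℝ, |s * σ| = |s| := fun s => by rw [abs_mul, hσ, mul_one]
  have h1 := (hM (W5 ε P) (fun p n => (4 * σ) * c p n) 1 N' 0 0 tsb_Vn1 le_rfl
    (by rw [Nat.cast_one, Real.log_one]; exact Real.rpow_nonneg hP0.le _)
    ((Real.exp_le_exp.2 (by linarith)).trans h.N'lo)
    (fun p hp n => by rw [w.cper p hp])
    (fun p hp n => by
      have := w.cle p hp n
      rw [abs_mul, h8, abs_of_pos (by norm_num : (0 : ℝ) < 4)]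
      linarith)
    (by
      have h2 := hprod (-2 * (4 * σ)) (by
        have : -2 * (4 * σ) = (-8) * σ := by ring
        rw [this, h8]
        norm_num)
      have h3 : ∀ (p z : ℕ), -2 * (4 * σ * c p z) = -2 * (4 * σ) * c p z := fun p z => by ring
      simp only [h3]
      refine h2.trans (Real.exp_le_exp.2 ?_)
      have := hN.h1
      have := w.hell
      have : 0 ≤ P ^ (1 - 99.5 * ε) := Real.rpow_nonneg hP0.le _
      linarith)).2 (Mc2 ε P) hMc (by linarith)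
  rw [tsb_cel1] at h1
  simp only [← mul_sum] at h1
  have h2 := hprod (4 * σ) (by rw [h8]; norm_num)
  have h3 : Real.exp (-(P ^ (1 - 48.5 * ε))) ≤ 1 := by
    rw [Real.exp_le_one_iff]
    have := Real.rpow_nonneg hP0.le (1 - 48.5 * ε)
    linarith
  refine h1.trans (mul_le_mul_of_nonneg_left ?_ (Real.exp_pos _).le)
  rw [Nat.cast_one, div_one]
  exact mul_le_mul_of_nonneg_left (by linarith) (Nat.cast_nonneg _)

end state

end Vale.Agent.P042.UU
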