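import Vale.Agent.P042.UU.TsbC

set_option autoImplicit false

/-!
Block TSB5, part D: the exceptional set, marginals, second moment.
-/

namespace Vale.Agent.P042.UU

open Finset Vale.Agent.P042.SS Vale.Agent.P042.TT

section state

variable {ε P : ℝ} {k N' : ℕ} {Φ : ℝ} {G : ℤ → ℝ} {ν c : ℕ → ℤ → ℝ}

lemma tsb_neg10 (hP : 0 < P) : P ^ (-10 : ℝ) = Real.exp (-(10 * Real.log P)) := by
  rw [Real.rpow_def_of_pos hP]
  congr 1
  ring

open Classical in
/-- the regular integers -/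
noncomputable def tsbReg (ε P : ℝ) (N' : ℕ) (ν c : ℕ → ℤ → ℝ) : Finset ℤ :=
  (Ioc (0 : ℤ) N').filter (fun n => Xn (W5 ε P) ν n ≤ Mc2 ε P / 4 ∧
    |∑ p ∈ W5 ε P, c p n| ≤ Mc2 ε P / 4)

open Classical in
/-- the mass of the irregular integers is negligible -/
lemma tsb_irr (hN : TsbNum ε P) (hM : MgfAt ε P) (h : Pin5 ε P k N' Φ G ν)
    (w : TsbW ε P ν c) (hε : 0 < ε) :
    ∑ n ∈ (Ioc (0 : ℤ) N').filter (fun n => ¬ (Xn (W5 ε P) ν n ≤ Mc2 ε P / 4 ∧
      |∑ p ∈ W5 ε P, c p n| ≤ Mc2 ε P / 4)), G n ≤ N' * Φ * P ^ (-10 : ℝ) := by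
  have hP0 : 0 < P := by linarith [hN.P1]
  have hN0 : (0 : ℝ) ≤ N' := Nat.cast_nonneg _
  set Y : ℤ → ℝ := fun n => ∑ p ∈ W5 ε P, c p n with hY
  set X : ℤ → ℝ := Xn (W5 ε P) ν with hX
  set H := Hl (W5 ε P) ν with hH
  set Mc := Mc2 ε P with hMc
  have h1 := tsb_tailX hN hM h w (Mc / 4)
  have h2 := tsb_tailY hN hM h w (σ := 1) (by norm_num) hε
  have h3 := tsb_tailY hN hM h w (σ := -1) (by norm_num) hε
  have hG1 : ∀ n : ℤ, X n ≤ Mc / 4 → G n ≤ Real.exp (Mc / 4) := fun n hn =>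
    (h.Gle n).trans (Real.exp_le_exp.2 hn)
  have hpt : ∀ n ∈ (Ioc (0 : ℤ) N').filter (fun n => ¬ (X n ≤ Mc / 4 ∧ |Y n| ≤ Mc / 4)),
      G n ≤ (if Mc / 4 < X n then G n else 0) +
        (if Mc ≤ 4 * 1 * Y n then Real.exp (Mc / 4) else 0) +
        (if Mc ≤ 4 * (-1) * Y n then Real.exp (Mc / 4) else 0) := by
    intro n hn
    rw [mem_filter] at hn
    have e0 := Real.exp_pos (Mc / 4)
    by_cases hx : Mc / 4 < X n
    · rw [if_pos hx]
      split_ifs <;> linarith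
    · rw [if_neg hx]
      have hx' := not_lt.1 hx
      have hy : ¬ |Y n| ≤ Mc / 4 := fun h' => hn.2 ⟨hx', h'⟩
      have hG := hG1 n hx'
      rcases lt_abs.1 (not_le.1 hy) with h4 | h4
      · rw [if_pos (by linarith)]
        split_ifs <;> linarith
      · rw [if_pos (show Mc ≤ 4 * (-1) * Y n by linarith)]
        split_ifs <;> linarith
  have hsum : ∑ n ∈ (Ioc (0 : ℤ) N').filter (fun n => ¬ (X n ≤ Mc / 4 ∧ |Y n| ≤ Mc / 4)), G n ≤
      ∑ n ∈ (Ioc (0 : ℤ) N').filter (fun n => Mc / 4 < X n), G n +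
      Real.exp (Mc / 4) * (((Ioc (0 : ℤ) N').filter (fun n => Mc ≤ 4 * 1 * Y n)).card : ℝ) +
      Real.exp (Mc / 4) * (((Ioc (0 : ℤ) N').filter (fun n => Mc ≤ 4 * (-1) * Y n)).card : ℝ) := by
    calc _ ≤ ∑ n ∈ (Ioc (0 : ℤ) N').filter (fun n => ¬ (X n ≤ Mc / 4 ∧ |Y n| ≤ Mc / 4)),
          ((if Mc / 4 < X n then G n else 0) +
          (if Mc ≤ 4 * 1 * Y n then Real.exp (Mc / 4) else 0) +
          (if Mc ≤ 4 * (-1) * Y n then Real.exp (Mc / 4) else 0)) := sum_le_sum hpt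
      _ ≤ ∑ n ∈ Ioc (0 : ℤ) N', ((if Mc / 4 < X n then G n else 0) +
          (if Mc ≤ 4 * 1 * Y n then Real.exp (Mc / 4) else 0) +
          (if Mc ≤ 4 * (-1) * Y n then Real.exp (Mc / 4) else 0)) := by
          refine sum_le_sum_of_subset_of_nonneg (filter_subset _ _) fun n _ _ => ?_
          have := h.G0 n
          have := Real.exp_pos (Mc / 4)
          split_ifs <;> linarith
      _ = _ := by
          rw [sum_add_distrib, sum_add_distrib, ← sum_filter, ← sum_filter, ← sum_filter,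
            sum_const, sum_const, nsmul_eq_mul, nsmul_eq_mul]
          ring
  refine hsum.trans ?_
  have e1 : Real.exp (Mc / 4) * Real.exp (-Mc) ≤ Real.exp (-(Mc / 4)) := by
    rw [← Real.exp_add]
    refine Real.exp_le_exp.2 ?_
    have : 0 ≤ Mc := Real.rpow_nonneg hP0.le _
    linarith
  have e2 := Real.exp_pos (Mc / 4)
  have hH0 : 0 ≤ H := by
    rw [hH]
    unfold Hl
    exact sum_nonneg fun p hp => tsb_h_nonneg (v := fun z : ℕ => ν p z) (tsb_W5 hp).1.pos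
      (fun z => w.nn p z) (w.mean p hp)
  have h4 : ∀ A : ℝ, A ≤ Real.exp (-Mc) * (N' * (6 * Real.exp (72 * H + 68) + 1)) →
      Real.exp (Mc / 4) * A ≤ Real.exp (-(Mc / 4)) * (N' * (6 * Real.exp (72 * H + 68) + 1)) := by
    intro A hA
    calc Real.exp (Mc / 4) * A ≤
          Real.exp (Mc / 4) * (Real.exp (-Mc) * (N' * (6 * Real.exp (72 * H + 68) + 1))) :=
          mul_le_mul_of_nonneg_left hA e2.le
      _ = (Real.exp (Mc / 4) * Real.exp (-Mc)) * (N' * (6 * Real.exp (72 * H + 68) + 1)) := by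
          ring
      _ ≤ _ := mul_le_mul_of_nonneg_right e1 (by positivity)
  have h5 := h4 _ h2
  have h6 := h4 _ h3
  have h7 : 2 * Real.exp (2 * H) + 1 + 2 * (6 * Real.exp (72 * H + 68) + 1) ≤
      Real.exp (72 * H + 71) := by
    have a1 : Real.exp (2 * H) ≤ Real.exp (72 * H + 68) := Real.exp_le_exp.2 (by linarith)
    have a2 : 1 ≤ Real.exp (72 * H + 68) := Real.one_le_exp (by linarith)
    have a3 : Real.exp (72 * H + 71) = Real.exp (72 * H + 68) * Real.exp 3 := by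
      rw [← Real.exp_add]
      congr 1
      ring
    have a4 : 17 ≤ Real.exp 3 := by
      have b1 := Real.exp_one_gt_d9
      have b2 : Real.exp 3 = Real.exp 1 * Real.exp 1 * Real.exp 1 := by
        rw [← Real.exp_add, ← Real.exp_add]
        norm_num
      rw [b2]
      nlinarith
    rw [a3]
    nlinarith
  calc _ ≤ Real.exp (-(Mc / 4)) * (N' * (2 * Real.exp (2 * H) + 1)) +
        Real.exp (-(Mc / 4)) * (N' * (6 * Real.exp (72 * H + 68) + 1)) +
        Real.exp (-(Mc / 4)) * (N' * (6 * Real.exp (72 * H + 68) + 1)) :=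
        add_le_add (add_le_add h1 h5) h6
    _ = N' * (Real.exp (-(Mc / 4)) *
        (2 * Real.exp (2 * H) + 1 + 2 * (6 * Real.exp (72 * H + 68) + 1))) := by ring
    _ ≤ N' * (Real.exp (-(Mc / 4)) * Real.exp (72 * H + 71)) := by gcongr
    _ ≤ N' * (Real.exp (-(3 * P ^ (1 - 100 * ε))) * P ^ (-10 : ℝ)) := by
        refine mul_le_mul_of_nonneg_left ?_ hN0
        rw [tsb_neg10 hP0, ← Real.exp_add, ← Real.exp_add]
        refine Real.exp_le_exp.2 ?_
        have := hN.h3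
        have := w.hell
        have e3 : Mc = P ^ (1 - 49 * ε) := rfl
        rw [e3]
        linarith
    _ ≤ N' * (Φ * P ^ (-10 : ℝ)) := by
        refine mul_le_mul_of_nonneg_left (mul_le_mul_of_nonneg_right h.Φlo ?_) hN0
        positivity
    _ = _ := by ring

/-- sums against a periodic function -/
lemma tsb_marg (h : Pin5 ε P k N' Φ G ν) {p : ℕ} (hp : p ∈ W5 ε P) {f : ℤ → ℝ} {b : ℝ}
    (hf : ∀ n, f (n + p) = f n) (hb : ∀ n, |f n| ≤ b) :
    |∑ n ∈ Ioc (0 : ℤ) N', G n * f n - N' * Φ * ((∑ z ∈ range p, ν p z * f z) / p)| ≤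
      p * (b * (Real.exp (-(P ^ (1 - 50 * ε))) * (N' * Φ))) := by
  have hp0 : 0 < p := (tsb_W5 hp).1.pos
  have h1 : ∑ n ∈ Ioc (0 : ℤ) N', G n * f n = ∑ z ∈ range p, f z * mass G 0 N' p z := by
    rw [← sum_res hp0 (Ioc (0 : ℤ) N') (fun n => G n * f n),
      ← Fin.sum_univ_eq_sum_range (fun z : ℕ => f z * mass G 0 N' p z) p]
    refine sum_congr rfl fun z _ => ?_
    unfold mass
    rw [mul_sum, zero_add]
    refine sum_congr rfl fun n hn => ?_
    rw [tsb_hper hf (mem_filter.1 hn).2]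
    ring
  rw [h1]
  have h2 : ∑ z ∈ range p, f z * mass G 0 N' p z -
      N' * Φ * ((∑ z ∈ range p, ν p z * f z) / p) =
      ∑ z ∈ range p, f z * (mass G 0 N' p z - N' * Φ * ν p z / p) := by
    rw [sum_div, mul_sum, ← sum_sub_distrib]
    refine sum_congr rfl fun z _ => ?_
    ring
  rw [h2]
  refine (abs_sum_le_sum_abs _ _).trans ?_
  calc ∑ z ∈ range p, |f z * (mass G 0 N' p z - N' * Φ * ν p z / p)| ≤
        ∑ _z ∈ range p, b * (Real.exp (-(P ^ (1 - 50 * ε))) * (N' * Φ)) := by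
        refine sum_le_sum fun z _ => ?_
        rw [abs_mul]
        exact mul_le_mul (hb z) (h.marg p hp z) (abs_nonneg _) ((abs_nonneg _).trans (hb z))
    _ = _ := by rw [sum_const, card_range, nsmul_eq_mul]

/-- exponential moment of `∑ c` on the regular integers -/
lemma tsb_expY (hN : TsbNum ε P) (h : Pin5 ε P k N' Φ G ν) (w : TsbW ε P ν c)
    {σ : ℝ} (hσ : |σ| = 1) (hε1 : ε ≤ 1 / 1000) :
    ∑ n ∈ tsbReg ε P N' ν c, G n * Real.exp (σ * ∑ p ∈ W5 ε P, c p n) ≤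
      N' * Φ * Real.exp (P ^ (-(96.9 * ε)) + 6 * P ^ (-(95 * ε))) := by
  have hP0 : 0 < P := by linarith [hN.P1]
  have hP1 : 1 ≤ P := by linarith [hN.P1]
  have hN0 : (0 : ℝ) ≤ N' := Nat.cast_nonneg _
  set Np : ℕ → ℝ := fun p => (∑ z ∈ range p, ν p z * Real.exp (2 * σ * c p z)) / p with hNp
  have hg := fun (p : ℕ) (hp : p ∈ W5 ε P) => tsb_gexp (v := fun z : ℕ => ν p z)
    (c := fun z : ℕ => c p z) (tsb_W5 hp).1.pos (fun z => w.nn p z) (w.mean p hp)
    (fun z => w.cle p hp z) (w.cen p hp) hσ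
  have ht := fun (p : ℕ) (hp : p ∈ W5 ε P) => tsb_test (v := fun z : ℕ => ν p z)
    (c := fun z : ℕ => c p z) (g := fun z : ℕ => Real.exp (2 * σ * c p z))
    (tsb_W5 hp).1.pos (fun z => w.nn p z) (w.mean p hp) (fun z => w.cle p hp z)
    (hg p hp).1 (hg p hp).2.1 (hg p hp).2.2
  have hNp1 : ∀ p ∈ W5 ε P, 1 ≤ Np p := fun p hp => (hg p hp).2.1
  have hE : ∑ p ∈ W5 ε P, tsbE p (fun z : ℕ => ν p z) (fun z : ℕ => c p z) ≤
      3 * P ^ (-(95 * ε)) := by
    calc _ ≤ ∑ p ∈ W5 ε P, 3 * ((∑ z ∈ range p, (c p z) ^ 2) / (p : ℝ)) :=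
          sum_le_sum fun p hp => tsbE_le fun z => w.le3 p hp z
      _ ≤ _ := by
          rw [← mul_sum]
          exact mul_le_mul_of_nonneg_left w.sq (by norm_num)
  -- the test function on all integers
  have hval : ∀ p ∈ W5 ε P, ∀ n : ℤ, 1 / 3 ≤ Real.exp (2 * σ * c p n) / Np p ∧
      Real.exp (2 * σ * c p n) / Np p ≤ 3 := by
    intro p hp n
    have hp0 : (0 : ℤ) < p := by exact_mod_cast (tsb_W5 hp).1.pos
    have h1 : n ≡ (((n % (p : ℤ)).toNat : ℕ) : ℤ) [ZMOD (p : ℕ)] := by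
      rw [Int.toNat_of_nonneg (Int.emod_nonneg _ hp0.ne')]
      exact (Int.mod_modEq _ _).symm
    rw [tsb_hper (w.cper p hp) h1]
    exact (ht p hp).1 _
  have hk := h.klv 1 N' 0 0 (W5 ε P) (fun p n => Real.exp (2 * σ * c p n) / Np p) le_rfl
    (by rw [Nat.cast_one, Real.log_one]; exact Real.rpow_nonneg hP0.le _) le_rfl
    (le_mul_of_one_le_left hN0 hP1) tsb_Vn1 (fun p hp n => by rw [w.cper p hp])
    hval (fun p hp => (ht p hp).2.1) (by
      calc ∑ p ∈ W5 ε P, (∑ z ∈ range p, ν p z *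
            (Real.exp (2 * σ * c p z) / Np p - 1) ^ 2) / (p : ℝ) ≤
            ∑ p ∈ W5 ε P, 64 * tsbE p (fun z : ℕ => ν p z) (fun z : ℕ => c p z) :=
            sum_le_sum fun p hp => (ht p hp).2.2
        _ ≤ 64 * (3 * P ^ (-(95 * ε))) := by
            rw [← mul_sum]
            exact mul_le_mul_of_nonneg_left hE (by norm_num)
        _ ≤ 1 := by
            have := hN.h10
            linarith
        _ ≤ _ := Real.one_le_rpow hP1 (by linarith))
  rw [tsb_cel1, Nat.cast_one, Real.log_one, div_one] at hk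
  -- comparison
  have hlogN : ∀ p ∈ W5 ε P, 0 ≤ Real.log (Np p) := fun p hp => Real.log_nonneg (hNp1 p hp)
  have hlogF : ∀ n : ℤ, ∑ p ∈ W5 ε P, Real.log (Real.exp (2 * σ * c p n) / Np p) ≤
      2 * (σ * ∑ p ∈ W5 ε P, c p n) := by
    intro n
    rw [mul_sum, mul_sum]
    refine sum_le_sum fun p hp => ?_
    rw [Real.log_div (Real.exp_pos _).ne' (by linarith [hNp1 p hp]), Real.log_exp]
    have := hlogN p hp
    linarith
  have hsqN : ∏ p ∈ W5 ε P, Real.sqrt (Np p) ≤ Real.exp (6 * P ^ (-(95 * ε))) := by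
    refine (tsb_prod_exp (g := fun p => 2 * tsbE p (fun z : ℕ => ν p z) (fun z : ℕ => c p z))
      (fun p _ => Real.sqrt_nonneg _) (fun p hp => ?_)).trans ?_
    · rw [Real.sqrt_le_left (Real.exp_pos _).le, ← Real.exp_nat_mul]
      have h1 : Np p ≤ 1 + 4 * tsbE p (fun z : ℕ => ν p z) (fun z : ℕ => c p z) :=
        (hg p hp).2.2
      have h2 := Real.add_one_le_exp
        (4 * tsbE p (fun z : ℕ => ν p z) (fun z : ℕ => c p z))
      have h3 : ((2 : ℕ) : ℝ) * (2 * tsbE p (fun z : ℕ => ν p z) (fun z : ℕ => c p z)) =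
          4 * tsbE p (fun z : ℕ => ν p z) (fun z : ℕ => c p z) := by
        push_cast
        ring
      rw [h3]
      linarith
    · rw [Real.exp_le_exp, ← mul_sum]
      linarith
  have hterm : ∀ n ∈ tsbReg ε P N' ν c, G n * Real.exp (σ * ∑ p ∈ W5 ε P, c p n) ≤
      Real.exp (6 * P ^ (-(95 * ε))) *
        (G n * ∏ p ∈ W5 ε P, Real.sqrt (Real.exp (2 * σ * c p n) / Np p)) := by
    intro n _
    have h1 : Real.exp (σ * ∑ p ∈ W5 ε P, c p n) =
        (∏ p ∈ W5 ε P, Real.sqrt (Real.exp (2 * σ * c p n) / Np p)) *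
          ∏ p ∈ W5 ε P, Real.sqrt (Np p) := by
      rw [← prod_mul_distrib, mul_sum, Real.exp_sum]
      refine prod_congr rfl fun p hp => ?_
      have hN1 := hNp1 p hp
      rw [← Real.sqrt_mul (by positivity)]
      have h2 : Real.exp (2 * σ * c p n) / Np p * Np p = Real.exp (σ * c p n) ^ 2 := by
        rw [div_mul_cancel₀ _ (by linarith), ← Real.exp_nat_mul]
        congr 1
        push_cast
        ring
      rw [h2, Real.sqrt_sq (Real.exp_pos _).le]
    rw [h1]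
    have h2 : 0 ≤ G n * ∏ p ∈ W5 ε P, Real.sqrt (Real.exp (2 * σ * c p n) / Np p) :=
      mul_nonneg (h.G0 n) (prod_nonneg fun p _ => Real.sqrt_nonneg _)
    have h3 := mul_le_mul_of_nonneg_left hsqN h2
    linarith
  have hsub : tsbReg ε P N' ν c ⊆ (Ioc (0 : ℤ) N').filter (fun n => Xn (W5 ε P) ν n +
      (∑ p ∈ W5 ε P, Real.log (Real.exp (2 * σ * c p n) / Np p)) / 2 ≤ Mc2 ε P / 2) := by
    intro n hn
    unfold tsbReg at hn
    rw [mem_filter] at hn ⊢
    refine ⟨hn.1, ?_⟩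
    have h1 := hlogF n
    have h2 : σ * ∑ p ∈ W5 ε P, c p n ≤ Mc2 ε P / 4 := by
      calc σ * ∑ p ∈ W5 ε P, c p n ≤ |σ * ∑ p ∈ W5 ε P, c p n| := le_abs_self _
        _ = |∑ p ∈ W5 ε P, c p n| := by rw [abs_mul, hσ, one_mul]
        _ ≤ _ := hn.2.2
    linarith [hn.2.1]
  calc _ ≤ ∑ n ∈ tsbReg ε P N' ν c, Real.exp (6 * P ^ (-(95 * ε))) *
        (G n * ∏ p ∈ W5 ε P, Real.sqrt (Real.exp (2 * σ * c p n) / Np p)) := sum_le_sum hterm
    _ ≤ Real.exp (6 * P ^ (-(95 * ε))) * (N' * Φ * Real.exp (P ^ (-(96.9 * ε)) * (1 + 0))) := by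
        rw [← mul_sum]
        refine mul_le_mul_of_nonneg_left (le_trans ?_ hk) (Real.exp_pos _).le
        refine sum_le_sum_of_subset_of_nonneg hsub fun n _ _ => ?_
        exact mul_nonneg (h.G0 n) (prod_nonneg fun p _ => Real.sqrt_nonneg _)
    _ = _ := by
        rw [add_zero, mul_one, add_comm (P ^ (-(96.9 * ε))), Real.exp_add]
        ring

end state

end Vale.Agent.P042.UU
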