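import Vale.Agent.P042.UU.TsbD
import Mathlib.Algebra.Order.Chebyshev
import Mathlib.Analysis.SpecialFunctions.Trigonometric.DerivHyp

set_option autoImplicit false

/-!
Block TSB5, part E: mass of the bad integers, moments of the tilt.
-/

namespace Vale.Agent.P042.UU

open Finset Vale.Agent.P042.SS Vale.Agent.P042.TT

lemma tsb_cosh0 {y : ℝ} (hy : 0 ≤ y) : 2 + y ^ 2 ≤ Real.exp y + Real.exp (-y) := by
  have h1 : y / 2 ≤ Real.sinh (y / 2) := Real.self_le_sinh_iff.2 (by linarith)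
  rw [Real.sinh_eq] at h1
  have h2 : Real.exp y = Real.exp (y / 2) ^ 2 := by
    rw [← Real.exp_nat_mul]
    congr 1
    push_cast
    ring
  have h3 : Real.exp (-y) = Real.exp (-(y / 2)) ^ 2 := by
    rw [← Real.exp_nat_mul]
    congr 1
    push_cast
    ring
  have h4 : Real.exp (y / 2) * Real.exp (-(y / 2)) = 1 := by
    rw [← Real.exp_add, add_neg_cancel, Real.exp_zero]
  rw [h2, h3]
  have h5 : y ≤ Real.exp (y / 2) - Real.exp (-(y / 2)) := by linarith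
  have h6 : y ^ 2 ≤ (Real.exp (y / 2) - Real.exp (-(y / 2))) ^ 2 :=
    pow_le_pow_left₀ hy h5 2
  nlinarith

lemma tsb_cosh (y : ℝ) : 2 + y ^ 2 ≤ Real.exp y + Real.exp (-y) := by
  rcases le_total 0 y with h | h
  · exact tsb_cosh0 h
  · have h1 := tsb_cosh0 (y := -y) (by linarith)
    rw [neg_neg, neg_sq] at h1
    linarith

section state

variable {ε P : ℝ} {k N' : ℕ} {Φ : ℝ} {G : ℤ → ℝ} {ν c : ℕ → ℤ → ℝ}

lemma tsb_A0 (h : Pin5 ε P k N' Φ G ν) : 0 ≤ N' * Φ :=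
  mul_nonneg (Nat.cast_nonneg _) ((Real.exp_pos _).le.trans h.Φlo)

lemma tsb_Gsum (h : Pin5 ε P k N' Φ G ν) : ∑ n ∈ Ioc (0 : ℤ) N', G n = N' * Φ := by
  rw [← h.Gsum]
  refine sum_congr ?_ fun _ _ => rfl
  ext n
  simp only [mem_Ioc, mem_Icc]
  omega

lemma tsb_negn (hP : 0 < P) (j : ℝ) : P ^ (-j) = Real.exp (-(j * Real.log P)) := by
  rw [Real.rpow_def_of_pos hP]
  congr 1
  ring

lemma tsb_kap (hN : TsbNum ε P) : Real.exp (-(P ^ (1 - 50 * ε))) ≤ P ^ (-12 : ℝ) := by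
  rw [tsb_negn (by linarith [hN.P1]) 12, Real.exp_le_exp]
  have := hN.h6
  linarith

/-- total error of the marginals -/
lemma tsb_errs (hN : TsbNum ε P) (h : Pin5 ε P k N' Φ G ν) (hε : 0 < ε) :
    ∑ p ∈ W5 ε P, (p : ℝ) * (1 / 100 * (Real.exp (-(P ^ (1 - 50 * ε))) * (N' * Φ))) ≤
      N' * Φ * P ^ (-8 : ℝ) / 100 := by
  have hP0 : 0 < P := by linarith [hN.P1]
  have hP1 : 1 ≤ P := by linarith [hN.P1]
  have hA := tsb_A0 h
  have h2 : P ^ (2 - 190 * ε) ≤ P ^ (2 : ℝ) :=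
    Real.rpow_le_rpow_of_exponent_le hP1 (by linarith)
  have hκ := tsb_kap hN
  rw [← sum_mul]
  have h3 : ∑ p ∈ W5 ε P, (p : ℝ) ≤ P ^ (4 : ℝ) := by
    calc ∑ p ∈ W5 ε P, (p : ℝ) ≤ ∑ _p ∈ W5 ε P, P ^ (2 : ℝ) :=
          sum_le_sum fun p hp => (tsb_W5 hp).2.trans h2
      _ = ((W5 ε P).card : ℝ) * P ^ (2 : ℝ) := by rw [sum_const, nsmul_eq_mul]
      _ ≤ P ^ (2 : ℝ) * P ^ (2 : ℝ) :=
          mul_le_mul_of_nonneg_right ((tsb_card hP0.le).trans h2) (Real.rpow_nonneg hP0.le _)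
      _ = _ := by
          rw [← Real.rpow_add hP0]
          norm_num
  have h4 : P ^ (4 : ℝ) * P ^ (-12 : ℝ) = P ^ (-8 : ℝ) := by
    rw [← Real.rpow_add hP0]
    norm_num
  calc _ ≤ P ^ (4 : ℝ) * (1 / 100 * (P ^ (-12 : ℝ) * (N' * Φ))) := by gcongr
    _ = (P ^ (4 : ℝ) * P ^ (-12 : ℝ)) * (N' * Φ) / 100 := by ring
    _ = _ := by rw [h4]; ring

/-- mass of the integers with `Xn > Mc1` -/
lemma tsb_badX (hN : TsbNum ε P) (hM : MgfAt ε P) (h : Pin5 ε P k N' Φ G ν)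
    (w : TsbW ε P ν c) :
    ∑ n ∈ (Ioc (0 : ℤ) N').filter (fun n => Mc1 ε P < Xn (W5 ε P) ν n), G n ≤
      N' * Φ * P ^ (-4 : ℝ) := by
  have hP0 : 0 < P := by linarith [hN.P1]
  refine (tsb_tailX hN hM h w (Mc1 ε P)).trans ?_
  set H := Hl (W5 ε P) ν with hH
  have hH0 : 0 ≤ H := by
    rw [hH]
    unfold Hl
    exact sum_nonneg fun p hp => tsb_h_nonneg (v := fun z : ℕ => ν p z) (tsb_W5 hp).1.pos
      (fun z => w.nn p z) (w.mean p hp)
  have h1 : 2 * Real.exp (2 * H) + 1 ≤ Real.exp (2 * H + 2) := by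
    have a1 : 1 ≤ Real.exp (2 * H) := Real.one_le_exp (by linarith)
    have a2 : 3 ≤ Real.exp 2 := by
      have := Real.add_one_le_exp (2 : ℝ)
      linarith
    rw [Real.exp_add]
    nlinarith
  calc _ ≤ Real.exp (-Mc1 ε P) * (N' * Real.exp (2 * H + 2)) := by gcongr
    _ = N' * (Real.exp (-Mc1 ε P) * Real.exp (2 * H + 2)) := by ring
    _ ≤ N' * (Real.exp (-(3 * P ^ (1 - 100 * ε))) * P ^ (-4 : ℝ)) := by
        refine mul_le_mul_of_nonneg_left ?_ (Nat.cast_nonneg _)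
        rw [tsb_negn hP0 4, ← Real.exp_add, ← Real.exp_add]
        refine Real.exp_le_exp.2 ?_
        have := hN.h2
        have := w.hell
        have e3 : Mc1 ε P = P ^ (1 - 98 * ε) := rfl
        rw [e3]
        linarith
    _ ≤ N' * (Φ * P ^ (-4 : ℝ)) := by
        refine mul_le_mul_of_nonneg_left (mul_le_mul_of_nonneg_right h.Φlo ?_)
          (Nat.cast_nonneg _)
        positivity
    _ = _ := by ring

/-- first absolute moments of the tilt -/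
lemma tsb_abs1 (hN : TsbNum ε P) (w : TsbW ε P ν c) :
    ∑ p ∈ W5 ε P, (∑ z ∈ range p, ν p z * |c p z|) / (p : ℝ) ≤ 3 * P ^ (1 - 142.5 * ε) := by
  have hP0 : 0 < P := by linarith [hN.P1]
  set s : ℕ → ℝ := fun p => (∑ z ∈ range p, (c p z) ^ 2) / (p : ℝ) with hs
  have hs0 : ∀ p, 0 ≤ s p := fun p =>
    div_nonneg (sum_nonneg fun z _ => sq_nonneg _) (Nat.cast_nonneg _)
  have h1 : ∀ p ∈ W5 ε P, (∑ z ∈ range p, ν p z * |c p z|) / (p : ℝ) ≤ 3 * Real.sqrt (s p) := by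
    intro p hp
    have hp0 : (0 : ℝ) < p := by exact_mod_cast (tsb_W5 hp).1.pos
    have a1 : (∑ z ∈ range p, |c p z|) / (p : ℝ) ≤ Real.sqrt (s p) := by
      refine Real.le_sqrt_of_sq_le ?_
      rw [div_pow, hs]
      have a2 : (∑ z ∈ range p, |c p z|) ^ 2 ≤ p * ∑ z ∈ range p, (c p z) ^ 2 := by
        have := sq_sum_le_card_mul_sum_sq (s := range p) (f := fun z => |c p z|)
        rw [card_range] at this
        simpa only [sq_abs] using this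
      simp only
      rw [div_le_div_iff₀ (by positivity) hp0]
      calc (∑ z ∈ range p, |c p z|) ^ 2 * (p : ℝ) ≤
            (p * ∑ z ∈ range p, (c p z) ^ 2) * p := mul_le_mul_of_nonneg_right a2 hp0.le
        _ = _ := by ring
    calc _ ≤ (∑ z ∈ range p, 3 * |c p z|) / (p : ℝ) := by
          refine div_le_div_of_nonneg_right (sum_le_sum fun z _ => ?_) hp0.le
          exact mul_le_mul_of_nonneg_right (w.le3 p hp z) (abs_nonneg _)
      _ = 3 * ((∑ z ∈ range p, |c p z|) / (p : ℝ)) := by rw [← mul_sum]; ring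
      _ ≤ _ := mul_le_mul_of_nonneg_left a1 (by norm_num)
  have h2 : (∑ p ∈ W5 ε P, Real.sqrt (s p)) ^ 2 ≤ (P ^ (1 - 142.5 * ε)) ^ 2 := by
    have a1 := sq_sum_le_card_mul_sum_sq (s := W5 ε P) (f := fun p => Real.sqrt (s p))
    have a2 : ∑ p ∈ W5 ε P, (Real.sqrt (s p)) ^ 2 = ∑ p ∈ W5 ε P, s p :=
      sum_congr rfl fun p _ => Real.sq_sqrt (hs0 p)
    rw [a2] at a1
    have a3 : ∑ p ∈ W5 ε P, s p ≤ P ^ (-(95 * ε)) := w.sq
    have a4 := tsb_card (ε := ε) hP0.le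
    calc _ ≤ ((W5 ε P).card : ℝ) * ∑ p ∈ W5 ε P, s p := a1
      _ ≤ P ^ (2 - 190 * ε) * P ^ (-(95 * ε)) :=
          mul_le_mul a4 a3 (sum_nonneg fun p _ => hs0 p) (Real.rpow_nonneg hP0.le _)
      _ = _ := by
          rw [← Real.rpow_add hP0, ← Real.rpow_natCast, ← Real.rpow_mul hP0.le]
          congr 1
          push_cast
          ring
  have h3 : ∑ p ∈ W5 ε P, Real.sqrt (s p) ≤ P ^ (1 - 142.5 * ε) :=
    le_of_sq_le_sq h2 (Real.rpow_nonneg hP0.le _)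
  calc _ ≤ ∑ p ∈ W5 ε P, 3 * Real.sqrt (s p) := sum_le_sum h1
    _ ≤ _ := by
        rw [← mul_sum]
        exact mul_le_mul_of_nonneg_left h3 (by norm_num)

/-- mass of the integers with `∑ |c| > Ma5` -/
lemma tsb_badA (hN : TsbNum ε P) (h : Pin5 ε P k N' Φ G ν) (w : TsbW ε P ν c)
    (hε : 0 < ε) (hε1 : ε ≤ 1 / 1000) :
    ∑ n ∈ (Ioc (0 : ℤ) N').filter (fun n => Ma5 ε P < ∑ p ∈ W5 ε P, |c p n|), G n ≤
      N' * Φ * (3 * P ^ (-(0.5 * ε)) + P ^ (-8 : ℝ)) := by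
  have hP0 : 0 < P := by linarith [hN.P1]
  have hP1 : 1 ≤ P := by linarith [hN.P1]
  have hA := tsb_A0 h
  have hMa : Ma5 ε P = P ^ (1 - 142 * ε) := rfl
  have hMa0 : 0 < Ma5 ε P := by rw [hMa]; exact Real.rpow_pos_of_pos hP0 _
  have hMa1 : 1 ≤ Ma5 ε P := by rw [hMa]; exact Real.one_le_rpow hP1 (by linarith)
  have h1 : ∀ p ∈ W5 ε P, ∑ n ∈ Ioc (0 : ℤ) N', G n * |c p n| ≤
      N' * Φ * ((∑ z ∈ range p, ν p z * |c p z|) / p) +
        p * (1 / 100 * (Real.exp (-(P ^ (1 - 50 * ε))) * (N' * Φ))) := by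
    intro p hp
    have := tsb_marg h hp (f := fun n => |c p n|) (b := 1 / 100)
      (fun n => by rw [w.cper p hp]) (fun n => by rw [abs_abs]; exact w.cle p hp n)
    have := (abs_le.1 this).2
    linarith
  have h2 : ∑ n ∈ Ioc (0 : ℤ) N', G n * ∑ p ∈ W5 ε P, |c p n| ≤
      N' * Φ * (3 * P ^ (1 - 142.5 * ε)) + N' * Φ * P ^ (-8 : ℝ) / 100 := by
    have a1 : ∑ n ∈ Ioc (0 : ℤ) N', G n * ∑ p ∈ W5 ε P, |c p n| =
        ∑ p ∈ W5 ε P, ∑ n ∈ Ioc (0 : ℤ) N', G n * |c p n| := by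
      rw [sum_comm]
      exact sum_congr rfl fun n _ => by rw [mul_sum]
    rw [a1]
    refine (sum_le_sum h1).trans ?_
    rw [sum_add_distrib, ← mul_sum]
    exact add_le_add (mul_le_mul_of_nonneg_left (tsb_abs1 hN w) hA) (tsb_errs hN h hε)
  have h3 : (∑ n ∈ (Ioc (0 : ℤ) N').filter (fun n => Ma5 ε P < ∑ p ∈ W5 ε P, |c p n|), G n) *
      Ma5 ε P ≤ ∑ n ∈ Ioc (0 : ℤ) N', G n * ∑ p ∈ W5 ε P, |c p n| := by
    rw [sum_mul]
    calc _ ≤ ∑ n ∈ (Ioc (0 : ℤ) N').filter (fun n => Ma5 ε P < ∑ p ∈ W5 ε P, |c p n|),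
          G n * ∑ p ∈ W5 ε P, |c p n| :=
          sum_le_sum fun n hn =>
            mul_le_mul_of_nonneg_left (mem_filter.1 hn).2.le (h.G0 n)
      _ ≤ _ := sum_le_sum_of_subset_of_nonneg (filter_subset _ _) fun n _ _ =>
          mul_nonneg (h.G0 n) (sum_nonneg fun p _ => abs_nonneg _)
  have h4 : P ^ (1 - 142.5 * ε) = P ^ (-(0.5 * ε)) * Ma5 ε P := by
    rw [hMa, ← Real.rpow_add hP0]
    congr 1
    ring
  have h5 : (∑ n ∈ (Ioc (0 : ℤ) N').filter (fun n => Ma5 ε P < ∑ p ∈ W5 ε P, |c p n|), G n) *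
      Ma5 ε P ≤ (N' * Φ * (3 * P ^ (-(0.5 * ε)) + P ^ (-8 : ℝ))) * Ma5 ε P := by
    refine (h3.trans h2).trans ?_
    rw [h4]
    have a1 : 0 ≤ N' * Φ * P ^ (-8 : ℝ) := mul_nonneg hA (Real.rpow_nonneg hP0.le _)
    nlinarith
  exact le_of_mul_le_mul_right h5 hMa0

/-- second moment of `∑ c` on the regular integers -/
lemma tsb_Y2 (hN : TsbNum ε P) (hM : MgfAt ε P) (h : Pin5 ε P k N' Φ G ν)
    (w : TsbW ε P ν c) (hε : 0 < ε) (hε1 : ε ≤ 1 / 1000) :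
    ∑ n ∈ tsbReg ε P N' ν c, G n * (∑ p ∈ W5 ε P, c p n) ^ 2 ≤
      N' * Φ * (4 * (P ^ (-(96.9 * ε)) + 6 * P ^ (-(95 * ε))) + 2 * P ^ (-10 : ℝ)) := by
  have hP0 : 0 < P := by linarith [hN.P1]
  have hA := tsb_A0 h
  have h1 := tsb_expY hN h w (σ := 1) (by norm_num) hε1
  have h2 := tsb_expY hN h w (σ := -1) (by norm_num) hε1
  have h3 := tsb_irr hN hM h w hε
  have h4 := tsb_Gsum h
  have h5 : ∑ n ∈ tsbReg ε P N' ν c, G n + ∑ n ∈ (Ioc (0 : ℤ) N').filter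
      (fun n => ¬ (Xn (W5 ε P) ν n ≤ Mc2 ε P / 4 ∧
      |∑ p ∈ W5 ε P, c p n| ≤ Mc2 ε P / 4)), G n = N' * Φ := by
    rw [← h4]
    unfold tsbReg
    exact sum_filter_add_sum_filter_not _ _ _
  set K := P ^ (-(96.9 * ε)) + 6 * P ^ (-(95 * ε)) with hK
  have hK0 : 0 ≤ K := by positivity
  have hK1 : K ≤ 1 := hN.h11
  have hKe : Real.exp K ≤ 1 + 2 * K := by
    have := tsb_exp_quad (x := K) (by rw [abs_of_nonneg hK0]; exact hK1)
    nlinarith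
  have h6 : ∑ n ∈ tsbReg ε P N' ν c, G n * (2 + (∑ p ∈ W5 ε P, c p n) ^ 2) ≤
      2 * (N' * Φ * Real.exp K) := by
    calc _ ≤ ∑ n ∈ tsbReg ε P N' ν c, (G n * Real.exp (1 * ∑ p ∈ W5 ε P, c p n) +
          G n * Real.exp (-1 * ∑ p ∈ W5 ε P, c p n)) := by
          refine sum_le_sum fun n _ => ?_
          rw [← mul_add]
          refine mul_le_mul_of_nonneg_left ?_ (h.G0 n)
          set Y := ∑ p ∈ W5 ε P, c p n
          rw [one_mul, neg_one_mul]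
          exact tsb_cosh Y
      _ ≤ _ := by
          rw [sum_add_distrib]
          linarith
  have h7 : ∑ n ∈ tsbReg ε P N' ν c, G n * (2 + (∑ p ∈ W5 ε P, c p n) ^ 2) =
      2 * ∑ n ∈ tsbReg ε P N' ν c, G n +
        ∑ n ∈ tsbReg ε P N' ν c, G n * (∑ p ∈ W5 ε P, c p n) ^ 2 := by
    rw [mul_sum, ← sum_add_distrib]
    exact sum_congr rfl fun n _ => by ring
  have h8 : N' * Φ * Real.exp K ≤ N' * Φ * (1 + 2 * K) := mul_le_mul_of_nonneg_left hKe hA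
  rw [h7] at h6
  nlinarith

end state

end Vale.Agent.P042.UU
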