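import Vale.Agent.P042.UU.TsbE

set_option autoImplicit false

/-!
Block TSB5, part F: the tilted state.
-/

namespace Vale.Agent.P042.UU

open Finset Vale.Agent.P042.SS Vale.Agent.P042.TT

/-- `e^{x - 2x²} ≤ 1 + x` -/
lemma tsb_one_add {x : ℝ} (h : |x| ≤ 1 / 2) : Real.exp (x - 2 * x ^ 2) ≤ 1 + x := by
  have h1 := (abs_le.1 h).1
  have h2 := (abs_le.1 h).2
  have h3 : 0 < 1 + x := by linarith
  have h4 := Real.add_one_le_exp (-(x - 2 * x ^ 2))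
  have h5 : 0 < -(x - 2 * x ^ 2) + 1 := by nlinarith [sq_nonneg x]
  have h6 : Real.exp (x - 2 * x ^ 2) ≤ (-(x - 2 * x ^ 2) + 1)⁻¹ := by
    rw [← neg_neg (x - 2 * x ^ 2), Real.exp_neg (-(x - 2 * x ^ 2)), neg_neg]
    exact inv_anti₀ h5 h4
  refine h6.trans ?_
  rw [inv_le_iff_one_le_mul₀ h5]
  have h7 : (1 + x) * (-(x - 2 * x ^ 2) + 1) = 1 + x ^ 2 * (1 + 2 * x) := by ring
  rw [h7]
  have := mul_nonneg (sq_nonneg x) (show 0 ≤ 1 + 2 * x by linarith)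
  linarith

section state

variable {ε P : ℝ} {k N' : ℕ} {Φ : ℝ} {G : ℤ → ℝ} {ν a a' c : ℕ → ℤ → ℝ}

lemma tsb_prod_pos (w : TsbW ε P ν c) (W : Finset ℕ) (hW : W ⊆ W5 ε P) (n : ℤ) :
    0 < ∏ p ∈ W, (1 + c p n) :=
  prod_pos fun p hp => by
    have := (abs_le.1 (w.cle p (hW hp) n)).1
    linarith

lemma tsb_prod_lo (w : TsbW ε P ν c) (n : ℤ) :
    1 + ∑ p ∈ W5 ε P, c p n - 2 * ∑ p ∈ W5 ε P, (c p n) ^ 2 ≤ ∏ p ∈ W5 ε P, (1 + c p n) := by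
  have h1 : Real.exp (∑ p ∈ W5 ε P, (c p n - 2 * (c p n) ^ 2)) ≤
      ∏ p ∈ W5 ε P, (1 + c p n) := by
    rw [Real.exp_sum]
    exact prod_le_prod (fun p _ => (Real.exp_pos _).le) fun p hp =>
      tsb_one_add ((w.cle p hp n).trans (by norm_num))
  have h2 := Real.add_one_le_exp (∑ p ∈ W5 ε P, (c p n - 2 * (c p n) ^ 2))
  rw [sum_sub_distrib, ← mul_sum] at h2
  rw [sum_sub_distrib, ← mul_sum] at h1
  linarith

lemma tsb_prod_hi (w : TsbW ε P ν c) (W : Finset ℕ) (hW : W ⊆ W5 ε P) (n : ℤ) :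
    ∏ p ∈ W, (1 + c p n) ≤ Real.exp (∑ p ∈ W, c p n) := by
  refine tsb_prod_exp (fun p hp => ?_) (fun p _ => ?_)
  · have := (abs_le.1 (w.cle p (hW hp) n)).1
    linarith
  · rw [add_comm]
    exact Real.add_one_le_exp _

/-- first moment of `∑ c` -/
lemma tsb_Y1 (hN : TsbNum ε P) (h : Pin5 ε P k N' Φ G ν) (w : TsbW ε P ν c) (hε : 0 < ε) :
    -(N' * Φ * P ^ (-8 : ℝ)) ≤ ∑ n ∈ Ioc (0 : ℤ) N', G n * ∑ p ∈ W5 ε P, c p n := by
  have hP0 : 0 < P := by linarith [hN.P1]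
  have hA := tsb_A0 h
  have h1 : ∀ p ∈ W5 ε P,
      -((p : ℝ) * (1 / 100 * (Real.exp (-(P ^ (1 - 50 * ε))) * (N' * Φ)))) ≤
      ∑ n ∈ Ioc (0 : ℤ) N', G n * c p n := by
    intro p hp
    have h2 := tsb_marg h hp (f := fun n => c p n) (b := 1 / 100)
      (fun n => w.cper p hp n) (fun n => w.cle p hp n)
    rw [w.cen p hp, zero_div, mul_zero, sub_zero] at h2
    exact (abs_le.1 h2).1
  have h2 : ∑ n ∈ Ioc (0 : ℤ) N', G n * ∑ p ∈ W5 ε P, c p n =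
        ∑ p ∈ W5 ε P, ∑ n ∈ Ioc (0 : ℤ) N', G n * c p n := by
    rw [sum_comm]
    exact sum_congr rfl fun n _ => by rw [mul_sum]
  rw [h2]
  refine le_trans ?_ (sum_le_sum h1)
  rw [sum_neg_distrib]
  have h3 := tsb_errs hN h hε
  have h4 : 0 ≤ N' * Φ * P ^ (-8 : ℝ) := mul_nonneg hA (Real.rpow_nonneg hP0.le _)
  linarith

/-- mean of `∑ c²` -/
lemma tsb_S2 (hN : TsbNum ε P) (h : Pin5 ε P k N' Φ G ν) (w : TsbW ε P ν c) (hε : 0 < ε) :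
    ∑ n ∈ Ioc (0 : ℤ) N', G n * ∑ p ∈ W5 ε P, (c p n) ^ 2 ≤
      N' * Φ * (3 * P ^ (-(95 * ε)) + P ^ (-8 : ℝ)) := by
  have hP0 : 0 < P := by linarith [hN.P1]
  have hA := tsb_A0 h
  have h1 : ∀ p ∈ W5 ε P, ∑ n ∈ Ioc (0 : ℤ) N', G n * (c p n) ^ 2 ≤
      N' * Φ * (3 * ((∑ z ∈ range p, (c p z) ^ 2) / p)) +
      (p : ℝ) * (1 / 100 * (Real.exp (-(P ^ (1 - 50 * ε))) * (N' * Φ))) := by
    intro p hp
    have h2 := tsb_marg h hp (f := fun n => (c p n) ^ 2) (b := 1 / 100)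
      (fun n => by rw [w.cper p hp]) (fun n => by
        have h3 := w.cle p hp n
        have h4 := abs_nonneg (c p n)
        rw [abs_pow]
        nlinarith)
    have h3 := (abs_le.1 h2).2
    have h4 : (∑ z ∈ range p, ν p z * (c p z) ^ 2) / (p : ℝ) ≤
        3 * ((∑ z ∈ range p, (c p z) ^ 2) / p) :=
      tsbE_le (v := fun z : ℕ => ν p z) (c := fun z : ℕ => c p z) fun z => w.le3 p hp z
    have h5 := mul_le_mul_of_nonneg_left h4 hA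
    linarith
  have h2 : ∑ n ∈ Ioc (0 : ℤ) N', G n * ∑ p ∈ W5 ε P, (c p n) ^ 2 =
        ∑ p ∈ W5 ε P, ∑ n ∈ Ioc (0 : ℤ) N', G n * (c p n) ^ 2 := by
    rw [sum_comm]
    exact sum_congr rfl fun n _ => by rw [mul_sum]
  rw [h2]
  refine (sum_le_sum h1).trans ?_
  rw [sum_add_distrib, ← mul_sum, ← mul_sum]
  have h3 := tsb_errs hN h hε
  have h4 : 0 ≤ N' * Φ * P ^ (-8 : ℝ) := mul_nonneg hA (Real.rpow_nonneg hP0.le _)
  have h5 := mul_le_mul_of_nonneg_left w.sq hA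
  linarith

open Classical in
/-- the bad integers -/
noncomputable def tsbBad (ε P : ℝ) (N' : ℕ) (ν a a' : ℕ → ℤ → ℝ) : Finset ℤ :=
  (Ioc (0 : ℤ) N').filter (fun n => ¬ goodA ε P ν a a' n)

lemma tsb_bad (hN : TsbNum ε P) (hM : MgfAt ε P) (h : Pin5 ε P k N' Φ G ν)
    (w : TsbW ε P ν a) (w' : TsbW ε P ν a') (hε : 0 < ε) (hε1 : ε ≤ 1 / 1000) :
    ∑ n ∈ tsbBad ε P N' ν a a', G n ≤
      N' * Φ * (6 * P ^ (-(0.5 * ε)) + P ^ (-4 : ℝ) + 2 * P ^ (-8 : ℝ)) := by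
  classical
  have h1 := tsb_badX hN hM h w
  have h2 := tsb_badA hN h w hε hε1
  have h3 := tsb_badA hN h w' hε hε1
  have h4 : tsbBad ε P N' ν a a' ⊆
      (Ioc (0 : ℤ) N').filter (fun n => Mc1 ε P < Xn (W5 ε P) ν n) ∪
      ((Ioc (0 : ℤ) N').filter (fun n => Ma5 ε P < ∑ p ∈ W5 ε P, |a p n|) ∪
      (Ioc (0 : ℤ) N').filter (fun n => Ma5 ε P < ∑ p ∈ W5 ε P, |a' p n|)) := by
    intro n hn
    unfold tsbBad at hn
    rw [mem_filter] at hn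
    unfold goodA at hn
    simp only [mem_union, mem_filter, hn.1, true_and]
    by_contra hcon
    rw [not_or, not_or, not_lt, not_lt, not_lt] at hcon
    exact hn.2 hcon
  have h5 : ∀ S T : Finset ℤ, ∑ n ∈ S ∪ T, G n ≤ ∑ n ∈ S, G n + ∑ n ∈ T, G n := by
    intro S T
    rw [← sum_union_inter]
    have : 0 ≤ ∑ n ∈ S ∩ T, G n := sum_nonneg fun n _ => h.G0 n
    linarith
  calc _ ≤ _ := sum_le_sum_of_subset_of_nonneg h4 fun n _ _ => h.G0 n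
    _ ≤ _ := h5 _ _
    _ ≤ _ := add_le_add le_rfl (h5 _ _)
    _ ≤ _ := by linarith

/-- `∑ G |∑ c|` over the bad integers -/
lemma tsb_badY (hN : TsbNum ε P) (hM : MgfAt ε P) (h : Pin5 ε P k N' Φ G ν)
    (w : TsbW ε P ν c) (hε : 0 < ε) (hε1 : ε ≤ 1 / 1000) :
    ∑ n ∈ tsbBad ε P N' ν a a', G n * |∑ p ∈ W5 ε P, c p n| ≤
      1 / 2 * ∑ n ∈ tsbBad ε P N' ν a a', G n +
      1 / 2 * (N' * Φ * (4 * (P ^ (-(96.9 * ε)) + 6 * P ^ (-(95 * ε))) + 2 * P ^ (-10 : ℝ))) +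
      N' * Φ * P ^ (-8 : ℝ) := by
  classical
  have hP0 : 0 < P := by linarith [hN.P1]
  have hP1 : 1 ≤ P := by linarith [hN.P1]
  have hA := tsb_A0 h
  have hY2 := tsb_Y2 hN hM h w hε hε1
  have hirr := tsb_irr hN hM h w hε
  set Y : ℤ → ℝ := fun n => ∑ p ∈ W5 ε P, c p n with hY
  have hYmax : ∀ n, |Y n| ≤ P ^ (2 : ℝ) := by
    intro n
    calc |Y n| ≤ ∑ p ∈ W5 ε P, |c p n| := abs_sum_le_sum_abs _ _
      _ ≤ ∑ _p ∈ W5 ε P, (1 : ℝ) :=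
          sum_le_sum fun p hp => (w.cle p hp n).trans (by norm_num)
      _ = ((W5 ε P).card : ℝ) := by rw [sum_const, nsmul_eq_mul, mul_one]
      _ ≤ P ^ (2 - 190 * ε) := tsb_card hP0.le
      _ ≤ _ := Real.rpow_le_rpow_of_exponent_le hP1 (by linarith)
  have hpt : ∀ n ∈ Ioc (0 : ℤ) N', (if n ∈ tsbBad ε P N' ν a a' then G n * |Y n| else 0) ≤
      (if n ∈ tsbBad ε P N' ν a a' then 1 / 2 * G n else 0) +
      (if n ∈ tsbReg ε P N' ν c then 1 / 2 * (G n * (Y n) ^ 2) else 0) +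
      (if ¬ (Xn (W5 ε P) ν n ≤ Mc2 ε P / 4 ∧ |Y n| ≤ Mc2 ε P / 4) then
        P ^ (2 : ℝ) * G n else 0) := by
    intro n hn
    have hG := h.G0 n
    have hPG : 0 ≤ P ^ (2 : ℝ) * G n := mul_nonneg (Real.rpow_nonneg hP0.le _) hG
    have hGY : 0 ≤ 1 / 2 * (G n * (Y n) ^ 2) := by positivity
    by_cases hb : n ∈ tsbBad ε P N' ν a a'
    · rw [if_pos hb, if_pos hb]
      by_cases hr : Xn (W5 ε P) ν n ≤ Mc2 ε P / 4 ∧ |Y n| ≤ Mc2 ε P / 4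
      · have hr' : n ∈ tsbReg ε P N' ν c := by
          unfold tsbReg
          rw [mem_filter]
          exact ⟨hn, hr⟩
        rw [if_pos hr', if_neg (not_not.2 hr)]
        have h1 : |Y n| ≤ 1 / 2 * (1 + (Y n) ^ 2) := by
          rw [← sq_abs (Y n)]
          nlinarith [sq_nonneg (|Y n| - 1)]
        have h2 := mul_le_mul_of_nonneg_left h1 hG
        linarith
      · rw [if_pos hr]
        have h2 := mul_le_mul_of_nonneg_left (hYmax n) hG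
        split_ifs <;> linarith
    · rw [if_neg hb, if_neg hb]
      split_ifs <;> linarith
  have hsub : tsbBad ε P N' ν a a' ⊆ Ioc (0 : ℤ) N' := by
    unfold tsbBad
    exact filter_subset _ _
  have hsub2 : tsbReg ε P N' ν c ⊆ Ioc (0 : ℤ) N' := by
    unfold tsbReg
    exact filter_subset _ _
  have hfil : ∀ S : Finset ℤ, S ⊆ Ioc (0 : ℤ) N' → ∀ f : ℤ → ℝ,
      ∑ n ∈ Ioc (0 : ℤ) N', (if n ∈ S then f n else 0) = ∑ n ∈ S, f n := by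
    intro S hS f
    rw [← sum_filter]
    congr 1
    ext n
    rw [mem_filter]
    exact ⟨fun h' => h'.2, fun h' => ⟨hS h', h'⟩⟩
  have hs := sum_le_sum hpt
  rw [sum_add_distrib, sum_add_distrib, hfil _ hsub, hfil _ hsub, hfil _ hsub2, ← sum_filter,
    ← mul_sum, ← mul_sum, ← mul_sum] at hs
  have h1 : P ^ (2 : ℝ) * (N' * Φ * P ^ (-10 : ℝ)) = N' * Φ * P ^ (-8 : ℝ) := by
    have : P ^ (2 : ℝ) * P ^ (-10 : ℝ) = P ^ (-8 : ℝ) := by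
      rw [← Real.rpow_add hP0]
      norm_num
    rw [← this]
    ring
  have h2 := mul_le_mul_of_nonneg_left hirr (Real.rpow_nonneg hP0.le (2 : ℝ))
  rw [h1] at h2
  refine hs.trans (add_le_add (add_le_add le_rfl ?_) h2)
  exact mul_le_mul_of_nonneg_left hY2 (by norm_num)

/-- total mass of the tilted function -/
lemma tsb_mass (hN : TsbNum ε P) (hM : MgfAt ε P) (h : Pin5 ε P k N' Φ G ν)
    (w : TsbW ε P ν a) (w' : TsbW ε P ν a') (wc : TsbW ε P ν c) (hε : 0 < ε)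
    (hε1 : ε ≤ 1 / 1000) :
    (1 - P ^ (-(0.4 * ε))) * (N' * Φ) ≤
      ∑ n ∈ Icc (1 : ℤ) N', Gt ε P ν a a' c G n := by
  classical
  have hP0 : 0 < P := by linarith [hN.P1]
  have hP1 : 1 ≤ P := by linarith [hN.P1]
  have hA := tsb_A0 h
  have hI : Icc (1 : ℤ) N' = Ioc (0 : ℤ) N' := by
    ext n
    simp only [mem_Ioc, mem_Icc]
    omega
  rw [hI]
  set Y : ℤ → ℝ := fun n => ∑ p ∈ W5 ε P, c p n with hY
  set S : ℤ → ℝ := fun n => ∑ p ∈ W5 ε P, (c p n) ^ 2 with hS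
  have hS0 : ∀ n, 0 ≤ S n := fun n => sum_nonneg fun p _ => sq_nonneg _
  have hpt : ∀ n ∈ Ioc (0 : ℤ) N', G n + G n * Y n - 2 * (G n * S n) -
      (if ¬ goodA ε P ν a a' n then G n + G n * |Y n| else 0) ≤ Gt ε P ν a a' c G n := by
    intro n _
    have hG := h.G0 n
    unfold Gt Gg
    have h1 := tsb_prod_lo wc n
    by_cases hg : goodA ε P ν a a' n
    · rw [if_neg (not_not.2 hg), if_pos hg]
      have h2 := mul_le_mul_of_nonneg_left h1 hG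
      have h3 : G n * (1 + Y n - 2 * S n) ≤ G n * ∏ p ∈ W5 ε P, (1 + c p n) := h2
      linarith
    · rw [if_pos hg, if_neg hg, zero_mul]
      have h2 : G n * Y n ≤ G n * |Y n| := mul_le_mul_of_nonneg_left (le_abs_self _) hG
      have h3 := mul_nonneg hG (hS0 n)
      linarith
  refine le_trans ?_ (sum_le_sum hpt)
  rw [sum_sub_distrib, sum_sub_distrib, sum_add_distrib, ← sum_filter, ← mul_sum,
    sum_add_distrib, tsb_Gsum h]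
  have h1 : -(N' * Φ * P ^ (-8 : ℝ)) ≤ ∑ n ∈ Ioc (0 : ℤ) N', G n * Y n := tsb_Y1 hN h wc hε
  have h2 : ∑ n ∈ Ioc (0 : ℤ) N', G n * S n ≤
      N' * Φ * (3 * P ^ (-(95 * ε)) + P ^ (-8 : ℝ)) := tsb_S2 hN h wc hε
  have h3 := tsb_bad hN hM h w w' hε hε1
  have h4 := tsb_badY (a := a) (a' := a') hN hM h wc hε hε1
  have h5 : ∑ n ∈ (Ioc (0 : ℤ) N').filter (fun n => ¬ goodA ε P ν a a' n), G n ≤
      N' * Φ * (6 * P ^ (-(0.5 * ε)) + P ^ (-4 : ℝ) + 2 * P ^ (-8 : ℝ)) := by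
    unfold tsbBad at h3
    convert h3
  have h6 : ∑ n ∈ (Ioc (0 : ℤ) N').filter (fun n => ¬ goodA ε P ν a a' n), G n * |Y n| ≤
      1 / 2 * (N' * Φ * (6 * P ^ (-(0.5 * ε)) + P ^ (-4 : ℝ) + 2 * P ^ (-8 : ℝ))) +
      1 / 2 * (N' * Φ * (4 * (P ^ (-(96.9 * ε)) + 6 * P ^ (-(95 * ε))) + 2 * P ^ (-10 : ℝ))) +
      N' * Φ * P ^ (-8 : ℝ) := by
    refine le_trans (le_trans (le_of_eq ?_) h4) ?_
    · unfold tsbBad
      exact sum_congr (by congr) fun _ _ => rfl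
    · linarith
  have h7 : N' * Φ * (12 * P ^ (-(0.5 * ε)) + 20 * P ^ (-4 : ℝ) + 4 * P ^ (-(96.9 * ε)) +
      40 * P ^ (-(95 * ε))) ≤ N' * Φ * P ^ (-(0.4 * ε)) := mul_le_mul_of_nonneg_left hN.h7 hA
  have h8 : N' * Φ * P ^ (-8 : ℝ) ≤ N' * Φ * P ^ (-4 : ℝ) :=
    mul_le_mul_of_nonneg_left (Real.rpow_le_rpow_of_exponent_le hP1 (by norm_num)) hA
  have h9 : N' * Φ * P ^ (-10 : ℝ) ≤ N' * Φ * P ^ (-4 : ℝ) :=
    mul_le_mul_of_nonneg_left (Real.rpow_le_rpow_of_exponent_le hP1 (by norm_num)) hA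
  have g1 : 0 ≤ N' * Φ * P ^ (-(0.5 * ε)) := mul_nonneg hA (Real.rpow_nonneg hP0.le _)
  have g2 : 0 ≤ N' * Φ * P ^ (-4 : ℝ) := mul_nonneg hA (Real.rpow_nonneg hP0.le _)
  have g3 : 0 ≤ N' * Φ * P ^ (-(96.9 * ε)) := mul_nonneg hA (Real.rpow_nonneg hP0.le _)
  have g4 : 0 ≤ N' * Φ * P ^ (-(95 * ε)) := mul_nonneg hA (Real.rpow_nonneg hP0.le _)
  linarith

end state

end Vale.Agent.P042.UU
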