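import Vale.Agent.P042.UU.TsbF

set_option autoImplicit false

/-!
Block TSB5, part G: upper bounds and the block itself.
-/

namespace Vale.Agent.P042.UU

open Finset Vale.Agent.P042.SS Vale.Agent.P042.TT

/-- number of primes dividing `D` -/
lemma tsb_Yn_card (ε P : ℝ) {D : ℕ} (hD : 1 ≤ D) :
    ((Yn ε P D).card : ℝ) ≤ 3 / 2 * Real.log D := by
  have h1 : ∏ p ∈ Yn ε P D, p ∣ D := by
    refine prod_primes_dvd D (fun p hp => ?_) (fun p hp => ?_)
    · unfold Yn at hp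
      exact (tsb_W5 (mem_filter.1 hp).1).1.prime
    · unfold Yn at hp
      exact (mem_filter.1 hp).2
  have h2 : 2 ^ (Yn ε P D).card ≤ D := by
    calc 2 ^ (Yn ε P D).card = ∏ _p ∈ Yn ε P D, 2 := by rw [prod_const]
      _ ≤ ∏ p ∈ Yn ε P D, p := by
          refine prod_le_prod' fun p hp => ?_
          unfold Yn at hp
          exact (tsb_W5 (mem_filter.1 hp).1).1.two_le
      _ ≤ D := Nat.le_of_dvd hD h1
  have h3 : ((Yn ε P D).card : ℝ) * Real.log 2 ≤ Real.log D := by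
    rw [← Real.log_pow]
    refine Real.log_le_log (by positivity) ?_
    exact_mod_cast h2
  have h4 := Real.log_two_gt_d9
  have h5 : (0 : ℝ) ≤ (Yn ε P D).card := Nat.cast_nonneg _
  nlinarith

section state

variable {ε P : ℝ} {k N' : ℕ} {Φ : ℝ} {G : ℤ → ℝ} {ν a a' c : ℕ → ℤ → ℝ}

lemma tsb_good (hcc : c = a ∨ c = a') {n : ℤ} (hg : goodA ε P ν a a' n) :
    ∑ p ∈ W5 ε P, |c p n| ≤ Ma5 ε P := by
  rcases hcc with rfl | rfl
  · exact hg.2.1
  · exact hg.2.2

lemma tsb_Gle (hN : TsbNum ε P) (h : Pin5 ε P k N' Φ G ν) (wc : TsbW ε P ν c)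
    (hcc : c = a ∨ c = a') (n : ℤ) :
    Gt ε P ν a a' c G n ≤ Real.exp (P ^ (1 - 97.5 * ε)) * Φ := by
  have hΦ : 0 < Φ := (Real.exp_pos _).trans_le h.Φlo
  unfold Gt Gg
  by_cases hg : goodA ε P ν a a' n
  · rw [if_pos hg]
    have h1 := tsb_prod_hi wc (W5 ε P) subset_rfl n
    have h2 := tsb_good hcc hg
    have h3 : ∑ p ∈ W5 ε P, c p n ≤ Ma5 ε P :=
      (sum_le_sum fun p _ => le_abs_self _).trans h2
    have h4 := hg.1
    calc G n * ∏ p ∈ W5 ε P, (1 + c p n) ≤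
          Real.exp (Mc1 ε P) * Real.exp (Ma5 ε P) := by
          refine mul_le_mul ((h.Gle n).trans (Real.exp_le_exp.2 h4))
            (h1.trans (Real.exp_le_exp.2 h3)) (tsb_prod_pos wc _ subset_rfl n).le
            (Real.exp_pos _).le
      _ ≤ Real.exp (P ^ (1 - 97.5 * ε)) * Real.exp (-(3 * P ^ (1 - 100 * ε))) := by
          rw [← Real.exp_add, ← Real.exp_add]
          refine Real.exp_le_exp.2 ?_
          have := hN.h4
          have e1 : Mc1 ε P = P ^ (1 - 98 * ε) := rfl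
          have e2 : Ma5 ε P = P ^ (1 - 142 * ε) := rfl
          rw [e1, e2]
          linarith
      _ ≤ _ := mul_le_mul_of_nonneg_left h.Φlo (Real.exp_pos _).le
  · rw [if_neg hg, zero_mul]
    positivity

lemma tsb_sup (hN : TsbNum ε P) (h : Pin5 ε P k N' Φ G ν) (wc : TsbW ε P ν c)
    (hcb : ∀ p ∈ W5 ε P, ∀ n, |c p n| ≤ b5 ε P / 4)
    (hcc : c = a ∨ c = a') (hε1 : ε ≤ 1 / 1000) (D M : ℕ) (y x : ℤ) (hD : 1 ≤ D)
    (hDl : Real.log D ≤ P ^ (1 - 51 * ε)) (hMN : M ≤ N') (hNM : (N' : ℝ) ≤ P * M) :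
    mass (Gt ε P ν a a' c G) y M D x ≤
      (M * Φ / D) * Real.exp (P ^ (-(90 * ε)) + b5 ε P * Real.log D) := by
  classical
  have hP0 : 0 < P := by linarith [hN.P1]
  have hP1 : 1 ≤ P := by linarith [hN.P1]
  have hΦ : 0 < Φ := (Real.exp_pos _).trans_le h.Φlo
  have hlogD : 0 ≤ Real.log D := Real.log_nonneg (by exact_mod_cast hD)
  have hVW : Vn ε P D ⊆ W5 ε P := by unfold Vn; exact filter_subset _ _
  have hYW : Yn ε P D ⊆ W5 ε P := by unfold Yn; exact filter_subset _ _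
  set Np : ℕ → ℝ := fun p => (∑ z ∈ range p, ν p z * (1 + c p z) ^ 2) / p with hNp
  have hg := fun (p : ℕ) (hp : p ∈ W5 ε P) => tsb_gsq (v := fun z : ℕ => ν p z)
    (c := fun z : ℕ => c p z) (tsb_W5 hp).1.pos (wc.mean p hp) (fun z => wc.cle p hp z)
    (wc.cen p hp)
  have hE0 : ∀ p, 0 ≤ tsbE p (fun z : ℕ => ν p z) (fun z : ℕ => c p z) := fun p =>
    tsbE_nonneg (v := fun z : ℕ => ν p z) (c := fun z : ℕ => c p z) (fun z => wc.nn p z)
  have hNpE : ∀ p ∈ W5 ε P, Np p = 1 + tsbE p (fun z : ℕ => ν p z) (fun z : ℕ => c p z) :=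
    fun p hp => (hg p hp).2
  have hNp1 : ∀ p ∈ W5 ε P, 1 ≤ Np p := fun p hp => by
    rw [hNpE p hp]
    linarith [hE0 p]
  have ht := fun (p : ℕ) (hp : p ∈ W5 ε P) => tsb_test (v := fun z : ℕ => ν p z)
    (c := fun z : ℕ => c p z) (g := fun z : ℕ => (1 + c p z) ^ 2)
    (tsb_W5 hp).1.pos (fun z => wc.nn p z) (wc.mean p hp) (fun z => wc.cle p hp z)
    (hg p hp).1 (hNp1 p hp) (by
      have h1 := (hg p hp).2
      have h2 := hE0 p
      linarith)
  have hE : ∑ p ∈ Vn ε P D, tsbE p (fun z : ℕ => ν p z) (fun z : ℕ => c p z) ≤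
      3 * P ^ (-(95 * ε)) := by
    calc _ ≤ ∑ p ∈ W5 ε P, tsbE p (fun z : ℕ => ν p z) (fun z : ℕ => c p z) :=
          sum_le_sum_of_subset_of_nonneg hVW fun p _ _ => hE0 p
      _ ≤ ∑ p ∈ W5 ε P, 3 * ((∑ z ∈ range p, (c p z) ^ 2) / (p : ℝ)) :=
          sum_le_sum fun p hp => tsbE_le fun z => wc.le3 p hp z
      _ ≤ _ := by
          rw [← mul_sum]
          exact mul_le_mul_of_nonneg_left wc.sq (by norm_num)
  have hval : ∀ p ∈ W5 ε P, ∀ n : ℤ, 1 / 3 ≤ (1 + c p n) ^ 2 / Np p ∧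
      (1 + c p n) ^ 2 / Np p ≤ 3 := by
    intro p hp n
    have hp0 : (0 : ℤ) < p := by exact_mod_cast (tsb_W5 hp).1.pos
    have h1 : n ≡ (((n % (p : ℤ)).toNat : ℕ) : ℤ) [ZMOD (p : ℕ)] := by
      rw [Int.toNat_of_nonneg (Int.emod_nonneg _ hp0.ne')]
      exact (Int.mod_modEq _ _).symm
    rw [tsb_hper (wc.cper p hp) h1]
    exact (ht p hp).1 _
  have hk := h.klv D M y x (Vn ε P D) (fun p n => (1 + c p n) ^ 2 / Np p) hD hDl hMN hNM
    subset_rfl (fun p hp n => by rw [wc.cper p (hVW hp)])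
    (fun p hp => hval p (hVW hp)) (fun p hp => (ht p (hVW hp)).2.1) (by
      calc ∑ p ∈ Vn ε P D, (∑ z ∈ range p, ν p z *
            ((1 + c p z) ^ 2 / Np p - 1) ^ 2) / (p : ℝ) ≤
            ∑ p ∈ Vn ε P D, 64 * tsbE p (fun z : ℕ => ν p z) (fun z : ℕ => c p z) :=
            sum_le_sum fun p hp => (ht p (hVW hp)).2.2
        _ ≤ 64 * (3 * P ^ (-(95 * ε))) := by
            rw [← mul_sum]
            exact mul_le_mul_of_nonneg_left hE (by norm_num)
        _ ≤ 1 := by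
            have := hN.h10
            linarith
        _ ≤ _ := Real.one_le_rpow hP1 (by linarith))
  -- comparison of the two functions
  have hpos : ∀ p ∈ W5 ε P, ∀ n, 0 < 1 + c p n := fun p hp n => by
    have := (abs_le.1 (wc.cle p hp n)).1
    linarith
  have hsq : ∀ n : ℤ, ∏ p ∈ Vn ε P D, (1 + c p n) =
      (∏ p ∈ Vn ε P D, Real.sqrt ((1 + c p n) ^ 2 / Np p)) *
        ∏ p ∈ Vn ε P D, Real.sqrt (Np p) := by
    intro n
    rw [← prod_mul_distrib]
    refine prod_congr rfl fun p hp => ?_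
    have h1 := hNp1 p (hVW hp)
    have h2 := hpos p (hVW hp) n
    rw [← Real.sqrt_mul (by positivity), div_mul_cancel₀ _ (by linarith),
      Real.sqrt_sq h2.le]
  have hsqN : ∏ p ∈ Vn ε P D, Real.sqrt (Np p) ≤ Real.exp (3 / 2 * P ^ (-(95 * ε))) := by
    refine (tsb_prod_exp (g := fun p => 1 / 2 * tsbE p (fun z : ℕ => ν p z)
      (fun z : ℕ => c p z)) (fun p _ => Real.sqrt_nonneg _) (fun p hp => ?_)).trans ?_
    · rw [Real.sqrt_le_left (Real.exp_pos _).le, ← Real.exp_nat_mul, hNpE p (hVW hp)]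
      have h2 := Real.add_one_le_exp (tsbE p (fun z : ℕ => ν p z) (fun z : ℕ => c p z))
      have h3 : ((2 : ℕ) : ℝ) * (1 / 2 * tsbE p (fun z : ℕ => ν p z) (fun z : ℕ => c p z)) =
          tsbE p (fun z : ℕ => ν p z) (fun z : ℕ => c p z) := by
        push_cast
        ring
      rw [h3]
      linarith
    · rw [Real.exp_le_exp, ← mul_sum]
      linarith
  have hb0 : 0 ≤ b5 ε P := Real.rpow_nonneg hP0.le _
  have hYn : ∀ n : ℤ, ∏ p ∈ Yn ε P D, (1 + c p n) ≤
      Real.exp (3 / 8 * (b5 ε P * Real.log D)) := by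
    intro n
    refine (tsb_prod_hi wc _ hYW n).trans (Real.exp_le_exp.2 ?_)
    calc ∑ p ∈ Yn ε P D, c p n ≤ ∑ _p ∈ Yn ε P D, b5 ε P / 4 :=
          sum_le_sum fun p hp => (le_abs_self _).trans (hcb p (hYW hp) n)
      _ = ((Yn ε P D).card : ℝ) * (b5 ε P / 4) := by rw [sum_const, nsmul_eq_mul]
      _ ≤ (3 / 2 * Real.log D) * (b5 ε P / 4) :=
          mul_le_mul_of_nonneg_right (tsb_Yn_card ε P hD) (by linarith)
      _ = _ := by ring
  have hlog : ∀ n : ℤ, goodA ε P ν a a' n → Xn (W5 ε P) ν n +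
      (∑ p ∈ Vn ε P D, Real.log ((1 + c p n) ^ 2 / Np p)) / 2 ≤ Mc2 ε P / 2 := by
    intro n hn
    have h1 : ∑ p ∈ Vn ε P D, Real.log ((1 + c p n) ^ 2 / Np p) ≤ 2 * Ma5 ε P := by
      calc _ ≤ ∑ p ∈ Vn ε P D, 2 * |c p n| := by
            refine sum_le_sum fun p hp => ?_
            have g1 := hNp1 p (hVW hp)
            have g2 := hpos p (hVW hp) n
            have g3 : 0 ≤ Real.log (Np p) := Real.log_nonneg g1
            rw [Real.log_div (by positivity) (by linarith), Real.log_pow]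
            have g4 := Real.log_le_sub_one_of_pos g2
            have g5 := le_abs_self (c p n)
            push_cast
            linarith
        _ ≤ ∑ p ∈ W5 ε P, 2 * |c p n| :=
            sum_le_sum_of_subset_of_nonneg hVW fun p _ _ => by positivity
        _ ≤ _ := by
            rw [← mul_sum]
            exact mul_le_mul_of_nonneg_left (tsb_good hcc hn) (by norm_num)
    have h2 := hn.1
    have h3 := hN.h5
    have e1 : Mc1 ε P = P ^ (1 - 98 * ε) := rfl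
    have e2 : Ma5 ε P = P ^ (1 - 142 * ε) := rfl
    have e3 : Mc2 ε P = P ^ (1 - 49 * ε) := rfl
    rw [e1] at h2
    rw [e2] at h1
    rw [e3]
    linarith
  set C := Real.exp (3 / 2 * P ^ (-(95 * ε))) * Real.exp (3 / 8 * (b5 ε P * Real.log D)) with hC
  have hterm : ∀ n ∈ cel y M D x, Gt ε P ν a a' c G n ≤
      if Xn (W5 ε P) ν n + (∑ p ∈ Vn ε P D, Real.log ((1 + c p n) ^ 2 / Np p)) / 2 ≤
        Mc2 ε P / 2 then
        C * (G n * ∏ p ∈ Vn ε P D, Real.sqrt ((1 + c p n) ^ 2 / Np p)) else 0 := by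
    intro n _
    have hs0 : 0 ≤ G n * ∏ p ∈ Vn ε P D, Real.sqrt ((1 + c p n) ^ 2 / Np p) :=
      mul_nonneg (h.G0 n) (prod_nonneg fun p _ => Real.sqrt_nonneg _)
    have hC0 : 0 ≤ C := by positivity
    unfold Gt Gg
    by_cases hgd : goodA ε P ν a a' n
    · rw [if_pos hgd, if_pos (hlog n hgd)]
      have h1 : ∏ p ∈ W5 ε P, (1 + c p n) =
          (∏ p ∈ Yn ε P D, (1 + c p n)) * ∏ p ∈ Vn ε P D, (1 + c p n) := by
        unfold Yn Vn
        exact (prod_filter_mul_prod_filter_not _ _ _).symm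
      have h2 : (∏ p ∈ Vn ε P D, Real.sqrt (Np p)) * (∏ p ∈ Yn ε P D, (1 + c p n)) ≤ C :=
        mul_le_mul hsqN (hYn n) (tsb_prod_pos wc _ hYW n).le (Real.exp_pos _).le
      calc G n * ∏ p ∈ W5 ε P, (1 + c p n) =
            ((∏ p ∈ Vn ε P D, Real.sqrt (Np p)) * (∏ p ∈ Yn ε P D, (1 + c p n))) *
            (G n * ∏ p ∈ Vn ε P D, Real.sqrt ((1 + c p n) ^ 2 / Np p)) := by
            rw [h1, hsq n]
            ring
        _ ≤ _ := mul_le_mul_of_nonneg_right h2 hs0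
    · rw [if_neg hgd, zero_mul]
      split_ifs
      · exact mul_nonneg hC0 hs0
      · exact le_rfl
  have hmass : mass (Gt ε P ν a a' c G) y M D x = ∑ n ∈ cel y M D x, Gt ε P ν a a' c G n := rfl
  rw [hmass]
  have hMD : 0 ≤ (M : ℝ) * Φ / D := by positivity
  calc _ ≤ _ := sum_le_sum hterm
    _ = C * ∑ n ∈ (cel y M D x).filter (fun n => Xn (W5 ε P) ν n +
        (∑ p ∈ Vn ε P D, Real.log ((1 + c p n) ^ 2 / Np p)) / 2 ≤ Mc2 ε P / 2),
        G n * ∏ p ∈ Vn ε P D, Real.sqrt ((1 + c p n) ^ 2 / Np p) := by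
        rw [← sum_filter, mul_sum]
    _ ≤ C * ((M * Φ / D) * Real.exp (P ^ (-(96.9 * ε)) * (1 + Real.log D))) :=
        mul_le_mul_of_nonneg_left hk (by positivity)
    _ = (M * Φ / D) * (C * Real.exp (P ^ (-(96.9 * ε)) * (1 + Real.log D))) := by ring
    _ ≤ _ := by
        refine mul_le_mul_of_nonneg_left ?_ hMD
        rw [hC, ← Real.exp_add, ← Real.exp_add]
        refine Real.exp_le_exp.2 ?_
        have g1 : P ^ (-(96.9 * ε)) ≤ 1 / 2 * b5 ε P := hN.h8
        have g2 := hN.h9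
        have g3 := mul_le_mul_of_nonneg_right g1 hlogD
        have g4 : 0 ≤ P ^ (-(95 * ε)) := Real.rpow_nonneg hP0.le _
        have g5 : 0 ≤ b5 ε P * Real.log D := mul_nonneg hb0 hlogD
        nlinarith

end state

/-- block TSB5 -/
theorem tsb5_of (hM : MGF5Stmt) : TSB5Stmt := by
  intro k _ ε hε hε1
  obtain ⟨P1, hP1⟩ := hM ε hε hε1
  obtain ⟨P2, hP2⟩ := tsb_num hε hε1
  refine ⟨max P1 P2, fun P hP N' Φ G ν a a' c h ha ha' hcc => ?_⟩
  have hMg : MgfAt ε P := hP1 P ((le_max_left _ _).trans hP)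
  have hN : TsbNum ε P := hP2 P ((le_max_right _ _).trans hP)
  have w := tsb_W hN h ha hε
  have w' := tsb_W hN h ha' hε
  have hc : TiltOK ε P ν c := by
    rcases hcc with rfl | rfl
    · exact ha
    · exact ha'
  have wc := tsb_W hN h hc hε
  have hne : ∀ n, Gt ε P ν a a' c G n ≠ 0 → G n ≠ 0 := by
    intro n hn h0
    refine hn ?_
    unfold Gt Gg
    split_ifs
    · rw [h0, zero_mul]
    · rw [zero_mul]
  refine
    { wts := h.wts
      νle := h.νle
      low := h.low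
      N'lo := h.N'lo
      N'hi := h.N'hi
      Φlo := h.Φlo
      Φhi := h.Φhi
      G0 := fun n => ?_
      Gsupp := fun n hn => h.Gsupp n (hne n hn)
      Gsum := tsb_mass hN hMg h w w' wc hε hε1
      Gle := tsb_Gle hN h wc hcc
      Gν := fun n hn => h.Gν n (hne n hn)
      sup := fun D M y x hD hDl hMN hNM =>
        tsb_sup hN h wc hc.le hcc hε1 D M y x hD hDl hMN hNM }
  unfold Gt
  refine mul_nonneg ?_ (tsb_prod_pos wc _ subset_rfl n).le
  unfold Gg
  split_ifs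
  · exact h.G0 n
  · exact le_rfl

end Vale.Agent.P042.UU
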