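import Vale.Agent.P042.UU.TskDefs
import Vale.Agent.P042.TT.Cell
import Vale.Agent.P042.TT.BrB

set_option autoImplicit false

/-!
Block TSK5: from the physical form to the form on product spaces.
-/

namespace Vale.Agent.P042.UU

open Polynomial Finset Vale.Agent.P042.SS Vale.Agent.P042.TT Filter

/-- `P` is large -/
structure TskBig (ε P : ℝ) : Prop where
  one : 1 ≤ P
  big : 100 ≤ P ^ (0.01 * ε)
  lg : Real.log P ≤ P ^ (0.01 * ε)

theorem tsk_big {ε : ℝ} (hε : 0 < ε) : ∀ᶠ P : ℝ in atTop, TskBig ε P := by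
  have h1 := (tendsto_rpow_atTop (show (0 : ℝ) < 0.01 * ε by positivity)).eventually_ge_atTop 100
  have h2 := (isLittleO_log_rpow_atTop (show (0 : ℝ) < 0.01 * ε by positivity)).bound
    (zero_lt_one)
  filter_upwards [h1, h2, eventually_ge_atTop (1 : ℝ)] with P h3 h4 h5
  refine ⟨h5, h3, ?_⟩
  rw [one_mul, Real.norm_of_nonneg (Real.log_nonneg h5),
    Real.norm_of_nonneg (Real.rpow_nonneg (by linarith) _)] at h4
  exact h4

section num

variable {ε P : ℝ} (hε : 0 < ε) (hε2 : ε ≤ 1 / 1000) (hB : TskBig ε P)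

include hε hB in
theorem tsk_n1 (s : ℝ) (t : ℝ) (hst : s + 0.02 * ε ≤ t) :
    2 * Real.log P * P ^ s ≤ P ^ t := by
  have hP0 : 0 < P := by linarith [hB.one]
  have h1 : 2 * Real.log P ≤ P ^ (0.01 * ε) * P ^ (0.01 * ε) :=
    mul_le_mul (by linarith [hB.big]) hB.lg (Real.log_nonneg hB.one)
      (Real.rpow_nonneg hP0.le _)
  calc 2 * Real.log P * P ^ s ≤ P ^ (0.01 * ε) * P ^ (0.01 * ε) * P ^ s :=
        mul_le_mul_of_nonneg_right h1 (Real.rpow_nonneg hP0.le _)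
    _ = P ^ (s + 0.02 * ε) := by
        rw [← Real.rpow_add hP0, ← Real.rpow_add hP0]
        congr 1
        ring
    _ ≤ P ^ t := Real.rpow_le_rpow_of_exponent_le hB.one hst

include hε hB in
theorem tsk_n2 : P ^ (1 - 90 * ε) + 2 * Real.log P * P ^ (1 - 52 * ε) ≤ P ^ (1 - 51.5 * ε) := by
  have hP0 : 0 < P := by linarith [hB.one]
  have h1 := tsk_n1 hε hB (1 - 52 * ε) (1 - 51.98 * ε) (by linarith)
  have h2 : P ^ (1 - 90 * ε) ≤ P ^ (1 - 51.98 * ε) :=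
    Real.rpow_le_rpow_of_exponent_le hB.one (by linarith)
  calc P ^ (1 - 90 * ε) + 2 * Real.log P * P ^ (1 - 52 * ε) ≤ 2 * P ^ (1 - 51.98 * ε) := by
        linarith
    _ ≤ P ^ (0.01 * ε) * P ^ (1 - 51.98 * ε) :=
        mul_le_mul_of_nonneg_right (by linarith [hB.big]) (Real.rpow_nonneg hP0.le _)
    _ = P ^ (1 - 51.97 * ε) := by
        rw [← Real.rpow_add hP0]
        congr 1
        ring
    _ ≤ _ := Real.rpow_le_rpow_of_exponent_le hB.one (by linarith)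

include hε hε2 hB in
theorem tsk_n3 (s : ℕ) (hs : (s : ℝ) ≤ P ^ (1 - 52 * ε)) :
    Real.exp (-(P ^ (1 - 50.88 * ε))) * 20 ^ s * (P ^ 2 * Real.log (20 * P ^ 2)) ≤
      Real.exp (-(P ^ (1 - 51 * ε))) := by
  have hP0 : 0 < P := by linarith [hB.one]
  have hlog0 := Real.log_nonneg hB.one
  have h20 : Real.log 20 ≤ 3 := by
    have : Real.log 20 ≤ Real.log (Real.exp 3) := Real.log_le_log (by norm_num) (by
      have := Real.exp_one_gt_d9
      calc (20 : ℝ) ≤ 2.7182818283 ^ 3 := by norm_num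
        _ ≤ (Real.exp 1) ^ 3 := pow_le_pow_left₀ (by norm_num) this.le 3
        _ = Real.exp 3 := by rw [← Real.exp_nat_mul]; norm_num)
    rwa [Real.log_exp] at this
  have h1 : Real.log (20 * P ^ 2) ≤ Real.exp (Real.log P + 3) := by
    rw [Real.log_mul (by norm_num) (by positivity), Real.log_pow]
    have h2 := Real.add_one_le_exp (Real.log P + 3)
    have h3 : Real.exp (Real.log P + 3) = Real.exp (Real.log P) * Real.exp 3 := Real.exp_add _ _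
    have h4 : (4 : ℝ) ≤ Real.exp 3 := by linarith [Real.add_one_le_exp (3 : ℝ)]
    have h5 : Real.log P + 1 ≤ Real.exp (Real.log P) := Real.add_one_le_exp _
    rw [h3]
    push_cast
    nlinarith
  have h2 : P ^ 2 = Real.exp (2 * Real.log P) := by
    rw [mul_comm, Real.exp_mul, Real.exp_log hP0]
    norm_cast
  have h3 : (20 : ℝ) ^ s ≤ Real.exp (3 * P ^ (1 - 52 * ε)) := by
    rw [← Real.log_le_iff_le_exp (by positivity), Real.log_pow]
    nlinarith [Real.log_nonneg (show (1 : ℝ) ≤ 20 by norm_num), Nat.cast_nonneg (α := ℝ) s]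
  have h4 : P ^ (1 - 52 * ε) ≤ P ^ (1 - 51 * ε) :=
    Real.rpow_le_rpow_of_exponent_le hB.one (by linarith)
  have h5 : Real.log P ≤ P ^ (1 - 51 * ε) :=
    hB.lg.trans (Real.rpow_le_rpow_of_exponent_le hB.one (by linarith))
  have h6 : 1 ≤ P ^ (1 - 51 * ε) := Real.one_le_rpow hB.one (by linarith)
  have h7 : 100 * P ^ (1 - 51 * ε) ≤ P ^ (1 - 50.88 * ε) := by
    calc 100 * P ^ (1 - 51 * ε) ≤ P ^ (0.01 * ε) * P ^ (1 - 51 * ε) :=
          mul_le_mul_of_nonneg_right hB.big (Real.rpow_nonneg hP0.le _)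
      _ = P ^ (1 - 50.99 * ε) := by
          rw [← Real.rpow_add hP0]
          congr 1
          ring
      _ ≤ _ := Real.rpow_le_rpow_of_exponent_le hB.one (by linarith)
  have h8 : 0 ≤ Real.log (20 * P ^ 2) := Real.log_nonneg (by nlinarith [hB.one])
  calc Real.exp (-(P ^ (1 - 50.88 * ε))) * 20 ^ s * (P ^ 2 * Real.log (20 * P ^ 2))
      ≤ Real.exp (-(P ^ (1 - 50.88 * ε))) * Real.exp (3 * P ^ (1 - 52 * ε)) *
        (Real.exp (2 * Real.log P) * Real.exp (Real.log P + 3)) := by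
        rw [← h2]
        gcongr
    _ = Real.exp (-(P ^ (1 - 50.88 * ε)) + 3 * P ^ (1 - 52 * ε) +
          (2 * Real.log P + (Real.log P + 3))) := by
        rw [Real.exp_add (-(P ^ (1 - 50.88 * ε)) + 3 * P ^ (1 - 52 * ε)),
          Real.exp_add (-(P ^ (1 - 50.88 * ε))), Real.exp_add (2 * Real.log P)]
    _ ≤ _ := Real.exp_le_exp.2 (by linarith)

end num

theorem tsk_W5 {ε P : ℝ} (hP : 1 ≤ P) (hε : 0 < ε) {p : ℕ} (hp : p ∈ W5 ε P) :
    p.Prime ∧ (p : ℝ) ≤ P ^ 2 ∧ Real.log p ≤ 2 * Real.log P := by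
  have hpr : p.Prime := (mem_filter.1 hp).2
  have h1 : p ≤ ⌊P ^ (2 - 190 * ε)⌋₊ := (mem_Ioc.1 (mem_filter.1 hp).1).2
  have hP0 : 0 < P := by linarith
  have h2 : (p : ℝ) ≤ P ^ (2 - 190 * ε) :=
    (Nat.le_floor_iff (Real.rpow_nonneg hP0.le _)).1 h1
  have h3 : P ^ (2 - 190 * ε) ≤ P ^ (2 : ℝ) :=
    Real.rpow_le_rpow_of_exponent_le hP (by linarith)
  have h4 : (p : ℝ) ≤ P ^ 2 := by
    rw [← Real.rpow_natCast]
    exact_mod_cast h2.trans h3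
  refine ⟨hpr, h4, ?_⟩
  have h5 := Real.log_le_log (by exact_mod_cast hpr.pos) h4
  rwa [Real.log_pow] at h5

theorem tsk_W5_card {ε P : ℝ} (hP : 1 ≤ P) (hε : 0 < ε) : ((W5 ε P).card : ℝ) ≤ P ^ 2 := by
  have hP0 : 0 < P := by linarith
  have h1 : (W5 ε P).card ≤ ⌊P ^ (2 - 190 * ε)⌋₊ := by
    refine (card_filter_le _ _).trans ?_
    rw [Nat.card_Ioc]
    omega
  have h2 : ((W5 ε P).card : ℝ) ≤ P ^ (2 - 190 * ε) :=
    (Nat.le_floor_iff (Real.rpow_nonneg hP0.le _)).1 h1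
  have h3 : P ^ (2 - 190 * ε) ≤ P ^ (2 : ℝ) :=
    Real.rpow_le_rpow_of_exponent_le hP (by linarith)
  rw [← Real.rpow_natCast]
  exact_mod_cast h2.trans h3

theorem tsk_inv {ε P : ℝ} {ν : ℕ → ℤ → ℝ}
    (hlow : ∀ p ∈ W5 ε P, ∀ x, ν p x = 0 ∨ 1 / 20 ≤ ν p x) :
    ∀ p ∈ W5 ε P, ∀ n, (ν p n)⁻¹ ≤ 20 := by
  intro p hp n
  rcases hlow p hp n with h | h
  · rw [h, inv_zero]; norm_num
  · rw [inv_le_comm₀ (by linarith) (by norm_num)]
    linarith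

theorem tsk_small {ε P : ℝ} (hP : 1 ≤ P) (hε : 0 < ε) {A : Finset ℤ} {G : ℤ → ℝ} {m : ℝ}
    {ν : ℕ → ℤ → ℝ} (hG0 : ∀ n, 0 ≤ G n) (hν0 : ∀ p n, 0 ≤ ν p n) (hm0 : 0 < m)
    (hs : ∑ n ∈ A, G n = m) {p : ℕ} (hp : p ∈ W5 ε P) (hper : ∀ n, ν p (n + p) = ν p n)
    (hGν : ∀ n, G n ≠ 0 → ν p n ≠ 0) (hinv : ∀ n, (ν p n)⁻¹ ≤ 20) :
    ∑ t ∈ range p, ν p t / (p : ℝ) * (cF A G m ν p t * Real.log (cF A G m ν p t)) ≤
      Real.log (20 * P ^ 2) := by
  obtain ⟨hpr, hpP, -⟩ := tsk_W5 hP hε hp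
  have hp0 : (0 : ℝ) < p := by exact_mod_cast hpr.pos
  have hF0 : ∀ n, 0 ≤ cF A G m ν p n := fun n => cF_nonneg hG0 hm0 hν0 p n
  have hFle : ∀ n, cF A G m ν p n ≤ 20 * P ^ 2 := by
    intro n
    unfold cF
    have e1 : (∑ n' ∈ A.filter (fun n' : ℤ => n' ≡ n [ZMOD (p : ℤ)]), G n') / m ≤ 1 := by
      rw [div_le_one hm0, ← hs]
      exact Finset.sum_le_sum_of_subset_of_nonneg (Finset.filter_subset _ _)
        fun n _ _ => hG0 n
    have e2 : (p : ℝ) * (ν p n)⁻¹ ≤ P ^ 2 * 20 :=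
      mul_le_mul hpP (hinv n) (inv_nonneg.2 (hν0 _ _)) (by positivity)
    have e3 : 0 ≤ (∑ n' ∈ A.filter (fun n' : ℤ => n' ≡ n [ZMOD (p : ℤ)]), G n') / m :=
      div_nonneg (Finset.sum_nonneg fun n _ => hG0 n) hm0.le
    calc (p : ℝ) * (ν p n)⁻¹ * (∑ n' ∈ A.filter (fun n' : ℤ => n' ≡ n [ZMOD (p : ℤ)]), G n') / m
        = ((p : ℝ) * (ν p n)⁻¹) *
          ((∑ n' ∈ A.filter (fun n' : ℤ => n' ≡ n [ZMOD (p : ℤ)]), G n') / m) := by ring
      _ ≤ (P ^ 2 * 20) * 1 := mul_le_mul e2 e1 e3 (by positivity)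
      _ = _ := by ring
  have e1 : ∑ t ∈ range p, ν p t / (p : ℝ) * (cF A G m ν p t * Real.log (cF A G m ν p t)) ≤
      ∑ t ∈ range p, (ν p t * cF A G m ν p t) * ((p : ℝ)⁻¹ * Real.log (20 * P ^ 2)) := by
    refine sum_le_sum fun t _ => ?_
    have e2 : cF A G m ν p t * Real.log (cF A G m ν p t) ≤
        cF A G m ν p t * Real.log (20 * P ^ 2) := by
      rcases eq_or_lt_of_le (hF0 t) with h | h
      · rw [← h, zero_mul, zero_mul]
      · exact mul_le_mul_of_nonneg_left (Real.log_le_log h (hFle t)) h.le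
    have e3 : 0 ≤ ν p t / (p : ℝ) := div_nonneg (hν0 _ _) hp0.le
    refine (mul_le_mul_of_nonneg_left e2 e3).trans (le_of_eq ?_)
    rw [div_eq_mul_inv]
    ring
  refine e1.trans (le_of_eq ?_)
  rw [← sum_mul, cF_sum hpr.pos hper hGν hm0 hs, ← mul_assoc,
    mul_inv_cancel₀ hp0.ne', one_mul]

/-- subcells -/
theorem tsk_sub {V : Finset ℕ} (y : ℤ) (M R : ℕ) (r : ℤ) (S : Finset ↥V) (i : ↥V) (x : XS V)
    (hi : i ∉ S) (w : Fin (i : ℕ)) :
    cA y M R r (insert i S) (Function.update x i w) = (cA y M R r S x).filter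
        (fun n : ℤ => n ≡ ((w : ℕ) : ℤ) [ZMOD ((i : ℕ) : ℤ)]) := by
  ext n
  unfold cA
  simp only [Finset.mem_filter, Finset.mem_insert, forall_eq_or_imp, Function.update_self]
  constructor
  · rintro ⟨h1, h2, h3, h4⟩
    refine ⟨⟨h1, h2, fun p hp => ?_⟩, h3⟩
    have h5 := h4 p hp
    rwa [Function.update_of_ne (ne_of_mem_of_not_mem hp hi)] at h5
  · rintro ⟨⟨h1, h2, h4⟩, h3⟩
    refine ⟨h1, h2, h3, fun p hp => ?_⟩
    rw [Function.update_of_ne (ne_of_mem_of_not_mem hp hi)]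
    exact h4 p hp

theorem tsk_cP {V : Finset ℕ} (ν : ℕ → ℤ → ℝ) (S : Finset ↥V) (i : ↥V) (x : XS V) (hi : i ∉ S)
    (w : Fin (i : ℕ)) : cP ν (insert i S) (Function.update x i w) =
        (((i : ℕ) : ℝ) * (ν i (w : ℕ))⁻¹) * cP ν S x := by
  unfold cP
  rw [Finset.prod_insert hi, Function.update_self]
  congr 1
  refine Finset.prod_congr rfl fun p hp => ?_
  rw [Function.update_of_ne (ne_of_mem_of_not_mem hp hi)]

theorem tsk_norm {V : Finset ℕ} (ν : ℕ → ℤ → ℝ) (S0 S : Finset ↥V) (hS0 : S0 ⊆ S) (x : XS V)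
    (a0 R C : ℝ) (ha : a0 = (∏ p ∈ S0, ν p (x p : ℕ)) * R / C)
    (hνS : ∀ p ∈ S, 0 < ν p ((x p : ℕ) : ℤ)) :
    a0 * cP ν S x = (R * ∏ p ∈ S, ((p : ℕ) : ℝ)) / C *
      ∏ p ∈ S \ S0, (ν p ((x p : ℕ) : ℤ))⁻¹ := by
  have e1 : cP ν S x = (∏ p ∈ S, ((p : ℕ) : ℝ)) *
      ((∏ p ∈ S \ S0, (ν p ((x p : ℕ) : ℤ))⁻¹) * ∏ p ∈ S0, (ν p ((x p : ℕ) : ℤ))⁻¹) := by
    unfold cP
    rw [Finset.prod_mul_distrib, Finset.prod_sdiff hS0]
  have e2 : (∏ p ∈ S0, ν p (x p : ℕ)) * ∏ p ∈ S0, (ν p ((x p : ℕ) : ℤ))⁻¹ = 1 := by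
    rw [← Finset.prod_mul_distrib]
    refine Finset.prod_eq_one fun p hp => ?_
    exact mul_inv_cancel₀ (hνS p (hS0 hp)).ne'
  rw [e1, ha]
  calc (∏ p ∈ S0, ν p (x p : ℕ)) * R / C * ((∏ p ∈ S, ((p : ℕ) : ℝ)) *
      ((∏ p ∈ S \ S0, (ν p ((x p : ℕ) : ℤ))⁻¹) * ∏ p ∈ S0, (ν p ((x p : ℕ) : ℤ))⁻¹))
      = ((∏ p ∈ S0, ν p (x p : ℕ)) * ∏ p ∈ S0, (ν p ((x p : ℕ) : ℤ))⁻¹) *
        ((R * ∏ p ∈ S, ((p : ℕ) : ℝ)) / C *
          ∏ p ∈ S \ S0, (ν p ((x p : ℕ) : ℤ))⁻¹) := by ring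
    _ = _ := by rw [e2, one_mul]

theorem tsk_lin {ε P : ℝ} (hε : 0 < ε) (hB : TskBig ε P) {lD lR s : ℝ}
    (hlogD : lD ≤ lR + 2 * Real.log P * s) (hlR : 0 ≤ lR) (hs : 0 ≤ s) (t : ℝ)
    (ht : t + 0.02 * ε ≤ -(95.9 * ε)) :
    P ^ t * lD ≤ P ^ (-(95.9 * ε)) * lR + P ^ (-(95.9 * ε)) * s := by
  have hP0 : 0 < P := by linarith [hB.one]
  have e1 := tsk_n1 hε hB t _ ht
  have e2 : P ^ t ≤ P ^ (-(95.9 * ε)) :=
    Real.rpow_le_rpow_of_exponent_le hB.one (by linarith)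
  have e3 : 0 ≤ P ^ t := Real.rpow_nonneg hP0.le _
  calc P ^ t * lD ≤ P ^ t * (lR + 2 * Real.log P * s) :=
        mul_le_mul_of_nonneg_left hlogD e3
    _ = P ^ t * lR + (2 * Real.log P * P ^ t) * s := by ring
    _ ≤ _ := add_le_add (mul_le_mul_of_nonneg_right e2 hlR) (mul_le_mul_of_nonneg_right e1 hs)

theorem tsk_L0 {ε P : ℝ} (hε : 0 < ε) (hB : TskBig ε P) {D lR s C m : ℝ}
    (hlogD : Real.log D ≤ lR + 2 * Real.log P * s) (hlR : 0 ≤ lR) (hs : 0 ≤ s) (hD : 0 < D)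
    (hC : 0 < C) (hm : 0 < m)
    (h : m ≤ C / D * Real.exp (P ^ (-(90 * ε)) + b5 ε P * Real.log D)) :
    Real.log (D * m / C) ≤ 1 + (P ^ (-(95.9 * ε)) * lR + P ^ (-(95.9 * ε)) * s) := by
  have hDm : 0 < D * m / C := by positivity
  have e2 : D * m / C ≤ Real.exp (P ^ (-(90 * ε)) + b5 ε P * Real.log D) := by
    rw [div_le_iff₀ hC]
    calc D * m ≤ D * (C / D * Real.exp (P ^ (-(90 * ε)) + b5 ε P * Real.log D)) :=
          mul_le_mul_of_nonneg_left h hD.le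
      _ = _ := by field_simp
  have e4 : Real.log (D * m / C) ≤ P ^ (-(90 * ε)) + b5 ε P * Real.log D := by
    rw [Real.log_le_iff_le_exp hDm]
    exact e2
  have e5 : P ^ (-(90 * ε)) ≤ 1 := Real.rpow_le_one_of_one_le_of_nonpos hB.one (by linarith)
  have e6 := tsk_lin hε hB hlogD hlR hs (-(96 * ε)) (by linarith)
  unfold b5 at e4
  linarith

theorem tsk_fin2 {ε P : ℝ} (hε : 0 < ε) (hε2 : ε ≤ 1 / 1000) (hB : TskBig ε P)
    {D m C Q ρ K Y : ℝ} {s : ℕ} (hC : 0 < C) (hD : 0 < D) (hm : 0 < m)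
    (hcase : m < Real.exp (-(P ^ (1 - 50.88 * ε))) * (C / D)) (hρQ : ρ = D * m / C * Q)
    (hQ : 0 < Q) (hQ20 : Q ≤ 20 ^ s) (hs : (s : ℝ) ≤ P ^ (1 - 52 * ε))
    (hK : K ≤ P ^ 2 * Real.log (20 * P ^ 2)) (hY0 : 0 ≤ Y) :
    ρ * K ≤ P ^ (ε / 10) * (ρ * Y) + Real.exp (-(P ^ (1 - 51 * ε))) := by
  have hP0 : 0 < P := by linarith [hB.one]
  have hlog20 : 0 ≤ Real.log (20 * P ^ 2) := Real.log_nonneg (by nlinarith [hB.one])
  have hρ0 : 0 < ρ := by rw [hρQ]; positivity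
  have hρle : ρ ≤ Real.exp (-(P ^ (1 - 50.88 * ε))) * 20 ^ s := by
    rw [hρQ]
    refine mul_le_mul ?_ hQ20 hQ.le (Real.exp_pos _).le
    rw [div_le_iff₀ hC]
    calc D * m ≤ D * (Real.exp (-(P ^ (1 - 50.88 * ε))) * (C / D)) :=
          mul_le_mul_of_nonneg_left hcase.le hD.le
      _ = _ := by field_simp
  have h12 : ρ * K ≤ Real.exp (-(P ^ (1 - 51 * ε))) := by
    refine le_trans ?_ (tsk_n3 hε hε2 hB s hs)
    calc ρ * K ≤ ρ * (P ^ 2 * Real.log (20 * P ^ 2)) := mul_le_mul_of_nonneg_left hK hρ0.le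
      _ ≤ _ := mul_le_mul_of_nonneg_right hρle (by positivity)
  have h13 : 0 ≤ P ^ (ε / 10) * (ρ * Y) := by positivity
  linarith

theorem tsk_Q20 {ε P : ℝ} {V : Finset ℕ} (hVW : V ⊆ W5 ε P) {ν : ℕ → ℤ → ℝ}
    (hν0 : ∀ p n, 0 ≤ ν p n) (hνinv : ∀ p ∈ W5 ε P, ∀ n, (ν p n)⁻¹ ≤ 20)
    (S S0 : Finset ↥V) (x : XS V) :
    ∏ p ∈ S \ S0, (ν p ((x p : ℕ) : ℤ))⁻¹ ≤ 20 ^ S.card := by
  calc ∏ p ∈ S \ S0, (ν p ((x p : ℕ) : ℤ))⁻¹ ≤ ∏ p ∈ S \ S0, (20 : ℝ) :=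
        prod_le_prod (fun p _ => inv_nonneg.2 (hν0 _ _)) fun p _ => hνinv p (hVW p.2) _
    _ = 20 ^ (S \ S0).card := by rw [prod_const]
    _ ≤ _ := pow_le_pow_right₀ (by norm_num) (card_le_card sdiff_subset)

theorem tsk_card {ε P : ℝ} (hP : 1 ≤ P) (hε : 0 < ε) {V : Finset ℕ} (hVW : V ⊆ W5 ε P)
    (T : Finset ↥V) : (T.card : ℝ) ≤ P ^ 2 := by
  refine le_trans ?_ (tsk_W5_card hP hε)
  have e3 : T.card ≤ Fintype.card ↥V := card_le_univ _
  rw [Fintype.card_coe] at e3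
  exact_mod_cast e3.trans (card_le_card hVW)

theorem tsk5_of (hTP : TskPStmt) : TSK5Stmt := by
  classical
  intro k hk ε hε hε2
  obtain ⟨P1, hP1⟩ := hTP k hk ε hε hε2
  obtain ⟨P2, hP2⟩ := Filter.eventually_atTop.1 (tsk_big hε)
  refine ⟨max P1 P2, fun P hPP N' Φ G ν a a' c hPin hta htb hc hSb => ⟨hSb, ?_⟩⟩
  have hB := hP2 P (le_trans (le_max_right _ _) hPP)
  have hTsk := hP1 P (le_trans (le_max_left _ _) hPP) N' Φ G ν a a' c hPin hta htb hc hSb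
  intro V R M y r S0 S x a0 hVW hR1 hcop hRlog hMN hNM hS0 hScard ha
  set G' : ℤ → ℝ := Gt ε P ν a a' c G with hG'
  have hP0 : 0 < P := by linarith [hB.one]
  have hVp : ∀ p ∈ V, p.Prime := fun p hp => (tsk_W5 hB.one hε (hVW hp)).1
  have hwts : Wts V ν := ⟨hSb.wts.nn, fun p hp => hSb.wts.per p (hVW hp),
    fun p hp => hSb.wts.mean p (hVW hp)⟩
  have hG0 := hSb.G0
  have hν0 := hSb.wts.nn
  have hGν : ∀ n, G' n ≠ 0 → ∀ p ∈ V, ν p n ≠ 0 := fun n hn p hp => hSb.Gν n hn p (hVW hp)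
  obtain ⟨hPr, hrho, -, -, -, -⟩ := br_holds V ν G' y M R r 0 hVp hwts hGν
  have hrho' : ∀ (S : Finset ↥V) (x : XS V), rho (piV ν V) (gV ν V G' y M R r) S x =
      cP ν S x * ∑ n ∈ cA y M R r S x, G' n := hrho
  have hcP0 : ∀ (S : Finset ↥V) (x : XS V), 0 ≤ cP ν S x := fun S x =>
    Finset.prod_nonneg fun p _ => mul_nonneg (Nat.cast_nonneg _) (inv_nonneg.2 (hν0 _ _))
  have hN'0 : 0 < N' := by
    have h1 := (Real.exp_pos (7 / 8 * P)).trans_le hSb.N'lo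
    exact_mod_cast h1
  have hM0 : (0 : ℝ) < M := by
    have : (0 : ℝ) < P * M := lt_of_lt_of_le (by exact_mod_cast hN'0) hNM
    exact (mul_pos_iff_of_pos_left hP0).1 this
  have hΦ0 : 0 < Φ := (Real.exp_pos _).trans_le hSb.Φlo
  have hR0 : (0 : ℝ) < R := by exact_mod_cast hR1
  have hpp : ∀ p : ↥V, 0 < (p : ℕ) := fun p => (hVp p p.2).pos
  have hppR : ∀ p : ↥V, (0 : ℝ) < ((p : ℕ) : ℝ) := fun p => by exact_mod_cast hpp p
  have ha00 : 0 ≤ a0 := by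
    rw [ha]
    refine div_nonneg (mul_nonneg (Finset.prod_nonneg fun p _ => hν0 _ _) hR0.le) ?_
    positivity
  -- the cell as a residue class
  obtain ⟨z, hz⟩ := cell_crt hVp R r hcop S (fun p => ((x p : ℕ) : ℤ))
  set D : ℕ := R * ∏ p ∈ S, (p : ℕ) with hD
  have hSpos : 0 < ∏ p ∈ S, (p : ℕ) := Finset.prod_pos fun p _ => (hVp p p.2).pos
  have hD1 : 1 ≤ D := Nat.mul_pos hR1 hSpos
  have hDR : (0 : ℝ) < D := by exact_mod_cast hD1
  have hset : cA y M R r S x = cel y M D z := by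
    unfold cA cel
    exact Finset.filter_congr fun n _ => (hz n).symm
  have hDcast : (D : ℝ) = R * ∏ p ∈ S, ((p : ℕ) : ℝ) := by
    rw [hD]; push_cast; rfl
  have hScard' : (S.card : ℝ) ≤ P ^ (1 - 52 * ε) :=
    (Nat.le_floor_iff (Real.rpow_nonneg hP0.le _)).1 hScard
  have hlogD : Real.log D ≤ Real.log R + 2 * Real.log P * S.card := by
    rw [hD, Nat.cast_mul, Real.log_mul hR0.ne' (by exact_mod_cast hSpos.ne'), Nat.cast_prod,
      Real.log_prod (fun p _ => (hppR p).ne')]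
    have h1 : ∑ p ∈ S, Real.log ((p : ℕ) : ℝ) ≤ ∑ p ∈ S, 2 * Real.log P :=
      sum_le_sum fun p _ => (tsk_W5 hB.one hε (hVW p.2)).2.2
    rw [sum_const, nsmul_eq_mul] at h1
    linarith
  have hlogP0 := Real.log_nonneg hB.one
  have hlogD2 : Real.log D ≤ P ^ (1 - 51.5 * ε) := by
    refine hlogD.trans (le_trans ?_ (tsk_n2 hε hB))
    have := mul_le_mul_of_nonneg_left hScard' (show 0 ≤ 2 * Real.log P by linarith)
    linarith
  have hlogD3 : Real.log D ≤ P ^ (1 - 51 * ε) :=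
    hlogD2.trans (Real.rpow_le_rpow_of_exponent_le hB.one (by linarith))
  have hlogR0 : 0 ≤ Real.log R := Real.log_nonneg (by exact_mod_cast hR1)
  have hScard0 : (0 : ℝ) ≤ S.card := Nat.cast_nonneg _
  -- main
  simp only [klr, cell_rho_mul]
  set ρ : ℝ := a0 * rho (piV ν V) (gV ν V G' y M R r) S x with hρ
  rcases eq_or_ne ρ 0 with hz0 | hz0
  · have h1 : ∀ i ∈ Sᶜ, ∑ w, piV ν V i w * (a0 * rho (piV ν V) (gV ν V G' y M R r)
        (insert i S) (Function.update x i w) *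
        Real.log (a0 * rho (piV ν V) (gV ν V G' y M R r) (insert i S) (Function.update x i w) /
          ρ)) = 0 := by
      intro i hi
      refine Finset.sum_eq_zero fun w _ => ?_
      rw [hz0, div_zero, Real.log_zero, mul_zero, mul_zero]
    rw [Finset.sum_eq_zero h1, hz0]
    simp only [zero_mul, mul_zero, zero_add]
    exact (Real.exp_pos _).le
  set m : ℝ := ∑ n ∈ cel y M D z, G' n with hm
  have hρ' : ρ = a0 * (cP ν S x * m) := by rw [hρ, hrho', hset]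
  have hm0 : 0 < m := by
    refine lt_of_le_of_ne (Finset.sum_nonneg fun n _ => hG0 n) fun h => hz0 ?_
    rw [hρ', ← h, mul_zero, mul_zero]
  have ha1 : 0 < a0 := by
    refine lt_of_le_of_ne ha00 fun h => hz0 ?_
    rw [hρ', ← h, zero_mul]
  have hcP1 : 0 < cP ν S x := by
    refine lt_of_le_of_ne (hcP0 S x) fun h => hz0 ?_
    rw [hρ', ← h, zero_mul, mul_zero]
  have hρ0 : 0 < ρ := by rw [hρ']; positivity
  set F : ℕ → ℤ → ℝ := cF (cel y M D z) G' m ν with hF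
  have hGν' : ∀ p : ↥V, ∀ n, G' n ≠ 0 → ν p n ≠ 0 := fun p n hn => hGν n hn p p.2
  have hper : ∀ p : ↥V, ∀ n, ν p (n + (p : ℕ)) = ν p n := fun p n => hwts.per p p.2 n
  -- klr in terms of F
  have h1 : ∀ i ∈ Sᶜ, ∑ w, piV ν V i w * (a0 * rho (piV ν V) (gV ν V G' y M R r)
      (insert i S) (Function.update x i w) *
      Real.log (a0 * rho (piV ν V) (gV ν V G' y M R r) (insert i S) (Function.update x i w) /
        ρ)) = ρ * ∑ t ∈ range (i : ℕ), ν i t / ((i : ℕ) : ℝ) * (F i t * Real.log (F i t)) := by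
    intro i hi
    have hi' : i ∉ S := Finset.mem_compl.1 hi
    rw [Finset.sum_range, Finset.mul_sum]
    refine Finset.sum_congr rfl fun w _ => ?_
    have h2 : a0 * rho (piV ν V) (gV ν V G' y M R r) (insert i S) (Function.update x i w) =
        ρ * F i ((w : ℕ) : ℤ) := by
      rw [hrho', tsk_cP ν S i x hi' w, tsk_sub y M R r S i x hi' w, hρ', hset, hF]
      unfold cF
      field_simp
    rw [h2, mul_div_cancel_left₀ _ hz0]
    unfold piV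
    ring
  rw [Finset.sum_congr rfl h1, ← Finset.mul_sum]
  set K : ℝ := ∑ i ∈ Sᶜ, ∑ t ∈ range (i : ℕ), ν i t / ((i : ℕ) : ℝ) *
    (F i t * Real.log (F i t)) with hK
  -- nonvanishing of the weights on S
  have hνS : ∀ p ∈ S, 0 < ν p ((x p : ℕ) : ℤ) := by
    intro p hp
    refine lt_of_le_of_ne (hν0 _ _) fun h => ?_
    apply hcP1.ne'
    refine Finset.prod_eq_zero hp ?_
    rw [← h, inv_zero, mul_zero]
  have hprodS : 0 < ∏ p ∈ S, ((p : ℕ) : ℝ) := Finset.prod_pos fun p _ => hppR p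
  have h6 : a0 * cP ν S x = (R * ∏ p ∈ S, ((p : ℕ) : ℝ)) / (M * Φ) *
      ∏ p ∈ S \ S0, (ν p ((x p : ℕ) : ℤ))⁻¹ :=
    tsk_norm ν S0 S hS0 x a0 R (M * Φ) ha hνS
  set Q : ℝ := ∏ p ∈ S \ S0, (ν p ((x p : ℕ) : ℤ))⁻¹ with hQdef
  have hQ : 0 < Q := Finset.prod_pos fun p hp => inv_pos.2 (hνS p (Finset.mem_sdiff.1 hp).1)
  have hρQ : ρ = D * m / (M * Φ) * Q := by
    rw [hρ', ← mul_assoc, h6, ← hDcast]
    ring
  have hDm : 0 < D * m / (M * Φ) := by positivity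
  set E : ℝ := ∑ i ∈ S \ S0, max 0 (Real.log (1 / ν i ((x i : ℕ) : ℤ))) with hE
  have hlogQ : Real.log Q ≤ E := by
    rw [hQdef, Real.log_prod (fun p hp => (inv_pos.2 (hνS p (Finset.mem_sdiff.1 hp).1)).ne')]
    exact Finset.sum_le_sum fun p _ => by rw [one_div]; exact le_max_right _ _
  have hlogρ : Real.log ρ = Real.log (D * m / (M * Φ)) + Real.log Q := by
    rw [hρQ, Real.log_mul hDm.ne' hQ.ne']
  -- the two brackets
  have hlin := tsk_lin hε hB hlogD hlogR0 hScard0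
  set L0 : ℝ := Real.log (D * m / (M * Φ)) with hL0
  have hL0le : L0 ≤ 1 + (P ^ (-(95.9 * ε)) * Real.log R + P ^ (-(95.9 * ε)) * S.card) :=
    tsk_L0 hε hB hlogD hlogR0 hScard0 hDR (by positivity) hm0 (hSb.sup D M y z hD1 hlogD3 hMN hNM)
  set Y : ℝ := 2 + P ^ (-(95.9 * ε)) * Real.log R + P ^ (-(95.9 * ε)) * (S.card : ℝ) + E -
    Real.log ρ with hY
  have hY0 : 0 ≤ Y := by
    rw [hY, hlogρ]
    linarith
  have hPE0 : 0 < P ^ (ε / 10) := Real.rpow_pos_of_pos hP0 _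
  rcases le_or_gt (Real.exp (-(P ^ (1 - 50.88 * ε))) * (M * Φ / D)) m with hcase | hcase
  · -- main case
    have h7 := hTsk D M y z ((Sᶜ : Finset ↥V).map (Function.Embedding.subtype _)) hD1 hlogD2
      hMN hNM (by
      intro p hp
      rw [Finset.mem_map] at hp
      obtain ⟨q, hqU, hq⟩ := hp
      have hqq : (q : ℕ) = p := hq
      rw [← hqq]
      refine mem_filter.2 ⟨hVW q.2, fun hpD => ?_⟩
      rcases (Nat.Prime.dvd_mul (hVp q q.2)).1 hpD with h | h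
      · have h1 := Nat.Coprime.eq_one_of_dvd (hcop q q.2) h
        exact (hVp q q.2).one_lt.ne' h1
      · obtain ⟨q', hq', hqq'⟩ := (Prime.dvd_finsetProd_iff (hVp q q.2).prime _).1 h
        have h1 : (q : ℕ) = q' := (Nat.prime_dvd_prime_iff_eq (hVp q q.2) (hVp q' q'.2)).1 hqq'
        have h2 : q = q' := Subtype.ext h1
        exact (Finset.mem_compl.1 hqU) (h2 ▸ hq')) hcase
    rw [Finset.sum_map] at h7
    have h8 : K ≤ P ^ (ε / 20) * (1 + P ^ (-(95.95 * ε)) * Real.log D - L0) := by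
      refine le_trans (le_of_eq ?_) h7
      refine sum_congr rfl fun i _ => ?_
      unfold Kl5
      rw [sum_div]
      refine sum_congr rfl fun t _ => ?_
      rw [div_mul_eq_mul_div]
      rfl
    have h9 : 1 + P ^ (-(95.95 * ε)) * Real.log D - L0 ≤ Y := by
      have := hlin (-(95.95 * ε)) (by linarith)
      rw [hY, hlogρ]
      linarith
    have h10 : P ^ (ε / 20) ≤ P ^ (ε / 10) :=
      Real.rpow_le_rpow_of_exponent_le hB.one (by linarith)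
    have h11 : K ≤ P ^ (ε / 10) * Y :=
      h8.trans ((mul_le_mul_of_nonneg_left h9 (Real.rpow_nonneg hP0.le _)).trans
        (mul_le_mul_of_nonneg_right h10 hY0))
    calc ρ * K ≤ ρ * (P ^ (ε / 10) * Y) := mul_le_mul_of_nonneg_left h11 hρ0.le
      _ = P ^ (ε / 10) * (ρ * Y) := by ring
      _ ≤ _ := by linarith [Real.exp_pos (-(P ^ (1 - 51 * ε)))]
  · -- small cells
    have hνinv : ∀ p ∈ W5 ε P, ∀ n, (ν p n)⁻¹ ≤ 20 := tsk_inv hSb.low
    have hlog20 : 0 ≤ Real.log (20 * P ^ 2) := Real.log_nonneg (by nlinarith [hB.one])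
    have hKi : ∀ i : ↥V, ∑ t ∈ range (i : ℕ), ν i t / ((i : ℕ) : ℝ) *
        (F i t * Real.log (F i t)) ≤ Real.log (20 * P ^ 2) := fun i =>
      tsk_small hB.one hε hG0 hν0 hm0 rfl (hVW i.2) (hper i) (hGν' i) (hνinv i (hVW i.2))
    have hK2 : K ≤ P ^ 2 * Real.log (20 * P ^ 2) := by
      have e1 : K ≤ ∑ i ∈ Sᶜ, Real.log (20 * P ^ 2) := sum_le_sum fun i _ => hKi i
      rw [sum_const, nsmul_eq_mul] at e1
      exact e1.trans (mul_le_mul_of_nonneg_right (tsk_card hB.one hε hVW _) hlog20)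
    exact tsk_fin2 hε hε2 hB (by positivity) hDR hm0 hcase hρQ hQ
      (tsk_Q20 hVW hν0 hνinv S S0 x) hScard' hK2 hY0

end Vale.Agent.P042.UU
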