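import Vale.Agent.P042.UU.TskSd

set_option autoImplicit false

/-!
Block TSK5, piece C: uniform means of `√c` and `1/c`, `c = cl5 f`.
-/

namespace Vale.Agent.P042.UU

open Polynomial Finset Vale.Agent.P042.SS Vale.Agent.P042.TT

theorem tskcm_nn {n : ℝ} (hn : n = 0 ∨ 1 / 20 ≤ n) : 0 ≤ n := by
  rcases hn with h | h
  · exact h.ge
  · linarith

theorem tskcm_hell {n : ℝ} (h0 : 0 ≤ n) (h4 : n ≤ 4) :
    (1 - n) ^ 2 ≤ 9 * (1 - 2 * Real.sqrt n + n) := by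
  have h1 : Real.sqrt n ^ 2 = n := Real.sq_sqrt h0
  have h2 : 0 ≤ Real.sqrt n := Real.sqrt_nonneg _
  have h3 : Real.sqrt n ≤ 2 := by
    apply Real.sqrt_le_iff.2
    constructor <;> linarith
  have h5 : (1 - n) ^ 2 = (1 - Real.sqrt n) ^ 2 * (1 + Real.sqrt n) ^ 2 := by
    rw [← mul_pow]
    congr 1
    nlinarith
  have h6 : 1 - 2 * Real.sqrt n + n = (1 - Real.sqrt n) ^ 2 := by nlinarith
  rw [h5, h6]
  have h7 : (1 + Real.sqrt n) ^ 2 ≤ 9 := by nlinarith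
  nlinarith [sq_nonneg (1 - Real.sqrt n)]

theorem tskcm_csq {n f : ℝ} (hn : n = 0 ∨ 1 / 20 ≤ n) (hf : 0 ≤ f) :
    (cl5 f - 1) ^ 2 ≤ 20 * (n * psi5 f) + (1 - n) ^ 2 := by
  have h1 := tsd_cl_sq hf
  have h2 := tsd_cl_lo f
  have h3 := tsd_cl_hi f
  have h4 := tsd_psi_nn f
  rcases hn with h | h
  · rw [h]
    nlinarith
  · nlinarith [sq_nonneg (1 - n)]

/-- pointwise bound of `√c` -/
theorem tskcm_pt_sqrt {n f : ℝ} (hn : n = 0 ∨ 1 / 20 ≤ n) (h4 : n ≤ 4) (hf : 0 ≤ f) :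
    Real.sqrt (cl5 f) - 1 ≤ n * (f - 1) / 2 + 11 * (n * psi5 f) +
      9 * (1 - 2 * Real.sqrt n + n) := by
  have hn0 := tskcm_nn hn
  have h1 := tskcm_csq hn hf
  have h2 := tskcm_hell hn0 h4
  have h3 := abs_le.1 (tsd_cl_sub hf)
  have hlo := tsd_cl_lo f
  have hp := tsd_cl_pos f
  set c := cl5 f with hc
  have h5 : Real.sqrt c ^ 2 = c := Real.sq_sqrt hp.le
  have h6 : 0 ≤ Real.sqrt c := Real.sqrt_nonneg _
  have h7 : Real.sqrt c - 1 ≤ (c - 1) / 2 := by nlinarith [sq_nonneg (Real.sqrt c - 1)]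
  have h8 : (Real.sqrt c - 1) ^ 2 ≤ (c - 1) ^ 2 := by
    have e : (c - 1) ^ 2 = (Real.sqrt c - 1) ^ 2 * (Real.sqrt c + 1) ^ 2 := by
      rw [← mul_pow]
      congr 1
      nlinarith
    rw [e]
    have : 1 ≤ (Real.sqrt c + 1) ^ 2 := by nlinarith
    nlinarith [sq_nonneg (Real.sqrt c - 1)]
  have h9 : n * (Real.sqrt c - 1) ≤ n * ((c - 1) / 2) := mul_le_mul_of_nonneg_left h7 hn0
  have h10 : (1 - n) * (Real.sqrt c - 1) ≤ ((1 - n) ^ 2 + (Real.sqrt c - 1) ^ 2) / 2 := by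
    nlinarith [sq_nonneg ((1 - n) - (Real.sqrt c - 1))]
  have h11 : n * (c - 1) ≤ n * (f - 1) + 2 * (n * psi5 f) := by
    have := mul_le_mul_of_nonneg_left (show c - 1 ≤ f - 1 + 2 * psi5 f by linarith) hn0
    nlinarith
  nlinarith

/-- pointwise bound of `1/c` -/
theorem tskcm_pt_inv {n f : ℝ} (hn : n = 0 ∨ 1 / 20 ≤ n) (h4 : n ≤ 4) (hf : 0 ≤ f) :
    (cl5 f)⁻¹ - 1 ≤ -(n * (f - 1)) + 52 * (n * psi5 f) +
      27 * (1 - 2 * Real.sqrt n + n) := by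
  have hn0 := tskcm_nn hn
  have h1 := tskcm_csq hn hf
  have h2 := tskcm_hell hn0 h4
  have h3 := abs_le.1 (tsd_cl_sub hf)
  have hlo := tsd_cl_lo f
  have hp := tsd_cl_pos f
  set c := cl5 f with hc
  have h5 : c⁻¹ ≤ 2 := by
    rw [inv_le_comm₀ hp (by norm_num)]
    linarith
  have h6 : c⁻¹ - 1 = -(c - 1) + (c - 1) ^ 2 * c⁻¹ := by
    field_simp
    ring
  have h7 : (c - 1) ^ 2 * c⁻¹ ≤ 2 * (c - 1) ^ 2 := by
    nlinarith [sq_nonneg (c - 1)]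
  have h10 : -((1 - n) * (c - 1)) ≤ ((1 - n) ^ 2 + (c - 1) ^ 2) / 2 := by
    nlinarith [sq_nonneg ((1 - n) + (c - 1))]
  have h11 : -(n * (c - 1)) ≤ -(n * (f - 1)) + 2 * (n * psi5 f) := by
    have := mul_le_mul_of_nonneg_left (show -(c - 1) ≤ -(f - 1) + 2 * psi5 f by linarith) hn0
    nlinarith
  nlinarith

section mean

variable {p : ℕ} {n f : ℕ → ℝ}

theorem tskcm_hsum (hn1 : ∑ z ∈ range p, n z = p) :
    ∑ z ∈ range p, (1 - 2 * Real.sqrt (n z) + n z) =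
      2 * ((p : ℝ) - ∑ z ∈ range p, Real.sqrt (n z)) := by
  rw [Finset.sum_add_distrib, Finset.sum_sub_distrib, ← Finset.mul_sum, hn1]
  simp
  ring

/-- uniform mean of `√c` -/
theorem tskcm_sqrt (hp : 0 < p) (hn : ∀ z ∈ range p, n z = 0 ∨ 1 / 20 ≤ n z)
    (h4 : ∀ z ∈ range p, n z ≤ 4) (hn1 : ∑ z ∈ range p, n z = p)
    (hf : ∀ z ∈ range p, 0 ≤ f z) (hf1 : ∑ z ∈ range p, n z * f z = p) :
    (∑ z ∈ range p, Real.sqrt (cl5 (f z))) / p ≤
      1 + (11 * ((∑ z ∈ range p, n z * psi5 (f z)) / p) +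
        18 * (1 - (∑ z ∈ range p, Real.sqrt (n z)) / p)) := by
  have hp' : (0 : ℝ) < p := by exact_mod_cast hp
  have h1 : ∑ z ∈ range p, (Real.sqrt (cl5 (f z)) - 1) ≤
      ∑ z ∈ range p, (n z * (f z - 1) / 2 + 11 * (n z * psi5 (f z)) +
        9 * (1 - 2 * Real.sqrt (n z) + n z)) :=
    Finset.sum_le_sum fun z hz => tskcm_pt_sqrt (hn z hz) (h4 z hz) (hf z hz)
  have h2 : ∑ z ∈ range p, n z * (f z - 1) = 0 := by
    have : ∑ z ∈ range p, n z * (f z - 1) = ∑ z ∈ range p, n z * f z - ∑ z ∈ range p, n z := by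
      rw [← Finset.sum_sub_distrib]
      exact Finset.sum_congr rfl fun z _ => by ring
    rw [this, hf1, hn1, sub_self]
  rw [Finset.sum_add_distrib, Finset.sum_add_distrib, ← Finset.sum_div, h2, ← Finset.mul_sum,
    ← Finset.mul_sum, tskcm_hsum hn1, Finset.sum_sub_distrib] at h1
  simp only [Finset.sum_const, Finset.card_range, nsmul_eq_mul, mul_one, zero_div, zero_add] at h1
  rw [div_le_iff₀ hp']
  have e : (1 + (11 * ((∑ z ∈ range p, n z * psi5 (f z)) / p) +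
        18 * (1 - (∑ z ∈ range p, Real.sqrt (n z)) / p))) * (p : ℝ) =
      p + 11 * (∑ z ∈ range p, n z * psi5 (f z)) +
        18 * (p - ∑ z ∈ range p, Real.sqrt (n z)) := by
    field_simp
    ring
  rw [e]
  linarith

/-- uniform mean of `1/c` -/
theorem tskcm_inv (hp : 0 < p) (hn : ∀ z ∈ range p, n z = 0 ∨ 1 / 20 ≤ n z)
    (h4 : ∀ z ∈ range p, n z ≤ 4) (hn1 : ∑ z ∈ range p, n z = p)
    (hf : ∀ z ∈ range p, 0 ≤ f z) (hf1 : ∑ z ∈ range p, n z * f z = p) :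
    (∑ z ∈ range p, (cl5 (f z))⁻¹) / p ≤
      1 + (52 * ((∑ z ∈ range p, n z * psi5 (f z)) / p) +
        54 * (1 - (∑ z ∈ range p, Real.sqrt (n z)) / p)) := by
  have hp' : (0 : ℝ) < p := by exact_mod_cast hp
  have h1 : ∑ z ∈ range p, ((cl5 (f z))⁻¹ - 1) ≤
      ∑ z ∈ range p, (-(n z * (f z - 1)) + 52 * (n z * psi5 (f z)) +
        27 * (1 - 2 * Real.sqrt (n z) + n z)) :=
    Finset.sum_le_sum fun z hz => tskcm_pt_inv (hn z hz) (h4 z hz) (hf z hz)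
  have h2 : ∑ z ∈ range p, n z * (f z - 1) = 0 := by
    have : ∑ z ∈ range p, n z * (f z - 1) = ∑ z ∈ range p, n z * f z - ∑ z ∈ range p, n z := by
      rw [← Finset.sum_sub_distrib]
      exact Finset.sum_congr rfl fun z _ => by ring
    rw [this, hf1, hn1, sub_self]
  rw [Finset.sum_add_distrib, Finset.sum_add_distrib, Finset.sum_neg_distrib, h2, ← Finset.mul_sum,
    ← Finset.mul_sum, tskcm_hsum hn1, Finset.sum_sub_distrib] at h1
  simp only [Finset.sum_const, Finset.card_range, nsmul_eq_mul, mul_one, neg_zero, zero_add] at h1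
  rw [div_le_iff₀ hp']
  have e : (1 + (52 * ((∑ z ∈ range p, n z * psi5 (f z)) / p) +
        54 * (1 - (∑ z ∈ range p, Real.sqrt (n z)) / p))) * (p : ℝ) =
      p + 52 * (∑ z ∈ range p, n z * psi5 (f z)) +
        54 * (p - ∑ z ∈ range p, Real.sqrt (n z)) := by
    field_simp
    ring
  rw [e]
  linarith

theorem tskcm_h_nn (hp : 0 < p) (hn0 : ∀ z ∈ range p, 0 ≤ n z)
    (hn1 : ∑ z ∈ range p, n z = p) : 0 ≤ 1 - (∑ z ∈ range p, Real.sqrt (n z)) / p := by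
  have hp' : (0 : ℝ) < p := by exact_mod_cast hp
  have h1 : 0 ≤ ∑ z ∈ range p, (1 - 2 * Real.sqrt (n z) + n z) := by
    apply Finset.sum_nonneg
    intro z hz
    have := Real.sq_sqrt (hn0 z hz)
    nlinarith [sq_nonneg (1 - Real.sqrt (n z))]
  rw [tskcm_hsum hn1] at h1
  rw [sub_nonneg, div_le_one hp']
  linarith

end mean

section prod

variable {I W : Finset ℕ} {ν f : ℕ → ℤ → ℝ}

theorem tskcm_exp_sqrt (t : ℝ) : Real.exp (Real.log (cl5 t) / 2) = Real.sqrt (cl5 t) := by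
  have h := tsd_cl_pos t
  rw [Real.sqrt_eq_rpow, Real.rpow_def_of_pos h]
  congr 1
  ring

theorem tskcm_exp_inv (t : ℝ) : Real.exp (-2 * (Real.log (cl5 t) / 2)) = (cl5 t)⁻¹ := by
  have h := tsd_cl_pos t
  have e : -2 * (Real.log (cl5 t) / 2) = -Real.log (cl5 t) := by ring
  rw [e, Real.exp_neg, Real.exp_log h]

theorem tskcm_abs (t : ℝ) : |Real.log (cl5 t) / 2| ≤ 1 := by
  have hlo := tsd_cl_lo t
  have hhi := tsd_cl_hi t
  have hp := tsd_cl_pos t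
  have h2 := Real.log_two_lt_d9
  have h1 : Real.log (cl5 t) ≤ Real.log 2 := Real.log_le_log hp hhi
  have h3 : Real.log (1 / 2) ≤ Real.log (cl5 t) := Real.log_le_log (by norm_num) hlo
  have h4 : Real.log (1 / 2) = -Real.log 2 := by rw [one_div, Real.log_inv]
  rw [abs_le]
  constructor <;> linarith

/-- Hellinger deviation at one prime -/
noncomputable def h1p (ν : ℕ → ℤ → ℝ) (p : ℕ) : ℝ := 1 - (∑ x ∈ range p, Real.sqrt (ν p x)) / p

theorem tskcm_Hl_le (hIW : I ⊆ W) (hW : ∀ p ∈ W, p.Prime) (hν : Wts W ν) :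
    ∑ p ∈ I, h1p ν p ≤ Hl W ν := by
  apply Finset.sum_le_sum_of_subset_of_nonneg hIW
  intro p hp _
  exact tskcm_h_nn (hW p hp).pos (fun z _ => hν.nn p z) (hν.mean p hp)

theorem tskcm_prod_aux (a b : ℕ → ℝ) (C1 C2 : ℝ) (h12 : C1 ≤ C2)
    (ha : ∀ p ∈ I, 0 ≤ a p) (g : ℕ → ℝ) (hg0 : ∀ p ∈ I, 0 ≤ g p)
    (hg : ∀ p ∈ I, g p ≤ 1 + (C1 * a p + C2 * b p)) :
    ∏ p ∈ I, g p ≤ Real.exp (C2 * (∑ p ∈ I, a p + ∑ p ∈ I, b p)) := by
  calc ∏ p ∈ I, g p ≤ ∏ p ∈ I, Real.exp (C2 * (a p + b p)) := by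
        refine Finset.prod_le_prod hg0 fun p hp => ?_
        refine (hg p hp).trans ?_
        have h3 := Real.add_one_le_exp (C2 * (a p + b p))
        have h4 := mul_le_mul_of_nonneg_right h12 (ha p hp)
        linarith
    _ = _ := by
        rw [← Real.exp_sum, ← Finset.mul_sum, Finset.sum_add_distrib]

theorem tskcm_prod (hIW : I ⊆ W) (hW : ∀ p ∈ W, p.Prime) (hν : Wts W ν)
    (hlow : ∀ p ∈ W, ∀ x, ν p x = 0 ∨ 1 / 20 ≤ ν p x) (h4 : ∀ p ∈ W, ∀ x, ν p x ≤ 4)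
    (hf : ∀ p ∈ I, ∀ x, 0 ≤ f p x)
    (hf1 : ∀ p ∈ I, ∑ z ∈ range p, ν p z * f p z = p) :
    ∏ p ∈ I, ((∑ z ∈ range p, Real.exp (Real.log (cl5 (f p z)) / 2)) / (p : ℝ)) ≤
      Real.exp (18 * (∑ p ∈ I, (∑ z ∈ range p, ν p z * psi5 (f p z)) / (p : ℝ) + Hl W ν)) ∧
    ∏ p ∈ I, ((∑ z ∈ range p, Real.exp (-2 * (Real.log (cl5 (f p z)) / 2))) / (p : ℝ)) ≤
      Real.exp (54 * (∑ p ∈ I, (∑ z ∈ range p, ν p z * psi5 (f p z)) / (p : ℝ) + Hl W ν)) := by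
  have hH := tskcm_Hl_le hIW hW hν
  have ha : ∀ p ∈ I, 0 ≤ (∑ z ∈ range p, ν p z * psi5 (f p z)) / (p : ℝ) := fun p _ =>
    div_nonneg (Finset.sum_nonneg fun z _ => mul_nonneg (hν.nn p z) (tsd_psi_nn _))
      (Nat.cast_nonneg _)
  have hb : ∀ p ∈ I, 0 ≤ h1p ν p := fun p hp =>
    tskcm_h_nn (hW p (hIW hp)).pos (fun z _ => hν.nn p z) (hν.mean p (hIW hp))
  constructor
  · refine (tskcm_prod_aux (fun p => (∑ z ∈ range p, ν p z * psi5 (f p z)) / (p : ℝ))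
      (fun p => h1p ν p) 11 18 (by norm_num) ha _ (fun p _ => ?_)
      fun p hp => ?_).trans ?_
    · exact div_nonneg (Finset.sum_nonneg fun _ _ => (Real.exp_pos _).le) (Nat.cast_nonneg _)
    · simp only [tskcm_exp_sqrt]
      exact tskcm_sqrt (hW p (hIW hp)).pos (fun z _ => hlow p (hIW hp) z)
        (fun z _ => h4 p (hIW hp) z) (hν.mean p (hIW hp)) (fun z _ => hf p hp z) (hf1 p hp)
    · apply Real.exp_le_exp.2
      linarith
  · refine (tskcm_prod_aux (fun p => (∑ z ∈ range p, ν p z * psi5 (f p z)) / (p : ℝ))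
      (fun p => h1p ν p) 52 54 (by norm_num) ha _ (fun p _ => ?_)
      fun p hp => ?_).trans ?_
    · exact div_nonneg (Finset.sum_nonneg fun _ _ => (Real.exp_pos _).le) (Nat.cast_nonneg _)
    · simp only [tskcm_exp_inv]
      exact tskcm_inv (hW p (hIW hp)).pos (fun z _ => hlow p (hIW hp) z)
        (fun z _ => h4 p (hIW hp) z) (hν.mean p (hIW hp)) (fun z _ => hf p hp z) (hf1 p hp)
    · apply Real.exp_le_exp.2
      linarith

end prod

end Vale.Agent.P042.UU
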