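import Vale.Agent.P042.UU.TskIs

set_option autoImplicit false

/-!
Block TSK5, piece I: numerics and general lemmas.
-/

namespace Vale.Agent.P042.UU

open Polynomial Finset Vale.Agent.P042.SS Vale.Agent.P042.TT Filter

lemma tskI_pow_ev (a b C D : ℝ) (h : a < b) (hD : 0 < D) :
    ∀ᶠ P : ℝ in atTop, C * P ^ a ≤ D * P ^ b := by
  have h1 : Tendsto (fun P : ℝ => P ^ (b - a)) atTop atTop :=
    tendsto_rpow_atTop (by linarith)
  filter_upwards [h1.eventually_ge_atTop (|C| / D), eventually_gt_atTop 0] with P h2 h3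
  have h4 : P ^ b = P ^ (b - a) * P ^ a := by
    rw [← Real.rpow_add h3]; congr 1; ring
  have h5 : 0 < P ^ a := Real.rpow_pos_of_pos h3 a
  rw [h4, ← mul_assoc]
  apply mul_le_mul_of_nonneg_right _ h5.le
  rw [div_le_iff₀ hD] at h2
  calc C ≤ |C| := le_abs_self C
    _ ≤ P ^ (b - a) * D := h2
    _ = D * P ^ (b - a) := by ring

lemma tskI_log_ev (b D : ℝ) (h : 0 < b) (hD : 0 < D) :
    ∀ᶠ P : ℝ in atTop, Real.log P ≤ D * P ^ b := by
  have h1 := (isLittleO_log_rpow_atTop h).bound hD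
  filter_upwards [h1, eventually_ge_atTop 1] with P h2 h3
  rw [Real.norm_eq_abs, Real.norm_eq_abs, abs_of_nonneg (Real.log_nonneg h3),
    abs_of_nonneg (Real.rpow_nonneg (by linarith) _)] at h2
  exact h2

/-- numeric facts -/
structure TskINum (ε P : ℝ) : Prop where
  ge : 100 ≤ P
  b5s : P ^ (-(96 * ε)) ≤ 1 / 25
  bns : P ^ (-(97 * ε)) ≤ 1 / 2
  d51 : P ^ (1 - 51.5 * ε) ≤ P ^ (1 - 51 * ε)
  var : 2 * P ^ (1 - 50.85 * ε) + 100 * P ^ (-(95 * ε)) ≤ P ^ (1 - 50.8 * ε)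
  filt : 4 * P ^ (1 - 98 * ε) + 4 * P ^ (1 - 142 * ε) + 8 * P ^ (1 - 50.85 * ε) +
    16 * P ^ (-(95 * ε)) ≤ P ^ (1 - 49 * ε)
  d2 : P ^ (1 - 97.5 * ε) + P ^ (1 - 50.88 * ε) + 2 * Real.log P + 5 ≤ P ^ (1 - 49 * ε) / 8
  d1 : P ^ (1 - 97.5 * ε) + 2 * P ^ (1 - 50.85 * ε) + 4 * P ^ (-(95 * ε)) + 5 ≤
    P ^ (1 - 49 * ε) / 8
  fin1 : P ^ (-(96.9 * ε)) + 20 * P ^ (-(95 * ε)) ≤ 1 / 5
  fin2 : P ^ (-(96.9 * ε)) + P ^ (-(96 * ε)) / 2 ≤ P ^ (-(95.97 * ε))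

lemma tskI_num (ε : ℝ) (hε : 0 < ε) (hε1 : ε ≤ 1 / 1000) :
    ∃ P0 : ℝ, ∀ P : ℝ, P0 ≤ P → TskINum ε P := by
  have key : ∀ᶠ P : ℝ in atTop, TskINum ε P := by
    filter_upwards [eventually_ge_atTop (100 : ℝ),
      tskI_pow_ev (-(96 * ε)) 0 1 (1 / 25) (by linarith) (by norm_num),
      tskI_pow_ev (-(97 * ε)) 0 1 (1 / 2) (by linarith) (by norm_num),
      tskI_pow_ev (1 - 50.85 * ε) (1 - 50.8 * ε) 4 1 (by linarith) one_pos,
      tskI_pow_ev (-(95 * ε)) (1 - 50.8 * ε) 200 1 (by linarith) one_pos,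
      tskI_pow_ev (1 - 98 * ε) (1 - 49 * ε) 100 1 (by linarith) one_pos,
      tskI_pow_ev (1 - 142 * ε) (1 - 49 * ε) 100 1 (by linarith) one_pos,
      tskI_pow_ev (1 - 50.85 * ε) (1 - 49 * ε) 200 1 (by linarith) one_pos,
      tskI_pow_ev (-(95 * ε)) (1 - 49 * ε) 400 1 (by linarith) one_pos,
      tskI_pow_ev (1 - 97.5 * ε) (1 - 49 * ε) 100 1 (by linarith) one_pos,
      tskI_pow_ev (1 - 50.88 * ε) (1 - 49 * ε) 100 1 (by linarith) one_pos,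
      tskI_log_ev (1 - 49 * ε) (1 / 100) (by linarith) (by norm_num),
      tskI_pow_ev 0 (1 - 49 * ε) 400 1 (by linarith) one_pos,
      tskI_pow_ev (-(96.9 * ε)) 0 10 1 (by linarith) one_pos,
      tskI_pow_ev (-(95 * ε)) 0 200 1 (by linarith) one_pos,
      tskI_pow_ev (-(96.9 * ε)) (-(95.97 * ε)) 2 1 (by linarith) one_pos,
      tskI_pow_ev (-(96 * ε)) (-(95.97 * ε)) 1 1 (by linarith) one_pos]
      with P h0 h1 h2 h3 h4 h5 h6 h7 h8 h9 h10 h11 h12 h13 h14 h15 h16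
    simp only [Real.rpow_zero] at h1 h2 h12 h13 h14
    have hP1 : 1 ≤ P := by linarith
    refine ⟨h0, by linarith, by linarith, ?_, by linarith, by linarith, by linarith,
      by linarith, by linarith, by linarith⟩
    exact Real.rpow_le_rpow_of_exponent_le hP1 (by linarith)
  exact eventually_atTop.1 key

lemma tskI_prime {ε P : ℝ} {p : ℕ} (hp : p ∈ W5 ε P) : p.Prime := by
  unfold W5 Wp at hp
  exact (mem_filter.1 hp).2

lemma tskI_card {ε P : ℝ} (hε : 0 < ε) (hP : 1 ≤ P) : ((W5 ε P).card : ℝ) ≤ P ^ 2 := by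
  have h1 : (W5 ε P).card ≤ ⌊P ^ (2 - 190 * ε)⌋₊ := by
    unfold W5 Wp
    refine (card_filter_le _ _).trans ?_
    rw [Nat.card_Ioc]
    exact Nat.sub_le _ _
  calc ((W5 ε P).card : ℝ) ≤ ⌊P ^ (2 - 190 * ε)⌋₊ := by exact_mod_cast h1
    _ ≤ P ^ (2 - 190 * ε) := Nat.floor_le (Real.rpow_nonneg (by linarith) _)
    _ ≤ P ^ (2 : ℝ) := Real.rpow_le_rpow_of_exponent_le hP (by linarith)
    _ = P ^ 2 := by exact_mod_cast Real.rpow_natCast P 2

/-- the law of a periodic function -/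
theorem tskI_law {A : Finset ℤ} {G : ℤ → ℝ} {m : ℝ} {ν : ℕ → ℤ → ℝ} {p : ℕ} (hp : 0 < p)
    (hper : ∀ n, ν p (n + p) = ν p n) (hGν : ∀ n, G n ≠ 0 → ν p n ≠ 0) (h : ℤ → ℝ)
    (hh : ∀ n, h (n + p) = h n) :
    ∑ z ∈ range p, ν p z / p * (cF A G m ν p z * h z) = (∑ n ∈ A, G n * h n) / m := by
  have hp0 : (p : ℝ) ≠ 0 := by exact_mod_cast hp.ne'
  rw [← Fin.sum_univ_eq_sum_range (fun z : ℕ => ν p z / p * (cF A G m ν p z * h z)),
    ← cell_group A p hp (fun n => G n * h n), Finset.sum_div]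
  refine Finset.sum_congr rfl fun z _ => ?_
  have h1 := cF_mul (A := A) (G := G) (m := m) hper hGν ((z : ℕ) : ℤ)
  have h2 : ∑ n ∈ A.filter (fun n : ℤ => n ≡ ((z : ℕ) : ℤ) [ZMOD (p : ℤ)]), G n * h n =
      (∑ n ∈ A.filter (fun n : ℤ => n ≡ ((z : ℕ) : ℤ) [ZMOD (p : ℤ)]), G n) *
        h ((z : ℕ) : ℤ) := by
    rw [Finset.sum_mul]
    refine Finset.sum_congr rfl fun n hn => ?_
    rw [cell_per (f := h) hh (Finset.mem_filter.1 hn).2]
  rw [h2]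
  calc ν p ((z : ℕ) : ℤ) / p * (cF A G m ν p ((z : ℕ) : ℤ) * h ((z : ℕ) : ℤ))
      = (ν p ((z : ℕ) : ℤ) * cF A G m ν p ((z : ℕ) : ℤ)) / p * h ((z : ℕ) : ℤ) := by ring
    _ = _ := by
        rw [h1]
        field_simp

/-- number of primes of the window dividing `D` -/
lemma tskI_Yn {ε P : ℝ} {D : ℕ} (hD : 1 ≤ D) : ((Yn ε P D).card : ℝ) ≤ 2 * Real.log D := by
  have h1 : 2 ^ (Yn ε P D).card ≤ D := by
    calc 2 ^ (Yn ε P D).card = ∏ _p ∈ Yn ε P D, 2 := by rw [prod_const]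
      _ ≤ ∏ p ∈ Yn ε P D, p := prod_le_prod' fun p hp =>
          (tskI_prime (mem_filter.1 hp).1).two_le
      _ ≤ ∏ p ∈ D.primeFactors, p := by
          refine prod_le_prod_of_subset_of_one_le' (fun p hp => ?_) fun p hp _ => ?_
          · have h := mem_filter.1 hp
            exact Nat.mem_primeFactors.2 ⟨tskI_prime h.1, h.2, by omega⟩
          · exact (Nat.prime_of_mem_primeFactors hp).one_le
      _ ≤ D := Nat.le_of_dvd (by omega) (Nat.prod_primeFactors_dvd D)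
  have h2 : ((2 : ℝ)) ^ (Yn ε P D).card ≤ D := by exact_mod_cast h1
  have h3 := Real.log_le_log (by positivity) h2
  rw [Real.log_pow] at h3
  have h4 := Real.log_two_gt_d9
  have h5 : (0 : ℝ) ≤ (Yn ε P D).card := Nat.cast_nonneg _
  nlinarith

lemma tskI_split {ε P : ℝ} (D : ℕ) (f : ℕ → ℝ) :
    ∏ p ∈ W5 ε P, f p = (∏ p ∈ Yn ε P D, f p) * ∏ p ∈ Vn ε P D, f p := by
  unfold Yn Vn
  exact (prod_filter_mul_prod_filter_not (W5 ε P) (fun p => p ∣ D) f).symm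

end Vale.Agent.P042.UU
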