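import Vale.Agent.P042.UU.TskCm
import Vale.Agent.P042.UU.TskIa

set_option autoImplicit false

/-!
Block TSK5, piece C: few integers of the cell have a large weight.
-/

namespace Vale.Agent.P042.UU

open Polynomial Finset Vale.Agent.P042.SS Vale.Agent.P042.TT Filter

/-- numeric facts -/
structure TskCNum (ε P : ℝ) : Prop where
  ge : 100 ≤ P
  bns : P ^ (-(97 * ε)) ≤ 1 / 2
  lg : Real.log P ≤ 1 / 8 * P
  m54 : 54 * (P ^ (1 - 50.85 * ε) + P ^ (1 - 99.5 * ε)) ≤ P ^ (1 - 49 * ε)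
  m18 : 18 * (P ^ (1 - 50.85 * ε) + P ^ (1 - 99.5 * ε)) + 2 ≤ P ^ (1 - 49 * ε) / 8

theorem tskcz_num (ε : ℝ) (hε : 0 < ε) (hε1 : ε ≤ 1 / 1000) :
    ∃ P0 : ℝ, ∀ P : ℝ, P0 ≤ P → TskCNum ε P := by
  have key : ∀ᶠ P : ℝ in atTop, TskCNum ε P := by
    filter_upwards [eventually_ge_atTop (100 : ℝ),
      tskI_pow_ev (-(97 * ε)) 0 1 (1 / 2) (by linarith) (by norm_num),
      tskI_log_ev 1 (1 / 8) one_pos (by norm_num),
      tskI_pow_ev (1 - 50.85 * ε) (1 - 49 * ε) 1000 1 (by linarith) one_pos,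
      tskI_pow_ev (1 - 99.5 * ε) (1 - 49 * ε) 1000 1 (by linarith) one_pos,
      tskI_pow_ev 0 (1 - 49 * ε) 1000 1 (by linarith) one_pos]
      with P h0 h1 h2 h3 h4 h5
    simp only [Real.rpow_zero, Real.rpow_one] at h1 h2 h5
    exact ⟨h0, by linarith, h2, by linarith, by linarith⟩
  exact eventually_atTop.1 key

theorem tskC_of (hM : MGF5Stmt) : TskCStmt := by
  intro k _ ε hε hε1
  obtain ⟨P1, h1⟩ := hM ε hε hε1
  obtain ⟨P2, h2⟩ := tskcz_num ε hε hε1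
  refine ⟨max P1 P2, fun P hP N' Φ G ν a a' c hPin _ _ _ hSb D M y z I hD hDlog hMN hNM hI
    hm hPs => ?_⟩
  have hN := h2 P (le_trans (le_max_right _ _) hP)
  have hP1 : P1 ≤ P := le_trans (le_max_left _ _) hP
  have hP100 := hN.ge
  have hPpos : 0 < P := by linarith
  set Gs := Gt ε P ν a a' c G with hGs
  set A := cel y M D z with hA
  set m := mass Gs y M D z with hmd
  set φ : ℕ → ℤ → ℝ := fun p n => Real.log (cl5 (cF A Gs m ν p n)) / 2 with hφ
  have hIW : I ⊆ W5 ε P := hI.trans (Finset.filter_subset _ _)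
  have hpr : ∀ p ∈ W5 ε P, p.Prime := fun p hp => tskI_prime hp
  have h4 : ∀ p ∈ W5 ε P, ∀ x, ν p x ≤ 4 := by
    intro p hp x
    refine (hSb.νle p hp x).trans ?_
    have h5 : bn5 ε P ≤ 1 := by
      have := hN.bns
      unfold bn5
      linarith
    have h6 := Real.exp_le_exp.2 h5
    have h7 := Real.exp_one_lt_d9
    linarith
  have hf : ∀ p ∈ I, ∀ x, 0 ≤ cF A Gs m ν p x := fun p _ x =>
    cF_nonneg hSb.G0 hm hSb.wts.nn p x
  have hf1 : ∀ p ∈ I, ∑ t ∈ range p, ν p t * cF A Gs m ν p t = p := fun p hp =>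
    cF_sum (hpr p (hIW hp)).pos (hSb.wts.per p (hIW hp))
      (fun n hn => hSb.Gν n hn p (hIW hp)) hm rfl
  obtain ⟨hs1, hs2⟩ := tskcm_prod hIW hpr hSb.wts hSb.low h4 hf hf1
  have hH := hPin.hell
  -- the size of `M`
  have hMP : Real.exp (P / 2) ≤ M := by
    have h5 := hPin.N'lo
    have h6 : Real.exp (7 / 8 * P) ≤ P * M := h5.trans hNM
    have h7 : P ≤ Real.exp (1 / 8 * P) := by
      rw [← Real.log_le_iff_le_exp hPpos]
      exact hN.lg
    have h8 : Real.exp (7 / 8 * P) = Real.exp (1 / 8 * P) * Real.exp (3 / 4 * P) := by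
      rw [← Real.exp_add]; congr 1; ring
    have h9 : Real.exp (P / 2) ≤ Real.exp (3 / 4 * P) := Real.exp_le_exp.2 (by linarith)
    have hM0 : (0 : ℝ) ≤ M := Nat.cast_nonneg _
    have h10 : Real.exp (1 / 8 * P) * Real.exp (3 / 4 * P) ≤ Real.exp (1 / 8 * P) * M := by
      rw [← h8]
      exact h6.trans (mul_le_mul_of_nonneg_right h7 hM0)
    have h11 := le_of_mul_le_mul_left h10 (Real.exp_pos _)
    linarith
  have hDlog' : Real.log D ≤ P ^ (1 - 51 * ε) :=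
    hDlog.trans (Real.rpow_le_rpow_of_exponent_le (by linarith) (by linarith))
  have hPs' : ∑ p ∈ I, (∑ t ∈ range p, ν p t * psi5 (cF A Gs m ν p t)) / (p : ℝ) ≤
      P ^ (1 - 50.85 * ε) := hPs
  have hneg : ∏ p ∈ I, ((∑ t ∈ range p, Real.exp (-2 * φ p t)) / (p : ℝ)) ≤
      Real.exp (P ^ (1 - 49 * ε)) := by
    refine hs2.trans (Real.exp_le_exp.2 ?_)
    have := hN.m54
    linarith
  have hpos : ∏ p ∈ I, ((∑ t ∈ range p, Real.exp (φ p t)) / (p : ℝ)) ≤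
      Real.exp (18 * (P ^ (1 - 50.85 * ε) + P ^ (1 - 99.5 * ε))) := by
    refine hs1.trans (Real.exp_le_exp.2 ?_)
    linarith
  have hper : ∀ p ∈ I, ∀ n, φ p (n + p) = φ p n := by
    intro p hp n
    simp only [hφ]
    rw [cF_per (hSb.wts.per p (hIW hp))]
  have hab : ∀ p ∈ I, ∀ n, |φ p n| ≤ 8 := fun p _ n => by
    have := tskcm_abs (cF A Gs m ν p n)
    simp only [hφ]
    linarith
  obtain ⟨_, hb⟩ := h1 P hP1 I φ D M y z hI hD hDlog' hMP hper hab hneg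
  have hMc : 0 ≤ Mc2 ε P := by unfold Mc2; positivity
  have h5 := hb (Mc2 ε P / 4) (by linarith) (by linarith)
  have h6 : (A.filter (fun n => Mc2 ε P / 2 ≤ ∑ i ∈ I, Real.log (cl5 (cF A Gs m ν i n)))) =
      A.filter (fun n => Mc2 ε P / 4 ≤ ∑ p ∈ I, φ p n) := by
    refine Finset.filter_congr fun n _ => ?_
    simp only [hφ]
    rw [← Finset.sum_div]
    constructor <;> intro h <;> linarith
  rw [h6]
  refine h5.trans ?_
  have hD0 : (0 : ℝ) < D := by exact_mod_cast hD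
  have hMD : (0 : ℝ) ≤ (M : ℝ) / D := div_nonneg (Nat.cast_nonneg _) hD0.le
  have h7 : Real.exp (-(P ^ (1 - 48.5 * ε))) ≤ 1 := by
    apply Real.exp_le_one_iff.2
    have : 0 ≤ P ^ (1 - 48.5 * ε) := Real.rpow_nonneg hPpos.le _
    linarith
  set X := 18 * (P ^ (1 - 50.85 * ε) + P ^ (1 - 99.5 * ε)) with hX
  have hX0 : 0 ≤ X := by
    have h8 : 0 ≤ P ^ (1 - 50.85 * ε) := Real.rpow_nonneg hPpos.le _
    have h9 : 0 ≤ P ^ (1 - 99.5 * ε) := Real.rpow_nonneg hPpos.le _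
    rw [hX]; positivity
  have h8 : 6 * ∏ p ∈ I, ((∑ t ∈ range p, Real.exp (φ p t)) / (p : ℝ)) +
      Real.exp (-(P ^ (1 - 48.5 * ε))) ≤ Real.exp (X + 2) := by
    have h9 : (1 : ℝ) ≤ Real.exp X := Real.one_le_exp hX0
    have h10 : (7 : ℝ) ≤ Real.exp 2 := by
      have h11 := Real.exp_one_gt_d9
      have h12 : Real.exp 2 = Real.exp 1 * Real.exp 1 := by
        rw [← Real.exp_add]; norm_num
      rw [h12]
      nlinarith
    have h11 : Real.exp (X + 2) = Real.exp X * Real.exp 2 := Real.exp_add _ _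
    rw [h11]
    nlinarith
  have h9 : Real.exp (X + 2) ≤ Real.exp (Mc2 ε P / 8) := by
    apply Real.exp_le_exp.2
    have := hN.m18
    unfold Mc2
    linarith
  have h10 : Real.exp (-(Mc2 ε P / 4)) * Real.exp (Mc2 ε P / 8) = Real.exp (-(Mc2 ε P / 8)) := by
    rw [← Real.exp_add]; congr 1; ring
  calc Real.exp (-(Mc2 ε P / 4)) * ((M : ℝ) / D *
        (6 * ∏ p ∈ I, ((∑ t ∈ range p, Real.exp (φ p t)) / (p : ℝ)) +
          Real.exp (-(P ^ (1 - 48.5 * ε)))))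
      ≤ Real.exp (-(Mc2 ε P / 4)) * ((M : ℝ) / D * Real.exp (Mc2 ε P / 8)) := by
        apply mul_le_mul_of_nonneg_left _ (Real.exp_pos _).le
        exact mul_le_mul_of_nonneg_left (h8.trans h9) hMD
    _ = Real.exp (-(Mc2 ε P / 8)) * ((M : ℝ) / D) := by
        rw [← h10]; ring

end Vale.Agent.P042.UU
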