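import Vale.Agent.P042.UU.SpecB
import Vale.Agent.P042.TT.CellD

set_option autoImplicit false

/-!
Theorem S5: the pieces of block TSK5.
-/

namespace Vale.Agent.P042.UU

open Polynomial Finset Vale.Agent.P042.SS Vale.Agent.P042.TT

/-- convex function comparable to the entropy -/
noncomputable def psi5 (t : ℝ) : ℝ := min ((t - 1) ^ 2) |t - 1|

noncomputable def cl5 (t : ℝ) : ℝ := min 2 (max (1 / 2) t)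

/-- `E_π ψ(f_i)` for the law of `n mod i` under `G` on the cell `(y, M, D, z)` -/
noncomputable def Ps5 (ν : ℕ → ℤ → ℝ) (G : ℤ → ℝ) (y : ℤ) (M D : ℕ) (z : ℤ) (i : ℕ) : ℝ :=
  (∑ w ∈ range i, ν i w * psi5 (cF (cel y M D z) G (mass G y M D z) ν i w)) / (i : ℝ)

/-- relative entropy of the law of `n mod i` under `G` on the cell `(y, M, D, z)` -/
noncomputable def Kl5 (ν : ℕ → ℤ → ℝ) (G : ℤ → ℝ) (y : ℤ) (M D : ℕ) (z : ℤ) (i : ℕ) : ℝ :=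
  (∑ w ∈ range i, ν i w * (cF (cel y M D z) G (mass G y M D z) ν i w *
    Real.log (cF (cel y M D z) G (mass G y M D z) ν i w))) / (i : ℝ)

/-- piece P (physical form); `tsk5_of (hP : TskPStmt) : TSK5Stmt` is piece A -/
def TskPStmt : Prop :=
  ∀ k : ℕ, 1 ≤ k → ∀ ε : ℝ, 0 < ε → ε ≤ 1 / 1000 → ∃ P0 : ℝ, ∀ P : ℝ, P0 ≤ P →
  ∀ (N' : ℕ) (Φ : ℝ) (G : ℤ → ℝ) (ν a a' c : ℕ → ℤ → ℝ), Pin5 ε P k N' Φ G ν →
    TiltOK ε P ν a → TiltOK ε P ν a' → (c = a ∨ c = a') →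
    Sb5 ε P k N' Φ (Gt ε P ν a a' c G) ν →
    ∀ (D M : ℕ) (y z : ℤ) (V' : Finset ℕ), 1 ≤ D → Real.log D ≤ P ^ (1 - 51.5 * ε) →
    M ≤ N' → (N' : ℝ) ≤ P * M → V' ⊆ Vn ε P D →
    Real.exp (-(P ^ (1 - 50.88 * ε))) * (M * Φ / D) ≤
      mass (Gt ε P ν a a' c G) y M D z →
    ∑ i ∈ V', Kl5 ν (Gt ε P ν a a' c G) y M D z i ≤
      P ^ (ε / 20) * (1 + P ^ (-(95.95 * ε)) * Real.log D -
        Real.log (D * mass (Gt ε P ν a a' c G) y M D z / (M * Φ)))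

/-- piece I: sets `I` with small total divergence -/
def TskIStmt : Prop :=
  ∀ k : ℕ, 1 ≤ k → ∀ ε : ℝ, 0 < ε → ε ≤ 1 / 1000 → ∃ P0 : ℝ, ∀ P : ℝ, P0 ≤ P →
  ∀ (N' : ℕ) (Φ : ℝ) (G : ℤ → ℝ) (ν a a' c : ℕ → ℤ → ℝ), Pin5 ε P k N' Φ G ν →
    TiltOK ε P ν a → TiltOK ε P ν a' → (c = a ∨ c = a') →
    Sb5 ε P k N' Φ (Gt ε P ν a a' c G) ν →
    ∀ (D M : ℕ) (y z : ℤ) (I : Finset ℕ), 1 ≤ D → Real.log D ≤ P ^ (1 - 51.5 * ε) →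
    M ≤ N' → (N' : ℝ) ≤ P * M → I ⊆ Vn ε P D →
    Real.exp (-(P ^ (1 - 50.88 * ε))) * (M * Φ / D) ≤
      mass (Gt ε P ν a a' c G) y M D z →
    ∑ i ∈ I, Ps5 ν (Gt ε P ν a a' c G) y M D z i ≤ P ^ (1 - 50.85 * ε) →
    0.09 * ∑ i ∈ I, Ps5 ν (Gt ε P ν a a' c G) y M D z i ≤
      1 / 4 + P ^ (-(95.97 * ε)) * Real.log D -
        Real.log (D * mass (Gt ε P ν a a' c G) y M D z / (M * Φ))

/-- piece C: few integers of the cell have a large weight -/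
def TskCStmt : Prop :=
  ∀ k : ℕ, 1 ≤ k → ∀ ε : ℝ, 0 < ε → ε ≤ 1 / 1000 → ∃ P0 : ℝ, ∀ P : ℝ, P0 ≤ P →
  ∀ (N' : ℕ) (Φ : ℝ) (G : ℤ → ℝ) (ν a a' c : ℕ → ℤ → ℝ), Pin5 ε P k N' Φ G ν →
    TiltOK ε P ν a → TiltOK ε P ν a' → (c = a ∨ c = a') →
    Sb5 ε P k N' Φ (Gt ε P ν a a' c G) ν →
    ∀ (D M : ℕ) (y z : ℤ) (I : Finset ℕ), 1 ≤ D → Real.log D ≤ P ^ (1 - 51.5 * ε) →
    M ≤ N' → (N' : ℝ) ≤ P * M → I ⊆ Vn ε P D →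
    0 < mass (Gt ε P ν a a' c G) y M D z →
    ∑ i ∈ I, Ps5 ν (Gt ε P ν a a' c G) y M D z i ≤ P ^ (1 - 50.85 * ε) →
    (((cel y M D z).filter (fun n => Mc2 ε P / 2 ≤ ∑ i ∈ I, Real.log
      (cl5 (cF (cel y M D z) (Gt ε P ν a a' c G) (mass (Gt ε P ν a a' c G) y M D z) ν i n)))).card
        : ℝ) ≤ Real.exp (-(Mc2 ε P / 8)) * ((M : ℝ) / D)

end Vale.Agent.P042.UU
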