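import Vale.Agent.P042.UU.TskSd
import Vale.Agent.P042.TT.CoreNum

set_option autoImplicit false

/-!
Block TSK5, piece E: from small sets of primes to all primes.
-/

namespace Vale.Agent.P042.UU

open Finset Filter Topology Vale.Agent.P042.SS Vale.Agent.P042.TT Vale.Agent.P042.TT.CoreNumP

/-- exponent facts -/
structure TseNum (ε P : ℝ) : Prop where
  one_le : 1 ≤ P
  e1 : 28 ≤ P ^ (0.03 * ε)
  e2 : 1 ≤ P ^ (1 - 50.88 * ε)
  e3 : 8 ≤ P ^ (90 * ε)
  e4 : 2 * Real.log (20 * P ^ 2) ≤ 0.09 * P ^ (ε / 20)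
  e5 : 0 ≤ Real.log (20 * P ^ 2)

theorem tse_num {ε : ℝ} (hε : 0 < ε) (hε2 : ε ≤ 1 / 1000) :
    ∃ P0 : ℝ, ∀ P : ℝ, P0 ≤ P → TseNum ε P := by
  have H : ∀ᶠ P : ℝ in atTop, TseNum ε P := by
    filter_upwards [eventually_ge_atTop 1,
      ev0 (b := 0.03 * ε) (by positivity) 28,
      ev0 (b := 1 - 50.88 * ε) (by linarith) 1,
      ev0 (b := 90 * ε) (by positivity) 8,
      ev (a := ε / 40) (b := ε / 20) (by linarith) (2 * (4 + 2 * (40 / ε)) / 0.09),
      ev0 (b := ε / 40) (by positivity) 1] with P h1 h2 h3 h4 h5 h6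
    have hP : 0 < P := by linarith
    have hlog : 0 ≤ Real.log P := Real.log_nonneg h1
    have hl20 : Real.log 20 ≤ 4 := by
      rw [Real.log_le_iff_le_exp (by norm_num)]
      have h7 : Real.exp 4 = (Real.exp 1) ^ 4 := by
        rw [← Real.exp_nat_mul]; norm_num
      have h8 := Real.exp_one_gt_d9
      rw [h7]
      have h9 : (2.7 : ℝ) ^ 4 ≤ (Real.exp 1) ^ 4 :=
        pow_le_pow_left₀ (by norm_num) (by linarith) 4
      norm_num at h9 ⊢
      linarith
    have e1 : Real.log (20 * P ^ 2) = Real.log 20 + 2 * Real.log P := by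
      rw [Real.log_mul (by norm_num) (by positivity), Real.log_pow]
      norm_num
    have hl20' : 0 ≤ Real.log 20 := Real.log_nonneg (by norm_num)
    refine ⟨h1, h2, h3, h4, ?_, ?_⟩
    · have h7 : Real.log P ≤ P ^ (ε / 40) / (ε / 40) := Real.log_le_rpow_div hP.le (by positivity)
      have h8 : P ^ (ε / 40) / (ε / 40) = 40 / ε * P ^ (ε / 40) := by
        field_simp
      rw [h8] at h7
      have h9 : 2 * Real.log (20 * P ^ 2) ≤ 2 * (4 + 2 * (40 / ε)) * P ^ (ε / 40) := by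
        rw [e1]
        nlinarith
      have h10 : 2 * (4 + 2 * (40 / ε)) * P ^ (ε / 40) =
          0.09 * (2 * (4 + 2 * (40 / ε)) / 0.09 * P ^ (ε / 40)) := by
        field_simp
      rw [h10] at h9
      linarith
    · rw [e1]
      linarith
  obtain ⟨P0, h⟩ := Filter.eventually_atTop.1 H
  exact ⟨P0, fun P hP => h P hP⟩

theorem tse_W {ε P : ℝ} (hε : 0 < ε) (hP : 1 ≤ P) {p : ℕ} (hp : p ∈ W5 ε P) :
    p.Prime ∧ (p : ℝ) ≤ P ^ (2 : ℕ) := by
  unfold W5 Wp at hp
  refine ⟨(Finset.mem_filter.1 hp).2, ?_⟩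
  have h1 := (Finset.mem_Ioc.1 (Finset.mem_filter.1 hp).1).2
  have h2 : (p : ℝ) ≤ P ^ (2 - 190 * ε) := (Nat.le_floor_iff (by positivity)).1 h1
  have h3 : P ^ (2 - 190 * ε) ≤ P ^ (2 : ℝ) :=
    Real.rpow_le_rpow_of_exponent_le hP (by linarith)
  refine h2.trans (h3.trans (le_of_eq ?_))
  rw [← Real.rpow_natCast]
  norm_num

/-- one prime -/
theorem tse_one {p : ℕ} (hp : p.Prime) {ν : ℕ → ℤ → ℝ} {G : ℤ → ℝ} {y : ℤ} {M D : ℕ} {z : ℤ}
    (hν : ∀ p n, 0 ≤ ν p n) (hper : ∀ n, ν p (n + p) = ν p n)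
    (hmean : ∑ x ∈ range p, ν p x = p) (hlow : ∀ x, ν p x = 0 ∨ 1 / 20 ≤ ν p x)
    (hG : ∀ n, 0 ≤ G n) (hGν : ∀ n, G n ≠ 0 → ν p n ≠ 0) (hm : 0 < mass G y M D z) :
    0 ≤ Ps5 ν G y M D z p ∧ Ps5 ν G y M D z p ≤ 2 ∧
      Kl5 ν G y M D z p ≤ 2 * Real.log (20 * p) * Ps5 ν G y M D z p := by
  have hp0 : (0 : ℝ) < p := by exact_mod_cast hp.pos
  have hp1 : (1 : ℝ) ≤ p := by exact_mod_cast hp.one_le
  set m := mass G y M D z with hmd
  set A := cel y M D z with hA
  have hs : ∑ n ∈ A, G n = m := rfl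
  set f : ℕ → ℝ := fun w => cF A G m ν p w with hf
  set w : ℕ → ℝ := fun x => ν p x / p with hw
  have hw0 : ∀ x ∈ range p, 0 ≤ w x := fun x _ => div_nonneg (hν p x) hp0.le
  have hw1 : ∑ x ∈ range p, w x = 1 := by
    rw [hw, ← Finset.sum_div, hmean, div_self hp0.ne']
  have hf0 : ∀ x ∈ range p, 0 ≤ f x := fun x _ => cF_nonneg hG hm hν p x
  have hf1 : ∑ x ∈ range p, w x * f x = 1 := by
    have h1 := cF_sum (A := A) (G := G) (m := m) (ν := ν) hp.pos hper hGν hm hs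
    have h2 : ∑ x ∈ range p, w x * f x = (∑ x ∈ range p, ν p x * cF A G m ν p x) / p := by
      rw [Finset.sum_div]
      exact Finset.sum_congr rfl fun x _ => by simp only [hw, hf]; ring
    rw [h2, h1, div_self hp0.ne']
  have hPs : Ps5 ν G y M D z p = ∑ x ∈ range p, w x * psi5 (f x) := by
    unfold Ps5
    rw [Finset.sum_div]
    exact Finset.sum_congr rfl fun x _ => by simp only [hw, hf]; ring
  have hKl : Kl5 ν G y M D z p = ∑ x ∈ range p, w x * (f x * Real.log (f x)) := by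
    unfold Kl5
    rw [Finset.sum_div]
    exact Finset.sum_congr rfl fun x _ => by simp only [hw, hf]; ring
  have hfA : ∀ x ∈ range p, w x ≠ 0 → f x ≤ 20 * p := by
    intro x _ hx
    have hνx : ν p x ≠ 0 := by
      intro h
      apply hx
      simp only [hw, h, zero_div]
    have h20 : 1 / 20 ≤ ν p x := (hlow x).resolve_left hνx
    have hinv : (ν p x)⁻¹ ≤ 20 := by
      rw [inv_le_comm₀ (by linarith) (by norm_num)]
      linarith
    have hcls : (∑ n' ∈ A.filter (fun n' : ℤ => n' ≡ (x : ℤ) [ZMOD (p : ℤ)]), G n') / m ≤ 1 := by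
      rw [div_le_one hm, ← hs]
      exact Finset.sum_le_sum_of_subset_of_nonneg (Finset.filter_subset _ _) fun n _ _ => hG n
    have hcls0 : 0 ≤ (∑ n' ∈ A.filter (fun n' : ℤ => n' ≡ (x : ℤ) [ZMOD (p : ℤ)]), G n') / m :=
      div_nonneg (Finset.sum_nonneg fun n _ => hG n) hm.le
    have e1 : f x = p * ((ν p x)⁻¹ *
        ((∑ n' ∈ A.filter (fun n' : ℤ => n' ≡ (x : ℤ) [ZMOD (p : ℤ)]), G n') / m)) := by
      simp only [hf]
      unfold cF
      ring
    rw [e1]
    have h3 : (ν p x)⁻¹ *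
        ((∑ n' ∈ A.filter (fun n' : ℤ => n' ≡ (x : ℤ) [ZMOD (p : ℤ)]), G n') / m) ≤ 20 * 1 :=
      mul_le_mul hinv hcls hcls0 (by norm_num)
    calc _ ≤ (p : ℝ) * (20 * 1) := mul_le_mul_of_nonneg_left h3 hp0.le
      _ = 20 * p := by ring
  rw [hPs, hKl]
  refine ⟨Finset.sum_nonneg fun x hx => mul_nonneg (hw0 x hx) (tsd_psi_nn _),
    tsd_psi_sum_le hw0 hw1 hf0 hf1, tsd_kl hw0 hw1 hf0 hf1 (by linarith) hfA⟩

theorem tskP_of (hI : TskIStmt) : TskPStmt := by
  intro k hk ε hε hε2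
  obtain ⟨P1, hP1⟩ := hI k hk ε hε hε2
  obtain ⟨P2, hP2⟩ := tse_num hε hε2
  refine ⟨max P1 P2, ?_⟩
  intro P hPP N' Φ G ν a a' c hPin ha ha' hc hSb D M y z V' hD hDl hMN hNM hV' hmass
  have hI' := hP1 P ((le_max_left _ _).trans hPP) N' Φ G ν a a' c hPin ha ha' hc hSb
  have hN := hP2 P ((le_max_right _ _).trans hPP)
  have hP := hN.one_le
  have hP0 : 0 < P := by linarith
  set Gt' := Gt ε P ν a a' c G with hGt
  have hΦ : 0 < Φ := lt_of_lt_of_le (Real.exp_pos _) hSb.Φlo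
  have hN'0 : (0 : ℝ) < N' := lt_of_lt_of_le (Real.exp_pos _) hSb.N'lo
  have hM0 : (0 : ℝ) < M := by
    by_contra hcon
    have : (M : ℝ) = 0 := le_antisymm (not_lt.1 hcon) (by positivity)
    rw [this, mul_zero] at hNM
    linarith
  have hD0 : (0 : ℝ) < D := by exact_mod_cast hD
  have hlogD : 0 ≤ Real.log D := Real.log_nonneg (by exact_mod_cast hD)
  set m := mass Gt' y M D z with hm
  have hMD : 0 < (M : ℝ) * Φ / D := by positivity
  have hm0 : 0 < m := lt_of_lt_of_le (by positivity) hmass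
  have hone : ∀ i ∈ V', 0 ≤ Ps5 ν Gt' y M D z i ∧ Ps5 ν Gt' y M D z i ≤ 2 ∧
      Kl5 ν Gt' y M D z i ≤ 2 * Real.log (20 * i) * Ps5 ν Gt' y M D z i := by
    intro i hi
    have hiW : i ∈ W5 ε P := (Finset.mem_filter.1 (hV' hi)).1
    exact tse_one (tse_W hε hP hiW).1 hSb.wts.nn (hSb.wts.per i hiW) (hSb.wts.mean i hiW)
      (hSb.low i hiW) hSb.G0 (fun n hn => hSb.Gν n hn i hiW) hm0
  -- the bound for small sets
  set q : ℝ := D * m / (M * Φ) with hq
  have hq0 : 0 < q := by positivity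
  have hqm : q = m / (M * Φ / D) := by rw [hq]; field_simp
  set K0 : ℝ := 1 / 4 + P ^ (-(95.97 * ε)) * Real.log D - Real.log q with hK0
  have hqlo : -(P ^ (1 - 50.88 * ε)) ≤ Real.log q := by
    rw [Real.le_log_iff_exp_le hq0, hqm, le_div_iff₀ hMD]
    exact hmass
  have hqhi : Real.log q ≤ P ^ (-(90 * ε)) + b5 ε P * Real.log D := by
    rw [Real.log_le_iff_le_exp hq0, hqm, div_le_iff₀ hMD]
    have h1 := hSb.sup D M y z hD (hDl.trans (Real.rpow_le_rpow_of_exponent_le hP (by linarith)))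
      hMN hNM
    rw [mul_comm]
    exact h1
  have h90 : P ^ (-(90 * ε)) ≤ 1 / 8 := by
    rw [Real.rpow_neg hP0.le, inv_le_comm₀ (by positivity) (by norm_num), one_div, inv_inv]
    exact hN.e3
  have hb5 : b5 ε P * Real.log D ≤ P ^ (-(95.97 * ε)) * Real.log D := by
    apply mul_le_mul_of_nonneg_right _ hlogD
    unfold b5
    exact Real.rpow_le_rpow_of_exponent_le hP (by linarith)
  have hK0lo : 1 / 8 ≤ K0 := by rw [hK0]; linarith
  have hK0hi : K0 / 0.09 + 2 ≤ P ^ (1 - 50.85 * ε) := by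
    have h1 : P ^ (-(95.97 * ε)) * Real.log D ≤ P ^ (1 - 50.88 * ε) := by
      calc P ^ (-(95.97 * ε)) * Real.log D ≤ 1 * P ^ (1 - 51.5 * ε) := by
            apply mul_le_mul (Real.rpow_le_one_of_one_le_of_nonpos hP (by linarith)) hDl hlogD
              zero_le_one
        _ ≤ P ^ (1 - 50.88 * ε) := by
            rw [one_mul]
            exact Real.rpow_le_rpow_of_exponent_le hP (by linarith)
    have h2 : P ^ (1 - 50.85 * ε) = P ^ (0.03 * ε) * P ^ (1 - 50.88 * ε) := by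
      rw [← Real.rpow_add hP0]
      congr 1
      ring
    have h3 : 28 * P ^ (1 - 50.88 * ε) ≤ P ^ (1 - 50.85 * ε) := by
      rw [h2]
      exact mul_le_mul_of_nonneg_right hN.e1 (by positivity)
    have h4 := hN.e2
    have h5 : K0 ≤ 1 / 4 + 2 * P ^ (1 - 50.88 * ε) := by rw [hK0]; linarith
    rw [← le_sub_iff_add_le, div_le_iff₀ (by norm_num)]
    linarith
  have hsum : ∑ i ∈ V', Ps5 ν Gt' y M D z i ≤ K0 / 0.09 := by
    apply tsk_subset V' _ (K0 / 0.09) (P ^ (1 - 50.85 * ε)) (by positivity)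
      (fun i hi => (hone i hi).2.1) hK0hi
    intro I hI hle
    have h1 := hI' D M y z I hD hDl hMN hNM (hI.trans hV') hmass hle
    rw [le_div_iff₀ (by norm_num)]
    linarith
  -- all primes
  have hlog20 : 0 ≤ Real.log (20 * P ^ 2) := hN.e5
  calc ∑ i ∈ V', Kl5 ν Gt' y M D z i
      ≤ ∑ i ∈ V', 2 * Real.log (20 * P ^ 2) * Ps5 ν Gt' y M D z i := by
        apply Finset.sum_le_sum
        intro i hi
        have hiW : i ∈ W5 ε P := (Finset.mem_filter.1 (hV' hi)).1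
        obtain ⟨h1, h2, h3⟩ := hone i hi
        have hi0 : (0 : ℝ) < i := by exact_mod_cast (tse_W hε hP hiW).1.pos
        refine h3.trans (mul_le_mul_of_nonneg_right ?_ h1)
        have h4 : Real.log (20 * i) ≤ Real.log (20 * P ^ 2) := by
          apply Real.log_le_log (by positivity)
          have := (tse_W hε hP hiW).2
          linarith
        linarith
    _ = 2 * Real.log (20 * P ^ 2) * ∑ i ∈ V', Ps5 ν Gt' y M D z i := by rw [Finset.mul_sum]
    _ ≤ 2 * Real.log (20 * P ^ 2) * (K0 / 0.09) :=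
        mul_le_mul_of_nonneg_left hsum (by positivity)
    _ ≤ 0.09 * P ^ (ε / 20) * (K0 / 0.09) :=
        mul_le_mul_of_nonneg_right hN.e4 (by positivity)
    _ = P ^ (ε / 20) * K0 := by ring
    _ ≤ P ^ (ε / 20) * (1 + P ^ (-(95.95 * ε)) * Real.log D - Real.log q) := by
        apply mul_le_mul_of_nonneg_left _ (by positivity)
        have h1 : P ^ (-(95.97 * ε)) * Real.log D ≤ P ^ (-(95.95 * ε)) * Real.log D := by
          apply mul_le_mul_of_nonneg_right _ hlogD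
          exact Real.rpow_le_rpow_of_exponent_le hP (by linarith)
        rw [hK0]
        linarith

end Vale.Agent.P042.UU
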