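import Vale.Agent.P042.UU.TskIb

set_option autoImplicit false

/-!
Block TSK5, piece I: sets of primes with small total divergence.
-/

namespace Vale.Agent.P042.UU

open Polynomial Finset Vale.Agent.P042.SS Vale.Agent.P042.TT

/-- the tilt restricted to good integers -/
lemma tskI_good {ε P : ℝ} {ν a a' c : ℕ → ℤ → ℝ} {G : ℤ → ℝ} (hc : c = a ∨ c = a') {n : ℤ}
    (hn : Gt ε P ν a a' c G n ≠ 0) :
    Xn (W5 ε P) ν n ≤ Mc1 ε P ∧ ∑ p ∈ W5 ε P, |c p n| ≤ Ma5 ε P ∧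
      Gt ε P ν a a' c G n = G n * ∏ p ∈ W5 ε P, (1 + c p n) := by
  have h : goodA ε P ν a a' n := by
    by_contra h
    apply hn
    unfold Gt Gg
    rw [if_neg h, zero_mul]
  refine ⟨h.1, ?_, ?_⟩
  · rcases hc with rfl | rfl
    · exact h.2.1
    · exact h.2.2
  · unfold Gt Gg
    rw [if_pos h]

/-- variance of the tilt -/
lemma tskI_v {ε P : ℝ} {ν c : ℕ → ℤ → ℝ} (hb : P ^ (-(97 * ε)) ≤ 1 / 2) (_hν : Wts (W5 ε P) ν)
    (hle : ∀ p ∈ W5 ε P, ∀ x, ν p x ≤ Real.exp (bn5 ε P)) (hT : TiltOK ε P ν c) {D : ℕ} :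
    ∑ p ∈ Vn ε P D, vI ν c p ≤ 2 * P ^ (-(95 * ε)) := by
  have h1 : ∀ p ∈ W5 ε P, vI ν c p ≤ 2 * ((∑ z ∈ range p, (c p z) ^ 2) / (p : ℝ)) := by
    intro p hp
    unfold vI
    rw [sum_div, mul_sum]
    refine sum_le_sum fun z _ => ?_
    have h2 : ν p z ≤ 2 := by
      refine (hle p hp z).trans ?_
      have h3 : bn5 ε P ≤ 1 / 2 := hb
      have h4 := Real.exp_le_exp.2 h3
      have h5 : Real.exp (1 / 2) ≤ 2 := by
        have h6 : Real.exp 1 = Real.exp (1 / 2) ^ 2 := by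
          rw [← Real.exp_nat_mul]; norm_num
        have h7 := Real.exp_one_lt_d9
        rw [h6] at h7
        by_contra h8
        push Not at h8
        nlinarith
      linarith
    have hp0 : (0 : ℝ) < p := by exact_mod_cast (tskI_prime hp).pos
    have h3 : 0 ≤ (c p z) ^ 2 / (p : ℝ) := by positivity
    calc ν p z / p * c p z ^ 2 = ν p z * ((c p z) ^ 2 / (p : ℝ)) := by ring
      _ ≤ 2 * ((c p z) ^ 2 / (p : ℝ)) := mul_le_mul_of_nonneg_right h2 h3
  calc ∑ p ∈ Vn ε P D, vI ν c p ≤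
      ∑ p ∈ Vn ε P D, 2 * ((∑ z ∈ range p, (c p z) ^ 2) / (p : ℝ)) :=
        sum_le_sum fun p hp => h1 p (mem_filter.1 hp).1
    _ ≤ ∑ p ∈ W5 ε P, 2 * ((∑ z ∈ range p, (c p z) ^ 2) / (p : ℝ)) :=
        sum_le_sum_of_subset_of_nonneg (filter_subset _ _) fun p _ _ =>
          mul_nonneg (by norm_num) (div_nonneg (sum_nonneg fun z _ => sq_nonneg _)
            (Nat.cast_nonneg _))
    _ = 2 * ∑ p ∈ W5 ε P, ((∑ z ∈ range p, (c p z) ^ 2) / (p : ℝ)) := by rw [mul_sum]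
    _ ≤ _ := by
        have := hT.sq
        linarith

theorem tskI_of (hC : TskCStmt) : TskIStmt := by
  intro k hk ε hε hε1
  obtain ⟨P1, hP1⟩ := hC k hk ε hε hε1
  obtain ⟨P2, hP2⟩ := tskI_num ε hε hε1
  refine ⟨max P1 P2, fun P hP N' Φ G ν a a' c hp ha ha' hc hS D M y z I hD hDlog hMN hNM hIV
    hmass hPs => ?_⟩
  have hn := hP2 P ((le_max_right _ _).trans hP)
  have hCC := hP1 P ((le_max_left _ _).trans hP) N' Φ G ν a a' c hp ha ha' hc hS D M y z I hD
    hDlog hMN hNM hIV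
  have hPge := hn.ge
  have hPpos : 0 < P := by linarith only [hPge]
  have hcT : TiltOK ε P ν c := by
    rcases hc with rfl | rfl
    · exact ha
    · exact ha'
  obtain ⟨g, hgdef⟩ : ∃ g : ℤ → ℝ, g = Gt ε P ν a a' c G := ⟨_, rfl⟩
  have hgood : ∀ n, g n ≠ 0 → Xn (W5 ε P) ν n ≤ Mc1 ε P ∧ ∑ p ∈ W5 ε P, |c p n| ≤ Ma5 ε P ∧
      g n = G n * ∏ p ∈ W5 ε P, (1 + c p n) := by
    intro n hgn
    rw [hgdef] at hgn ⊢
    exact tskI_good hc hgn
  rw [← hgdef] at hS hmass hPs hCC ⊢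
  obtain ⟨m, hmdef⟩ : ∃ m : ℝ, m = mass g y M D z := ⟨_, rfl⟩
  obtain ⟨A, hAdef⟩ : ∃ A : Finset ℤ, A = cel y M D z := ⟨_, rfl⟩
  have hmA : ∑ n ∈ A, g n = m := by rw [hAdef, hmdef]; rfl
  have hM0 : (0 : ℝ) < M := by
    have h1 : (0 : ℝ) < P * M := lt_of_lt_of_le ((Real.exp_pos _).trans_le hp.N'lo) hNM
    exact (mul_pos_iff_of_pos_left hPpos).1 h1
  have hD0 : (0 : ℝ) < D := by exact_mod_cast hD
  have hΦ0 : 0 < Φ := (Real.exp_pos _).trans_le hp.Φlo
  obtain ⟨Q, hQdef⟩ : ∃ Q : ℝ, Q = M * Φ / D := ⟨_, rfl⟩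
  have hQ0 : 0 < Q := by rw [hQdef]; positivity
  rw [← hmdef, ← hQdef] at hmass
  have hm0 : 0 < m := lt_of_lt_of_le (mul_pos (Real.exp_pos _) hQ0) hmass
  rw [← hmdef, ← hAdef] at hCC
  have hcard := hCC hm0 hPs
  -- the fibre functions
  have hWV : Vn ε P D ⊆ W5 ε P := filter_subset _ _
  have hpos : ∀ p ∈ W5 ε P, 0 < p := fun p hp => (tskI_prime hp).pos
  have hGν : ∀ p ∈ W5 ε P, ∀ n, g n ≠ 0 → ν p n ≠ 0 := fun p hp n hgn => hS.Gν n hgn p hp
  have hcb : ∀ p ∈ W5 ε P, ∀ n, |c p n| ≤ 1 / 100 := by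
    intro p hp n
    refine (hcT.le p hp n).trans ?_
    have := hn.b5s
    unfold b5
    linarith
  obtain ⟨f, hfdef⟩ : ∃ f : ℕ → ℤ → ℝ, f = fun p n => if p ∈ I then cF A g m ν p n else 1 :=
    ⟨_, rfl⟩
  have hfI : ∀ p ∈ I, ∀ n, f p n = cF A g m ν p n := by
    intro p hp n; rw [hfdef]; simp only [if_pos hp]
  have hfN : ∀ p, p ∉ I → ∀ n, f p n = 1 := by
    intro p hp n; rw [hfdef]; simp only [if_neg hp]
  have hone : ∀ p ∈ Vn ε P D, OneI ν c f p := by
    intro p hpV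
    have hpW := hWV hpV
    refine ⟨hpos p hpW, fun n => hp.wts.nn p n, hp.wts.mean p hpW, hcb p hpW,
      hcT.cen p hpW, fun n => ?_, ?_⟩
    · by_cases h : p ∈ I
      · rw [hfI p h]; exact cF_nonneg hS.G0 hm0 hp.wts.nn p n
      · rw [hfN p h]; norm_num
    · by_cases h : p ∈ I
      · rw [← cF_sum (hpos p hpW) (hp.wts.per p hpW) (hGν p hpW) hm0 hmA]
        exact sum_congr rfl fun z _ => by rw [hfI p h]
      · have h1 : ∑ z ∈ range p, ν p z * f p z = ∑ z ∈ range p, ν p z :=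
          sum_congr rfl fun z _ => by rw [hfN p h, mul_one]
        rw [h1, hp.wts.mean p hpW]
  have hfper : ∀ p ∈ Vn ε P D, ∀ n, f p (n + p) = f p n := by
    intro p hpV n
    by_cases h : p ∈ I
    · rw [hfI p h, hfI p h]; exact cF_per (hp.wts.per p (hWV hpV)) n
    · rw [hfN p h, hfN p h]
  -- sums of psi and of the variances
  have hPsI : ∑ p ∈ Vn ε P D, aI ν f p = ∑ i ∈ I, Ps5 ν g y M D z i := by
    rw [← sum_subset hIV]
    · refine sum_congr rfl fun i hi => ?_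
      unfold aI Ps5
      rw [sum_div, ← hmdef, ← hAdef]
      refine sum_congr rfl fun w _ => ?_
      rw [hfI i hi, tsk_psi5_eq]
      ring
    · intro p _ hpI
      unfold aI
      refine sum_eq_zero fun w _ => ?_
      rw [hfN p hpI, tsk_psf_one, mul_zero]
  have hv := tskI_v (D := D) hn.bns hp.wts hp.νle hcT
  have hv0 : 0 ≤ ∑ p ∈ Vn ε P D, vI ν c p := sum_nonneg fun p hp => (hone p hp).v0
  obtain ⟨S1, hS1⟩ : ∃ S1 : ℝ, S1 = ∑ i ∈ I, Ps5 ν g y M D z i := ⟨_, rfl⟩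
  rw [← hS1] at hPsI hPs ⊢
  have hS10 : 0 ≤ S1 := by
    rw [← hPsI]; exact sum_nonneg fun p hp => (hone p hp).a0
  -- normalisations
  obtain ⟨LN, hLN⟩ : ∃ LN : ℝ, LN = ∑ p ∈ Vn ε P D, Real.log (nI ν c f p) := ⟨_, rfl⟩
  have hLNlo : -(4 * S1 + 8 * P ^ (-(95 * ε))) ≤ LN := by
    have h1 : -(4 * ∑ p ∈ Vn ε P D, aI ν f p + 4 * ∑ p ∈ Vn ε P D, vI ν c p) ≤ LN := by
      rw [hLN, mul_sum, mul_sum, ← sum_add_distrib, ← sum_neg_distrib]
      exact sum_le_sum fun p hp => (hone p hp).loglo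
    rw [hPsI] at h1
    linarith
  -- the test inequality
  have hklv := hp.klv D M y z (Vn ε P D) (fI ν c f) hD (hDlog.trans hn.d51) hMN hNM
    (Subset.refl _) (fun p hp n => by
      unfold fI
      rw [hcT.per p (hWV hp), hfper p hp]) (fun p hp n => (hone p hp).rng n)
    (fun p hp => (hone p hp).sumF) (by
      have h1 : ∑ p ∈ Vn ε P D, (∑ z ∈ range p, ν p z * (fI ν c f p z - 1) ^ 2) / (p : ℝ) ≤
          2 * ∑ p ∈ Vn ε P D, aI ν f p + 50 * ∑ p ∈ Vn ε P D, vI ν c p := by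
        rw [mul_sum, mul_sum, ← sum_add_distrib]
        exact sum_le_sum fun p hp => (hone p hp).var
      rw [hPsI] at h1
      have := hn.var
      linarith)
  rw [← hAdef, ← hQdef] at hklv
  -- the logarithm of the test function
  obtain ⟨Y, hY⟩ : ∃ Y : ℤ → ℝ, Y = fun n => 1 / 4 * ∑ p ∈ I, Real.log (cl2 (cF A g m ν p n)) :=
    ⟨_, rfl⟩
  have hYf : ∀ n, Y n = 1 / 4 * ∑ p ∈ Vn ε P D, Real.log (cl2 (f p n)) := by
    intro n
    rw [hY, ← sum_subset hIV (f := fun p => Real.log (cl2 (f p n)))]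
    · simp only
      congr 1
      exact sum_congr rfl fun p hp => by rw [hfI p hp]
    · intro p _ hpI
      rw [hfN p hpI, tsk_cl2_one, Real.log_one]
  have hFl : ∀ n, ∑ p ∈ Vn ε P D, Real.log (fI ν c f p n) =
      2 * ∑ p ∈ Vn ε P D, Real.log (1 + c p n) + 2 * Y n - LN := by
    intro n
    rw [hYf, hLN, mul_sum, mul_sum, mul_sum, ← sum_add_distrib, ← sum_sub_distrib]
    refine sum_congr rfl fun p hp => ?_
    rw [(hone p hp).Flog]
    ring
  have hcsum : ∀ n, ∑ p ∈ Vn ε P D, Real.log (1 + c p n) ≤ ∑ p ∈ W5 ε P, |c p n| := by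
    intro n
    refine (sum_le_sum fun p hp => ((hone p hp).abs1 n).1).trans ?_
    exact sum_le_sum_of_subset_of_nonneg hWV fun p _ _ => abs_nonneg _
  -- bound for Y
  have hYle : ∀ n, Y n ≤ P ^ 2 := by
    intro n
    have h1 : ∑ p ∈ I, Real.log (cl2 (cF A g m ν p n)) ≤ ∑ p ∈ I, 1 := by
      refine sum_le_sum fun p _ => ?_
      have h2 := Real.log_le_log (tsk_cl2_pos (cF A g m ν p n)) (tsk_cl2_hi (cF A g m ν p n))
      have h3 := Real.log_two_lt_d9
      linarith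
    have h2 : (∑ p ∈ I, (1 : ℝ)) ≤ P ^ 2 := by
      rw [sum_const, nsmul_eq_mul, mul_one]
      refine le_trans ?_ (tskI_card hε (by linarith only [hPge]))
      exact_mod_cast card_le_card (hIV.trans hWV)
    rw [hY]
    have h3 : (0 : ℝ) ≤ P ^ 2 := sq_nonneg _
    simp only
    linarith
  -- the exceptional set
  obtain ⟨E, hEdef⟩ : ∃ E : ℤ → Prop, E = fun n => Xn (W5 ε P) ν n +
      (∑ p ∈ Vn ε P D, Real.log (fI ν c f p n)) / 2 ≤ Mc2 ε P / 2 := ⟨_, rfl⟩
  classical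
  have hbad : ∀ n ∈ A, ¬ E n → g n ≠ 0 → n ∈ A.filter (fun n => Mc2 ε P / 2 ≤
      ∑ i ∈ I, Real.log (cl5 (cF A g m ν i n))) := by
    intro n hnA hE hgn
    refine mem_filter.2 ⟨hnA, ?_⟩
    obtain ⟨h1, h2, -⟩ := hgood n hgn
    have h3 : Mc2 ε P / 2 < Xn (W5 ε P) ν n +
      (∑ p ∈ Vn ε P D, Real.log (fI ν c f p n)) / 2 := by
      rw [hEdef] at hE
      exact not_le.1 hE
    rw [hFl n] at h3
    have h4 := hcsum n
    have h5 : ∑ i ∈ I, Real.log (cl5 (cF A g m ν i n)) = 4 * Y n := by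
      rw [hY]
      simp only [tsk_cl5_eq]
      ring
    rw [h5]
    have h6 := hn.filt
    have h7 : 0 ≤ P ^ (1 - 49 * ε) := Real.rpow_nonneg hPpos.le _
    unfold Mc2 at h3 ⊢
    unfold Mc1 at h1
    unfold Ma5 at h2
    linarith
  obtain ⟨B, hB⟩ : ∃ B : ℝ, B = ∑ n ∈ A.filter (fun n => ¬ E n), g n := ⟨_, rfl⟩
  have hB0 : 0 ≤ B := by rw [hB]; exact sum_nonneg fun n _ => hS.G0 n
  have hBle : B ≤ Real.exp (P ^ (1 - 97.5 * ε) - P ^ (1 - 49 * ε) / 8) * Q := by
    have h1 : B ≤ ∑ n ∈ A.filter (fun n => Mc2 ε P / 2 ≤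
      ∑ i ∈ I, Real.log (cl5 (cF A g m ν i n))), Real.exp (P ^ (1 - 97.5 * ε)) * Φ := by
      rw [hB, ← sum_filter_ne_zero]
      refine (sum_le_sum fun n _ => hS.Gle n).trans ?_
      refine sum_le_sum_of_subset_of_nonneg (fun n hnn => ?_) fun _ _ _ => by positivity
      obtain ⟨h2, h3⟩ := mem_filter.1 hnn
      obtain ⟨h4, h5⟩ := mem_filter.1 h2
      exact hbad n h4 h5 h3
    rw [sum_const, nsmul_eq_mul] at h1
    refine h1.trans ?_
    have h2 : 0 ≤ Real.exp (P ^ (1 - 97.5 * ε)) * Φ := by positivity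
    refine (mul_le_mul_of_nonneg_right hcard h2).trans (le_of_eq ?_)
    rw [hQdef, Real.exp_sub, Real.exp_neg]
    unfold Mc2
    field_simp
  -- exponent
  obtain ⟨β, hβ⟩ : ∃ β : ℝ, β = ∑ p ∈ Yn ε P D, |c p z| + 1 / 2 * LN +
      P ^ (-(96.9 * ε)) * (1 + Real.log D) := ⟨_, rfl⟩
  have hlogD0 : 0 ≤ Real.log D := Real.log_nonneg (by exact_mod_cast hD)
  have hP969 : 0 ≤ P ^ (-(96.9 * ε)) := Real.rpow_nonneg hPpos.le _
  have hβlo : -(2 * P ^ (1 - 50.85 * ε) + 4 * P ^ (-(95 * ε))) ≤ β := by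
    have h1 : 0 ≤ ∑ p ∈ Yn ε P D, |c p z| := sum_nonneg fun _ _ => abs_nonneg _
    have h2 : 0 ≤ P ^ (-(96.9 * ε)) * (1 + Real.log D) := by positivity
    rw [hβ]
    linarith
  have hEsum : ∑ n ∈ A.filter E, g n * Real.exp (Y n) ≤ Q * Real.exp β := by
    have h1 : ∀ n ∈ A.filter E, g n * Real.exp (Y n) ≤
        Real.exp (∑ p ∈ Yn ε P D, |c p z| + 1 / 2 * LN) *
          (G n * ∏ p ∈ Vn ε P D, Real.sqrt (fI ν c f p n)) := by
      intro n hnE
      have hRn : 0 ≤ G n * ∏ p ∈ Vn ε P D, Real.sqrt (fI ν c f p n) :=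
        mul_nonneg (hp.G0 n) (prod_nonneg fun _ _ => Real.sqrt_nonneg _)
      by_cases hgn : g n = 0
      · rw [hgn, zero_mul]
        exact mul_nonneg (Real.exp_pos _).le hRn
      · obtain ⟨-, -, h2⟩ := hgood n hgn
        have h3 : ∏ p ∈ Vn ε P D, Real.sqrt (fI ν c f p n) =
            Real.exp (∑ p ∈ Vn ε P D, Real.log (1 + c p n) + Y n - LN / 2) := by
          rw [prod_congr rfl fun p hp => (hone p hp).Fsqrt n, ← Real.exp_sum, ← sum_div, hFl n]
          congr 1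
          ring
        have h4 : ∏ p ∈ Vn ε P D, (1 + c p n) =
            Real.exp (∑ p ∈ Vn ε P D, Real.log (1 + c p n)) := by
          rw [Real.exp_sum]
          exact prod_congr rfl fun p hp => (Real.exp_log ((hone p hp).abs1 n).2).symm
        have hnz : n ≡ z [ZMOD ((D : ℕ) : ℤ)] := by
          have h5 := (mem_filter.1 hnE).1
          rw [hAdef] at h5
          exact (mem_filter.1 h5).2
        have h5 : ∏ p ∈ Yn ε P D, (1 + c p n) ≤ Real.exp (∑ p ∈ Yn ε P D, |c p z|) := by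
          rw [Real.exp_sum]
          refine prod_le_prod (fun p hp => ?_) fun p hp => ?_
          · have h6 := abs_le.1 (hcb p (mem_filter.1 hp).1 n)
            linarith
          · have hpD : ((p : ℕ) : ℤ) ∣ (D : ℤ) := by exact_mod_cast (mem_filter.1 hp).2
            have h7 : c p n = c p z :=
              cell_per (fun n => hcT.per p (mem_filter.1 hp).1 n) (hnz.of_dvd hpD)
            rw [h7]
            have h8 := Real.add_one_le_exp |c p z|
            linarith [le_abs_self (c p z)]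
        rw [h2, tskI_split D (fun p => 1 + c p n), h4, h3]
        have hGn := hp.G0 n
        calc G n * ((∏ p ∈ Yn ε P D, (1 + c p n)) *
              Real.exp (∑ p ∈ Vn ε P D, Real.log (1 + c p n))) * Real.exp (Y n)
            = (∏ p ∈ Yn ε P D, (1 + c p n)) * (G n * (Real.exp (∑ p ∈ Vn ε P D,
              Real.log (1 + c p n)) * Real.exp (Y n))) := by ring
          _ ≤ Real.exp (∑ p ∈ Yn ε P D, |c p z|) * (G n * (Real.exp (∑ p ∈ Vn ε P D,
              Real.log (1 + c p n)) * Real.exp (Y n))) :=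
              mul_le_mul_of_nonneg_right h5 (by positivity)
          _ = _ := by
              rw [← Real.exp_add]
              have e1 : Real.exp (∑ p ∈ Vn ε P D, Real.log (1 + c p n) + Y n) =
                  Real.exp (1 / 2 * LN) *
                    Real.exp (∑ p ∈ Vn ε P D, Real.log (1 + c p n) + Y n - LN / 2) := by
                rw [← Real.exp_add]; congr 1; ring
              rw [e1, Real.exp_add (∑ p ∈ Yn ε P D, |c p z|)]
              ring
    have h2 : ∑ n ∈ A.filter E, G n * ∏ p ∈ Vn ε P D, Real.sqrt (fI ν c f p n) ≤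
        Q * Real.exp (P ^ (-(96.9 * ε)) * (1 + Real.log D)) := by
      refine le_trans (le_of_eq ?_) hklv
      refine sum_congr ?_ fun _ _ => rfl
      rw [hEdef]
    calc ∑ n ∈ A.filter E, g n * Real.exp (Y n)
        ≤ ∑ n ∈ A.filter E, Real.exp (∑ p ∈ Yn ε P D, |c p z| + 1 / 2 * LN) *
          (G n * ∏ p ∈ Vn ε P D, Real.sqrt (fI ν c f p n)) := sum_le_sum h1
      _ = Real.exp (∑ p ∈ Yn ε P D, |c p z| + 1 / 2 * LN) *
          ∑ n ∈ A.filter E, (G n * ∏ p ∈ Vn ε P D, Real.sqrt (fI ν c f p n)) := by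
          rw [mul_sum]
      _ ≤ Real.exp (∑ p ∈ Yn ε P D, |c p z| + 1 / 2 * LN) *
          (Q * Real.exp (P ^ (-(96.9 * ε)) * (1 + Real.log D))) :=
          mul_le_mul_of_nonneg_left h2 (Real.exp_pos _).le
      _ = Q * Real.exp β := by
          rw [hβ, Real.exp_add (∑ p ∈ Yn ε P D, |c p z| + 1 / 2 * LN)]
          ring
  have h148 : (100 : ℝ) ≤ Real.exp 5 := by
    have h1 := Real.exp_one_gt_d9
    have h2 : Real.exp 5 = Real.exp 1 ^ 5 := by
      rw [← Real.exp_nat_mul]; norm_num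
    rw [h2]
    calc (100 : ℝ) ≤ 2.7182818283 ^ 5 := by norm_num
      _ ≤ Real.exp 1 ^ 5 := by gcongr
  have he5 : Real.exp (-5) ≤ 1 / 100 := by
    rw [Real.exp_neg, inv_le_comm₀ (Real.exp_pos _) (by norm_num)]
    norm_num
    exact h148
  have hE1 : B ≤ 1 / 100 * (Q * Real.exp β) := by
    refine hBle.trans ?_
    have h1 : Real.exp (P ^ (1 - 97.5 * ε) - P ^ (1 - 49 * ε) / 8) ≤
        Real.exp (-5) * Real.exp β := by
      rw [← Real.exp_add]
      apply Real.exp_le_exp.2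
      have := hn.d1
      linarith
    calc Real.exp (P ^ (1 - 97.5 * ε) - P ^ (1 - 49 * ε) / 8) * Q
        ≤ Real.exp (-5) * Real.exp β * Q := mul_le_mul_of_nonneg_right h1 hQ0.le
      _ ≤ 1 / 100 * Real.exp β * Q := by
          have := Real.exp_pos β
          gcongr
      _ = _ := by ring
  have hE2 : P ^ 2 * B ≤ 1 / 100 * m := by
    have h1 : P ^ 2 = Real.exp (2 * Real.log P) := by
      rw [mul_comm, Real.exp_mul, Real.exp_log hPpos]
      exact (Real.rpow_natCast P 2).symm.trans (by norm_num)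
    have h2 : P ^ 2 * B ≤ Real.exp (-5) * (Real.exp (-(P ^ (1 - 50.88 * ε))) * Q) := by
      calc P ^ 2 * B ≤ Real.exp (2 * Real.log P) *
            (Real.exp (P ^ (1 - 97.5 * ε) - P ^ (1 - 49 * ε) / 8) * Q) := by
            rw [h1]
            exact mul_le_mul_of_nonneg_left hBle (Real.exp_pos _).le
        _ = Real.exp (2 * Real.log P + (P ^ (1 - 97.5 * ε) - P ^ (1 - 49 * ε) / 8)) * Q := by
            rw [Real.exp_add]; ring
        _ ≤ Real.exp (-5 + -(P ^ (1 - 50.88 * ε))) * Q := by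
            apply mul_le_mul_of_nonneg_right _ hQ0.le
            apply Real.exp_le_exp.2
            have := hn.d2
            linarith
        _ = _ := by rw [Real.exp_add]; ring
    refine h2.trans ?_
    calc Real.exp (-5) * (Real.exp (-(P ^ (1 - 50.88 * ε))) * Q)
        ≤ Real.exp (-5) * m := mul_le_mul_of_nonneg_left hmass (Real.exp_pos _).le
      _ ≤ 1 / 100 * m := mul_le_mul_of_nonneg_right he5 hm0.le
  rw [hB] at hE1 hE2
  have hjen := tskI_jen A E g Y m Q β (P ^ 2) hm0 hS.G0 hmA hQ0 hYle hEsum hE1 hE2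
  -- the gains
  have hgain : 0.09 * S1 ≤ (∑ n ∈ A, g n * Y n) / m - 1 / 2 * LN + 20 * P ^ (-(95 * ε)) := by
    have h1 : (∑ n ∈ A, g n * Y n) / m = ∑ p ∈ Vn ε P D,
        1 / 4 * (∑ z ∈ range p, ν p z / p * (f p z * Real.log (cl2 (f p z)))) := by
      have h2 : ∀ p ∈ I, 1 / 4 * (∑ z ∈ range p, ν p z / p * (f p z * Real.log (cl2 (f p z)))) =
          (∑ n ∈ A, g n * (1 / 4 * Real.log (cl2 (cF A g m ν p n)))) / m := by
        intro p hpI
        have hpW := hWV (hIV hpI)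
        rw [← tskI_law (hpos p hpW) (hp.wts.per p hpW) (hGν p hpW)
          (fun n => 1 / 4 * Real.log (cl2 (cF A g m ν p n)))
          (fun n => by simp only [cF_per (hp.wts.per p hpW)]), mul_sum]
        refine sum_congr rfl fun w _ => ?_
        rw [hfI p hpI]
        ring
      rw [← sum_subset hIV (f := fun p => 1 / 4 *
        (∑ z ∈ range p, ν p z / p * (f p z * Real.log (cl2 (f p z)))))]
      · rw [sum_congr rfl h2, ← sum_div, sum_comm]
        congr 1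
        refine sum_congr rfl fun n _ => ?_
        rw [hY, ← mul_sum]
        simp only
        rw [← mul_sum]
      · intro p _ hpI
        have h3 : ∑ z ∈ range p, ν p z / p * (f p z * Real.log (cl2 (f p z))) = 0 :=
          sum_eq_zero fun w _ => by rw [hfN p hpI, tsk_cl2_one, Real.log_one, mul_zero, mul_zero]
        rw [h3, mul_zero]
    have h4 : 0.09 * ∑ p ∈ Vn ε P D, aI ν f p ≤ ∑ p ∈ Vn ε P D,
        1 / 4 * (∑ z ∈ range p, ν p z / p * (f p z * Real.log (cl2 (f p z)))) -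
        1 / 2 * LN + 10 * ∑ p ∈ Vn ε P D, vI ν c p := by
      rw [hLN, mul_sum, mul_sum, mul_sum, ← sum_sub_distrib, ← sum_add_distrib]
      exact sum_le_sum fun p hp => (hone p hp).gain
    rw [hPsI, ← h1] at h4
    linarith
  -- conclusion
  have hY2 : ∑ p ∈ Yn ε P D, |c p z| ≤ P ^ (-(96 * ε)) / 2 * Real.log D := by
    have h1 : ∑ p ∈ Yn ε P D, |c p z| ≤ ∑ _p ∈ Yn ε P D, P ^ (-(96 * ε)) / 4 :=
      sum_le_sum fun p hp => hcT.le p (mem_filter.1 hp).1 z
    rw [sum_const, nsmul_eq_mul] at h1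
    have h2 := tskI_Yn (ε := ε) (P := P) hD
    have h3 : 0 ≤ P ^ (-(96 * ε)) / 4 := by
      have := Real.rpow_nonneg hPpos.le (-(96 * ε))
      linarith
    have h4 := mul_le_mul_of_nonneg_right h2 h3
    linarith
  have hlog : Real.log (Q / m) = -Real.log (D * m / (M * Φ)) := by
    rw [← Real.log_inv, hQdef]
    congr 1
    field_simp
  rw [hlog] at hjen
  rw [← hmdef]
  have hf1 := hn.fin1
  have hf2 := mul_le_mul_of_nonneg_right hn.fin2 hlogD0
  rw [hβ] at hjen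
  have e1 : P ^ (-(96.9 * ε)) * (1 + Real.log D) =
      P ^ (-(96.9 * ε)) + P ^ (-(96.9 * ε)) * Real.log D := by ring
  rw [e1] at hjen
  have e2 : (P ^ (-(96.9 * ε)) + P ^ (-(96 * ε)) / 2) * Real.log D =
      P ^ (-(96.9 * ε)) * Real.log D + P ^ (-(96 * ε)) / 2 * Real.log D := by ring
  rw [e2] at hf2
  linarith

end Vale.Agent.P042.UU
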