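import Vale.Agent.P042.UU.TskIa

set_option autoImplicit false

/-!
Block TSK5, piece I: one prime and Jensen.
-/

namespace Vale.Agent.P042.UU

open Polynomial Finset Vale.Agent.P042.SS Vale.Agent.P042.TT

/-- normalisation at the prime `p` -/
noncomputable def nI (ν c f : ℕ → ℤ → ℝ) (p : ℕ) : ℝ :=
  nrm2 (range p) (fun z => ν p z / p) (fun z => f p z) (fun z => c p z)

/-- test function at the prime `p` -/
noncomputable def fI (ν c f : ℕ → ℤ → ℝ) (p : ℕ) (n : ℤ) : ℝ :=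
  (1 + c p n) ^ 2 * Real.sqrt (cl2 (f p n)) / nI ν c f p

/-- mean of psi -/
noncomputable def aI (ν f : ℕ → ℤ → ℝ) (p : ℕ) : ℝ := ∑ z ∈ range p, ν p z / p * psf (f p z)

/-- variance of the tilt -/
noncomputable def vI (ν c : ℕ → ℤ → ℝ) (p : ℕ) : ℝ := ∑ z ∈ range p, ν p z / p * c p z ^ 2

/-- hypotheses at one prime -/
structure OneI (ν c f : ℕ → ℤ → ℝ) (p : ℕ) : Prop where
  pos : 0 < p
  nn : ∀ n, 0 ≤ ν p n
  mean : ∑ x ∈ range p, ν p x = p
  cb : ∀ n, |c p n| ≤ 1 / 100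
  cen : ∑ z ∈ range p, ν p z * c p z = 0
  f0 : ∀ n, 0 ≤ f p n
  f1 : ∑ z ∈ range p, ν p z * f p z = p

section

variable {ν c f : ℕ → ℤ → ℝ} {p : ℕ}

lemma OneI.w0 (h : OneI ν c f p) : ∀ z ∈ range p, 0 ≤ ν p z / p :=
  fun z _ => div_nonneg (h.nn z) (Nat.cast_nonneg _)

lemma OneI.pR (h : OneI ν c f p) : (0 : ℝ) < p := by exact_mod_cast h.pos

lemma OneI.w1 (h : OneI ν c f p) : ∑ z ∈ range p, ν p z / p = 1 := by
  rw [← sum_div, h.mean, div_self h.pR.ne']

lemma OneI.c0 (h : OneI ν c f p) : ∑ z ∈ range p, ν p z / p * c p z = 0 := by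
  have e : ∑ z ∈ range p, ν p z / p * c p z = (∑ z ∈ range p, ν p z * c p z) / p := by
    rw [sum_div]; exact sum_congr rfl fun z _ => by ring
  rw [e, h.cen, zero_div]

lemma OneI.wf1 (h : OneI ν c f p) : ∑ z ∈ range p, ν p z / p * f p z = 1 := by
  have e : ∑ z ∈ range p, ν p z / p * f p z = (∑ z ∈ range p, ν p z * f p z) / p := by
    rw [sum_div]; exact sum_congr rfl fun z _ => by ring
  rw [e, h.f1, div_self h.pR.ne']

lemma OneI.nlo (h : OneI ν c f p) : 0.68 ≤ nI ν c f p :=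
  tsk_nrm_lo h.w0 h.w1 fun z _ => h.cb z

lemma OneI.nhi (h : OneI ν c f p) : nI ν c f p ≤ 1.46 :=
  tsk_nrm_hi h.w0 h.w1 fun z _ => h.cb z

lemma OneI.rng (h : OneI ν c f p) (n : ℤ) : 1 / 3 ≤ fI ν c f p n ∧ fI ν c f p n ≤ 3 := by
  have h1 := h.nlo
  have h2 := h.nhi
  have h3 := tsk_wt_lo (h.cb n) (tsk_cl2_lo (f p n))
  have h4 := tsk_wt_hi (h.cb n) (tsk_cl2_hi (f p n))
  unfold fI
  constructor
  · rw [le_div_iff₀ (by linarith)]; linarith
  · rw [div_le_iff₀ (by linarith)]; linarith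

lemma OneI.sumF (h : OneI ν c f p) : ∑ z ∈ range p, ν p z * fI ν c f p z = p := by
  have h1 := tsk_tstF_sum (f := fun z : ℕ => f p z) h.w0 h.w1 fun z _ => h.cb z
  have h2 : ∑ z ∈ range p, ν p z * fI ν c f p z = p * ∑ z ∈ range p,
      ν p z / p * tstF (range p) (fun z => ν p z / p) (fun z => f p z) (fun z => c p z) z := by
    rw [mul_sum]
    refine sum_congr rfl fun z _ => ?_
    have h3 := h.pR.ne'
    have e : fI ν c f p z =
      tstF (range p) (fun z => ν p z / p) (fun z => f p z) (fun z => c p z) z := rfl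
    rw [e]
    field_simp
  rw [h2, h1, mul_one]

lemma OneI.var (h : OneI ν c f p) :
    (∑ z ∈ range p, ν p z * (fI ν c f p z - 1) ^ 2) / (p : ℝ) ≤
      2 * aI ν f p + 50 * vI ν c p := by
  have h1 := tsk_var (f := fun z : ℕ => f p z) h.w0 h.w1 (fun z _ => h.f0 z) fun z _ => h.cb z
  refine le_trans (le_of_eq ?_) h1
  rw [sum_div]
  refine sum_congr rfl fun z _ => ?_
  have e : fI ν c f p z =
      tstF (range p) (fun z => ν p z / p) (fun z => f p z) (fun z => c p z) z := rfl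
  rw [e]
  ring

lemma OneI.gain (h : OneI ν c f p) :
    0.09 * aI ν f p ≤ 1 / 4 * (∑ z ∈ range p, ν p z / p * (f p z * Real.log (cl2 (f p z)))) -
      1 / 2 * Real.log (nI ν c f p) + 10 * vI ν c p :=
  tskI_gain (f := fun z : ℕ => f p z) h.w0 h.w1 (fun z _ => h.f0 z) (fun z _ => h.cb z) h.c0

lemma OneI.loglo (h : OneI ν c f p) :
    -(4 * aI ν f p + 4 * vI ν c p) ≤ Real.log (nI ν c f p) :=
  tskI_log_nrm_lo (f := fun z : ℕ => f p z) h.w0 h.w1 (fun z _ => h.f0 z) h.wf1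
    (fun z _ => h.cb z) h.c0

lemma OneI.a0 (h : OneI ν c f p) : 0 ≤ aI ν f p :=
  sum_nonneg fun z hz => mul_nonneg (h.w0 z hz) (tsk_psf_nn _)

lemma OneI.v0 (h : OneI ν c f p) : 0 ≤ vI ν c p :=
  sum_nonneg fun z hz => mul_nonneg (h.w0 z hz) (sq_nonneg _)

lemma OneI.Flog (h : OneI ν c f p) (n : ℤ) : Real.log (fI ν c f p n) =
    2 * Real.log (1 + c p n) + 1 / 2 * Real.log (cl2 (f p n)) - Real.log (nI ν c f p) := by
  have h1 := abs_le.1 (h.cb n)
  have h2 : 0 < 1 + c p n := by linarith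
  have h3 := tsk_cl2_pos (f p n)
  have h4 := Real.sqrt_pos.2 h3
  have h5 := h.nlo
  unfold fI
  rw [Real.log_div (by positivity) (by linarith), Real.log_mul (by positivity) h4.ne',
    Real.log_pow, Real.log_sqrt h3.le]
  push_cast
  ring

lemma OneI.Fsqrt (h : OneI ν c f p) (n : ℤ) :
    Real.sqrt (fI ν c f p n) = Real.exp (Real.log (fI ν c f p n) / 2) := by
  have h1 := (h.rng n).1
  have h2 : 0 < fI ν c f p n := by linarith
  rw [Real.exp_half, Real.exp_log h2]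

lemma OneI.abs1 (h : OneI ν c f p) (n : ℤ) :
    Real.log (1 + c p n) ≤ |c p n| ∧ 0 < 1 + c p n := by
  have h1 := abs_le.1 (h.cb n)
  have h2 : 0 < 1 + c p n := by linarith
  have h3 := Real.log_le_sub_one_of_pos h2
  exact ⟨by linarith [le_abs_self (c p n)], h2⟩

end

/-- Jensen with an exceptional set -/
lemma tskI_jen (A : Finset ℤ) (E : ℤ → Prop) [DecidablePred E] (g Y : ℤ → ℝ)
    (m Q β K : ℝ) (hm : 0 < m) (hg : ∀ n, 0 ≤ g n) (hs : ∑ n ∈ A, g n = m) (hQ : 0 < Q)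
    (hY : ∀ n, Y n ≤ K)
    (hE : ∑ n ∈ A.filter E, g n * Real.exp (Y n) ≤ Q * Real.exp β)
    (hE1 : ∑ n ∈ A.filter (fun n => ¬ E n), g n ≤ 1 / 100 * (Q * Real.exp β))
    (hE2 : K * ∑ n ∈ A.filter (fun n => ¬ E n), g n ≤ 1 / 100 * m) :
    (∑ n ∈ A, g n * Y n) / m ≤ Real.log (Q / m) + β + 1 / 50 := by
  have h1 := cell_jensen A g (fun n => if E n then Y n else 0) m hm (fun n _ => hg n) hs
  have h2 : ∑ n ∈ A, g n * Real.exp (if E n then Y n else 0) =
      ∑ n ∈ A.filter E, g n * Real.exp (Y n) + ∑ n ∈ A.filter (fun n => ¬ E n), g n := by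
    rw [← sum_filter_add_sum_filter_not A E]
    congr 1
    · refine sum_congr rfl fun n hn => ?_
      rw [if_pos (mem_filter.1 hn).2]
    · refine sum_congr rfl fun n hn => ?_
      rw [if_neg (mem_filter.1 hn).2, Real.exp_zero, mul_one]
  have h3 : ∑ n ∈ A, g n * Y n = ∑ n ∈ A, g n * (if E n then Y n else 0) +
      ∑ n ∈ A.filter (fun n => ¬ E n), g n * Y n := by
    rw [sum_filter, ← sum_add_distrib]
    refine sum_congr rfl fun n _ => ?_
    by_cases h : E n <;> simp [h]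
  have h4 : ∑ n ∈ A.filter (fun n => ¬ E n), g n * Y n ≤ 1 / 100 * m := by
    refine le_trans ?_ hE2
    rw [mul_sum]
    refine sum_le_sum fun n _ => ?_
    rw [mul_comm K]
    exact mul_le_mul_of_nonneg_left (hY n) (hg n)
  have hexp : 1 + 1 / 100 ≤ Real.exp (1 / 100) := by
    have := Real.add_one_le_exp (1 / 100 : ℝ)
    linarith
  have hB := Real.exp_pos β
  have h5 : m * Real.exp ((∑ n ∈ A, g n * (if E n then Y n else 0)) / m) ≤
      Q * Real.exp (β + 1 / 100) := by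
    rw [h2] at h1
    have hQB : 0 < Q * Real.exp β := mul_pos hQ hB
    calc _ ≤ Q * Real.exp β + 1 / 100 * (Q * Real.exp β) := h1.trans (add_le_add hE hE1)
      _ = Q * Real.exp β * (1 + 1 / 100) := by ring
      _ ≤ Q * Real.exp β * Real.exp (1 / 100) := mul_le_mul_of_nonneg_left hexp hQB.le
      _ = _ := by rw [Real.exp_add]; ring
  have h6 : (∑ n ∈ A, g n * (if E n then Y n else 0)) / m ≤ Real.log (Q / m) + β + 1 / 100 := by
    have h7 : Real.exp ((∑ n ∈ A, g n * (if E n then Y n else 0)) / m) ≤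
        Real.exp (Real.log (Q / m) + (β + 1 / 100)) := by
      rw [Real.exp_add, Real.exp_log (div_pos hQ hm), div_mul_eq_mul_div, le_div_iff₀ hm]
      linarith
    have := Real.exp_le_exp.1 h7
    linarith
  rw [h3, add_div]
  have h8 : (∑ n ∈ A.filter (fun n => ¬ E n), g n * Y n) / m ≤ 1 / 100 := by
    rw [div_le_iff₀ hm]; exact h4
  linarith

end Vale.Agent.P042.UU
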