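import Vale.Agent.P042.UU.TskSc
import Vale.Agent.P042.UU.TskDefs

set_option autoImplicit false

/-!
Block TSK5: the sharper pointwise inequality and bounds for the normalisation.
-/

namespace Vale.Agent.P042.UU

open Finset

theorem tsk_cl5_eq (t : ℝ) : cl5 t = cl2 t := by
  unfold cl5 cl2
  rcases le_total t 2 with h | h
  · rw [min_eq_left h, min_eq_right (max_le (by norm_num) h)]
  · rw [min_eq_right h, min_eq_left (le_max_of_le_right h), max_eq_right (by norm_num)]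

theorem tsk_psi5_eq (t : ℝ) : psi5 t = psf t := rfl

theorem tskI_mid1 {t : ℝ} (h1 : 1 ≤ t) (h2 : t ≤ 2) :
    0.36 * (t - 1) ^ 2 ≤ t * Real.log t - t + 1 := by
  have ht : 0 < t := by linarith
  set x : ℝ := (t - 1) / (t + 1) with hx
  have hx0 : 0 ≤ x := div_nonneg (by linarith) (by linarith)
  have hx3 : x ≤ 1 / 3 := by
    rw [hx, div_le_iff₀ (by linarith)]; linarith
  have h := Real.sum_range_le_log_div hx0 (by linarith) 2
  have e1 : (1 + x) / (1 - x) = t := by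
    rw [hx]; field_simp; ring
  have e2 : ∑ i ∈ range 2, x ^ (2 * i + 1) / (2 * (i : ℝ) + 1) = x + x ^ 3 / 3 := by
    rw [Finset.sum_range_succ, Finset.sum_range_one]; norm_num
  rw [e1, e2] at h
  have h3 : 2 * x + 2 / 3 * x ^ 3 ≤ Real.log t := by linarith
  have h4 : t * (2 * x + 2 / 3 * x ^ 3) ≤ t * Real.log t := mul_le_mul_of_nonneg_left h3 ht.le
  have e3 : t * (1 - x) = 1 + x := by
    rw [hx]; field_simp; ring
  have h1x : 0 < 1 - x := by linarith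
  have e4 : t = (1 + x) / (1 - x) := by
    rw [eq_div_iff h1x.ne']; exact e3
  have h5 : 0.36 * (t - 1) ^ 2 ≤ t * (2 * x + 2 / 3 * x ^ 3) - t + 1 := by
    have e5 : t - 1 = 2 * x / (1 - x) := by
      rw [e4]; field_simp; ring
    have e6 : t * (2 * x + 2 / 3 * x ^ 3) - t + 1 - 0.36 * (t - 1) ^ 2 =
        x ^ 2 * ((2 + 2 / 3 * x + 2 / 3 * x ^ 2) * (1 - x) - 1.44) / (1 - x) ^ 2 := by
      rw [e4]
      field_simp
      ring
    have h6 : 0 ≤ x ^ 2 * ((2 + 2 / 3 * x + 2 / 3 * x ^ 2) * (1 - x) - 1.44) / (1 - x) ^ 2 := by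
      apply div_nonneg _ (sq_nonneg _)
      apply mul_nonneg (sq_nonneg _)
      nlinarith [mul_nonneg hx0 h1x.le]
    linarith
  linarith

theorem tskI_mid0 {t : ℝ} (h1 : 1 / 2 ≤ t) (h2 : t ≤ 1) :
    0.36 * (t - 1) ^ 2 ≤ t * Real.log t - t + 1 := by
  have ht : 0 < t := by linarith
  set q : ℝ := Real.sqrt (Real.sqrt t) with hq
  have hs0 : 0 < Real.sqrt t := Real.sqrt_pos.2 ht
  have hq0 : 0 < q := Real.sqrt_pos.2 hs0
  have hq4 : q ^ 4 = t := by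
    have e : q ^ 4 = (q ^ 2) ^ 2 := by ring
    rw [e, Real.sq_sqrt hs0.le, Real.sq_sqrt ht.le]
  have hq1 : q ≤ 1 := by
    rw [hq]
    exact Real.sqrt_le_one.2 (Real.sqrt_le_one.2 h2)
  have h3 : 1 - 1 / q ≤ Real.log q := by
    have := Real.one_sub_inv_le_log_of_pos hq0
    rwa [← one_div] at this
  have h4 : Real.log t = 4 * Real.log q := by
    rw [← hq4, Real.log_pow]; norm_num
  have h5 : t * (4 * (1 - 1 / q)) ≤ t * Real.log t := by
    rw [h4]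
    exact mul_le_mul_of_nonneg_left (by linarith) ht.le
  have h6 : t * (4 * (1 - 1 / q)) = 4 * q ^ 4 - 4 * q ^ 3 := by
    rw [← hq4]; field_simp
  have h7 : 0.36 * (t - 1) ^ 2 ≤ 3 * q ^ 4 - 4 * q ^ 3 + 1 := by
    rw [← hq4]
    have e1 : 3 * q ^ 4 - 4 * q ^ 3 + 1 - 0.36 * (q ^ 4 - 1) ^ 2 =
        (q - 1) ^ 2 * (3 * q ^ 2 + 2 * q + 1 - 0.36 * (q ^ 3 + q ^ 2 + q + 1) ^ 2) := by ring
    have h8 : 0 ≤ 3 * q ^ 2 + 2 * q + 1 - 0.36 * (q ^ 3 + q ^ 2 + q + 1) ^ 2 := by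
      have h9 : q ^ 3 + q ^ 2 + q + 1 ≤ 4 * q ^ 0 := by
        have := pow_le_one₀ (n := 3) hq0.le hq1
        have := pow_le_one₀ (n := 2) hq0.le hq1
        norm_num; linarith
      have h10 : q ^ 3 + q ^ 2 ≤ q ^ 2 + q := by nlinarith [mul_nonneg hq0.le (sub_nonneg.2 hq1)]
      have h11 : 0 ≤ q ^ 3 + q ^ 2 + q + 1 := by positivity
      have h12 : (q ^ 3 + q ^ 2 + q + 1) ^ 2 ≤ 4 * (q ^ 3 + q ^ 2 + q + 1) := by
        norm_num at h9
        nlinarith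
      nlinarith [mul_nonneg hq0.le (sub_nonneg.2 hq1)]
    have h13 := mul_nonneg (sq_nonneg (q - 1)) h8
    linarith
  linarith

/-- the basic pointwise inequality with the constant `0.36` -/
theorem tskI_point {t : ℝ} (h0 : 0 ≤ t) : 0.36 * psf t ≤ t * Real.log (cl2 t) - cl2 t + 1 := by
  have hlog2 := Real.log_two_gt_d9
  have hlog2' := Real.log_two_lt_d9
  rcases le_total t 2 with h2 | h2
  · rw [tsk_psf_mid h0 h2]
    unfold cl2
    rw [min_eq_left h2]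
    rcases le_total t (1 / 2) with h1 | h1
    · rw [max_eq_left h1]
      have h3 : Real.log (1 / 2) = -Real.log 2 := by
        rw [one_div, Real.log_inv]
      rw [h3]
      nlinarith
    · rw [max_eq_right h1]
      rcases le_total t 1 with h3 | h3
      · exact tskI_mid0 h1 h3
      · exact tskI_mid1 h3 h2
  · rw [tsk_psf_big h2]
    unfold cl2
    rw [min_eq_right h2, max_eq_right (by norm_num)]
    nlinarith

section one

variable {s : Finset ℕ} {w f b : ℕ → ℝ}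

/-- the entropy gain of one prime -/
theorem tskI_gain (hw : ∀ z ∈ s, 0 ≤ w z) (hw1 : ∑ z ∈ s, w z = 1)
    (hf : ∀ z ∈ s, 0 ≤ f z) (hb : ∀ z ∈ s, |b z| ≤ 1 / 100) (hb0 : ∑ z ∈ s, w z * b z = 0) :
    0.09 * ∑ z ∈ s, w z * psf (f z) ≤
      1 / 4 * (∑ z ∈ s, w z * (f z * Real.log (cl2 (f z)))) -
        1 / 2 * Real.log (nrm2 s w f b) + 10 * ∑ z ∈ s, w z * b z ^ 2 := by
  have h1 := tsk_log_nrm (f := f) hw hw1 hb hb0
  have h2 : 0.36 * ∑ z ∈ s, w z * psf (f z) ≤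
      (∑ z ∈ s, w z * (f z * Real.log (cl2 (f z)))) - ∑ z ∈ s, w z * (cl2 (f z) - 1) := by
    rw [Finset.mul_sum, ← Finset.sum_sub_distrib]
    apply Finset.sum_le_sum
    intro z hz
    have h3 := mul_le_mul_of_nonneg_left (tskI_point (hf z hz)) (hw z hz)
    nlinarith
  have h4 : 0 ≤ ∑ z ∈ s, w z * (cl2 (f z) - 1) ^ 2 :=
    Finset.sum_nonneg fun z hz => mul_nonneg (hw z hz) (sq_nonneg _)
  linarith

theorem tskI_cl2_sub {t : ℝ} (h0 : 0 ≤ t) : t - cl2 t ≤ psf t := by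
  rcases le_total t 2 with h2 | h2
  · rw [tsk_psf_mid h0 h2]
    unfold cl2
    rw [min_eq_left h2]
    nlinarith [le_max_right (1 / 2 : ℝ) t, sq_nonneg (t - 1)]
  · rw [tsk_psf_big h2]
    unfold cl2
    rw [min_eq_right h2, max_eq_right (by norm_num)]
    linarith

/-- lower bound for the logarithm of the normalisation -/
theorem tskI_log_nrm_lo (hw : ∀ z ∈ s, 0 ≤ w z) (hw1 : ∑ z ∈ s, w z = 1)
    (hf : ∀ z ∈ s, 0 ≤ f z) (hf1 : ∑ z ∈ s, w z * f z = 1)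
    (hb : ∀ z ∈ s, |b z| ≤ 1 / 100) (hb0 : ∑ z ∈ s, w z * b z = 0) :
    -(4 * (∑ z ∈ s, w z * psf (f z)) + 4 * ∑ z ∈ s, w z * b z ^ 2) ≤
      Real.log (nrm2 s w f b) := by
  have h1 := tsk_nrm_lo (f := f) hw hw1 hb
  have h2 : ∑ z ∈ s, w z * (1 + (f z - 1) / 2 - 2 * psf (f z) + 2 * b z - b z ^ 2) ≤
      nrm2 s w f b := by
    refine Finset.sum_le_sum fun z hz => mul_le_mul_of_nonneg_left ?_ (hw z hz)
    have h3 := tsk_cl2_sq (hf z hz)
    have h4 := tskI_cl2_sub (hf z hz)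
    have h5 := tsk_sqrt_sub (tsk_cl2_lo (f z))
    set S := Real.sqrt (cl2 (f z)) with hS
    have h6 : S ^ 2 = cl2 (f z) := Real.sq_sqrt (tsk_cl2_pos _).le
    have h7 : 0.7 ≤ S := tsk_sqrt_lo (tsk_cl2_lo (f z))
    -- sqrt c >= 1 + (c-1)/2 - (S-1)^2/2
    have e1 : S = 1 + (cl2 (f z) - 1) / 2 - (S - 1) ^ 2 / 2 := by rw [← h6]; ring
    have e2 : (1 + b z) ^ 2 * S = S + 2 * b z + 2 * (b z * (S - 1)) + b z ^ 2 * S := by ring
    have h8 : -(b z ^ 2 + (S - 1) ^ 2) ≤ 2 * (b z * (S - 1)) := by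
      nlinarith [sq_nonneg (b z + (S - 1))]
    have h9 : 0 ≤ b z ^ 2 * S := by positivity
    rw [e2]
    have h10 : 0 ≤ psf (f z) := tsk_psf_nn _
    nlinarith [sq_nonneg (S - 1)]
  have h3 : ∑ z ∈ s, w z * (1 + (f z - 1) / 2 - 2 * psf (f z) + 2 * b z - b z ^ 2) =
      1 - 2 * (∑ z ∈ s, w z * psf (f z)) - ∑ z ∈ s, w z * b z ^ 2 := by
    have h4 : ∑ z ∈ s, w z * (1 + (f z - 1) / 2 - 2 * psf (f z) + 2 * b z - b z ^ 2) =
      1 / 2 * (∑ z ∈ s, w z) + 1 / 2 * (∑ z ∈ s, w z * f z) - 2 * (∑ z ∈ s, w z * psf (f z)) +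
        2 * (∑ z ∈ s, w z * b z) - ∑ z ∈ s, w z * b z ^ 2 := by
      simp only [Finset.mul_sum, ← Finset.sum_add_distrib, ← Finset.sum_sub_distrib]
      exact Finset.sum_congr rfl fun z _ => by ring
    rw [h4, hw1, hb0, hf1]
    ring
  have hp : 0 ≤ ∑ z ∈ s, w z * psf (f z) :=
    Finset.sum_nonneg fun z hz => mul_nonneg (hw z hz) (tsk_psf_nn _)
  have hq : 0 ≤ ∑ z ∈ s, w z * b z ^ 2 :=
    Finset.sum_nonneg fun z hz => mul_nonneg (hw z hz) (sq_nonneg _)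
  set N := nrm2 s w f b with hN
  have hN0 : 0 < N := by linarith
  have h5 := Real.one_sub_inv_le_log_of_pos hN0
  have h6 : 1 - N⁻¹ = -((1 - N) / N) := by field_simp; ring
  have h7 : (1 - N) / N ≤ 4 * (∑ z ∈ s, w z * psf (f z)) + 4 * ∑ z ∈ s, w z * b z ^ 2 := by
    rw [div_le_iff₀ hN0]
    rw [h3] at h2
    nlinarith [mul_nonneg hp (sub_nonneg.2 h1), mul_nonneg hq (sub_nonneg.2 h1)]
  linarith

end one

end Vale.Agent.P042.UU
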