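import Vale.Agent.P042.UU.Defs

set_option autoImplicit false

/-!
Block TSK5: scalar inequalities and the one-prime estimates.
-/

namespace Vale.Agent.P042.UU

open Finset

/-- clip to `[1/2, 2]` -/
noncomputable def cl2 (t : ℝ) : ℝ := max (1 / 2) (min t 2)

/-- `min ((t-1)^2) |t-1|` -/
noncomputable def psf (t : ℝ) : ℝ := min ((t - 1) ^ 2) |t - 1|

theorem tsk_cl2_lo (t : ℝ) : 1 / 2 ≤ cl2 t := le_max_left _ _

theorem tsk_cl2_hi (t : ℝ) : cl2 t ≤ 2 := max_le (by norm_num) (min_le_right _ _)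

theorem tsk_cl2_pos (t : ℝ) : 0 < cl2 t := lt_of_lt_of_le (by norm_num) (tsk_cl2_lo t)

theorem tsk_cl2_one : cl2 1 = 1 := by
  unfold cl2
  rw [min_eq_left (by norm_num), max_eq_right (by norm_num)]

theorem tsk_psf_nn (t : ℝ) : 0 ≤ psf t := le_min (sq_nonneg _) (abs_nonneg _)

theorem tsk_psf_one : psf 1 = 0 := by
  unfold psf
  simp

theorem tsk_psf_le_abs (t : ℝ) : psf t ≤ |t - 1| := min_le_right _ _

theorem tsk_psf_mid {t : ℝ} (h0 : 0 ≤ t) (h2 : t ≤ 2) : psf t = (t - 1) ^ 2 := by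
  unfold psf
  apply min_eq_left
  rcases le_total 0 (t - 1) with h | h
  · rw [abs_of_nonneg h]; nlinarith
  · rw [abs_of_nonpos h]; nlinarith

theorem tsk_psf_big {t : ℝ} (h2 : 2 ≤ t) : psf t = t - 1 := by
  unfold psf
  rw [abs_of_nonneg (by linarith)]
  apply min_eq_right
  nlinarith

/-- `(clip - 1)^2 ≤ psi` -/
theorem tsk_cl2_sq {t : ℝ} (h0 : 0 ≤ t) : (cl2 t - 1) ^ 2 ≤ psf t := by
  rcases le_total t 2 with h2 | h2
  · rw [tsk_psf_mid h0 h2]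
    unfold cl2
    rw [min_eq_left h2]
    rcases le_total t (1 / 2) with h1 | h1
    · rw [max_eq_left h1]; nlinarith
    · rw [max_eq_right h1]
  · rw [tsk_psf_big h2]
    unfold cl2
    rw [min_eq_right h2, max_eq_right (by norm_num)]
    linarith

/-- the basic pointwise inequality -/
theorem tsk_point {t : ℝ} (h0 : 0 ≤ t) : 1 / 6 * psf t ≤ t * Real.log (cl2 t) - cl2 t + 1 := by
  have hlog2 := Real.log_two_gt_d9
  have hlog2' := Real.log_two_lt_d9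
  rcases le_total t 2 with h2 | h2
  · rw [tsk_psf_mid h0 h2]
    unfold cl2
    rw [min_eq_left h2]
    rcases le_total t (1 / 2) with h1 | h1
    · rw [max_eq_left h1]
      have h3 : Real.log (1 / 2) = -Real.log 2 := by
        rw [one_div, Real.log_inv]
      rw [h3]
      nlinarith
    · rw [max_eq_right h1]
      have ht : 0 < t := by linarith
      set s : ℝ := Real.sqrt t with hs
      have hs0 : 0 < s := Real.sqrt_pos.2 ht
      have hst : s ^ 2 = t := Real.sq_sqrt ht.le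
      have h4 : Real.log t = 2 * Real.log s := by
        rw [← hst, Real.log_pow]; norm_num
      have h5 : 1 - 1 / s ≤ Real.log s := by
        have := Real.one_sub_inv_le_log_of_pos hs0
        rwa [← one_div] at this
      have h6 : t * (2 * (1 - 1 / s)) ≤ t * Real.log t := by
        rw [h4]
        apply mul_le_mul_of_nonneg_left _ ht.le
        linarith
      have h7 : t * (2 * (1 - 1 / s)) = 2 * s ^ 2 - 2 * s := by
        rw [← hst]
        field_simp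
      have hs2 : s ≤ 1.42 := by
        rw [hs]
        apply Real.sqrt_le_iff.2
        constructor
        · norm_num
        · norm_num; linarith
      have h8 : t * Real.log t - t + 1 ≥ (s - 1) ^ 2 := by
        rw [h7] at h6
        nlinarith
      have h9 : 1 / 6 * (t - 1) ^ 2 ≤ (s - 1) ^ 2 := by
        rw [← hst]
        have h10 : (s ^ 2 - 1) ^ 2 = (s - 1) ^ 2 * (s + 1) ^ 2 := by ring
        rw [h10]
        have h11 : (s + 1) ^ 2 ≤ 6 := by nlinarith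
        nlinarith [sq_nonneg (s - 1)]
      linarith
  · rw [tsk_psf_big h2]
    unfold cl2
    rw [min_eq_right h2, max_eq_right (by norm_num)]
    nlinarith

/-- `t log t - t + 1 ≤ 2 log A psi(t)` for `t ≤ A` -/
theorem tsk_kl_point {t A : ℝ} (h0 : 0 ≤ t) (hA : 2 ≤ A) (htA : t ≤ A) :
    t * Real.log t - t + 1 ≤ 2 * Real.log A * psf t := by
  have hlog2 := Real.log_two_gt_d9
  have hlA : Real.log 2 ≤ Real.log A := Real.log_le_log (by norm_num) hA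
  rcases le_total t 2 with h2 | h2
  · rw [tsk_psf_mid h0 h2]
    have h3 : t * Real.log t - t + 1 ≤ (t - 1) ^ 2 := by
      rcases eq_or_lt_of_le h0 with h | h
      · rw [← h]; simp
      · have := Real.log_le_sub_one_of_pos h
        nlinarith
    have h4 : 1 ≤ 2 * Real.log A := by linarith
    nlinarith [sq_nonneg (t - 1)]
  · rw [tsk_psf_big h2]
    have ht : 0 < t := by linarith
    have h3 : Real.log t ≤ Real.log A := Real.log_le_log ht htA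
    have h4 : 0 ≤ Real.log t := Real.log_nonneg (by linarith)
    nlinarith

/-- square root of the clip -/
theorem tsk_sqrt_cl2 {c : ℝ} (h1 : 1 / 2 ≤ c) (h2 : c ≤ 2) :
    Real.sqrt c ≤ 1 + (c - 1) / 2 - (c - 1) ^ 2 / 16 := by
  apply Real.sqrt_le_iff.2
  constructor
  · nlinarith
  · have h : (1 + (c - 1) / 2 - (c - 1) ^ 2 / 16) ^ 2 - c =
        (c - 1) ^ 2 * (1 / 8 - (c - 1) / 16 + (c - 1) ^ 2 / 256) := by ring
    have h3 : 0 ≤ (c - 1) ^ 2 * (1 / 8 - (c - 1) / 16 + (c - 1) ^ 2 / 256) := by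
      apply mul_nonneg (sq_nonneg _)
      nlinarith [sq_nonneg (c - 1)]
    linarith

theorem tsk_sqrt_lo {c : ℝ} (h1 : 1 / 2 ≤ c) : 0.7 ≤ Real.sqrt c := by
  apply Real.le_sqrt_of_sq_le
  norm_num
  linarith

theorem tsk_sqrt_hi {c : ℝ} (h2 : c ≤ 2) : Real.sqrt c ≤ 1.42 := by
  apply Real.sqrt_le_iff.2
  constructor
  · norm_num
  · norm_num; linarith

theorem tsk_sqrt_sub {c : ℝ} (h1 : 1 / 2 ≤ c) :
    2.8 * (Real.sqrt c - 1) ^ 2 ≤ (c - 1) ^ 2 := by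
  have h3 := tsk_sqrt_lo h1
  have h4 : Real.sqrt c ^ 2 = c := Real.sq_sqrt (by linarith)
  have h5 : (c - 1) ^ 2 = (Real.sqrt c - 1) ^ 2 * (Real.sqrt c + 1) ^ 2 := by
    rw [← mul_pow]
    congr 1
    nlinarith
  rw [h5]
  nlinarith [sq_nonneg (Real.sqrt c - 1)]

/-- pointwise bound for the weight -/
theorem tsk_weight_point {b c : ℝ} (hb : |b| ≤ 1 / 100) (h1 : 1 / 2 ≤ c) (h2 : c ≤ 2) :
    (1 + b) ^ 2 * Real.sqrt c ≤
      1 + (c - 1) / 2 - (c - 1) ^ 2 / 32 + 2 * b + 20 * b ^ 2 := by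
  have h3 := tsk_sqrt_cl2 h1 h2
  have h4 := tsk_sqrt_sub h1
  have h5 := tsk_sqrt_hi h2
  have h6 := tsk_sqrt_lo h1
  have e1 : (1 + b) ^ 2 * Real.sqrt c =
      Real.sqrt c + 2 * b + 2 * b * (Real.sqrt c - 1) + b ^ 2 * Real.sqrt c := by ring
  have h7 : 2 * b * (Real.sqrt c - 1) ≤ (c - 1) ^ 2 / 32 + 12 * b ^ 2 := by
    have : 2 * b * (Real.sqrt c - 1) ≤ 12 * b ^ 2 + (Real.sqrt c - 1) ^ 2 / 12 := by
      nlinarith [sq_nonneg (12 * b - (Real.sqrt c - 1))]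
    nlinarith
  have h8 : b ^ 2 * Real.sqrt c ≤ 2 * b ^ 2 := by nlinarith [sq_nonneg b]
  rw [e1]
  nlinarith [sq_nonneg b]

/-! ### one prime: weights `w ≥ 0` of sum one -/

section one

variable {s : Finset ℕ} {w f b : ℕ → ℝ}

/-- normalisation -/
noncomputable def nrm2 (s : Finset ℕ) (w f b : ℕ → ℝ) : ℝ :=
  ∑ z ∈ s, w z * ((1 + b z) ^ 2 * Real.sqrt (cl2 (f z)))

/-- the test function of the prime -/
noncomputable def tstF (s : Finset ℕ) (w f b : ℕ → ℝ) (z : ℕ) : ℝ :=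
  (1 + b z) ^ 2 * Real.sqrt (cl2 (f z)) / nrm2 s w f b

theorem tsk_wt_lo {b c : ℝ} (hb : |b| ≤ 1 / 100) (h1 : 1 / 2 ≤ c) :
    0.68 ≤ (1 + b) ^ 2 * Real.sqrt c := by
  have h3 := tsk_sqrt_lo h1
  have hb' := abs_le.1 hb
  have h4 : 0.98 ≤ (1 + b) ^ 2 := by nlinarith
  nlinarith

theorem tsk_wt_hi {b c : ℝ} (hb : |b| ≤ 1 / 100) (h2 : c ≤ 2) :
    (1 + b) ^ 2 * Real.sqrt c ≤ 1.46 := by
  have h3 := tsk_sqrt_hi h2
  have h3' := Real.sqrt_nonneg c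
  have hb' := abs_le.1 hb
  have h4 : (1 + b) ^ 2 ≤ 1.0201 := by nlinarith
  have h5 : 0 ≤ (1 + b) ^ 2 := sq_nonneg _
  nlinarith

theorem tsk_nrm_lo (hw : ∀ z ∈ s, 0 ≤ w z) (hw1 : ∑ z ∈ s, w z = 1)
    (hb : ∀ z ∈ s, |b z| ≤ 1 / 100) : 0.68 ≤ nrm2 s w f b := by
  unfold nrm2
  calc (0.68 : ℝ) = ∑ z ∈ s, w z * 0.68 := by rw [← Finset.sum_mul, hw1, one_mul]
    _ ≤ _ := Finset.sum_le_sum fun z hz =>
      mul_le_mul_of_nonneg_left (tsk_wt_lo (hb z hz) (tsk_cl2_lo _)) (hw z hz)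

theorem tsk_nrm_hi (hw : ∀ z ∈ s, 0 ≤ w z) (hw1 : ∑ z ∈ s, w z = 1)
    (hb : ∀ z ∈ s, |b z| ≤ 1 / 100) : nrm2 s w f b ≤ 1.46 := by
  unfold nrm2
  calc _ ≤ ∑ z ∈ s, w z * 1.46 := Finset.sum_le_sum fun z hz =>
        mul_le_mul_of_nonneg_left (tsk_wt_hi (hb z hz) (tsk_cl2_hi _)) (hw z hz)
    _ = 1.46 := by rw [← Finset.sum_mul, hw1, one_mul]

/-- range of the test function -/
theorem tsk_tstF_range (hw : ∀ z ∈ s, 0 ≤ w z) (hw1 : ∑ z ∈ s, w z = 1)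
    (hb : ∀ z ∈ s, |b z| ≤ 1 / 100) {z : ℕ} (hz : |b z| ≤ 1 / 100) :
    0.45 ≤ tstF s w f b z ∧ tstF s w f b z ≤ 2.2 := by
  have h1 := tsk_nrm_lo (f := f) hw hw1 hb
  have h2 := tsk_nrm_hi (f := f) hw hw1 hb
  have h3 := tsk_wt_lo hz (tsk_cl2_lo (f z))
  have h4 := tsk_wt_hi hz (tsk_cl2_hi (f z))
  unfold tstF
  constructor
  · rw [le_div_iff₀ (by linarith)]; linarith
  · rw [div_le_iff₀ (by linarith)]; linarith

/-- the test function is normalised -/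
theorem tsk_tstF_sum (hw : ∀ z ∈ s, 0 ≤ w z) (hw1 : ∑ z ∈ s, w z = 1)
    (hb : ∀ z ∈ s, |b z| ≤ 1 / 100) : ∑ z ∈ s, w z * tstF s w f b z = 1 := by
  have h1 := tsk_nrm_lo (f := f) hw hw1 hb
  unfold tstF
  have h2 : ∑ z ∈ s, w z * ((1 + b z) ^ 2 * Real.sqrt (cl2 (f z)) / nrm2 s w f b) =
      (∑ z ∈ s, w z * ((1 + b z) ^ 2 * Real.sqrt (cl2 (f z)))) / nrm2 s w f b := by
    rw [Finset.sum_div]
    exact Finset.sum_congr rfl fun z _ => by ring
  rw [h2]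
  exact div_self (by unfold nrm2 at h1; linarith)

/-- logarithm of the normalisation -/
theorem tsk_log_nrm (hw : ∀ z ∈ s, 0 ≤ w z) (hw1 : ∑ z ∈ s, w z = 1)
    (hb : ∀ z ∈ s, |b z| ≤ 1 / 100) (hb0 : ∑ z ∈ s, w z * b z = 0) :
    Real.log (nrm2 s w f b) ≤ (∑ z ∈ s, w z * (cl2 (f z) - 1)) / 2 -
      (∑ z ∈ s, w z * (cl2 (f z) - 1) ^ 2) / 32 + 20 * ∑ z ∈ s, w z * b z ^ 2 := by
  have h1 := tsk_nrm_lo (f := f) hw hw1 hb
  have h2 : nrm2 s w f b ≤ ∑ z ∈ s, w z * (1 + (cl2 (f z) - 1) / 2 - (cl2 (f z) - 1) ^ 2 / 32 +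
      2 * b z + 20 * b z ^ 2) := Finset.sum_le_sum fun z hz =>
    mul_le_mul_of_nonneg_left (tsk_weight_point (hb z hz) (tsk_cl2_lo _) (tsk_cl2_hi _)) (hw z hz)
  have h3 : ∑ z ∈ s, w z * (1 + (cl2 (f z) - 1) / 2 - (cl2 (f z) - 1) ^ 2 / 32 +
      2 * b z + 20 * b z ^ 2) = 1 + (∑ z ∈ s, w z * (cl2 (f z) - 1)) / 2 -
      (∑ z ∈ s, w z * (cl2 (f z) - 1) ^ 2) / 32 + 20 * ∑ z ∈ s, w z * b z ^ 2 := by
    have h4 : ∑ z ∈ s, w z * (1 + (cl2 (f z) - 1) / 2 - (cl2 (f z) - 1) ^ 2 / 32 +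
      2 * b z + 20 * b z ^ 2) = ∑ z ∈ s, w z + (∑ z ∈ s, w z * (cl2 (f z) - 1)) / 2 -
      (∑ z ∈ s, w z * (cl2 (f z) - 1) ^ 2) / 32 + 2 * (∑ z ∈ s, w z * b z) +
        20 * ∑ z ∈ s, w z * b z ^ 2 := by
      rw [Finset.sum_div, Finset.sum_div, Finset.mul_sum, Finset.mul_sum, ← Finset.sum_add_distrib,
        ← Finset.sum_sub_distrib, ← Finset.sum_add_distrib, ← Finset.sum_add_distrib]
      exact Finset.sum_congr rfl fun z _ => by ring
    rw [h4, hw1, hb0]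
    ring
  have h5 := Real.log_le_sub_one_of_pos (show 0 < nrm2 s w f b by linarith)
  linarith

/-- the entropy gain of one prime -/
theorem tsk_gain (hw : ∀ z ∈ s, 0 ≤ w z) (hw1 : ∑ z ∈ s, w z = 1)
    (hf : ∀ z ∈ s, 0 ≤ f z) (hb : ∀ z ∈ s, |b z| ≤ 1 / 100) (hb0 : ∑ z ∈ s, w z * b z = 0) :
    1 / 24 * ∑ z ∈ s, w z * psf (f z) ≤
      1 / 4 * (∑ z ∈ s, w z * (f z * Real.log (cl2 (f z)))) -
        1 / 2 * Real.log (nrm2 s w f b) + 10 * ∑ z ∈ s, w z * b z ^ 2 := by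
  have h1 := tsk_log_nrm (f := f) hw hw1 hb hb0
  have h2 : 1 / 6 * ∑ z ∈ s, w z * psf (f z) ≤
      (∑ z ∈ s, w z * (f z * Real.log (cl2 (f z)))) - ∑ z ∈ s, w z * (cl2 (f z) - 1) := by
    rw [Finset.mul_sum, ← Finset.sum_sub_distrib]
    apply Finset.sum_le_sum
    intro z hz
    have h3 := mul_le_mul_of_nonneg_left (tsk_point (hf z hz)) (hw z hz)
    nlinarith
  have h4 : 0 ≤ ∑ z ∈ s, w z * (cl2 (f z) - 1) ^ 2 :=
    Finset.sum_nonneg fun z hz => mul_nonneg (hw z hz) (sq_nonneg _)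
  linarith

/-- variance of the test function -/
theorem tsk_var (hw : ∀ z ∈ s, 0 ≤ w z) (hw1 : ∑ z ∈ s, w z = 1)
    (hf : ∀ z ∈ s, 0 ≤ f z) (hb : ∀ z ∈ s, |b z| ≤ 1 / 100) :
    ∑ z ∈ s, w z * (tstF s w f b z - 1) ^ 2 ≤
      2 * (∑ z ∈ s, w z * psf (f z)) + 50 * ∑ z ∈ s, w z * b z ^ 2 := by
  have h1 := tsk_nrm_lo (f := f) hw hw1 hb
  set N := nrm2 s w f b with hN
  have hN0 : 0 < N := by linarith
  set g : ℕ → ℝ := fun z => (1 + b z) ^ 2 * Real.sqrt (cl2 (f z)) with hg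
  have hgN : ∑ z ∈ s, w z * g z = N := rfl
  -- variance is at most the second moment about one
  have h2 : ∑ z ∈ s, w z * (g z - N) ^ 2 ≤ ∑ z ∈ s, w z * (g z - 1) ^ 2 := by
    have e1 : ∑ z ∈ s, w z * (g z - 1) ^ 2 - ∑ z ∈ s, w z * (g z - N) ^ 2 = (N - 1) ^ 2 := by
      have e2 : ∑ z ∈ s, w z * (g z - 1) ^ 2 - ∑ z ∈ s, w z * (g z - N) ^ 2 =
          2 * (N - 1) * (∑ z ∈ s, w z * g z) + (1 - N ^ 2) * ∑ z ∈ s, w z := by
        rw [Finset.mul_sum, Finset.mul_sum, ← Finset.sum_sub_distrib, ← Finset.sum_add_distrib]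
        exact Finset.sum_congr rfl fun z _ => by ring
      rw [e2, hgN, hw1]
      ring
    nlinarith [sq_nonneg (N - 1)]
  have h3 : ∀ z ∈ s, (g z - 1) ^ 2 ≤ 0.8 * psf (f z) + 20 * b z ^ 2 := by
    intro z hz
    have h4 := tsk_sqrt_sub (tsk_cl2_lo (f z))
    have h5 := tsk_cl2_sq (hf z hz)
    have h6 := tsk_sqrt_hi (tsk_cl2_hi (f z))
    have h7 := tsk_sqrt_lo (tsk_cl2_lo (f z))
    have hb' := abs_le.1 (hb z hz)
    have e1 : g z - 1 = (Real.sqrt (cl2 (f z)) - 1) + b z * ((2 + b z) * Real.sqrt (cl2 (f z))) := by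
      rw [hg]
      ring
    set S := Real.sqrt (cl2 (f z))
    have h8 : (2 + b z) * S ≤ 3 := by nlinarith
    have h8' : 0 ≤ (2 + b z) * S := by nlinarith
    have h9 : (b z * ((2 + b z) * S)) ^ 2 ≤ 9 * b z ^ 2 := by
      rw [mul_pow]
      have : ((2 + b z) * S) ^ 2 ≤ 9 := by nlinarith
      nlinarith [sq_nonneg (b z)]
    rw [e1]
    nlinarith [sq_nonneg ((S - 1) - b z * ((2 + b z) * S))]
  have h10 : ∑ z ∈ s, w z * (tstF s w f b z - 1) ^ 2 = (∑ z ∈ s, w z * (g z - N) ^ 2) / N ^ 2 := by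
    rw [Finset.sum_div]
    refine Finset.sum_congr rfl fun z _ => ?_
    have : tstF s w f b z = g z / N := rfl
    rw [this]
    field_simp
  have h11 : ∑ z ∈ s, w z * (g z - 1) ^ 2 ≤
      0.8 * (∑ z ∈ s, w z * psf (f z)) + 20 * ∑ z ∈ s, w z * b z ^ 2 := by
    rw [Finset.mul_sum, Finset.mul_sum, ← Finset.sum_add_distrib]
    apply Finset.sum_le_sum
    intro z hz
    have := mul_le_mul_of_nonneg_left (h3 z hz) (hw z hz)
    linarith
  have hp : 0 ≤ ∑ z ∈ s, w z * psf (f z) :=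
    Finset.sum_nonneg fun z hz => mul_nonneg (hw z hz) (tsk_psf_nn _)
  have hq : 0 ≤ ∑ z ∈ s, w z * b z ^ 2 :=
    Finset.sum_nonneg fun z hz => mul_nonneg (hw z hz) (sq_nonneg _)
  rw [h10, div_le_iff₀ (by positivity)]
  have h12 : 0.46 ≤ N ^ 2 := by nlinarith
  nlinarith

/-- relative entropy of one prime -/
theorem tsk_kl (hw : ∀ z ∈ s, 0 ≤ w z) (hw1 : ∑ z ∈ s, w z = 1)
    (hf : ∀ z ∈ s, 0 ≤ f z) (hf1 : ∑ z ∈ s, w z * f z = 1) {A : ℝ} (hA : 2 ≤ A)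
    (hfA : ∀ z ∈ s, w z ≠ 0 → f z ≤ A) :
    ∑ z ∈ s, w z * (f z * Real.log (f z)) ≤ 2 * Real.log A * ∑ z ∈ s, w z * psf (f z) := by
  have h1 : ∑ z ∈ s, w z * (f z * Real.log (f z)) =
      ∑ z ∈ s, w z * (f z * Real.log (f z) - f z + 1) := by
    have h2 : ∑ z ∈ s, w z * (f z * Real.log (f z) - f z + 1) =
        ∑ z ∈ s, w z * (f z * Real.log (f z)) - ∑ z ∈ s, w z * f z + ∑ z ∈ s, w z := by
      rw [← Finset.sum_sub_distrib, ← Finset.sum_add_distrib]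
      exact Finset.sum_congr rfl fun z _ => by ring
    rw [h2, hf1, hw1]
    ring
  rw [h1, Finset.mul_sum]
  apply Finset.sum_le_sum
  intro z hz
  rcases eq_or_ne (w z) 0 with h | h
  · rw [h]; simp
  · have := mul_le_mul_of_nonneg_left (tsk_kl_point (hf z hz) hA (hfA z hz h)) (hw z hz)
    linarith

/-- the quantity of one prime is at most two -/
theorem tsk_psf_sum_le (hw : ∀ z ∈ s, 0 ≤ w z) (hw1 : ∑ z ∈ s, w z = 1)
    (hf : ∀ z ∈ s, 0 ≤ f z) (hf1 : ∑ z ∈ s, w z * f z = 1) :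
    ∑ z ∈ s, w z * psf (f z) ≤ 2 := by
  have h1 : ∑ z ∈ s, w z * psf (f z) ≤ ∑ z ∈ s, (w z * f z + w z) := by
    apply Finset.sum_le_sum
    intro z hz
    have h2 : psf (f z) ≤ f z + 1 := by
      refine (tsk_psf_le_abs _).trans ?_
      rw [abs_le]
      constructor <;> linarith [hf z hz]
    have := mul_le_mul_of_nonneg_left h2 (hw z hz)
    linarith
  rw [Finset.sum_add_distrib, hf1, hw1] at h1
  linarith

end one

/-- from subsets of bounded sum to the full sum -/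
theorem tsk_subset {ι : Type*} [DecidableEq ι] (U : Finset ι) (a : ι → ℝ) (K S : ℝ)
    (hK : 0 ≤ K) (ha2 : ∀ i ∈ U, a i ≤ 2) (hS : K + 2 ≤ S)
    (h : ∀ I ⊆ U, ∑ i ∈ I, a i ≤ S → ∑ i ∈ I, a i ≤ K) : ∑ i ∈ U, a i ≤ K := by
  have key : ∀ I : Finset ι, I ⊆ U → ∑ i ∈ I, a i ≤ K := by
    intro I
    induction I using Finset.induction_on with
    | empty => intro _; simpa using hK
    | insert i I hi ih =>
      intro hsub
      apply h _ hsub
      rw [Finset.sum_insert hi]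
      have h1 := ih (fun x hx => hsub (Finset.mem_insert_of_mem hx))
      have h2 := ha2 i (hsub (Finset.mem_insert_self _ _))
      linarith
  exact key U (Finset.Subset.refl _)

/-- Jensen: `Σ g e^Y ≥ (Σ g) exp (Σ g Y / Σ g)` -/
theorem tsk_jensen {ι : Type*} (s : Finset ι) (g Y : ι → ℝ) (hg : ∀ i ∈ s, 0 ≤ g i)
    (hpos : 0 < ∑ i ∈ s, g i) :
    (∑ i ∈ s, g i) * Real.exp ((∑ i ∈ s, g i * Y i) / ∑ i ∈ s, g i) ≤
      ∑ i ∈ s, g i * Real.exp (Y i) := by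
  set m := ∑ i ∈ s, g i with hm
  set a := (∑ i ∈ s, g i * Y i) / m with ha
  have h1 : ∀ i ∈ s, g i * (Real.exp a * (1 + (Y i - a))) ≤ g i * Real.exp (Y i) := by
    intro i hi
    apply mul_le_mul_of_nonneg_left _ (hg i hi)
    have h2 := Real.add_one_le_exp (Y i - a)
    have h3 : Real.exp (Y i) = Real.exp a * Real.exp (Y i - a) := by
      rw [← Real.exp_add]; congr 1; ring
    rw [h3]
    apply mul_le_mul_of_nonneg_left _ (Real.exp_pos a).le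
    linarith
  have h4 := Finset.sum_le_sum h1
  refine le_trans (le_of_eq ?_) h4
  have h5 : ∑ i ∈ s, g i * (Real.exp a * (1 + (Y i - a))) =
      Real.exp a * ((1 - a) * ∑ i ∈ s, g i + ∑ i ∈ s, g i * Y i) := by
    rw [mul_add, Finset.mul_sum, Finset.mul_sum, Finset.mul_sum, ← Finset.sum_add_distrib]
    exact Finset.sum_congr rfl fun i _ => by ring
  rw [h5, ← hm]
  have h6 : ∑ i ∈ s, g i * Y i = a * m := by
    rw [ha]; field_simp
  rw [h6]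
  ring

end Vale.Agent.P042.UU
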