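import Vale.Agent.P042.UU.TskDefs
import Vale.Agent.P042.UU.TskSc
import Mathlib.Analysis.SpecialFunctions.Trigonometric.DerivHyp

set_option autoImplicit false

/-!
Block TSK5: the scalar and one-prime lemmas for `cl5`, `psi5` of `TskDefs`.
-/

namespace Vale.Agent.P042.UU

open Finset

theorem tsd_psi_eq (t : ℝ) : psi5 t = psf t := rfl

theorem tsd_cl_eq (t : ℝ) : cl5 t = cl2 t := by
  unfold cl5 cl2
  rcases le_total t (1 / 2) with h | h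
  · rw [max_eq_left h, min_eq_right (by norm_num), min_eq_left (by linarith), max_eq_left h]
  · rw [max_eq_right h]
    rcases le_total t 2 with h2 | h2
    · rw [min_eq_right h2, min_eq_left h2, max_eq_right h]
    · rw [min_eq_left h2, min_eq_right h2, max_eq_right (by norm_num)]

theorem tsd_cl_lo (t : ℝ) : 1 / 2 ≤ cl5 t := by rw [tsd_cl_eq]; exact tsk_cl2_lo t

theorem tsd_cl_hi (t : ℝ) : cl5 t ≤ 2 := by rw [tsd_cl_eq]; exact tsk_cl2_hi t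

theorem tsd_cl_pos (t : ℝ) : 0 < cl5 t := lt_of_lt_of_le (by norm_num) (tsd_cl_lo t)

theorem tsd_cl_one : cl5 1 = 1 := by rw [tsd_cl_eq]; exact tsk_cl2_one

theorem tsd_psi_nn (t : ℝ) : 0 ≤ psi5 t := tsk_psf_nn t

theorem tsd_psi_one : psi5 1 = 0 := tsk_psf_one

theorem tsd_psi_mid {t : ℝ} (h0 : 0 ≤ t) (h2 : t ≤ 2) : psi5 t = (t - 1) ^ 2 := tsk_psf_mid h0 h2

theorem tsd_psi_big {t : ℝ} (h2 : 2 ≤ t) : psi5 t = t - 1 := tsk_psf_big h2

theorem tsd_psi_le_abs (t : ℝ) : psi5 t ≤ |t - 1| := tsk_psf_le_abs t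

/-- `(clip - 1)^2 ≤ psi` -/
theorem tsd_cl_sq {t : ℝ} (h0 : 0 ≤ t) : (cl5 t - 1) ^ 2 ≤ psi5 t := by
  rw [tsd_cl_eq]; exact tsk_cl2_sq h0

/-- `|clip - t| ≤ 2 psi` -/
theorem tsd_cl_sub {t : ℝ} (h0 : 0 ≤ t) : |cl5 t - t| ≤ 2 * psi5 t := by
  unfold cl5
  rcases le_total t 2 with h2 | h2
  · rw [tsd_psi_mid h0 h2]
    rcases le_total t (1 / 2) with h1 | h1
    · rw [max_eq_left h1, min_eq_right (by norm_num), abs_of_nonneg (by linarith)]
      nlinarith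
    · rw [max_eq_right h1, min_eq_right h2, sub_self, abs_zero]
      positivity
  · rw [tsd_psi_big h2, max_eq_right (by linarith), min_eq_left h2, abs_of_nonpos (by linarith)]
    linarith

/-- lower bound of the logarithm, `t ≥ 1` -/
theorem tsd_log_lb {t : ℝ} (h1 : 1 ≤ t) :
    2 * ((t - 1) / (t + 1)) + 2 / 3 * ((t - 1) / (t + 1)) ^ 3 ≤ Real.log t := by
  set u : ℝ := (t - 1) / (t + 1) with hu
  have ht : 0 < t + 1 := by linarith
  have hu0 : 0 ≤ u := div_nonneg (by linarith) ht.le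
  have hu1 : u < 1 := by
    rw [hu, div_lt_one ht]; linarith
  have h2 := Real.hasSum_log_sub_log_of_abs_lt_one (show |u| < 1 by rwa [abs_of_nonneg hu0])
  have h3 : Real.log (1 + u) - Real.log (1 - u) = Real.log t := by
    rw [← Real.log_div (by linarith) (by linarith)]
    congr 1
    rw [hu]
    field_simp
    ring
  rw [h3] at h2
  have h4 := sum_le_hasSum (range 2) (fun i _ => by positivity) h2
  rw [Finset.sum_range_succ, Finset.sum_range_succ, Finset.sum_range_zero] at h4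
  norm_num at h4
  linarith

/-- upper bound of the logarithm, `w ≥ 1` -/
theorem tsd_log_ub {w : ℝ} (h1 : 1 ≤ w) : Real.log w ≤ (w - w⁻¹) / 2 := by
  have h2 : 0 ≤ Real.log w := Real.log_nonneg h1
  have h3 := Real.self_le_sinh_iff.2 h2
  rw [Real.sinh_eq, Real.exp_neg, Real.exp_log (by linarith)] at h3
  exact h3

/-- the basic pointwise inequality with the sharp constant -/
theorem tsd_point {t : ℝ} (h0 : 0 ≤ t) :
    0.38 * psi5 t ≤ t * Real.log (cl5 t) - cl5 t + 1 := by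
  have hlog2 := Real.log_two_gt_d9
  have hlog2' := Real.log_two_lt_d9
  unfold cl5
  rcases le_total t 2 with h2 | h2
  · rw [tsd_psi_mid h0 h2]
    rcases le_total t (1 / 2) with h1 | h1
    · rw [max_eq_left h1, min_eq_right (by norm_num)]
      have h3 : Real.log (1 / 2) = -Real.log 2 := by
        rw [one_div, Real.log_inv]
      rw [h3]
      nlinarith
    · rw [max_eq_right h1, min_eq_right h2]
      have ht : 0 < t := by linarith
      rcases le_total t 1 with h4 | h4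
      · have h5 := tsd_log_ub (w := t⁻¹) ((one_le_inv₀ ht).2 h4)
        rw [inv_inv, Real.log_inv] at h5
        have h6 : t * (-Real.log t) ≤ t * ((t⁻¹ - t) / 2) := mul_le_mul_of_nonneg_left h5 ht.le
        have h7 : t * ((t⁻¹ - t) / 2) = (1 - t ^ 2) / 2 := by
          field_simp
        rw [h7] at h6
        nlinarith [sq_nonneg (t - 1)]
      · have h5 := tsd_log_lb h4
        have hu : 0 < t + 1 := by linarith
        have h6 := mul_le_mul_of_nonneg_left h5 ht.le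
        have h7 : t * (2 * ((t - 1) / (t + 1)) + 2 / 3 * ((t - 1) / (t + 1)) ^ 3) - t + 1 =
            (t - 1) ^ 2 * (((t + 1) ^ 2 + 2 / 3 * t * (t - 1)) / (t + 1) ^ 3) := by
          field_simp
          ring
        have h8 : 0.38 ≤ ((t + 1) ^ 2 + 2 / 3 * t * (t - 1)) / (t + 1) ^ 3 := by
          rw [le_div_iff₀ (by positivity)]
          nlinarith [mul_nonneg (sub_nonneg.2 h4) (sub_nonneg.2 h2),
            mul_nonneg (mul_nonneg (sub_nonneg.2 h4) (sub_nonneg.2 h2)) ht.le]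
        have h9 := mul_le_mul_of_nonneg_left h8 (sq_nonneg (t - 1))
        rw [← h7] at h9
        linarith
  · rw [tsd_psi_big h2, max_eq_right (by linarith), min_eq_left h2]
    nlinarith

/-- `t log t - t + 1 ≤ 2 log A psi(t)` for `t ≤ A` -/
theorem tsd_kl_point {t A : ℝ} (h0 : 0 ≤ t) (hA : 2 ≤ A) (htA : t ≤ A) :
    t * Real.log t - t + 1 ≤ 2 * Real.log A * psi5 t := tsk_kl_point h0 hA htA

/-- square root -/
theorem tsd_sqrt {x : ℝ} (h1 : -(1 / 2) ≤ x) (h2 : x ≤ 1) :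
    Real.sqrt (1 + x) ≤ 1 + x / 2 - x ^ 2 / 16 := by
  have := tsk_sqrt_cl2 (c := 1 + x) (by linarith) (by linarith)
  have e1 : (1 + x - 1) = x := by ring
  rwa [e1] at this

/-! ### one prime: weights `w ≥ 0` of sum one -/

section one

variable {s : Finset ℕ} {w f b : ℕ → ℝ}

/-- normalisation -/
noncomputable def nrm5 (s : Finset ℕ) (w f b : ℕ → ℝ) : ℝ :=
  ∑ z ∈ s, w z * ((1 + b z) ^ 2 * Real.sqrt (cl5 (f z)))

/-- the test function of the prime -/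
noncomputable def tst5 (s : Finset ℕ) (w f b : ℕ → ℝ) (z : ℕ) : ℝ :=
  (1 + b z) ^ 2 * Real.sqrt (cl5 (f z)) / nrm5 s w f b

theorem tsd_nrm_eq : nrm5 s w f b = nrm2 s w f b := by
  unfold nrm5 nrm2
  exact Finset.sum_congr rfl fun z _ => by rw [tsd_cl_eq]

theorem tsd_tst_eq (z : ℕ) : tst5 s w f b z = tstF s w f b z := by
  unfold tst5 tstF
  rw [tsd_nrm_eq, tsd_cl_eq]

theorem tsd_nrm_lo (hw : ∀ z ∈ s, 0 ≤ w z) (hw1 : ∑ z ∈ s, w z = 1)
    (hb : ∀ z ∈ s, |b z| ≤ 1 / 100) : 0.68 ≤ nrm5 s w f b := by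
  rw [tsd_nrm_eq]; exact tsk_nrm_lo hw hw1 hb

theorem tsd_nrm_hi (hw : ∀ z ∈ s, 0 ≤ w z) (hw1 : ∑ z ∈ s, w z = 1)
    (hb : ∀ z ∈ s, |b z| ≤ 1 / 100) : nrm5 s w f b ≤ 1.46 := by
  rw [tsd_nrm_eq]; exact tsk_nrm_hi hw hw1 hb

theorem tsd_tst_range (hw : ∀ z ∈ s, 0 ≤ w z) (hw1 : ∑ z ∈ s, w z = 1)
    (hb : ∀ z ∈ s, |b z| ≤ 1 / 100) {z : ℕ} (hz : |b z| ≤ 1 / 100) :
    0.45 ≤ tst5 s w f b z ∧ tst5 s w f b z ≤ 2.2 := by
  rw [tsd_tst_eq]; exact tsk_tstF_range hw hw1 hb hz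

theorem tsd_tst_sum (hw : ∀ z ∈ s, 0 ≤ w z) (hw1 : ∑ z ∈ s, w z = 1)
    (hb : ∀ z ∈ s, |b z| ≤ 1 / 100) : ∑ z ∈ s, w z * tst5 s w f b z = 1 := by
  simp only [tsd_tst_eq]
  exact tsk_tstF_sum hw hw1 hb

/-- logarithm of the normalisation -/
theorem tsd_log_nrm (hw : ∀ z ∈ s, 0 ≤ w z) (hw1 : ∑ z ∈ s, w z = 1)
    (hb : ∀ z ∈ s, |b z| ≤ 1 / 100) (hb0 : ∑ z ∈ s, w z * b z = 0) :
    Real.log (nrm5 s w f b) ≤ (∑ z ∈ s, w z * (cl5 (f z) - 1)) / 2 -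
      (∑ z ∈ s, w z * (cl5 (f z) - 1) ^ 2) / 32 + 20 * ∑ z ∈ s, w z * b z ^ 2 := by
  rw [tsd_nrm_eq]
  simp only [tsd_cl_eq]
  exact tsk_log_nrm hw hw1 hb hb0

/-- the entropy gain of one prime -/
theorem tsd_gain (hw : ∀ z ∈ s, 0 ≤ w z) (hw1 : ∑ z ∈ s, w z = 1)
    (hf : ∀ z ∈ s, 0 ≤ f z) (hb : ∀ z ∈ s, |b z| ≤ 1 / 100) (hb0 : ∑ z ∈ s, w z * b z = 0) :
    0.095 * ∑ z ∈ s, w z * psi5 (f z) ≤
      1 / 4 * (∑ z ∈ s, w z * (f z * Real.log (cl5 (f z)))) -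
        1 / 2 * Real.log (nrm5 s w f b) + 10 * ∑ z ∈ s, w z * b z ^ 2 := by
  have h1 := tsd_log_nrm (f := f) hw hw1 hb hb0
  have h2 : 0.38 * ∑ z ∈ s, w z * psi5 (f z) ≤
      (∑ z ∈ s, w z * (f z * Real.log (cl5 (f z)))) - ∑ z ∈ s, w z * (cl5 (f z) - 1) := by
    rw [Finset.mul_sum, ← Finset.sum_sub_distrib]
    apply Finset.sum_le_sum
    intro z hz
    have h3 := mul_le_mul_of_nonneg_left (tsd_point (hf z hz)) (hw z hz)
    nlinarith
  have h4 : 0 ≤ ∑ z ∈ s, w z * (cl5 (f z) - 1) ^ 2 :=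
    Finset.sum_nonneg fun z hz => mul_nonneg (hw z hz) (sq_nonneg _)
  linarith

/-- variance of the test function -/
theorem tsd_var (hw : ∀ z ∈ s, 0 ≤ w z) (hw1 : ∑ z ∈ s, w z = 1)
    (hf : ∀ z ∈ s, 0 ≤ f z) (hb : ∀ z ∈ s, |b z| ≤ 1 / 100) :
    ∑ z ∈ s, w z * (tst5 s w f b z - 1) ^ 2 ≤
      2 * (∑ z ∈ s, w z * psi5 (f z)) + 50 * ∑ z ∈ s, w z * b z ^ 2 := by
  simp only [tsd_tst_eq]
  exact tsk_var hw hw1 hf hb

/-- relative entropy of one prime -/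
theorem tsd_kl (hw : ∀ z ∈ s, 0 ≤ w z) (hw1 : ∑ z ∈ s, w z = 1)
    (hf : ∀ z ∈ s, 0 ≤ f z) (hf1 : ∑ z ∈ s, w z * f z = 1) {A : ℝ} (hA : 2 ≤ A)
    (hfA : ∀ z ∈ s, w z ≠ 0 → f z ≤ A) :
    ∑ z ∈ s, w z * (f z * Real.log (f z)) ≤ 2 * Real.log A * ∑ z ∈ s, w z * psi5 (f z) :=
  tsk_kl hw hw1 hf hf1 hA hfA

/-- the quantity of one prime is at most two -/
theorem tsd_psi_sum_le (hw : ∀ z ∈ s, 0 ≤ w z) (hw1 : ∑ z ∈ s, w z = 1)
    (hf : ∀ z ∈ s, 0 ≤ f z) (hf1 : ∑ z ∈ s, w z * f z = 1) :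
    ∑ z ∈ s, w z * psi5 (f z) ≤ 2 := tsk_psf_sum_le hw hw1 hf hf1

end one

end Vale.Agent.P042.UU
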