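import Vale.Agent.P042.UU.WireA
import Vale.Agent.P042.UU.MgfC
import Vale.Agent.P042.UU.Mom5
import Vale.Agent.P042.UU.Raw
import Vale.Agent.P042.UU.PinG377
import Vale.Agent.P042.UU.Trunc
import Vale.Agent.P042.UU.Dec6
import Vale.Agent.P042.UU.Kb5
import Vale.Agent.P042.UU.Tail5
import Vale.Agent.P042.UU.Restd5B
import Vale.Agent.P042.UU.Mix
import Vale.Agent.P042.UU.TiltU
import Vale.Agent.P042.UU.TskDefs
import Vale.Agent.P042.UU.TsbG
import Vale.Agent.P042.UU.TskA
import Vale.Agent.P042.UU.TskE
import Vale.Agent.P042.UU.TskI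
import Vale.Agent.P042.UU.TskCz
import Vale.Agent.P042.UU.Rest5
import Vale.Agent.P042.UU.Good5

set_option autoImplicit false

/-!
# P042, Theorem S5: wiring
-/

namespace Vale.Agent.P042.UU
open Vale.Agent.P042.SS Vale.Agent.P042.TT

theorem raw5_holds : RAW5Stmt := raw5_of mgf5_holds
theorem tail5_holds : TAIL5Stmt := tail5_of mgf5_holds
theorem pin5_holds : PIN5Stmt := PIN.pin5_direct mgf5_holds
theorem dec5_holds : DEC5Stmt := dec5_of kb5_holds
theorem form5_holds : FORM5Stmt := form5_of kb5_holds
theorem core5_holds : CORE5Stmt := core5_of_mom mom5_holds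
theorem sum5_holds : SUM5Stmt := sum5_of core5_holds
theorem tot5_holds : TOT5Stmt := tot5_of sum5_holds
theorem one5_holds : ONE5Stmt := one5_of sum5_holds ews5_holds
theorem restd5_holds : RESTD5Stmt := restd5_of sum5_holds ews5_holds

theorem rest5_holds : REST5Stmt := rest5_of sum5_holds tot5_holds ews5_holds
theorem good5_holds : GOOD5Stmt :=
  good5_of form5_holds one5_holds rest5_holds mix5_holds kb5_holds
theorem tsb5_holds : TSB5Stmt := tsb5_of mgf5_holds
theorem tskC_holds : TskCStmt := tskC_of mgf5_holds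
theorem tskI_holds : TskIStmt := tskI_of tskC_holds
theorem tskP_holds : TskPStmt := tskP_of tskI_holds
theorem tsk5_holds : TSK5Stmt := tsk5_of tskP_holds

/-- **Theorem S5**: `r_h(N) ≤ C N exp(-(log N)^c)` for every `c < 1` and every intersective `h`. -/
theorem final5_holds : Final5Stmt :=
  final5_of_blocks raw5_holds pin5_holds trunc5_holds dec5_holds good5_holds kb5_holds
    tsb5_holds tsk5_holds

end Vale.Agent.P042.UU
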