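import Vale.Agent.P042.UU.NvC
import Vale.Agent.P042.UU.Core5Asm
import Vale.Agent.P042.UU.Core5Fib
import Vale.Agent.P042.UU.Sum5
import Vale.Agent.P042.UU.Ews
import Vale.Agent.P042.UU.One5
import Vale.Agent.P042.UU.Tot5
import Vale.Agent.P042.UU.Form5
import Vale.Agent.P042.UU.Root
import Vale.Agent.P042.UU.LowerB
import Vale.Agent.P042.UU.FinZ5
import Vale.Agent.P042.SS.ANHolds

set_option autoImplicit false

/-!
# P042, Theorem S5: wiring (first part)
-/

namespace Vale.Agent.P042.UU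
open Vale.Agent.P042.SS Vale.Agent.P042.TT

theorem core5_of_mom (h : MOM5Stmt) : CORE5Stmt := core5_of (nv5_of h) core5_fib
theorem sum5_of_mom (h : MOM5Stmt) : SUM5Stmt := sum5_of (core5_of_mom h)
theorem tot5_of_mom (h : MOM5Stmt) : TOT5Stmt := tot5_of (sum5_of_mom h)
theorem one5_of_mom (h : MOM5Stmt) : ONE5Stmt := one5_of (sum5_of_mom h) ews5_holds

theorem final5_of_blocks (hRaw : RAW5Stmt) (hPin : PIN5Stmt) (hTR : TRUNC5Stmt)
    (hDEC : DEC5Stmt) (hGOOD : GOOD5Stmt) (hKB : KB5Stmt) (hTSB : TSB5Stmt)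
    (hTSK : TSK5Stmt) : Final5Stmt :=
  final5_of hRaw hPin root5_holds (lower5_of hTR hDEC hGOOD hKB hTSB hTSK) SS.an_holds

end Vale.Agent.P042.UU
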